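import Mathlib
import Crest.Prelude.Def_FinProb

/-!
Row 153: uniform averages on finite types.
-/

set_option autoImplicit false

namespace Crest.Agent.R153

open Finset

/-- Indicator of a proposition as a real number. -/
noncomputable def ind (p : Prop) : ℝ := by classical exact if p then 1 else 0

lemma ind_pos {p : Prop} (h : p) : ind p = 1 := by simp [ind, h]
lemma ind_neg {p : Prop} (h : ¬ p) : ind p = 0 := by simp [ind, h]
lemma ind_nonneg (p : Prop) : 0 ≤ ind p := by
  by_cases h : p
  · simp [ind_pos h]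
  · simp [ind_neg h]
lemma ind_le_one (p : Prop) : ind p ≤ 1 := by
  by_cases h : p
  · simp [ind_pos h]
  · simp [ind_neg h]
lemma ind_mono {p q : Prop} (h : p → q) : ind p ≤ ind q := by
  by_cases hp : p
  · rw [ind_pos hp, ind_pos (h hp)]
  · rw [ind_neg hp]; exact ind_nonneg q
lemma ind_congr {p q : Prop} (h : p ↔ q) : ind p = ind q := by rw [propext h]
lemma ind_eq_ite (p : Prop) [Decidable p] : ind p = if p then 1 else 0 := by
  by_cases h : p
  · rw [ind_pos h, if_pos h]
  · rw [ind_neg h, if_neg h]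
lemma ind_and (p q : Prop) : ind (p ∧ q) = ind p * ind q := by
  by_cases hp : p <;> by_cases hq : q <;> simp [ind, hp, hq]
lemma ind_not (p : Prop) : ind (¬ p) = 1 - ind p := by
  by_cases hp : p <;> simp [ind, hp]
lemma ind_mul_self (p : Prop) : ind p * ind p = ind p := by
  by_cases hp : p <;> simp [ind, hp]
lemma ind_forall {κ : Type*} [Fintype κ] (p : κ → Prop) : ind (∀ t, p t) = ∏ t, ind (p t) := by
  by_cases h : ∀ t, p t
  · rw [ind_pos h]; exact (Finset.prod_eq_one fun t _ => ind_pos (h t)).symm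
  · rw [ind_neg h]
    push Not at h
    obtain ⟨t, ht⟩ := h
    exact (Finset.prod_eq_zero (Finset.mem_univ t) (ind_neg ht)).symm
lemma ind_exists_le {κ : Type*} (S : Finset κ) (p : κ → Prop) :
    ind (∃ t ∈ S, p t) ≤ ∑ t ∈ S, ind (p t) := by
  by_cases h : ∃ t ∈ S, p t
  · rw [ind_pos h]
    obtain ⟨t, ht, hp⟩ := h
    calc (1 : ℝ) = ind (p t) := (ind_pos hp).symm
      _ ≤ _ := Finset.single_le_sum (f := fun t => ind (p t)) (fun t _ => ind_nonneg _) ht
  · rw [ind_neg h]; exact Finset.sum_nonneg fun t _ => ind_nonneg _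
lemma ind_or_le (p q : Prop) : ind (p ∨ q) ≤ ind p + ind q := by
  by_cases hp : p <;> by_cases hq : q <;> simp [ind, hp, hq]

/-- Uniform average of a real function on a finite type (`0` on the empty type). -/
noncomputable def av {α : Type*} [Fintype α] (f : α → ℝ) : ℝ := (∑ a, f a) / Fintype.card α

section
variable {α β : Type*} [Fintype α] [Fintype β]

lemma av_congr {f g : α → ℝ} (h : ∀ a, f a = g a) : av f = av g := by
  rw [show f = g from funext h]

lemma av_mono {f g : α → ℝ} (h : ∀ a, f a ≤ g a) : av f ≤ av g :=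
  div_le_div_of_nonneg_right (Finset.sum_le_sum fun a _ => h a) (Nat.cast_nonneg _)

lemma av_nonneg {f : α → ℝ} (h : ∀ a, 0 ≤ f a) : 0 ≤ av f :=
  div_nonneg (Finset.sum_nonneg fun a _ => h a) (Nat.cast_nonneg _)

lemma av_pos [Nonempty α] {f : α → ℝ} (h : ∀ a, 0 < f a) : 0 < av f :=
  div_pos (Finset.sum_pos (fun a _ => h a) Finset.univ_nonempty)
    (by exact_mod_cast Fintype.card_pos)

@[simp] lemma av_const [Nonempty α] (c : ℝ) : av (fun _ : α => c) = c := by
  unfold av
  have : (Fintype.card α : ℝ) ≠ 0 := by exact_mod_cast Fintype.card_ne_zero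
  simp only [Finset.sum_const, Finset.card_univ, nsmul_eq_mul]
  field_simp

@[simp] lemma av_zero : av (fun _ : α => (0 : ℝ)) = 0 := by simp [av]

lemma av_add (f g : α → ℝ) : av (fun a => f a + g a) = av f + av g := by
  unfold av; rw [Finset.sum_add_distrib, add_div]

lemma av_sub (f g : α → ℝ) : av (fun a => f a - g a) = av f - av g := by
  unfold av; rw [Finset.sum_sub_distrib, sub_div]

lemma av_neg (f : α → ℝ) : av (fun a => - f a) = - av f := by
  unfold av; rw [Finset.sum_neg_distrib, neg_div]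

lemma av_const_mul (c : ℝ) (f : α → ℝ) : av (fun a => c * f a) = c * av f := by
  unfold av; rw [← Finset.mul_sum, mul_div_assoc]

lemma av_mul_const (c : ℝ) (f : α → ℝ) : av (fun a => f a * c) = av f * c := by
  unfold av; rw [← Finset.sum_mul]; ring

lemma av_div_const (c : ℝ) (f : α → ℝ) : av (fun a => f a / c) = av f / c := by
  simp only [div_eq_mul_inv, av_mul_const]

lemma av_sum {κ : Type*} (S : Finset κ) (f : κ → α → ℝ) :
    av (fun a => ∑ t ∈ S, f t a) = ∑ t ∈ S, av (f t) := by
  unfold av; rw [Finset.sum_comm, Finset.sum_div]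

lemma av_le_of_le [Nonempty α] {f : α → ℝ} {c : ℝ} (h : ∀ a, f a ≤ c) : av f ≤ c := by
  simpa using av_mono (g := fun _ => c) h

lemma le_av_of_le [Nonempty α] {f : α → ℝ} {c : ℝ} (h : ∀ a, c ≤ f a) : c ≤ av f := by
  simpa using av_mono (f := fun _ => c) h

/-- `av_le_of_le` without `Nonempty`, for a nonnegative bound. -/
lemma av_le_of_le' {f : α → ℝ} {c : ℝ} (hc : 0 ≤ c) (h : ∀ a, f a ≤ c) : av f ≤ c := by
  cases isEmpty_or_nonempty α with
  | inl _ => simpa [av] using hc
  | inr _ => exact av_le_of_le h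

lemma abs_av_le (f : α → ℝ) : |av f| ≤ av fun a => |f a| := by
  unfold av
  rw [abs_div, Nat.abs_cast]
  exact div_le_div_of_nonneg_right (Finset.abs_sum_le_sum_abs _ _) (Nat.cast_nonneg _)

lemma exists_le_av [Nonempty α] (f : α → ℝ) : ∃ a, f a ≤ av f := by
  obtain ⟨a, -, ha⟩ := Finset.exists_min_image Finset.univ f Finset.univ_nonempty
  exact ⟨a, le_av_of_le fun b => ha b (Finset.mem_univ b)⟩

lemma exists_av_le [Nonempty α] (f : α → ℝ) : ∃ a, av f ≤ f a := by
  obtain ⟨a, -, ha⟩ := Finset.exists_max_image Finset.univ f Finset.univ_nonempty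
  exact ⟨a, av_le_of_le fun b => ha b (Finset.mem_univ b)⟩

lemma av_equiv (e : α ≃ β) (f : β → ℝ) : av (fun a => f (e a)) = av f := by
  unfold av; rw [Fintype.card_congr e, Equiv.sum_comp e f]

lemma av_prod (f : α × β → ℝ) : av f = av fun a => av fun b => f (a, b) := by
  unfold av
  rw [Fintype.sum_prod_type, Fintype.card_prod, Nat.cast_mul, ← Finset.sum_div, div_div,
    mul_comm]

lemma av_comm (f : α → β → ℝ) : (av fun a => av fun b => f a b) = av fun b => av fun a => f a b := by
  unfold av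
  simp only [← Finset.sum_div]
  rw [Finset.sum_comm, div_div, div_div, mul_comm]

lemma av_prod' (f : α × β → ℝ) : av f = av fun b => av fun a => f (a, b) := by
  rw [av_prod, av_comm]

lemma av_mul_av (f : α → ℝ) (g : β → ℝ) : av f * av g = av fun a => av fun b => f a * g b := by
  simp only [av_const_mul, av_mul_const]

lemma av_bool (f : Bool → ℝ) : av f = (f true + f false) / 2 := by
  simp [av]

lemma av_unique [Unique α] (f : α → ℝ) : av f = f default := by
  simp [av]

/-- Independence: the average of a product of functions of distinct coordinates. -/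
lemma av_pi_prod {ι : Type*} [Fintype ι] [DecidableEq ι] {A : ι → Type*} [∀ i, Fintype (A i)]
    (g : ∀ i, A i → ℝ) : av (fun ω : ∀ i, A i => ∏ i, g i (ω i)) = ∏ i, av (g i) := by
  unfold av
  rw [Finset.prod_div_distrib, Fintype.prod_sum]
  simp

lemma av_fin_insertNth {n : ℕ} (i : Fin (n + 1)) (f : (Fin (n + 1) → α) → ℝ) :
    av f = av fun c : α => av fun G : Fin n → α => f (Fin.insertNth i c G) := by
  rw [← av_equiv (Fin.insertNthEquiv (fun _ => α) i) f, av_prod]
  rfl

lemma av_fin_cons {n : ℕ} (f : (Fin (n + 1) → α) → ℝ) :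
    av f = av fun c : α => av fun G : Fin n → α => f (Fin.cons c G) := by
  rw [← av_equiv (Fin.consEquiv (fun _ => α)) f, av_prod]
  rfl

lemma av_fin_snoc {n : ℕ} (f : (Fin (n + 1) → α) → ℝ) :
    av f = av fun G : Fin n → α => av fun c : α => f (Fin.snoc G c) := by
  rw [← av_equiv (Fin.snocEquiv (fun _ => α)) f, av_prod']
  rfl

lemma av_fin_zero (f : (Fin 0 → α) → ℝ) : av f = f Fin.elim0 := by
  rw [av_unique]; congr 1

/-- Resampling one coordinate does not change the law. -/
lemma av_update {ι : Type*} [Fintype ι] [DecidableEq ι] [Nonempty α] (i : ι) (f : (ι → α) → ℝ) :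
    (av fun ω : ι → α => av fun c : α => f (Function.update ω i c)) = av f := by
  have h : ∀ g : (ι → α) → ℝ, av g =
      av fun c : α => av fun r : {j // j ≠ i} → α => g ((Equiv.funSplitAt i α).symm (c, r)) := by
    intro g
    rw [← av_equiv (Equiv.funSplitAt i α).symm g, av_prod]
  rw [h f, h]
  have : ∀ (c c' : α) (r : {j // j ≠ i} → α),
      Function.update ((Equiv.funSplitAt i α).symm (c, r)) i c' =
        (Equiv.funSplitAt i α).symm (c', r) := by
    intro c c' r
    funext j
    by_cases hj : j = i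
    · subst hj; simp
    · simp [hj]
  simp only [this]
  rw [av_const, av_comm]

/-- Reading a function at distinct coordinates gives independent uniform values. -/
lemma av_comp_injective {ι κ : Type*} [Fintype ι] [DecidableEq ι] [Fintype κ] [DecidableEq κ]
    [Nonempty α] (φ : κ → ι) (hφ : Function.Injective φ) (f : (κ → α) → ℝ) :
    (av fun ω : ι → α => f (fun t => ω (φ t))) = av f := by
  classical
  let e : κ ⊕ {i // i ∉ Set.range φ} ≃ ι :=
    (Equiv.sumCongr (Equiv.ofInjective φ hφ) (Equiv.refl _)).trans (Equiv.sumCompl _)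
  have he : ∀ t, e (Sum.inl t) = φ t := fun t => rfl
  let E : (κ → α) × ({i // i ∉ Set.range φ} → α) ≃ (ι → α) :=
    (Equiv.sumArrowEquivProdArrow _ _ α).symm.trans (Equiv.arrowCongr e (Equiv.refl α))
  rw [← av_equiv E, av_prod]
  have : ∀ (x : κ → α) (y : {i // i ∉ Set.range φ} → α), (fun t => E (x, y) (φ t)) = x := by
    intro x y
    funext t
    rw [← he t]
    simp [E, Equiv.arrowCongr]
  simp only [this, av_const]

/-- Jensen's inequality for the uniform average. -/
lemma ConvexOn.map_av_le [Nonempty α] {s : Set ℝ} {φ : ℝ → ℝ} (hφ : ConvexOn ℝ s φ) {f : α → ℝ}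
    (hf : ∀ a, f a ∈ s) : φ (av f) ≤ av fun a => φ (f a) := by
  have hc : (0 : ℝ) < Fintype.card α := by exact_mod_cast Fintype.card_pos
  have h := hφ.map_sum_le (t := Finset.univ) (w := fun _ : α => (Fintype.card α : ℝ)⁻¹) (p := f)
    (fun _ _ => by positivity)
    (by simp only [Finset.sum_const, Finset.card_univ, nsmul_eq_mul]; field_simp)
    (fun a _ => hf a)
  simp only [smul_eq_mul, ← Finset.mul_sum] at h
  unfold av
  rwa [div_eq_inv_mul, div_eq_inv_mul]

lemma sq_av_le (f : α → ℝ) : av f ^ 2 ≤ av fun a => f a ^ 2 := by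
  cases isEmpty_or_nonempty α with
  | inl _ => simp [av]
  | inr _ =>
    exact ConvexOn.map_av_le (s := Set.univ) (φ := fun x => x ^ 2)
      (Even.convexOn_pow (by decide)) (fun _ => Set.mem_univ _)

lemma pow_av_le {f : α → ℝ} (hf : ∀ a, 0 ≤ f a) (q : ℕ) (hq : q ≠ 0) :
    av f ^ q ≤ av fun a => f a ^ q := by
  cases isEmpty_or_nonempty α with
  | inl _ => simp [av, hq]
  | inr _ => exact ConvexOn.map_av_le (s := Set.Ici 0) (convexOn_pow q) hf

/-- Cauchy-Schwarz. -/
lemma av_mul_sq_le (f g : α → ℝ) :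
    (av fun a => f a * g a) ^ 2 ≤ (av fun a => f a ^ 2) * av fun a => g a ^ 2 := by
  unfold av
  rw [div_pow, div_mul_div_comm, ← sq]
  exact div_le_div_of_nonneg_right (Finset.sum_mul_sq_le_sq_mul_sq _ _ _) (by positivity)

lemma av_mul_le_sqrt (f g : α → ℝ) :
    (av fun a => f a * g a) ≤ √(av fun a => f a ^ 2) * √(av fun a => g a ^ 2) := by
  rw [← Real.sqrt_mul (av_nonneg fun a => sq_nonneg _)]
  exact Real.le_sqrt_of_sq_le (av_mul_sq_le f g)

/-- Markov's inequality. -/
lemma av_ind_le_div {f : α → ℝ} (hf : ∀ a, 0 ≤ f a) {t : ℝ} (ht : 0 < t) :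
    av (fun a => ind (t ≤ f a)) ≤ av f / t := by
  rw [← av_div_const]
  refine av_mono fun a => ?_
  by_cases h : t ≤ f a
  · rw [ind_pos h, le_div_iff₀ ht]; simpa using h
  · rw [ind_neg h]; exact div_nonneg (hf a) ht.le

lemma uniformProb_eq_av (E : Set α) :
    Crest.FinProb.uniformProb E = av fun a => ind (a ∈ E) := by
  classical
  unfold Crest.FinProb.uniformProb av
  congr 1
  simp only [ind_eq_ite, Finset.sum_boole]

end

end Crest.Agent.R153
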