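import Mathlib
import Crest.Agent.R153.Av

/-!
Row 153: finite filtered probability spaces, nested power means, tilting, products; the
hierarchical trial functionals; the perturbation families and the identities they enforce.
-/

set_option autoImplicit false

namespace Crest.Agent.R153

open Finset

/-- A finite filtered space of depth `D`: positive (unnormalised) weights and a decreasing chain of
equivalence relations `rel d` ("equal information at level `d`"), discrete at level `D`. -/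
structure Filt (Ω : Type) (D : ℕ) where
  p : Ω → ℝ
  p_pos : ∀ ω, 0 < p ω
  rel : ℕ → Ω → Ω → Prop
  refl : ∀ d ω, rel d ω ω
  symm : ∀ {d ω ω'}, rel d ω ω' → rel d ω' ω
  trans : ∀ {d ω ω' ω''}, rel d ω ω' → rel d ω' ω'' → rel d ω ω''
  mono : ∀ {d ω ω'}, rel (d + 1) ω ω' → rel d ω ω'
  sep : ∀ {ω ω'}, rel D ω ω' → ω = ω'

namespace Filt

variable {Ω Ω' : Type} {D : ℕ}

/-- `f` is determined by the information at level `d`. -/
def Meas (F : Filt Ω D) (d : ℕ) (f : Ω → ℝ) : Prop := ∀ ω ω', F.rel d ω ω' → f ω = f ω'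

/-- Product of two filtered spaces. -/
def prod (F : Filt Ω D) (G : Filt Ω' D) : Filt (Ω × Ω') D where
  p x := F.p x.1 * G.p x.2
  p_pos _ := mul_pos (F.p_pos _) (G.p_pos _)
  rel d x y := F.rel d x.1 y.1 ∧ G.rel d x.2 y.2
  refl d _ := ⟨F.refl d _, G.refl d _⟩
  symm h := ⟨F.symm h.1, G.symm h.2⟩
  trans h h' := ⟨F.trans h.1 h'.1, G.trans h.2 h'.2⟩
  mono h := ⟨F.mono h.1, G.mono h.2⟩
  sep h := Prod.ext (F.sep h.1) (G.sep h.2)

/-- Finite product of filtered spaces. -/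
def pi {ι : Type} [Fintype ι] {A : ι → Type} (F : ∀ i, Filt (A i) D) : Filt (∀ i, A i) D where
  p x := ∏ i, (F i).p (x i)
  p_pos _ := Finset.prod_pos fun i _ => (F i).p_pos _
  rel d x y := ∀ i, (F i).rel d (x i) (y i)
  refl d _ i := (F i).refl d _
  symm h i := (F i).symm (h i)
  trans h h' i := (F i).trans (h i) (h' i)
  mono h i := (F i).mono (h i)
  sep h := funext fun i => (F i).sep (h i)

/-- A uniform variable with values in `T`, revealed at level `e` (at level `D` if `D < e`). -/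
def coin (T : Type) (D e : ℕ) : Filt T D where
  p _ := 1
  p_pos _ := one_pos
  rel d a b := (e ≤ d ∨ D ≤ d) → a = b
  refl _ _ _ := rfl
  symm h hd := (h hd).symm
  trans h h' hd := (h hd).trans (h' hd)
  mono h hd := h (hd.imp (fun h => h.trans (Nat.le_succ _)) fun h => h.trans (Nat.le_succ _))
  sep h := h (Or.inr le_rfl)

/-- Change of weights by a positive density. -/
def reweight (F : Filt Ω D) (M : Ω → ℝ) (hM : ∀ ω, 0 < M ω) : Filt Ω D :=
  { F with p := fun ω => F.p ω * M ω, p_pos := fun ω => mul_pos (F.p_pos ω) (hM ω) }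

variable [Fintype Ω] [Fintype Ω']

/-- Conditional expectation at level `d`. -/
noncomputable def E (F : Filt Ω D) (d : ℕ) (f : Ω → ℝ) (ω : Ω) : ℝ :=
  (∑ ω', ind (F.rel d ω ω') * F.p ω' * f ω') / ∑ ω', ind (F.rel d ω ω') * F.p ω'

/-- Total expectation. -/
noncomputable def Ex (F : Filt Ω D) (f : Ω → ℝ) : ℝ := (∑ ω, F.p ω * f ω) / ∑ ω, F.p ω

/-- Nested powers, counted from the starting level `e` upwards. -/
noncomputable def Qs (F : Filt Ω D) (γ : ℕ → ℝ) (e : ℕ) (V : Ω → ℝ) : ℕ → Ω → ℝ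
  | 0 => V
  | k + 1 => fun ω => F.E (e - (k + 1)) (Qs F γ e V k) ω ^ γ (e - (k + 1))

/-- Nested powers: `Q e V e = V` and `Q e V d = (E d (Q e V (d+1))) ^ γ d` for `d < e`. -/
noncomputable def Q (F : Filt Ω D) (γ : ℕ → ℝ) (e : ℕ) (V : Ω → ℝ) (d : ℕ) : Ω → ℝ :=
  F.Qs γ e V (e - d)

/-- The power-mean functional. -/
noncomputable def pm (F : Filt Ω D) (γ : ℕ → ℝ) (V : Ω → ℝ) : ℝ := F.Ex (F.Q γ D V 0)

/-- Product of the one-step tilting densities over the levels `d ≤ j < e`. -/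
noncomputable def Mde (F : Filt Ω D) (γ : ℕ → ℝ) (V : Ω → ℝ) (d e : ℕ) (ω : Ω) : ℝ :=
  ∏ j ∈ Finset.Ico d e, F.Q γ D V (j + 1) ω / F.E j (F.Q γ D V (j + 1)) ω

lemma mass_pos (F : Filt Ω D) (d : ℕ) (ω : Ω) : 0 < ∑ ω', ind (F.rel d ω ω') * F.p ω' :=
  Finset.sum_pos' (fun ω' _ => mul_nonneg (ind_nonneg _) (F.p_pos ω').le)
    ⟨ω, Finset.mem_univ _, by rw [ind_pos (F.refl d ω), one_mul]; exact F.p_pos ω⟩

lemma E_pos (F : Filt Ω D) (d : ℕ) {f : Ω → ℝ} (hf : ∀ ω, 0 < f ω) (ω : Ω) : 0 < F.E d f ω :=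
  div_pos (Finset.sum_pos' (fun ω' _ => mul_nonneg (mul_nonneg (ind_nonneg _) (F.p_pos ω').le)
      (hf ω').le)
    ⟨ω, Finset.mem_univ _, by
      rw [ind_pos (F.refl d ω), one_mul]; exact mul_pos (F.p_pos ω) (hf ω)⟩) (F.mass_pos d ω)

lemma Qs_pos (F : Filt Ω D) (γ : ℕ → ℝ) (e : ℕ) {V : Ω → ℝ} (hV : ∀ ω, 0 < V ω) :
    ∀ k ω, 0 < F.Qs γ e V k ω
  | 0, ω => hV ω
  | k + 1, ω => Real.rpow_pos_of_pos (F.E_pos _ (Qs_pos F γ e hV k) ω) _

lemma Q_pos (F : Filt Ω D) (γ : ℕ → ℝ) (e : ℕ) {V : Ω → ℝ} (hV : ∀ ω, 0 < V ω) (d : ℕ) (ω : Ω) :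
    0 < F.Q γ e V d ω := F.Qs_pos γ e hV _ ω

lemma Mde_pos (F : Filt Ω D) (γ : ℕ → ℝ) {V : Ω → ℝ} (hV : ∀ ω, 0 < V ω) (d e : ℕ) (ω : Ω) :
    0 < F.Mde γ V d e ω :=
  Finset.prod_pos fun j _ => div_pos (F.Q_pos γ D hV _ ω) (F.E_pos j (F.Q_pos γ D hV _) ω)

/-- The filtered space tilted by the positive weight `V`. -/
noncomputable def tilt (F : Filt Ω D) (γ : ℕ → ℝ) (V : Ω → ℝ) (hV : ∀ ω, 0 < V ω) : Filt Ω D :=
  F.reweight (fun ω => F.Q γ D V 0 ω * F.Mde γ V 0 D ω)
    fun ω => mul_pos (F.Q_pos γ D hV 0 ω) (F.Mde_pos γ hV 0 D ω)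

/-- `φ : Ω' → Ω` commutes with all conditional expectations. -/
def Mor (F' : Filt Ω' D) (F : Filt Ω D) (φ : Ω' → Ω) : Prop :=
  ∀ (d : ℕ) (f : Ω → ℝ) (ω' : Ω'), F'.E d (fun x => f (φ x)) ω' = F.E d f (φ ω')

/-- `φ : Ω' → Ω` commutes with all conditional expectations and with the total expectation. -/
def MorEx (F' : Filt Ω' D) (F : Filt Ω D) (φ : Ω' → Ω) : Prop :=
  F'.Mor F φ ∧ ∀ f : Ω → ℝ, F'.Ex (fun x => f (φ x)) = F.Ex f

end Filt

/-- Admissible exponents. -/
def Adm (γ : ℕ → ℝ) : Prop := ∀ d, 0 < γ d ∧ γ d ≤ 1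

/-! ### Trial functionals -/

section trial
variable {Ξ : Type} [Fintype Ξ] {D : ℕ}

/-- The edge functional of the trial `(X, f)`; `f x = true` means "the literal is false". -/
noncomputable def edgeE (p q : ℕ) (b : ℝ) (γ : ℕ → ℝ) (X : Filt Ξ D) (f : Ξ → Bool) : ℝ :=
  av fun u : Fin (q + 1) => (Filt.pi fun _ : Fin 3 => X).pm γ
    fun x => 1 - b * ind ((u : ℕ) < p) * ∏ j, ind (f (x j) = true)

/-- The site functional with `K` slots. -/
noncomputable def siteS (p q : ℕ) (b : ℝ) (γ : ℕ → ℝ) (X : Filt Ξ D) (f : Ξ → Bool) (K : ℕ) : ℝ :=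
  av fun τ : Fin K → Fin (q + 1) × Bool => (Filt.pi fun _ : Fin K × Fin 2 => X).pm γ
    fun x => av fun ε : Bool => ∏ k, (1 - b * ind (((τ k).1 : ℕ) < p) * ind (ε ≠ (τ k).2) *
      ∏ j, ind (f (x (k, j)) = true))

/-- The growth rate predicted by the trial at slot density `a`. -/
noncomputable def rho (a p q : ℕ) (b : ℝ) (γ : ℕ → ℝ) (X : Filt Ξ D) (f : Ξ → Bool) : ℝ :=
  Real.exp (-3 * a) * ∑' K : ℕ, (3 * a : ℝ) ^ K / K.factorial * siteS p q b γ X f K *
    (edgeE p q b γ X f ^ a / edgeE p q b γ X f ^ K)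

end trial

/-- Upper certificates for the threshold. -/
def UpReal (c : ℚ) : Prop :=
  ∃ (a p q : ℕ), 1 ≤ a ∧ p ≤ q + 1 ∧ (a * p : ℚ) / (q + 1) ≤ c ∧
    ∃ (b : ℝ) (D : ℕ) (Ξ : Type) (_ : Fintype Ξ) (_ : Nonempty Ξ) (X : Filt Ξ D) (f : Ξ → Bool)
      (γ : ℕ → ℝ), 0 < b ∧ b < 1 ∧ 1 ≤ D ∧ Adm γ ∧
      (2 : ℝ) ^ (∏ d ∈ range D, γ d) * rho a p q b γ X f < 1

/-! ### Formulas, perturbation families, the identities -/

/-- Iterated single-site observables. -/
inductive Fm : Type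
  | spin (t : Bool) : Fm
  | one : Fm
  | mul (a b : Fm) : Fm
  | cond (d : ℕ) (a : Fm) : Fm

/-- Value of a formula in the filtered space `F` for the spin `s`. -/
noncomputable def Fm.eval {Ω : Type} [Fintype Ω] {D : ℕ} (F : Filt Ω D) (s : Ω → Bool) :
    Fm → Ω → ℝ
  | .spin t => fun ω => ind (s ω = t)
  | .one => fun _ => 1
  | .mul a b => fun ω => eval F s a ω * eval F s b ω
  | .cond d a => F.E d (eval F s a)

/-- Universal labels: one uniform digit per level. -/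
abbrev U (D R : ℕ) : Type := Fin (D + 1) → Fin (R + 1)

/-- The filtration of the universal labels: digit `j` is revealed at level `j`. -/
def UF (D R : ℕ) : Filt (U D R) D := Filt.pi fun j : Fin (D + 1) => Filt.coin (Fin (R + 1)) D j

/-- A perturbation family: a `{0, 1/2}`-valued function `g` of the label and the spin, a level `c`
and a set `A` of digits (the observable is "digit `c` lies in `A`"). -/
structure Fam (D R : ℕ) : Type where
  g : U D R → Bool → Bool
  c : Fin (D + 1)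
  A : Finset (Fin (R + 1))

noncomputable instance (D R : ℕ) : Fintype (Fam D R) :=
  Fintype.ofEquiv ((U D R → Bool → Bool) × Fin (D + 1) × Finset (Fin (R + 1)))
    ⟨fun x => ⟨x.1, x.2.1, x.2.2⟩, fun φ => (φ.g, φ.c, φ.A), fun _ => rfl, fun _ => rfl⟩

noncomputable instance (D R : ℕ) : DecidableEq (Fam D R) := Classical.decEq _

instance (D R : ℕ) : Nonempty (Fam D R) := ⟨⟨fun _ _ => false, 0, ∅⟩⟩

/-- The observable of a family. -/
noncomputable def famObs {D R : ℕ} (φ : Fam D R) (u : U D R) : ℝ := ind (u φ.c ∈ φ.A)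

/-- The weight of one perturbation term. -/
noncomputable def termW {D R : ℕ} (φ : Fam D R) (x : ℝ) (u : U D R) (t : Bool) : ℝ :=
  (1 - (if φ.g u t then 1 / 2 else 0)) * Real.exp (x * famObs φ u)

lemma termW_pos {D R : ℕ} (φ : Fam D R) (x : ℝ) (u : U D R) (t : Bool) : 0 < termW φ x u t := by
  unfold termW
  refine mul_pos ?_ (Real.exp_pos _)
  split_ifs <;> norm_num

/-- Labels of one term: a site revealed at level `0` and a universal label. -/
def LabF (I : Type) (D R : ℕ) : Filt (I × U D R) D := (Filt.coin I D 0).prod (UF D R)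

section GG
variable {Ω I : Type} [Fintype Ω] [Fintype I] {D : ℕ}

/-- The system with one more perturbation term. -/
noncomputable def plus (F : Filt Ω D) (s : Ω → I → Bool) (γ : ℝ) {R : ℕ} (φ : Fam D R) (x : ℝ) :
    Filt (Ω × (I × U D R)) D :=
  (F.prod (LabF I D R)).tilt (fun _ => γ) (fun y => termW φ x y.2.2 (s y.1 y.2.1))
    fun _ => termW_pos _ _ _ _

/-- Site average of a formula. -/
noncomputable def siteAv (F : Filt Ω D) (s : Ω → I → Bool) (P : Fm) (ω : Ω) : ℝ :=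
  av fun i : I => P.eval F (fun ω' => s ω' i) ω

/-- Defect of the identity for the family `φ` at parameter `x` and the formula `P`. -/
noncomputable def GGerr (F : Filt Ω D) (s : Ω → I → Bool) (γ : ℝ) {R : ℕ} (φ : Fam D R) (x : ℝ)
    (P : Fm) : ℝ :=
  |(plus F s γ φ x).Ex (fun y => famObs φ y.2.2 *
        siteAv (plus F s γ φ x) (fun y' => s y'.1) P y) -
      (plus F s γ φ x).Ex (fun y => famObs φ y.2.2) * F.Ex (siteAv F s P)|

/-- All identities hold up to `ε`. -/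
def GG (F : Filt Ω D) (s : Ω → I → Bool) (γ : ℝ) (R : ℕ) (ε : ℝ) : Prop :=
  ∀ φ : Fam D R, ∃ x : ℝ, 0 ≤ x ∧ x ≤ 1 ∧ ∀ P : Fm, GGerr F s γ φ x P ≤ ε

end GG

/-! ### The enriched system -/

/-- Label of one perturbation slot: a presence coin (present iff `0`), a site, a universal label. -/
abbrev SlotLab (I : Type) (D R n : ℕ) : Type := Fin (n + 1) × (I × U D R)

/-- Filtration of the slot labels. -/
def SlotF (I : Type) (D R n : ℕ) : Filt (SlotLab I D R n) D :=
  (Filt.coin (Fin (n + 1)) D 0).prod (LabF I D R)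

/-- Labels of all perturbation slots: `S` slots for every family. -/
abbrev PertLab (I : Type) (D R n S : ℕ) : Type := Fam D R × Fin S → SlotLab I D R n

/-- Filtration of all perturbation slots. -/
noncomputable def PertF (I : Type) (D R n S : ℕ) : Filt (PertLab I D R n S) D :=
  Filt.pi fun _ : Fam D R × Fin S => SlotF I D R n

/-- Weight of one slot for the spin configuration `σ`. -/
noncomputable def slotTermW {I : Type} {D R n : ℕ} (φ : Fam D R) (x : ℝ) (l : SlotLab I D R n)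
    (σ : I → Bool) : ℝ :=
  if l.1 = 0 then termW φ x l.2.2 (σ l.2.1) else 1

/-- Weight of the whole perturbation with parameters `x`. -/
noncomputable def pertW {I : Type} {D R n S : ℕ} (x : Fam D R → ℝ) (v : PertLab I D R n S)
    (σ : I → Bool) : ℝ :=
  ∏ k : Fam D R × Fin S, slotTermW k.1 (x k.1) (v k) σ

lemma slotTermW_pos {I : Type} {D R n : ℕ} (φ : Fam D R) (x : ℝ) (l : SlotLab I D R n)
    (σ : I → Bool) : 0 < slotTermW φ x l σ := by
  unfold slotTermW
  split_ifs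
  · exact termW_pos _ _ _ _
  · exact one_pos

lemma pertW_pos {I : Type} {D R n S : ℕ} (x : Fam D R → ℝ) (v : PertLab I D R n S)
    (σ : I → Bool) : 0 < pertW x v σ :=
  Finset.prod_pos fun _ _ => slotTermW_pos _ _ _ _

/-- The enriched system over the base `(F, s, W)`. -/
noncomputable def enrich {Ω I : Type} [Fintype Ω] [Fintype I] {D : ℕ} (F : Filt Ω D)
    (s : Ω → I → Bool) (W : Ω → ℝ) (hW : ∀ ω, 0 < W ω) (γ : ℝ) (R n S : ℕ) (x : Fam D R → ℝ) :
    Filt (Ω × PertLab I D R n S) D :=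
  (F.prod (PertF I D R n S)).tilt (fun _ => γ) (fun y => W y.1 * pertW x y.2 (s y.1))
    fun y => mul_pos (hW y.1) (pertW_pos _ _ _)

/-- The grid of parameters: `x φ = g φ / G` with `g φ ≤ G`. -/
noncomputable def gridPt {D R G : ℕ} (g : Fam D R → Fin (G + 1)) (φ : Fam D R) : ℝ :=
  ((g φ : ℕ) : ℝ) / G

end Crest.Agent.R153
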