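import Mathlib
import Crest.Agent.R153.FiltDefs

/-!
Row 153: basic calculus of conditional expectations and nested powers on finite filtered spaces.
-/

set_option autoImplicit false

namespace Crest.Agent.R153

open Finset

namespace Filt

variable {Ω Ω' : Type} {D : ℕ}

lemma rel_mono (F : Filt Ω D) {d e : ℕ} (h : d ≤ e) {ω ω' : Ω} (hr : F.rel e ω ω') :
    F.rel d ω ω' := by
  induction e, h using Nat.le_induction with
  | base => exact hr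
  | succ e _ ih => exact ih (F.mono hr)

lemma Meas.mono {F : Filt Ω D} {d e : ℕ} {f : Ω → ℝ} (hf : F.Meas d f) (h : d ≤ e) :
    F.Meas e f := fun _ _ hr => hf _ _ (F.rel_mono h hr)

lemma meas_top (F : Filt Ω D) {d : ℕ} (h : D ≤ d) (f : Ω → ℝ) : F.Meas d f :=
  fun _ _ hr => by rw [F.sep (F.rel_mono h hr)]

lemma meas_const (F : Filt Ω D) (d : ℕ) (c : ℝ) : F.Meas d fun _ => c := fun _ _ _ => rfl

lemma Meas.comp {F : Filt Ω D} {d : ℕ} {f : Ω → ℝ} (hf : F.Meas d f) (φ : ℝ → ℝ) :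
    F.Meas d fun ω => φ (f ω) := fun _ _ hr => by simp only [hf _ _ hr]

lemma Meas.comp₂ {F : Filt Ω D} {d : ℕ} {f g : Ω → ℝ} (hf : F.Meas d f) (hg : F.Meas d g)
    (φ : ℝ → ℝ → ℝ) : F.Meas d fun ω => φ (f ω) (g ω) :=
  fun _ _ hr => by simp only [hf _ _ hr, hg _ _ hr]

lemma Meas.add {F : Filt Ω D} {d : ℕ} {f g : Ω → ℝ} (hf : F.Meas d f) (hg : F.Meas d g) :
    F.Meas d fun ω => f ω + g ω := hf.comp₂ hg (· + ·)

lemma Meas.sub {F : Filt Ω D} {d : ℕ} {f g : Ω → ℝ} (hf : F.Meas d f) (hg : F.Meas d g) :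
    F.Meas d fun ω => f ω - g ω := hf.comp₂ hg (· - ·)

lemma Meas.mul {F : Filt Ω D} {d : ℕ} {f g : Ω → ℝ} (hf : F.Meas d f) (hg : F.Meas d g) :
    F.Meas d fun ω => f ω * g ω := hf.comp₂ hg (· * ·)

lemma Meas.div {F : Filt Ω D} {d : ℕ} {f g : Ω → ℝ} (hf : F.Meas d f) (hg : F.Meas d g) :
    F.Meas d fun ω => f ω / g ω := hf.comp₂ hg (· / ·)

lemma meas_sum {F : Filt Ω D} {d : ℕ} {κ : Type*} (S : Finset κ) {f : κ → Ω → ℝ}
    (hf : ∀ t ∈ S, F.Meas d (f t)) : F.Meas d fun ω => ∑ t ∈ S, f t ω :=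
  fun _ _ hr => Finset.sum_congr rfl fun t ht => hf t ht _ _ hr

lemma meas_prod {F : Filt Ω D} {d : ℕ} {κ : Type*} (S : Finset κ) {f : κ → Ω → ℝ}
    (hf : ∀ t ∈ S, F.Meas d (f t)) : F.Meas d fun ω => ∏ t ∈ S, f t ω :=
  fun _ _ hr => Finset.prod_congr rfl fun t ht => hf t ht _ _ hr

lemma meas_av {F : Filt Ω D} {d : ℕ} {κ : Type*} [Fintype κ] {f : κ → Ω → ℝ}
    (hf : ∀ t, F.Meas d (f t)) : F.Meas d fun ω => av fun t => f t ω :=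
  fun _ _ hr => av_congr fun t => hf t _ _ hr

variable [Fintype Ω] [Fintype Ω']

/-- The conditional kernel. -/
noncomputable def ker (F : Filt Ω D) (d : ℕ) (ω ω' : Ω) : ℝ :=
  ind (F.rel d ω ω') * F.p ω' / ∑ x, ind (F.rel d ω x) * F.p x

lemma ker_nonneg (F : Filt Ω D) (d : ℕ) (ω ω' : Ω) : 0 ≤ F.ker d ω ω' :=
  div_nonneg (mul_nonneg (ind_nonneg _) (F.p_pos _).le) (F.mass_pos d ω).le

lemma sum_ker (F : Filt Ω D) (d : ℕ) (ω : Ω) : ∑ ω', F.ker d ω ω' = 1 := by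
  unfold ker; rw [← Finset.sum_div]; exact div_self (F.mass_pos d ω).ne'

lemma ker_of_not_rel (F : Filt Ω D) {d : ℕ} {ω ω' : Ω} (h : ¬ F.rel d ω ω') :
    F.ker d ω ω' = 0 := by simp [ker, ind_neg h]

lemma E_eq_sum (F : Filt Ω D) (d : ℕ) (f : Ω → ℝ) (ω : Ω) :
    F.E d f ω = ∑ ω', F.ker d ω ω' * f ω' := by
  unfold E ker
  rw [Finset.sum_div]
  exact Finset.sum_congr rfl fun _ _ => by ring

lemma E_congr_rel (F : Filt Ω D) (d : ℕ) {f g : Ω → ℝ} (ω : Ω)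
    (h : ∀ ω', F.rel d ω ω' → f ω' = g ω') : F.E d f ω = F.E d g ω := by
  simp only [E_eq_sum]
  refine Finset.sum_congr rfl fun ω' _ => ?_
  by_cases hr : F.rel d ω ω'
  · rw [h ω' hr]
  · simp [F.ker_of_not_rel hr]

lemma E_congr (F : Filt Ω D) (d : ℕ) {f g : Ω → ℝ} (h : ∀ ω, f ω = g ω) (ω : Ω) :
    F.E d f ω = F.E d g ω := F.E_congr_rel d ω fun ω' _ => h ω'

lemma E_mono_rel (F : Filt Ω D) (d : ℕ) {f g : Ω → ℝ} (ω : Ω)
    (h : ∀ ω', F.rel d ω ω' → f ω' ≤ g ω') : F.E d f ω ≤ F.E d g ω := by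
  simp only [E_eq_sum]
  refine Finset.sum_le_sum fun ω' _ => ?_
  by_cases hr : F.rel d ω ω'
  · exact mul_le_mul_of_nonneg_left (h ω' hr) (F.ker_nonneg _ _ _)
  · simp [F.ker_of_not_rel hr]

lemma E_mono (F : Filt Ω D) (d : ℕ) {f g : Ω → ℝ} (h : ∀ ω, f ω ≤ g ω) (ω : Ω) :
    F.E d f ω ≤ F.E d g ω := F.E_mono_rel d ω fun ω' _ => h ω'

@[simp] lemma E_const (F : Filt Ω D) (d : ℕ) (c : ℝ) (ω : Ω) : F.E d (fun _ => c) ω = c := by
  rw [E_eq_sum, ← Finset.sum_mul, sum_ker, one_mul]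

lemma E_nonneg (F : Filt Ω D) (d : ℕ) {f : Ω → ℝ} (h : ∀ ω, 0 ≤ f ω) (ω : Ω) : 0 ≤ F.E d f ω := by
  simpa using F.E_mono d (f := fun _ => 0) h ω

lemma E_le_of_le (F : Filt Ω D) (d : ℕ) {f : Ω → ℝ} {c : ℝ} (h : ∀ ω, f ω ≤ c) (ω : Ω) :
    F.E d f ω ≤ c := by simpa using F.E_mono d (g := fun _ => c) h ω

lemma le_E_of_le (F : Filt Ω D) (d : ℕ) {f : Ω → ℝ} {c : ℝ} (h : ∀ ω, c ≤ f ω) (ω : Ω) :
    c ≤ F.E d f ω := by simpa using F.E_mono d (f := fun _ => c) h ω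

lemma E_add (F : Filt Ω D) (d : ℕ) (f g : Ω → ℝ) (ω : Ω) :
    F.E d (fun x => f x + g x) ω = F.E d f ω + F.E d g ω := by
  simp only [E_eq_sum, mul_add, Finset.sum_add_distrib]

lemma E_sub (F : Filt Ω D) (d : ℕ) (f g : Ω → ℝ) (ω : Ω) :
    F.E d (fun x => f x - g x) ω = F.E d f ω - F.E d g ω := by
  simp only [E_eq_sum, mul_sub, Finset.sum_sub_distrib]

lemma E_neg (F : Filt Ω D) (d : ℕ) (f : Ω → ℝ) (ω : Ω) :
    F.E d (fun x => - f x) ω = - F.E d f ω := by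
  simp only [E_eq_sum, mul_neg, Finset.sum_neg_distrib]

lemma E_const_mul (F : Filt Ω D) (d : ℕ) (c : ℝ) (f : Ω → ℝ) (ω : Ω) :
    F.E d (fun x => c * f x) ω = c * F.E d f ω := by
  simp only [E_eq_sum, Finset.mul_sum]
  exact Finset.sum_congr rfl fun _ _ => by ring

lemma E_mul_const (F : Filt Ω D) (d : ℕ) (c : ℝ) (f : Ω → ℝ) (ω : Ω) :
    F.E d (fun x => f x * c) ω = F.E d f ω * c := by
  simp only [mul_comm _ c, E_const_mul]

lemma E_div_const (F : Filt Ω D) (d : ℕ) (c : ℝ) (f : Ω → ℝ) (ω : Ω) :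
    F.E d (fun x => f x / c) ω = F.E d f ω / c := by
  simp only [div_eq_mul_inv, E_mul_const]

lemma E_sum (F : Filt Ω D) (d : ℕ) {κ : Type*} (S : Finset κ) (f : κ → Ω → ℝ) (ω : Ω) :
    F.E d (fun x => ∑ t ∈ S, f t x) ω = ∑ t ∈ S, F.E d (f t) ω := by
  simp only [E_eq_sum, Finset.mul_sum]
  exact Finset.sum_comm

lemma E_av (F : Filt Ω D) (d : ℕ) {κ : Type*} [Fintype κ] (f : κ → Ω → ℝ) (ω : Ω) :
    F.E d (fun x => av fun t => f t x) ω = av fun t => F.E d (f t) ω := by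
  unfold av; rw [E_div_const, E_sum]

lemma abs_E_le (F : Filt Ω D) (d : ℕ) (f : Ω → ℝ) (ω : Ω) :
    |F.E d f ω| ≤ F.E d (fun x => |f x|) ω := by
  refine abs_le.2 ⟨?_, F.E_mono d (fun x => le_abs_self _) ω⟩
  rw [← E_neg]; exact F.E_mono d (fun x => neg_abs_le _) ω

lemma abs_E_le_of_le (F : Filt Ω D) (d : ℕ) {f : Ω → ℝ} {c : ℝ} (h : ∀ ω, |f ω| ≤ c) (ω : Ω) :
    |F.E d f ω| ≤ c := (F.abs_E_le d f ω).trans (F.E_le_of_le d h ω)

lemma meas_E (F : Filt Ω D) (d : ℕ) (f : Ω → ℝ) : F.Meas d (F.E d f) := by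
  intro ω ω' h
  have : ∀ x, ind (F.rel d ω x) = ind (F.rel d ω' x) := fun x =>
    ind_congr ⟨fun hx => F.trans (F.symm h) hx, fun hx => F.trans h hx⟩
  simp only [E, this]

lemma E_meas_mul (F : Filt Ω D) {d : ℕ} {g : Ω → ℝ} (hg : F.Meas d g) (f : Ω → ℝ) (ω : Ω) :
    F.E d (fun x => g x * f x) ω = g ω * F.E d f ω := by
  rw [← E_const_mul]
  exact F.E_congr_rel d ω fun ω' h => by rw [hg _ _ h]

lemma E_mul_meas (F : Filt Ω D) {d : ℕ} {g : Ω → ℝ} (hg : F.Meas d g) (f : Ω → ℝ) (ω : Ω) :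
    F.E d (fun x => f x * g x) ω = F.E d f ω * g ω := by
  simp only [mul_comm _ (g _), F.E_meas_mul hg]

lemma E_of_meas (F : Filt Ω D) {d : ℕ} {g : Ω → ℝ} (hg : F.Meas d g) (ω : Ω) :
    F.E d g ω = g ω := by
  have := F.E_meas_mul hg (fun _ => 1) ω
  simpa using this

lemma E_top (F : Filt Ω D) {d : ℕ} (h : D ≤ d) (f : Ω → ℝ) (ω : Ω) : F.E d f ω = f ω :=
  F.E_of_meas (F.meas_top h f) ω

/-- Self-adjointness with a measurable weight: the key to the tower property. -/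
lemma sum_p_mul_E (F : Filt Ω D) (e : ℕ) {g : Ω → ℝ} (hg : F.Meas e g) (f : Ω → ℝ) :
    ∑ x, g x * F.p x * F.E e f x = ∑ x, g x * F.p x * f x := by
  have hm : ∀ x y, F.rel e x y → (∑ z, ind (F.rel e x z) * F.p z) = ∑ z, ind (F.rel e y z) * F.p z :=
    fun x y h => Finset.sum_congr rfl fun z _ => by
      rw [ind_congr ⟨fun hx => F.trans (F.symm h) hx, fun hx => F.trans h hx⟩]
  simp only [E_eq_sum, Finset.mul_sum]
  rw [Finset.sum_comm]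
  refine Finset.sum_congr rfl fun y _ => ?_
  have : ∀ x, g x * F.p x * (F.ker e x y * f y) = g y * F.p y * f y * F.ker e y x := by
    intro x
    by_cases h : F.rel e x y
    · unfold ker
      rw [hg _ _ h, hm x y h, ind_pos h, ind_pos (F.symm h)]; ring
    · have h' : ¬ F.rel e y x := fun h' => h (F.symm h')
      simp [F.ker_of_not_rel h, F.ker_of_not_rel h']
  simp only [this, ← Finset.mul_sum, sum_ker, mul_one]

/-- Tower property. -/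
lemma E_E_of_le (F : Filt Ω D) {d e : ℕ} (h : d ≤ e) (f : Ω → ℝ) (ω : Ω) :
    F.E d (F.E e f) ω = F.E d f ω := by
  have hg : F.Meas e fun x => ind (F.rel d ω x) := fun x y hr =>
    ind_congr ⟨fun hx => F.trans hx (F.rel_mono h hr), fun hy => F.trans hy (F.symm (F.rel_mono h hr))⟩
  have := F.sum_p_mul_E e hg f
  rw [E, this, E]

lemma E_E_of_ge (F : Filt Ω D) {d e : ℕ} (h : d ≤ e) (f : Ω → ℝ) (ω : Ω) :
    F.E e (F.E d f) ω = F.E d f ω := F.E_of_meas ((F.meas_E d f).mono h) ω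

/-- `E d (g * E e f) = E d (g * f)` for `g` measurable at level `e ≥ d`. -/
lemma E_mul_E (F : Filt Ω D) {d e : ℕ} (h : d ≤ e) {g : Ω → ℝ} (hg : F.Meas e g) (f : Ω → ℝ)
    (ω : Ω) : F.E d (fun x => g x * F.E e f x) ω = F.E d (fun x => g x * f x) ω := by
  rw [← F.E_E_of_le h (fun x => g x * f x)]
  exact F.E_congr d (fun x => (F.E_meas_mul hg f x).symm) ω

lemma map_E_le (F : Filt Ω D) (d : ℕ) {s : Set ℝ} {φ : ℝ → ℝ} (hφ : ConvexOn ℝ s φ) {f : Ω → ℝ}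
    (hf : ∀ ω, f ω ∈ s) (ω : Ω) : φ (F.E d f ω) ≤ F.E d (fun x => φ (f x)) ω := by
  simp only [E_eq_sum]
  simpa using hφ.map_sum_le (t := Finset.univ) (w := F.ker d ω) (p := f)
    (fun _ _ => F.ker_nonneg _ _ _) (F.sum_ker d ω) (fun a _ => hf a)

lemma le_map_E (F : Filt Ω D) (d : ℕ) {s : Set ℝ} {φ : ℝ → ℝ} (hφ : ConcaveOn ℝ s φ) {f : Ω → ℝ}
    (hf : ∀ ω, f ω ∈ s) (ω : Ω) : F.E d (fun x => φ (f x)) ω ≤ φ (F.E d f ω) := by
  simp only [E_eq_sum]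
  simpa using hφ.le_map_sum (t := Finset.univ) (w := F.ker d ω) (p := f)
    (fun _ _ => F.ker_nonneg _ _ _) (F.sum_ker d ω) (fun a _ => hf a)

lemma sq_E_le (F : Filt Ω D) (d : ℕ) (f : Ω → ℝ) (ω : Ω) :
    F.E d f ω ^ 2 ≤ F.E d (fun x => f x ^ 2) ω :=
  F.map_E_le d (s := Set.univ) (φ := fun x => x ^ 2) (Even.convexOn_pow (by decide))
    (fun _ => Set.mem_univ _) ω

lemma E_rpow_le (F : Filt Ω D) (d : ℕ) {a : ℝ} (h0 : 0 ≤ a) (h1 : a ≤ 1) {f : Ω → ℝ}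
    (hf : ∀ ω, 0 ≤ f ω) (ω : Ω) : F.E d (fun x => f x ^ a) ω ≤ F.E d f ω ^ a :=
  F.le_map_E d (Real.concaveOn_rpow h0 h1) hf ω

lemma rpow_E_le (F : Filt Ω D) (d : ℕ) {a : ℝ} (h1 : 1 ≤ a) {f : Ω → ℝ}
    (hf : ∀ ω, 0 ≤ f ω) (ω : Ω) : F.E d f ω ^ a ≤ F.E d (fun x => f x ^ a) ω :=
  F.map_E_le d (convexOn_rpow h1) hf ω

/-- Conditional Cauchy-Schwarz inequality. -/
lemma E_mul_sq_le (F : Filt Ω D) (d : ℕ) (f g : Ω → ℝ) (ω : Ω) :
    F.E d (fun x => f x * g x) ω ^ 2 ≤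
      F.E d (fun x => f x ^ 2) ω * F.E d (fun x => g x ^ 2) ω := by
  simp only [E_eq_sum]
  have h := Finset.sum_mul_sq_le_sq_mul_sq Finset.univ
    (fun x => √(F.ker d ω x) * f x) (fun x => √(F.ker d ω x) * g x)
  have hs : ∀ x, √(F.ker d ω x) ^ 2 = F.ker d ω x := fun x => Real.sq_sqrt (F.ker_nonneg _ _ _)
  have h1 : ∀ x, √(F.ker d ω x) * f x * (√(F.ker d ω x) * g x) = F.ker d ω x * (f x * g x) :=
    fun x => by rw [← hs x, Real.sqrt_sq (Real.sqrt_nonneg _)]; ring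
  simpa only [h1, mul_pow, hs] using h

/-! ### Total expectation -/

lemma sum_p_pos (F : Filt Ω D) [Nonempty Ω] : 0 < ∑ ω, F.p ω :=
  Finset.sum_pos (fun ω _ => F.p_pos ω) Finset.univ_nonempty

lemma Ex_congr (F : Filt Ω D) {f g : Ω → ℝ} (h : ∀ ω, f ω = g ω) : F.Ex f = F.Ex g := by
  rw [show f = g from funext h]

lemma Ex_mono (F : Filt Ω D) {f g : Ω → ℝ} (h : ∀ ω, f ω ≤ g ω) : F.Ex f ≤ F.Ex g :=
  div_le_div_of_nonneg_right
    (Finset.sum_le_sum fun ω _ => mul_le_mul_of_nonneg_left (h ω) (F.p_pos ω).le)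
    (Finset.sum_nonneg fun ω _ => (F.p_pos ω).le)

@[simp] lemma Ex_const (F : Filt Ω D) [Nonempty Ω] (c : ℝ) : F.Ex (fun _ => c) = c := by
  unfold Ex; rw [← Finset.sum_mul]; exact mul_div_cancel_left₀ c F.sum_p_pos.ne'

@[simp] lemma Ex_zero (F : Filt Ω D) : F.Ex (fun _ => 0) = 0 := by simp [Ex]

lemma Ex_nonneg (F : Filt Ω D) {f : Ω → ℝ} (h : ∀ ω, 0 ≤ f ω) : 0 ≤ F.Ex f := by
  simpa using F.Ex_mono (f := fun _ => 0) h

lemma Ex_pos (F : Filt Ω D) [Nonempty Ω] {f : Ω → ℝ} (h : ∀ ω, 0 < f ω) : 0 < F.Ex f :=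
  div_pos (Finset.sum_pos (fun ω _ => mul_pos (F.p_pos ω) (h ω)) Finset.univ_nonempty)
    F.sum_p_pos

lemma Ex_le_of_le (F : Filt Ω D) [Nonempty Ω] {f : Ω → ℝ} {c : ℝ} (h : ∀ ω, f ω ≤ c) :
    F.Ex f ≤ c := by simpa using F.Ex_mono (g := fun _ => c) h

lemma le_Ex_of_le (F : Filt Ω D) [Nonempty Ω] {f : Ω → ℝ} {c : ℝ} (h : ∀ ω, c ≤ f ω) :
    c ≤ F.Ex f := by simpa using F.Ex_mono (f := fun _ => c) h

lemma Ex_add (F : Filt Ω D) (f g : Ω → ℝ) : F.Ex (fun x => f x + g x) = F.Ex f + F.Ex g := by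
  simp only [Ex, mul_add, Finset.sum_add_distrib, add_div]

lemma Ex_sub (F : Filt Ω D) (f g : Ω → ℝ) : F.Ex (fun x => f x - g x) = F.Ex f - F.Ex g := by
  simp only [Ex, mul_sub, Finset.sum_sub_distrib, sub_div]

lemma Ex_neg (F : Filt Ω D) (f : Ω → ℝ) : F.Ex (fun x => - f x) = - F.Ex f := by
  simp only [Ex, mul_neg, Finset.sum_neg_distrib, neg_div]

lemma Ex_const_mul (F : Filt Ω D) (c : ℝ) (f : Ω → ℝ) : F.Ex (fun x => c * f x) = c * F.Ex f := by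
  unfold Ex
  rw [← mul_div_assoc, Finset.mul_sum]
  congr 1
  exact Finset.sum_congr rfl fun _ _ => by ring

lemma Ex_mul_const (F : Filt Ω D) (c : ℝ) (f : Ω → ℝ) : F.Ex (fun x => f x * c) = F.Ex f * c := by
  simp only [mul_comm _ c, Ex_const_mul]

lemma Ex_div_const (F : Filt Ω D) (c : ℝ) (f : Ω → ℝ) : F.Ex (fun x => f x / c) = F.Ex f / c := by
  simp only [div_eq_mul_inv, Ex_mul_const]

lemma Ex_sum (F : Filt Ω D) {κ : Type*} (S : Finset κ) (f : κ → Ω → ℝ) :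
    F.Ex (fun x => ∑ t ∈ S, f t x) = ∑ t ∈ S, F.Ex (f t) := by
  simp only [Ex, Finset.mul_sum, ← Finset.sum_div]
  rw [Finset.sum_comm]

lemma Ex_av (F : Filt Ω D) {κ : Type*} [Fintype κ] (f : κ → Ω → ℝ) :
    F.Ex (fun x => av fun t => f t x) = av fun t => F.Ex (f t) := by
  unfold av; rw [Ex_div_const, Ex_sum]

lemma abs_Ex_le (F : Filt Ω D) (f : Ω → ℝ) : |F.Ex f| ≤ F.Ex fun x => |f x| := by
  refine abs_le.2 ⟨?_, F.Ex_mono fun x => le_abs_self _⟩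
  rw [← Ex_neg]; exact F.Ex_mono fun x => neg_abs_le _

lemma Ex_E (F : Filt Ω D) (d : ℕ) (f : Ω → ℝ) : F.Ex (F.E d f) = F.Ex f := by
  have := F.sum_p_mul_E d (F.meas_const d 1) f
  simp only [one_mul] at this
  rw [Ex, this, Ex]

lemma Ex_mul_E (F : Filt Ω D) {d : ℕ} {g : Ω → ℝ} (hg : F.Meas d g) (f : Ω → ℝ) :
    F.Ex (fun x => g x * F.E d f x) = F.Ex fun x => g x * f x := by
  rw [← F.Ex_E d (fun x => g x * f x)]
  exact F.Ex_congr fun x => (F.E_meas_mul hg f x).symm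

/-- Self-adjointness of the conditional expectation. -/
lemma Ex_E_mul (F : Filt Ω D) (d : ℕ) (f g : Ω → ℝ) :
    F.Ex (fun x => F.E d f x * g x) = F.Ex fun x => f x * F.E d g x := by
  rw [← F.Ex_mul_E (F.meas_E d f) g]
  simp only [mul_comm (f _)]
  rw [← F.Ex_mul_E (F.meas_E d g) f]
  simp only [mul_comm]

lemma Ex_mul_sq_le (F : Filt Ω D) (f g : Ω → ℝ) :
    F.Ex (fun x => f x * g x) ^ 2 ≤ F.Ex (fun x => f x ^ 2) * F.Ex (fun x => g x ^ 2) := by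
  unfold Ex
  rw [div_pow, div_mul_div_comm, ← sq]
  refine div_le_div_of_nonneg_right ?_ (by positivity)
  have h := Finset.sum_mul_sq_le_sq_mul_sq Finset.univ
    (fun x => √(F.p x) * f x) (fun x => √(F.p x) * g x)
  have hs : ∀ x, √(F.p x) ^ 2 = F.p x := fun x => Real.sq_sqrt (F.p_pos x).le
  have h1 : ∀ x, √(F.p x) * f x * (√(F.p x) * g x) = F.p x * (f x * g x) :=
    fun x => by rw [← hs x, Real.sqrt_sq (Real.sqrt_nonneg _)]; ring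
  simpa only [h1, mul_pow, hs] using h

lemma sq_Ex_le (F : Filt Ω D) [Nonempty Ω] (f : Ω → ℝ) : F.Ex f ^ 2 ≤ F.Ex fun x => f x ^ 2 := by
  simpa using F.Ex_mul_sq_le f fun _ => 1

/-! ### Nested powers -/

section Q
variable (F : Filt Ω D) (γ : ℕ → ℝ)

lemma Q_of_le {e d : ℕ} (h : e ≤ d) (V : Ω → ℝ) : F.Q γ e V d = V := by
  unfold Q; rw [Nat.sub_eq_zero_of_le h]; rfl

@[simp] lemma Q_self (e : ℕ) (V : Ω → ℝ) : F.Q γ e V e = V := F.Q_of_le γ le_rfl V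

lemma Q_succ {e d : ℕ} (h : d < e) (V : Ω → ℝ) (ω : Ω) :
    F.Q γ e V d ω = F.E d (F.Q γ e V (d + 1)) ω ^ γ d := by
  unfold Q
  have h1 : e - d = (e - (d + 1)) + 1 := by omega
  rw [h1, Qs]
  have h2 : e - (e - (d + 1) + 1) = d := by omega
  rw [h2]

/-- Downward induction on levels. -/
lemma down_induction {P : ℕ → Prop} {e : ℕ} (he : P e) (hs : ∀ d, d < e → P (d + 1) → P d) :
    ∀ d, d ≤ e → P d := by
  intro d hd
  induction hd' : e - d generalizing d with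
  | zero => rwa [show d = e by omega]
  | succ n ih => exact hs d (by omega) (ih (d + 1) (by omega) (by omega))

lemma meas_Q_of_lt {e d : ℕ} (h : d < e) (V : Ω → ℝ) : F.Meas d (F.Q γ e V d) := by
  intro ω ω' hr
  rw [F.Q_succ γ h, F.Q_succ γ h, F.meas_E d _ _ _ hr]

lemma meas_Q {e d : ℕ} {V : Ω → ℝ} (hV : F.Meas e V) (h : d ≤ e) : F.Meas d (F.Q γ e V d) := by
  rcases h.lt_or_eq with h | rfl
  · exact F.meas_Q_of_lt γ h V
  · simpa using hV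

lemma meas_Q_top (V : Ω → ℝ) (d : ℕ) : F.Meas d (F.Q γ D V d) := by
  rcases le_total d D with h | h
  · exact F.meas_Q γ (F.meas_top le_rfl V) h
  · exact F.meas_top h _

lemma Q_comp {e e' d : ℕ} (h1 : d ≤ e') (h2 : e' ≤ e) (V : Ω → ℝ) :
    F.Q γ e' (F.Q γ e V e') d = F.Q γ e V d := by
  suffices ∀ d, d ≤ e' → F.Q γ e' (F.Q γ e V e') d = F.Q γ e V d from this d h1
  refine down_induction (by simp) fun d hd ih => ?_
  funext ω
  rw [F.Q_succ γ hd, ih, F.Q_succ γ (hd.trans_le h2)]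

lemma Q_nonneg (e : ℕ) {V : Ω → ℝ} (hV : ∀ ω, 0 ≤ V ω) (d : ℕ) (ω : Ω) : 0 ≤ F.Q γ e V d ω := by
  rcases le_total e d with h | h
  · rw [F.Q_of_le γ h]; exact hV ω
  · revert d ω
    suffices ∀ d, d ≤ e → ∀ ω, 0 ≤ F.Q γ e V d ω from fun d ω h => this d h ω
    refine down_induction (by simpa using hV) fun d hd ih ω => ?_
    rw [F.Q_succ γ hd]
    exact Real.rpow_nonneg (F.E_nonneg d ih ω) _

variable {γ}

lemma Q_mono (hγ : Adm γ) (e : ℕ) {V W : Ω → ℝ} (hV : ∀ ω, 0 ≤ V ω) (h : ∀ ω, V ω ≤ W ω)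
    (d : ℕ) (ω : Ω) : F.Q γ e V d ω ≤ F.Q γ e W d ω := by
  rcases le_total e d with hd | hd
  · rw [F.Q_of_le γ hd, F.Q_of_le γ hd]; exact h ω
  · revert d ω
    suffices ∀ d, d ≤ e → ∀ ω, F.Q γ e V d ω ≤ F.Q γ e W d ω from fun d ω h => this d h ω
    refine down_induction (by simpa using h) fun d hd ih ω => ?_
    rw [F.Q_succ γ hd, F.Q_succ γ hd]
    exact Real.rpow_le_rpow (F.E_nonneg d (F.Q_nonneg γ e hV _) ω) (F.E_mono d ih ω) (hγ d).1.le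

/-- A factor known at level `d` comes out with the accumulated exponent. -/
lemma Q_meas_mul (γ : ℕ → ℝ) {e d : ℕ} (hd : d ≤ e) {c V : Ω → ℝ} (hc : F.Meas d c)
    (hc0 : ∀ ω, 0 < c ω) (hV : ∀ ω, 0 ≤ V ω) (ω : Ω) :
    F.Q γ e (fun x => c x * V x) d ω = c ω ^ (∏ j ∈ Finset.Ico d e, γ j) * F.Q γ e V d ω := by
  have key : ∀ d', d' ≤ e → d ≤ d' → ∀ ω, F.Q γ e (fun x => c x * V x) d' ω =
      c ω ^ (∏ j ∈ Finset.Ico d' e, γ j) * F.Q γ e V d' ω := by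
    refine down_induction (by simp) fun d' hd' ih hdd ω => ?_
    rw [F.Q_succ γ hd', F.Q_succ γ hd', F.E_congr d' (ih (by omega)),
      F.E_meas_mul ((hc.mono hdd).comp fun x => x ^ (∏ j ∈ Finset.Ico (d' + 1) e, γ j)),
      Real.mul_rpow (Real.rpow_nonneg (hc0 ω).le _) (F.E_nonneg _ (F.Q_nonneg γ e hV _) ω),
      ← Real.rpow_mul (hc0 ω).le, Finset.prod_eq_prod_Ico_succ_bot hd', mul_comm (γ d')]
  exact key d hd le_rfl ω

lemma Q_const (γ : ℕ → ℝ) {e d : ℕ} (hd : d ≤ e) {c : ℝ} (hc : 0 < c) (ω : Ω) :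
    F.Q γ e (fun _ => c) d ω = c ^ (∏ j ∈ Finset.Ico d e, γ j) := by
  have h1 : ∀ d', d' ≤ e → ∀ ω, F.Q γ e (fun _ => (1 : ℝ)) d' ω = 1 := by
    refine down_induction (by simp) fun d' hd' ih ω => ?_
    rw [F.Q_succ γ hd', F.E_congr d' ih]; simp
  have := F.Q_meas_mul γ hd (F.meas_const d c) (fun _ => hc) (V := fun _ => 1)
    (fun _ => zero_le_one) ω
  simpa [h1 d hd] using this

lemma adm_prod_pos (hγ : Adm γ) (S : Finset ℕ) : 0 < ∏ j ∈ S, γ j :=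
  Finset.prod_pos fun j _ => (hγ j).1

lemma adm_prod_le_one (hγ : Adm γ) (S : Finset ℕ) : ∏ j ∈ S, γ j ≤ 1 :=
  Finset.prod_le_one (fun j _ => (hγ j).1.le) fun j _ => (hγ j).2

lemma le_Q (hγ : Adm γ) (e : ℕ) {V : Ω → ℝ} {lo : ℝ} (h0 : 0 < lo) (h1 : lo ≤ 1)
    (hV : ∀ ω, lo ≤ V ω) (d : ℕ) (ω : Ω) : lo ≤ F.Q γ e V d ω := by
  rcases le_total e d with hd | hd
  · rw [F.Q_of_le γ hd]; exact hV ω
  · refine le_trans ?_ (F.Q_mono hγ e (V := fun _ => lo) (fun _ => h0.le) hV d ω)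
    rw [F.Q_const γ hd h0]
    exact Real.self_le_rpow_of_le_one h0.le h1 (adm_prod_le_one hγ _)

lemma Q_le (hγ : Adm γ) (e : ℕ) {V : Ω → ℝ} {hi : ℝ} (h1 : 1 ≤ hi) (hV0 : ∀ ω, 0 ≤ V ω)
    (hV : ∀ ω, V ω ≤ hi) (d : ℕ) (ω : Ω) : F.Q γ e V d ω ≤ hi := by
  rcases le_total e d with hd | hd
  · rw [F.Q_of_le γ hd]; exact hV ω
  · refine le_trans (F.Q_mono hγ e (W := fun _ => hi) hV0 hV d ω) ?_
    rw [F.Q_const γ hd (by linarith)]
    exact Real.rpow_le_self_of_one_le h1 (adm_prod_le_one hγ _)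

/-- Jensen's inequality along the chain. -/
lemma E_rpow_le_Q (hγ : Adm γ) {e d : ℕ} (hd : d < e) {V : Ω → ℝ} (hV : ∀ ω, 0 ≤ V ω) (ω : Ω) :
    F.E d (fun x => V x ^ (∏ j ∈ Finset.Ico d e, γ j)) ω ≤ F.Q γ e V d ω := by
  have key : ∀ d, d ≤ e → ∀ ω, d < e →
      F.E d (fun x => V x ^ (∏ j ∈ Finset.Ico d e, γ j)) ω ≤ F.Q γ e V d ω := by
    refine down_induction (by simp) fun d hd ih ω _ => ?_
    rw [F.Q_succ γ hd, Finset.prod_eq_prod_Ico_succ_bot hd, mul_comm (γ d)]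
    have h1 : F.E d (fun x => V x ^ (∏ j ∈ Finset.Ico (d + 1) e, γ j)) ω ≤
        F.E d (F.Q γ e V (d + 1)) ω := by
      rcases (Nat.succ_le_of_lt hd).lt_or_eq with h | h
      · rw [← F.E_E_of_le (Nat.le_succ d)]
        exact F.E_mono d (fun x => ih x h) ω
      · rw [← h]; simp
    calc _ = F.E d (fun x => (V x ^ (∏ j ∈ Finset.Ico (d + 1) e, γ j)) ^ γ d) ω :=
          F.E_congr d (fun x => Real.rpow_mul (hV x) _ _) ω
      _ ≤ F.E d (fun x => V x ^ (∏ j ∈ Finset.Ico (d + 1) e, γ j)) ω ^ γ d :=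
          F.E_rpow_le d (hγ d).1.le (hγ d).2 (fun x => Real.rpow_nonneg (hV x) _) ω
      _ ≤ _ := Real.rpow_le_rpow (F.E_nonneg d (fun x => Real.rpow_nonneg (hV x) _) ω) h1
          (hγ d).1.le
  exact key d hd.le ω hd

lemma pm_pos [Nonempty Ω] (γ : ℕ → ℝ) {V : Ω → ℝ} (hV : ∀ ω, 0 < V ω) : 0 < F.pm γ V :=
  F.Ex_pos (F.Q_pos γ D hV 0)

lemma pm_nonneg (γ : ℕ → ℝ) {V : Ω → ℝ} (hV : ∀ ω, 0 ≤ V ω) : 0 ≤ F.pm γ V :=
  F.Ex_nonneg (F.Q_nonneg γ D hV 0)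

lemma pm_congr (γ : ℕ → ℝ) {V W : Ω → ℝ} (h : ∀ ω, V ω = W ω) : F.pm γ V = F.pm γ W := by
  rw [show V = W from funext h]

lemma pm_mono (hγ : Adm γ) {V W : Ω → ℝ} (hV : ∀ ω, 0 ≤ V ω) (h : ∀ ω, V ω ≤ W ω) :
    F.pm γ V ≤ F.pm γ W := F.Ex_mono (F.Q_mono hγ D hV h 0)

lemma pm_const_mul (γ : ℕ → ℝ) {c : ℝ} (hc : 0 < c) {V : Ω → ℝ} (hV : ∀ ω, 0 ≤ V ω) :
    F.pm γ (fun x => c * V x) = c ^ (∏ j ∈ range D, γ j) * F.pm γ V := by
  unfold pm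
  rw [← Ex_const_mul, Finset.range_eq_Ico]
  exact F.Ex_congr fun ω =>
    F.Q_meas_mul γ (Nat.zero_le D) (F.meas_const 0 c) (fun _ => hc) hV ω

lemma pm_const [Nonempty Ω] (γ : ℕ → ℝ) {c : ℝ} (hc : 0 < c) :
    F.pm γ (fun _ => c) = c ^ (∏ j ∈ range D, γ j) := by
  unfold pm
  rw [F.Ex_congr (F.Q_const γ (Nat.zero_le D) hc), Ex_const, Finset.range_eq_Ico]

lemma le_pm [Nonempty Ω] (hγ : Adm γ) {V : Ω → ℝ} {lo : ℝ} (h0 : 0 < lo) (h1 : lo ≤ 1)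
    (hV : ∀ ω, lo ≤ V ω) : lo ≤ F.pm γ V := F.le_Ex_of_le (F.le_Q hγ D h0 h1 hV 0)

lemma pm_le [Nonempty Ω] (hγ : Adm γ) {V : Ω → ℝ} {hi : ℝ} (h1 : 1 ≤ hi) (hV0 : ∀ ω, 0 ≤ V ω)
    (hV : ∀ ω, V ω ≤ hi) : F.pm γ V ≤ hi := F.Ex_le_of_le (F.Q_le hγ D h1 hV0 hV 0)

/-- Jensen's inequality along the whole chain. -/
lemma Ex_rpow_le_pm (hγ : Adm γ) {V : Ω → ℝ} (hV : ∀ ω, 0 ≤ V ω) :
    F.Ex (fun x => V x ^ (∏ j ∈ range D, γ j)) ≤ F.pm γ V := by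
  unfold pm
  rcases Nat.eq_zero_or_pos D with rfl | hD
  · simp
  · rw [← F.Ex_E 0, Finset.range_eq_Ico]
    exact F.Ex_mono fun ω => F.E_rpow_le_Q hγ hD hV ω

end Q

end Filt

end Crest.Agent.R153
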