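import Mathlib
import Crest.Agent.R153.Filt

/-!
Row 153: morphisms, products, coins and tilting of finite filtered spaces.
-/

set_option autoImplicit false

namespace Crest.Agent.R153

open Finset

namespace Filt

variable {Ω Ω' Ω'' : Type} {D : ℕ} [Fintype Ω] [Fintype Ω'] [Fintype Ω'']

/-! ### Morphisms -/

lemma Mor.comp {F'' : Filt Ω'' D} {F' : Filt Ω' D} {F : Filt Ω D} {ψ : Ω'' → Ω'} {φ : Ω' → Ω}
    (h2 : F''.Mor F' ψ) (h1 : F'.Mor F φ) : F''.Mor F fun x => φ (ψ x) := fun d f ω => by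
  rw [← h1 d f (ψ ω), ← h2 d]

lemma MorEx.comp {F'' : Filt Ω'' D} {F' : Filt Ω' D} {F : Filt Ω D} {ψ : Ω'' → Ω'} {φ : Ω' → Ω}
    (h2 : F''.MorEx F' ψ) (h1 : F'.MorEx F φ) : F''.MorEx F fun x => φ (ψ x) :=
  ⟨h2.1.comp h1.1, fun f => by rw [← h1.2 f, ← h2.2]⟩

lemma morEx_id (F : Filt Ω D) : F.MorEx F fun x => x := ⟨fun _ _ _ => rfl, fun _ => rfl⟩

lemma Mor.Q {F' : Filt Ω' D} {F : Filt Ω D} {φ : Ω' → Ω} (h : F'.Mor F φ) (γ : ℕ → ℝ) (e : ℕ)
    (V : Ω → ℝ) (d : ℕ) (ω : Ω') : F'.Q γ e (fun x => V (φ x)) d ω = F.Q γ e V d (φ ω) := by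
  rcases le_total e d with hd | hd
  · rw [Q_of_le _ γ hd, Q_of_le _ γ hd]
  · revert ω
    suffices ∀ d, d ≤ e → ∀ ω, F'.Q γ e (fun x => V (φ x)) d ω = F.Q γ e V d (φ ω) from
      this d hd
    refine down_induction (by simp) fun d hd ih ω => ?_
    rw [Q_succ _ γ hd, Q_succ _ γ hd, F'.E_congr d ih, h]

lemma MorEx.pm {F' : Filt Ω' D} {F : Filt Ω D} {φ : Ω' → Ω} (h : F'.MorEx F φ) (γ : ℕ → ℝ)
    (V : Ω → ℝ) : F'.pm γ (fun x => V (φ x)) = F.pm γ V := by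
  unfold Filt.pm
  rw [← h.2]
  exact F'.Ex_congr fun ω => h.1.Q γ D V 0 ω

lemma Mor.Mde {F' : Filt Ω' D} {F : Filt Ω D} {φ : Ω' → Ω} (h : F'.Mor F φ) (γ : ℕ → ℝ)
    (V : Ω → ℝ) (d e : ℕ) (ω : Ω') :
    F'.Mde γ (fun x => V (φ x)) d e ω = F.Mde γ V d e (φ ω) := by
  unfold Filt.Mde
  refine Finset.prod_congr rfl fun j _ => ?_
  rw [h.Q, F'.E_congr j (h.Q γ D V (j + 1)), h]

lemma Mor.eval {F' : Filt Ω' D} {F : Filt Ω D} {φ : Ω' → Ω} (h : F'.Mor F φ) (s : Ω → Bool)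
    (P : Fm) (ω : Ω') : P.eval F' (fun x => s (φ x)) ω = P.eval F s (φ ω) := by
  induction P generalizing ω with
  | spin t => rfl
  | one => rfl
  | mul a b iha ihb => simp only [Fm.eval, iha, ihb]
  | cond d a ih => simp only [Fm.eval]; rw [F'.E_congr d ih, h]

/-- A bijection preserving the relations and (up to a constant) the weights is a morphism. -/
lemma morEx_of_equiv (F' : Filt Ω' D) (F : Filt Ω D) (φ : Ω' ≃ Ω) {c : ℝ} (hc : c ≠ 0)
    (hp : ∀ x, F'.p x = c * F.p (φ x)) (hr : ∀ d x y, F'.rel d x y ↔ F.rel d (φ x) (φ y)) :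
    F'.MorEx F φ := by
  refine ⟨fun d f ω => ?_, fun f => ?_⟩
  · unfold E
    rw [← φ.sum_comp (fun y => ind (F.rel d (φ ω) y) * F.p y * f y),
      ← φ.sum_comp (fun y => ind (F.rel d (φ ω) y) * F.p y),
      ← mul_div_mul_left (∑ x, ind (F.rel d (φ ω) (φ x)) * F.p (φ x) * f (φ x)) _ hc,
      Finset.mul_sum, Finset.mul_sum]
    congr 1 <;> refine Finset.sum_congr rfl fun x _ => ?_ <;> rw [hp, ind_congr (hr d ω x)] <;> ring
  · unfold Ex
    rw [← φ.sum_comp (fun y => F.p y * f y), ← φ.sum_comp F.p,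
      ← mul_div_mul_left (∑ x, F.p (φ x) * f (φ x)) _ hc, Finset.mul_sum, Finset.mul_sum]
    congr 1 <;> refine Finset.sum_congr rfl fun x _ => ?_ <;> rw [hp]
    ring

/-! ### Products -/

lemma E_prod (F : Filt Ω D) (G : Filt Ω' D) (d : ℕ) (f : Ω × Ω' → ℝ) (x : Ω × Ω') :
    (F.prod G).E d f x = F.E d (fun a => G.E d (fun b => f (a, b)) x.2) x.1 := by
  have hk : ∀ y : Ω × Ω', (F.prod G).ker d x y = F.ker d x.1 y.1 * G.ker d x.2 y.2 := by
    intro y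
    unfold ker
    have : (∑ z : Ω × Ω', ind ((F.prod G).rel d x z) * (F.prod G).p z) =
        (∑ a, ind (F.rel d x.1 a) * F.p a) * ∑ b, ind (G.rel d x.2 b) * G.p b := by
      rw [Finset.sum_mul_sum, Fintype.sum_prod_type]
      refine Finset.sum_congr rfl fun a _ => Finset.sum_congr rfl fun b _ => ?_
      simp only [prod, ind_and]; ring
    rw [this]
    simp only [prod, ind_and]
    field_simp
  simp only [E_eq_sum, hk, Fintype.sum_prod_type, Finset.mul_sum, mul_assoc]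

lemma E_prod' (F : Filt Ω D) (G : Filt Ω' D) (d : ℕ) (f : Ω × Ω' → ℝ) (x : Ω × Ω') :
    (F.prod G).E d f x = G.E d (fun b => F.E d (fun a => f (a, b)) x.1) x.2 := by
  rw [E_prod]
  simp only [E_eq_sum, Finset.mul_sum]
  rw [Finset.sum_comm]
  exact Finset.sum_congr rfl fun _ _ => Finset.sum_congr rfl fun _ _ => by ring

lemma E_prod_mul (F : Filt Ω D) (G : Filt Ω' D) (d : ℕ) (f : Ω → ℝ) (g : Ω' → ℝ) (x : Ω × Ω') :
    (F.prod G).E d (fun y => f y.1 * g y.2) x = F.E d f x.1 * G.E d g x.2 := by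
  rw [E_prod]; simp only [E_const_mul, E_mul_const]

lemma Ex_prod (F : Filt Ω D) (G : Filt Ω' D) (f : Ω × Ω' → ℝ) :
    (F.prod G).Ex f = F.Ex fun a => G.Ex fun b => f (a, b) := by
  unfold Ex
  simp only [prod, Fintype.sum_prod_type]
  rw [← Finset.sum_mul_sum]
  simp only [mul_div_assoc', ← Finset.sum_div, div_div]
  rw [mul_comm (∑ b, G.p b)]
  simp only [mul_assoc, Finset.mul_sum]

lemma Ex_comm (F : Filt Ω D) (G : Filt Ω' D) (f : Ω → Ω' → ℝ) :
    (F.Ex fun a => G.Ex fun b => f a b) = G.Ex fun b => F.Ex fun a => f a b := by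
  unfold Ex
  simp only [mul_div_assoc', ← Finset.sum_div, div_div]
  rw [mul_comm (∑ b, G.p b)]
  congr 1
  simp only [Finset.mul_sum]
  rw [Finset.sum_comm]
  exact Finset.sum_congr rfl fun _ _ => Finset.sum_congr rfl fun _ _ => by ring

lemma Ex_prod' (F : Filt Ω D) (G : Filt Ω' D) (f : Ω × Ω' → ℝ) :
    (F.prod G).Ex f = G.Ex fun b => F.Ex fun a => f (a, b) := by
  rw [Ex_prod, Ex_comm]

lemma Ex_prod_mul (F : Filt Ω D) (G : Filt Ω' D) (f : Ω → ℝ) (g : Ω' → ℝ) :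
    (F.prod G).Ex (fun y => f y.1 * g y.2) = F.Ex f * G.Ex g := by
  rw [Ex_prod]; simp only [Ex_const_mul, Ex_mul_const]

lemma mor_fst (F : Filt Ω D) (G : Filt Ω' D) : (F.prod G).Mor F Prod.fst := fun d f x => by
  rw [E_prod]; simp

lemma mor_snd (F : Filt Ω D) (G : Filt Ω' D) : (F.prod G).Mor G Prod.snd := fun d f x => by
  rw [E_prod]; simp

lemma morEx_fst (F : Filt Ω D) (G : Filt Ω' D) [Nonempty Ω'] : (F.prod G).MorEx F Prod.fst :=
  ⟨mor_fst F G, fun f => by rw [Ex_prod]; simp⟩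

lemma morEx_snd (F : Filt Ω D) (G : Filt Ω' D) [Nonempty Ω] : (F.prod G).MorEx G Prod.snd :=
  ⟨mor_snd F G, fun f => by rw [Ex_prod]; simp⟩

lemma morEx_swap (F : Filt Ω D) (G : Filt Ω' D) : (F.prod G).MorEx (G.prod F) Prod.swap :=
  morEx_of_equiv _ _ (Equiv.prodComm Ω Ω') one_ne_zero (fun x => by simp [prod, mul_comm])
    fun d x y => by simp [prod, and_comm]

lemma morEx_assoc (F : Filt Ω D) (G : Filt Ω' D) (H : Filt Ω'' D) :
    ((F.prod G).prod H).MorEx (F.prod (G.prod H)) fun x => (x.1.1, (x.1.2, x.2)) :=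
  morEx_of_equiv _ _ (Equiv.prodAssoc Ω Ω' Ω'') one_ne_zero (fun x => by simp [prod, mul_assoc])
    fun d x y => by simp [prod, and_assoc]

lemma morEx_assoc_symm (F : Filt Ω D) (G : Filt Ω' D) (H : Filt Ω'' D) :
    (F.prod (G.prod H)).MorEx ((F.prod G).prod H) fun x => ((x.1, x.2.1), x.2.2) :=
  morEx_of_equiv _ _ (Equiv.prodAssoc Ω Ω' Ω'').symm one_ne_zero
    (fun x => by simp [prod, mul_assoc]) fun d x y => by simp [prod, and_assoc]

lemma Mor.prod_map {A A' : Type} [Fintype A] [Fintype A'] {F' : Filt Ω' D} {F : Filt Ω D}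
    {G' : Filt A' D} {G : Filt A D} {φ : Ω' → Ω} {ψ : A' → A} (h1 : F'.Mor F φ)
    (h2 : G'.Mor G ψ) : (F'.prod G').Mor (F.prod G) fun x => (φ x.1, ψ x.2) := fun d f x => by
  rw [E_prod, E_prod, ← h1]
  exact F'.E_congr d (fun a => h2 d (fun b => f (φ a, b)) x.2) x.1

lemma MorEx.prod_map {A A' : Type} [Fintype A] [Fintype A'] {F' : Filt Ω' D} {F : Filt Ω D}
    {G' : Filt A' D} {G : Filt A D} {φ : Ω' → Ω} {ψ : A' → A} (h1 : F'.MorEx F φ)
    (h2 : G'.MorEx G ψ) : (F'.prod G').MorEx (F.prod G) fun x => (φ x.1, ψ x.2) :=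
  ⟨h1.1.prod_map h2.1, fun f => by
    rw [Ex_prod, Ex_prod, ← h1.2]
    exact F'.Ex_congr fun a => h2.2 fun b => f (φ a, b)⟩

omit [Fintype Ω] [Fintype Ω'] in
lemma meas_prod_fst (F : Filt Ω D) (G : Filt Ω' D) {d : ℕ} {f : Ω → ℝ} (hf : F.Meas d f) :
    (F.prod G).Meas d fun x => f x.1 := fun _ _ h => hf _ _ h.1

omit [Fintype Ω] [Fintype Ω'] in
lemma meas_prod_snd (F : Filt Ω D) (G : Filt Ω' D) {d : ℕ} {f : Ω' → ℝ} (hf : G.Meas d f) :
    (F.prod G).Meas d fun x => f x.2 := fun _ _ h => hf _ _ h.2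

lemma Q_prod_mul (F : Filt Ω D) (G : Filt Ω' D) (γ : ℕ → ℝ) (e : ℕ) {V : Ω → ℝ} {W : Ω' → ℝ}
    (hV : ∀ x, 0 ≤ V x) (hW : ∀ x, 0 ≤ W x) (d : ℕ) (x : Ω × Ω') :
    (F.prod G).Q γ e (fun y => V y.1 * W y.2) d x = F.Q γ e V d x.1 * G.Q γ e W d x.2 := by
  rcases le_total e d with hd | hd
  · simp only [Q_of_le _ γ hd]
  · revert x
    suffices ∀ d, d ≤ e → ∀ x : Ω × Ω', (F.prod G).Q γ e (fun y => V y.1 * W y.2) d x =
      F.Q γ e V d x.1 * G.Q γ e W d x.2 from this d hd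
    refine down_induction (by simp) fun d hd ih x => ?_
    rw [Q_succ _ γ hd, Q_succ _ γ hd, Q_succ _ γ hd, E_congr _ d ih, E_prod_mul,
      Real.mul_rpow (F.E_nonneg _ (F.Q_nonneg γ e hV _) _) (G.E_nonneg _ (G.Q_nonneg γ e hW _) _)]

lemma pm_prod_mul (F : Filt Ω D) (G : Filt Ω' D) (γ : ℕ → ℝ) {V : Ω → ℝ} {W : Ω' → ℝ}
    (hV : ∀ x, 0 ≤ V x) (hW : ∀ x, 0 ≤ W x) :
    (F.prod G).pm γ (fun y => V y.1 * W y.2) = F.pm γ V * G.pm γ W := by
  unfold pm
  rw [← Ex_prod_mul]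
  exact Ex_congr _ fun x => Q_prod_mul F G γ D hV hW 0 x

/-! ### Finite products -/

section pi
variable {ι : Type} [Fintype ι] [DecidableEq ι] {A : ι → Type} [∀ i, Fintype (A i)]

lemma ker_pi (F : ∀ i, Filt (A i) D) (d : ℕ) (x y : ∀ i, A i) :
    (pi F).ker d x y = ∏ i, (F i).ker d (x i) (y i) := by
  unfold ker
  have : (∑ z : ∀ i, A i, ind ((pi F).rel d x z) * (pi F).p z) =
      ∏ i, ∑ a, ind ((F i).rel d (x i) a) * (F i).p a := by
    rw [Fintype.prod_sum]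
    refine Finset.sum_congr rfl fun z _ => ?_
    simp only [pi, ind_forall, Finset.prod_mul_distrib]
  rw [this]
  simp only [pi, ind_forall, Finset.prod_div_distrib, Finset.prod_mul_distrib]

lemma E_pi_prod (F : ∀ i, Filt (A i) D) (d : ℕ) (f : ∀ i, A i → ℝ) (x : ∀ i, A i) :
    (pi F).E d (fun y => ∏ i, f i (y i)) x = ∏ i, (F i).E d (f i) (x i) := by
  simp only [E_eq_sum, ker_pi, ← Finset.prod_mul_distrib]
  rw [Fintype.prod_sum]

lemma Ex_pi_prod (F : ∀ i, Filt (A i) D) (f : ∀ i, A i → ℝ) :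
    (pi F).Ex (fun y => ∏ i, f i (y i)) = ∏ i, (F i).Ex (f i) := by
  unfold Ex
  simp only [pi, ← Finset.prod_mul_distrib, Finset.prod_div_distrib]
  rw [Fintype.prod_sum, Fintype.prod_sum]

lemma Q_pi_prod (F : ∀ i, Filt (A i) D) (γ : ℕ → ℝ) (e : ℕ) {V : ∀ i, A i → ℝ}
    (hV : ∀ i x, 0 ≤ V i x) (d : ℕ) (x : ∀ i, A i) :
    (pi F).Q γ e (fun y => ∏ i, V i (y i)) d x = ∏ i, (F i).Q γ e (V i) d (x i) := by
  rcases le_total e d with hd | hd
  · simp only [Q_of_le _ γ hd]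
  · revert x
    suffices ∀ d, d ≤ e → ∀ x : ∀ i, A i, (pi F).Q γ e (fun y => ∏ i, V i (y i)) d x =
      ∏ i, (F i).Q γ e (V i) d (x i) from this d hd
    refine down_induction (by simp) fun d hd ih x => ?_
    simp only [Q_succ _ γ hd]
    rw [E_congr _ d ih, E_pi_prod, Real.finsetProd_rpow]
    exact fun i _ => (F i).E_nonneg _ ((F i).Q_nonneg γ e (hV i) _) _

lemma pm_pi_prod (F : ∀ i, Filt (A i) D) (γ : ℕ → ℝ) {V : ∀ i, A i → ℝ}
    (hV : ∀ i x, 0 ≤ V i x) :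
    (pi F).pm γ (fun y => ∏ i, V i (y i)) = ∏ i, (F i).pm γ (V i) := by
  unfold pm
  rw [← Ex_pi_prod]
  exact Ex_congr _ fun x => Q_pi_prod F γ D hV 0 x

lemma mor_eval (F : ∀ i, Filt (A i) D) (i : ι) : (pi F).Mor (F i) fun x => x i := by
  intro d f x
  have h := E_pi_prod F d (Function.update (fun _ _ => (1 : ℝ)) i f) x
  have h1 : ∀ y : ∀ i, A i,
      ∏ j, Function.update (fun j (_ : A j) => (1 : ℝ)) i f j (y j) = f (y i) := by
    intro y
    rw [Finset.prod_eq_single i (fun j _ hj => by rw [Function.update_of_ne hj]) (by simp)]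
    simp
  simp only [h1] at h
  rw [h, Finset.prod_eq_single i (fun j _ hj => by rw [Function.update_of_ne hj]; simp) (by simp)]
  simp

lemma morEx_eval (F : ∀ i, Filt (A i) D) [∀ i, Nonempty (A i)] (i : ι) :
    (pi F).MorEx (F i) fun x => x i := by
  refine ⟨mor_eval F i, fun f => ?_⟩
  have h := Ex_pi_prod F (Function.update (fun _ _ => (1 : ℝ)) i f)
  have h1 : ∀ y : ∀ i, A i,
      ∏ j, Function.update (fun j (_ : A j) => (1 : ℝ)) i f j (y j) = f (y i) := by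
    intro y
    rw [Finset.prod_eq_single i (fun j _ hj => by rw [Function.update_of_ne hj]) (by simp)]
    simp
  simp only [h1] at h
  rw [h, Finset.prod_eq_single i (fun j _ hj => by rw [Function.update_of_ne hj]; simp) (by simp)]
  simp

/-- Reindexing a power of one filtered space along a bijection. -/
lemma morEx_pi_reindex {κ : Type} [Fintype κ] [DecidableEq κ] (X : Filt Ω D) (e : κ ≃ ι) :
    (pi fun _ : ι => X).MorEx (pi fun _ : κ => X) fun x k => x (e k) :=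
  morEx_of_equiv _ _ (Equiv.arrowCongr e.symm (Equiv.refl Ω)) one_ne_zero
    (fun x => by simpa [pi] using (e.prod_comp fun i => X.p (x i)).symm)
    fun d x y => by simpa [pi] using (e.forall_congr_right (q := fun i => X.rel d (x i) (y i))).symm

/-- Splitting a power along a sum of index types. -/
lemma morEx_pi_sum {κ : Type} [Fintype κ] [DecidableEq κ] (X : Filt Ω D) :
    ((pi fun _ : ι => X).prod (pi fun _ : κ => X)).MorEx (pi fun _ : ι ⊕ κ => X)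
      fun x => Sum.elim x.1 x.2 :=
  morEx_of_equiv _ _ (Equiv.sumArrowEquivProdArrow ι κ Ω).symm one_ne_zero
    (fun x => by simp [pi, prod, Equiv.sumArrowEquivProdArrow])
    fun d x y => by simp [pi, prod, Equiv.sumArrowEquivProdArrow]

/-- Currying a power. -/
lemma morEx_pi_curry {κ : Type} [Fintype κ] [DecidableEq κ] (X : Filt Ω D) :
    (pi fun _ : ι => pi fun _ : κ => X).MorEx (pi fun _ : ι × κ => X) fun x k => x k.1 k.2 :=
  morEx_of_equiv _ _ (Equiv.curry ι κ Ω).symm one_ne_zero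
    (fun x => by simp [pi, Fintype.prod_prod_type])
    fun d x y => by simp [pi]

lemma morEx_pi_cons (X : Filt Ω D) (n : ℕ) :
    ((pi fun _ : Fin n => X).prod X).MorEx (pi fun _ : Fin (n + 1) => X)
      fun x => Fin.cons x.2 x.1 :=
  morEx_of_equiv _ _ ((Equiv.prodComm _ _).trans (Fin.consEquiv fun _ => Ω)) one_ne_zero
    (fun x => by simp [pi, prod, Fin.prod_univ_succ, Fin.consEquiv, mul_comm])
    fun d x y => by simp [pi, prod, Fin.forall_fin_succ, Fin.consEquiv, and_comm]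

end pi

/-! ### Coins -/

section coin
variable {T : Type} [Fintype T]

lemma Ex_coin (e : ℕ) (f : T → ℝ) : (coin T D e).Ex f = av f := by
  simp [Ex, coin, av]

omit [Fintype T] in
lemma meas_coin {e d : ℕ} (h : e ≤ d) (f : T → ℝ) : (coin T D e).Meas d f :=
  fun _ _ hr => by rw [hr (Or.inl h)]

lemma E_coin_of_le {e d : ℕ} (h : e ≤ d) (f : T → ℝ) (t : T) : (coin T D e).E d f t = f t :=
  E_of_meas _ (meas_coin h f) t

lemma E_coin_of_lt {e d : ℕ} (h : d < e) (hD : d < D) (f : T → ℝ) (t : T) :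
    (coin T D e).E d f t = av f := by
  have : ∀ t', (coin T D e).rel d t t' := fun t' hd => absurd hd (by omega)
  simp only [E, ind_pos (this _)]
  simp [coin, av]

/-- The fibre over a value of a level-`0` coin. -/
lemma mor_fiber (F : Filt Ω D) (t : T) : F.Mor (F.prod (coin T D 0)) fun ω => (ω, t) :=
  fun d f ω => by rw [E_prod]; simp only [E_coin_of_le (Nat.zero_le d)]

lemma mor_fiber' (F : Filt Ω D) (t : T) : F.Mor ((coin T D 0).prod F) fun ω => (t, ω) :=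
  fun d f ω => by rw [E_prod, E_coin_of_le (Nat.zero_le d)]

lemma Ex_prod_coin (F : Filt Ω D) (e : ℕ) (f : Ω × T → ℝ) :
    (F.prod (coin T D e)).Ex f = av fun t => F.Ex fun ω => f (ω, t) := by
  rw [Ex_prod', Ex_coin]

lemma Ex_coin_prod (F : Filt Ω D) (e : ℕ) (f : T × Ω → ℝ) :
    ((coin T D e).prod F).Ex f = av fun t => F.Ex fun ω => f (t, ω) := by
  rw [Ex_prod, Ex_coin]

lemma pm_prod_coin_zero (F : Filt Ω D) (γ : ℕ → ℝ) (V : Ω × T → ℝ) :
    (F.prod (coin T D 0)).pm γ V = av fun t => F.pm γ fun ω => V (ω, t) := by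
  unfold pm
  rw [Ex_prod_coin]
  exact av_congr fun t => F.Ex_congr fun ω => ((mor_fiber F t).Q γ D V 0 ω).symm

lemma pm_coin_zero_prod (F : Filt Ω D) (γ : ℕ → ℝ) (V : T × Ω → ℝ) :
    ((coin T D 0).prod F).pm γ V = av fun t => F.pm γ fun ω => V (t, ω) := by
  unfold pm
  rw [Ex_coin_prod]
  exact av_congr fun t => F.Ex_congr fun ω => ((mor_fiber' F t).Q γ D V 0 ω).symm

/-- A coin revealed at the last level is averaged at the last step. -/
lemma Q_prod_coin_top (F : Filt Ω D) (γ : ℕ → ℝ) (V : Ω × T → ℝ) {d : ℕ} (hd : d < D)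
    (x : Ω × T) :
    (F.prod (coin T D D)).Q γ D V d x = F.Q γ D (fun ω => av fun t => V (ω, t)) d x.1 := by
  obtain ⟨D', rfl⟩ : ∃ D', D = D' + 1 := ⟨D - 1, by omega⟩
  have h1 : (F.prod (coin T (D' + 1) (D' + 1))).Q γ (D' + 1) V D' =
      fun x => F.Q γ (D' + 1) (fun ω => av fun t => V (ω, t)) D' x.1 := by
    funext y
    rw [Q_succ _ γ (Nat.lt_succ_self _), Q_succ _ γ (Nat.lt_succ_self _), Q_self, Q_self, E_prod]
    simp only [E_coin_of_lt (Nat.lt_succ_self _) (Nat.lt_succ_self _)]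
  rw [← Q_comp _ γ (Nat.le_of_lt_succ hd) (Nat.le_succ D'), h1, (mor_fst F _).Q,
    Q_comp _ γ (Nat.le_of_lt_succ hd) (Nat.le_succ D')]

lemma pm_prod_coin_top [Nonempty T] (F : Filt Ω D) (γ : ℕ → ℝ) (hD : 1 ≤ D) (V : Ω × T → ℝ) :
    (F.prod (coin T D D)).pm γ V = F.pm γ fun ω => av fun t => V (ω, t) := by
  unfold pm
  rw [← (morEx_fst F (coin T D D)).2]
  exact Ex_congr _ fun x => Q_prod_coin_top F γ V hD x

lemma pm_coin_top [Nonempty T] (γ : ℕ → ℝ) (hD : 1 ≤ D) {V : T → ℝ} (hV : ∀ t, 0 < V t) :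
    (coin T D D).pm γ V = av V ^ (∏ j ∈ range D, γ j) := by
  rw [← (morEx_snd (coin Unit D 0) (coin T D D)).pm, pm_prod_coin_top _ γ hD,
    pm_const _ γ (av_pos hV)]

/-- A product of coins of the same level is a coin. -/
lemma morEx_coin_prod {T' : Type} [Fintype T'] (e : ℕ) :
    (coin (T × T') D e).MorEx ((coin T D e).prod (coin T' D e)) fun x => x :=
  morEx_of_equiv _ _ (Equiv.refl _) one_ne_zero (fun x => by simp [coin, prod])
    fun d x y => by simp [coin, prod, Prod.ext_iff, imp_and]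

lemma morEx_coin_pi {ι : Type} [Fintype ι] [DecidableEq ι] {A : ι → Type} [∀ i, Fintype (A i)]
    (e : ℕ) : (coin (∀ i, A i) D e).MorEx (pi fun i => coin (A i) D e) fun x => x :=
  morEx_of_equiv _ _ (Equiv.refl _) one_ne_zero (fun x => by simp [coin, pi])
    fun d x y => by
      simp only [coin, pi, Equiv.refl_apply, funext_iff]
      exact ⟨fun h i hd => h hd i, fun h hd i => h i hd⟩

lemma morEx_pi_coin {ι : Type} [Fintype ι] [DecidableEq ι] {A : ι → Type} [∀ i, Fintype (A i)]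
    (e : ℕ) : (pi fun i => coin (A i) D e).MorEx (coin (∀ i, A i) D e) fun x => x :=
  morEx_of_equiv _ _ (Equiv.refl _) one_ne_zero (fun x => by simp [coin, pi])
    fun d x y => by
      simp only [coin, pi, Equiv.refl_apply, funext_iff]
      exact ⟨fun h hd i => h i hd, fun h i hd => h hd i⟩

/-- A product of products is a product of two products. -/
lemma morEx_pi_prod {ι : Type} [Fintype ι] [DecidableEq ι] {A B : ι → Type}
    [∀ i, Fintype (A i)] [∀ i, Fintype (B i)] (F : ∀ i, Filt (A i) D) (G : ∀ i, Filt (B i) D) :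
    ((pi F).prod (pi G)).MorEx (pi fun i => (F i).prod (G i)) fun x i => (x.1 i, x.2 i) :=
  morEx_of_equiv _ _ (Equiv.arrowProdEquivProdArrow ι A B).symm one_ne_zero
    (fun x => by simp [pi, prod, Finset.prod_mul_distrib, Equiv.arrowProdEquivProdArrow])
    fun d x y => by simp [pi, prod, forall_and, Equiv.arrowProdEquivProdArrow]

end coin

/-! ### Tilting -/

section tilt
variable (F : Filt Ω D) (γ : ℕ → ℝ)

lemma E_reweight {M : Ω → ℝ} (hM : ∀ ω, 0 < M ω) (d : ℕ) (f : Ω → ℝ) (ω : Ω) :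
    (F.reweight M hM).E d f ω = F.E d (fun x => M x * f x) ω / F.E d M ω := by
  unfold E
  rw [div_div_div_cancel_right₀ (F.mass_pos d ω).ne']
  simp only [reweight, mul_assoc]

lemma Ex_reweight [Nonempty Ω] {M : Ω → ℝ} (hM : ∀ ω, 0 < M ω) (f : Ω → ℝ) :
    (F.reweight M hM).Ex f = F.Ex (fun x => M x * f x) / F.Ex M := by
  unfold Ex
  rw [div_div_div_cancel_right₀ F.sum_p_pos.ne']
  simp only [reweight, mul_assoc]

@[simp] lemma meas_tilt {V : Ω → ℝ} (hV : ∀ ω, 0 < V ω) (d : ℕ) (f : Ω → ℝ) :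
    (F.tilt γ V hV).Meas d f ↔ F.Meas d f := Iff.rfl

@[simp] lemma Mde_self (V : Ω → ℝ) (d : ℕ) (ω : Ω) : F.Mde γ V d d ω = 1 := by simp [Mde]

lemma Mde_of_le (V : Ω → ℝ) {d e : ℕ} (h : e ≤ d) (ω : Ω) : F.Mde γ V d e ω = 1 := by
  simp [Mde, Finset.Ico_eq_empty_of_le h]

lemma Mde_mul (V : Ω → ℝ) {d e f : ℕ} (h1 : d ≤ e) (h2 : e ≤ f) (ω : Ω) :
    F.Mde γ V d e ω * F.Mde γ V e f ω = F.Mde γ V d f ω :=
  Finset.prod_Ico_consecutive _ h1 h2

lemma Mde_succ (V : Ω → ℝ) (d : ℕ) (ω : Ω) :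
    F.Mde γ V d (d + 1) ω = F.Q γ D V (d + 1) ω / F.E d (F.Q γ D V (d + 1)) ω := by
  simp [Mde]

lemma meas_Mde (V : Ω → ℝ) (d e : ℕ) : F.Meas e (F.Mde γ V d e) :=
  meas_prod _ fun j hj => by
    have hj' : j + 1 ≤ e := (Finset.mem_Ico.1 hj).2
    exact ((F.meas_Q_top γ V (j + 1)).mono hj').div ((F.meas_E j _).mono (by omega))

variable {γ} in
lemma E_Mde {V : Ω → ℝ} (hV : ∀ ω, 0 < V ω) (d e : ℕ) (ω : Ω) :
    F.E d (F.Mde γ V d e) ω = 1 := by
  rcases le_total e d with h | h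
  · rw [F.E_congr d (F.Mde_of_le γ V h)]; simp
  · induction e, h using Nat.le_induction with
    | base => rw [F.E_congr d (F.Mde_self γ V d)]; simp
    | succ e he ih =>
      rw [← F.E_congr d (F.Mde_mul γ V he (Nat.le_succ e)), ← F.E_mul_E he (F.meas_Mde γ V d e),
        ← ih]
      refine F.E_congr d (fun x => ?_) ω
      have : F.E e (F.Mde γ V e (e + 1)) x = 1 := by
        rw [F.E_congr e (F.Mde_succ γ V e)]
        simp only [div_eq_mul_inv]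
        rw [F.E_mul_meas ((F.meas_E e _).comp fun y => y⁻¹)]
        exact mul_inv_cancel₀ (F.E_pos e (F.Q_pos γ D hV _) x).ne'
      rw [this, mul_one]

/-- Conditional expectation in the tilted space. -/
lemma E_tilt {V : Ω → ℝ} (hV : ∀ ω, 0 < V ω) (d : ℕ) (f : Ω → ℝ) (ω : Ω) :
    (F.tilt γ V hV).E d f ω = F.E d (fun x => F.Mde γ V d D x * f x) ω := by
  rcases le_total D d with h | h
  · rw [E_top _ h, E_top _ h, F.Mde_of_le γ V h, one_mul]
  unfold tilt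
  rw [E_reweight]
  have hm : F.Meas d fun x => F.Q γ D V 0 x * F.Mde γ V 0 d x :=
    ((F.meas_Q_top γ V 0).mono (Nat.zero_le d)).mul (F.meas_Mde γ V 0 d)
  have h1 : ∀ x, F.Q γ D V 0 x * F.Mde γ V 0 D x =
      (F.Q γ D V 0 x * F.Mde γ V 0 d x) * F.Mde γ V d D x := fun x => by
    rw [mul_assoc, F.Mde_mul γ V (Nat.zero_le d) h]
  simp only [h1, mul_assoc (F.Q γ D V 0 _ * F.Mde γ V 0 d _)]
  rw [F.E_meas_mul hm, F.E_meas_mul hm, F.E_Mde hV, mul_one,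
    mul_div_cancel_left₀ _ (mul_pos (F.Q_pos γ D hV 0 ω) (F.Mde_pos γ hV 0 d ω)).ne']

/-- Conditional expectation in the tilted space of a function known at level `e`. -/
lemma E_tilt_meas {V : Ω → ℝ} (hV : ∀ ω, 0 < V ω) {d e : ℕ} (hde : d ≤ e) (he : e ≤ D)
    {f : Ω → ℝ} (hf : F.Meas e f) (ω : Ω) :
    (F.tilt γ V hV).E d f ω = F.E d (fun x => F.Mde γ V d e x * f x) ω := by
  rw [E_tilt]
  have hm : F.Meas e fun x => F.Mde γ V d e x * f x := (F.meas_Mde γ V d e).mul hf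
  have h1 : ∀ x, F.Mde γ V d D x * f x = (F.Mde γ V d e x * f x) * F.Mde γ V e D x := fun x => by
    rw [← F.Mde_mul γ V hde he]; ring
  rw [F.E_congr d h1, ← F.E_mul_E hde hm]
  simp only [F.E_Mde hV, mul_one]

lemma E_tilt_succ {V : Ω → ℝ} (hV : ∀ ω, 0 < V ω) {d : ℕ} (hd : d < D) {f : Ω → ℝ}
    (hf : F.Meas (d + 1) f) (ω : Ω) :
    (F.tilt γ V hV).E d f ω =
      F.E d (fun x => F.Q γ D V (d + 1) x * f x) ω / F.E d (F.Q γ D V (d + 1)) ω := by
  rw [F.E_tilt_meas γ hV (Nat.le_succ d) hd hf]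
  simp only [Mde_succ, div_mul_eq_mul_div]
  simp only [div_eq_mul_inv]
  rw [F.E_mul_meas ((F.meas_E d _).comp fun y => y⁻¹)]

lemma Ex_tilt [Nonempty Ω] {V : Ω → ℝ} (hV : ∀ ω, 0 < V ω) (f : Ω → ℝ) :
    (F.tilt γ V hV).Ex f =
      F.Ex (fun x => F.Q γ D V 0 x * F.Mde γ V 0 D x * f x) / F.pm γ V := by
  unfold tilt
  rw [Ex_reweight]
  congr 1
  rw [← F.Ex_mul_E (F.meas_Q_top γ V 0)]
  simp only [F.E_Mde hV, mul_one]
  rfl

lemma Ex_tilt_meas [Nonempty Ω] {V : Ω → ℝ} (hV : ∀ ω, 0 < V ω) {e : ℕ} (he : e ≤ D)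
    {f : Ω → ℝ} (hf : F.Meas e f) :
    (F.tilt γ V hV).Ex f =
      F.Ex (fun x => F.Q γ D V 0 x * F.Mde γ V 0 e x * f x) / F.pm γ V := by
  rw [Ex_tilt]
  congr 1
  have hm : F.Meas e fun x => F.Q γ D V 0 x * F.Mde γ V 0 e x * f x :=
    (((F.meas_Q_top γ V 0).mono (Nat.zero_le e)).mul (F.meas_Mde γ V 0 e)).mul hf
  have h1 : ∀ x, F.Q γ D V 0 x * F.Mde γ V 0 D x * f x =
      (F.Q γ D V 0 x * F.Mde γ V 0 e x * f x) * F.Mde γ V e D x := fun x => by
    rw [← F.Mde_mul γ V (Nat.zero_le e) he]; ring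
  rw [F.Ex_congr h1, ← F.Ex_mul_E hm]
  simp only [F.E_Mde hV, mul_one]

/-- Total expectation in the tilted space through the level-`0` conditional expectation. -/
lemma Ex_tilt' [Nonempty Ω] {V : Ω → ℝ} (hV : ∀ ω, 0 < V ω) (f : Ω → ℝ) :
    (F.tilt γ V hV).Ex f =
      F.Ex (fun x => F.Q γ D V 0 x * (F.tilt γ V hV).E 0 f x) / F.pm γ V := by
  rw [← Ex_E _ 0 f, F.Ex_tilt_meas γ hV (Nat.zero_le D) ((F.tilt γ V hV).meas_E 0 f)]
  simp

lemma Q_tilt {V : Ω → ℝ} (hV : ∀ ω, 0 < V ω) {W : Ω → ℝ} (hW : ∀ ω, 0 ≤ W ω) (d : ℕ) (ω : Ω) :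
    (F.tilt γ V hV).Q γ D W d ω = F.Q γ D (fun x => V x * W x) d ω / F.Q γ D V d ω := by
  rcases le_total D d with hd | hd
  · simp only [Q_of_le _ γ hd]
    rw [mul_div_cancel_left₀ _ (hV ω).ne']
  · revert ω
    suffices ∀ d, d ≤ D → ∀ ω, (F.tilt γ V hV).Q γ D W d ω =
      F.Q γ D (fun x => V x * W x) d ω / F.Q γ D V d ω from this d hd
    refine down_induction (fun ω => ?_) fun d hd ih ω => ?_
    · simp only [Q_self]
      rw [mul_div_cancel_left₀ _ (hV ω).ne']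
    · rw [Q_succ _ γ hd, Q_succ _ γ hd, Q_succ _ γ hd,
        F.E_tilt_succ γ hV hd ((F.tilt γ V hV).meas_Q_top γ W (d + 1)),
        ← Real.div_rpow (F.E_nonneg _ (F.Q_nonneg γ D (fun x => mul_nonneg (hV x).le (hW x)) _) _)
          (F.E_pos _ (F.Q_pos γ D hV _) _).le]
      congr 2
      refine F.E_congr d (fun x => ?_) ω
      rw [ih, mul_div_cancel₀ _ (F.Q_pos γ D hV _ x).ne']

lemma pm_tilt [Nonempty Ω] {V : Ω → ℝ} (hV : ∀ ω, 0 < V ω) {W : Ω → ℝ} (hW : ∀ ω, 0 ≤ W ω) :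
    (F.tilt γ V hV).pm γ W = F.pm γ (fun x => V x * W x) / F.pm γ V := by
  conv_lhs => unfold pm
  rw [F.Ex_tilt_meas γ hV (Nat.zero_le D) ((F.tilt γ V hV).meas_Q_top γ W 0)]
  congr 1
  refine F.Ex_congr fun x => ?_
  rw [Mde_self, mul_one, Q_tilt _ γ hV hW, mul_div_cancel₀ _ (F.Q_pos γ D hV _ x).ne']

lemma Mde_tilt {V : Ω → ℝ} (hV : ∀ ω, 0 < V ω) {W : Ω → ℝ} (hW : ∀ ω, 0 < W ω) (d e : ℕ)
    (he : e ≤ D) (ω : Ω) :
    F.Mde γ V d e ω * (F.tilt γ V hV).Mde γ W d e ω = F.Mde γ (fun x => V x * W x) d e ω := by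
  unfold Mde
  rw [← Finset.prod_mul_distrib]
  refine Finset.prod_congr rfl fun j hj => ?_
  have hj' : j < D := (Finset.mem_Ico.1 hj).2.trans_le he
  rw [F.E_tilt_succ γ hV hj' ((F.tilt γ V hV).meas_Q_top γ W (j + 1)),
    Q_tilt _ γ hV fun x => (hW x).le]
  have : F.E j (fun x => F.Q γ D V (j + 1) x * (F.tilt γ V hV).Q γ D W (j + 1) x) ω =
      F.E j (F.Q γ D (fun x => V x * W x) (j + 1)) ω :=
    F.E_congr j (fun x => by
      rw [Q_tilt _ γ hV fun x => (hW x).le, mul_div_cancel₀ _ (F.Q_pos γ D hV _ x).ne']) ω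
  rw [this]
  have h1 := (F.Q_pos γ D hV (j + 1) ω).ne'
  have h2 := (F.E_pos j (F.Q_pos γ D hV (j + 1)) ω).ne'
  field_simp

variable {F γ}

lemma Mor.tilt {F' : Filt Ω' D} {φ : Ω' → Ω} (h : F'.Mor F φ) {V : Ω → ℝ} (hV : ∀ ω, 0 < V ω)
    {V' : Ω' → ℝ} (hV' : ∀ ω, 0 < V' ω) (hVV : ∀ x, V' x = V (φ x)) :
    (F'.tilt γ V' hV').Mor (F.tilt γ V hV) φ := by
  obtain rfl : V' = fun x => V (φ x) := funext hVV
  intro d f ω
  rw [E_tilt, E_tilt, ← h]
  exact F'.E_congr d (fun x => by rw [h.Mde]) ω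

lemma MorEx.tilt [Nonempty Ω] [Nonempty Ω'] {F' : Filt Ω' D} {φ : Ω' → Ω} (h : F'.MorEx F φ)
    {V : Ω → ℝ} (hV : ∀ ω, 0 < V ω) {V' : Ω' → ℝ} (hV' : ∀ ω, 0 < V' ω)
    (hVV : ∀ x, V' x = V (φ x)) : (F'.tilt γ V' hV').MorEx (F.tilt γ V hV) φ := by
  refine ⟨h.1.tilt hV hV' hVV, fun f => ?_⟩
  obtain rfl : V' = fun x => V (φ x) := funext hVV
  rw [Ex_tilt, Ex_tilt, h.pm, ← h.2]
  congr 1
  exact F'.Ex_congr fun x => by rw [h.1.Mde, h.1.Q]

/-- Tilting twice is tilting by the product. -/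
lemma morEx_tilt_tilt (F : Filt Ω D) (γ : ℕ → ℝ) [Nonempty Ω] {V W : Ω → ℝ} (hV : ∀ ω, 0 < V ω)
    (hW : ∀ ω, 0 < W ω) {V' : Ω → ℝ} (hV' : ∀ ω, 0 < V' ω) (hVW : ∀ x, V' x = V x * W x) :
    ((F.tilt γ V hV).tilt γ W hW).MorEx (F.tilt γ V' hV') (fun x => x) ∧
      (F.tilt γ V' hV').MorEx ((F.tilt γ V hV).tilt γ W hW) (fun x => x) := by
  obtain rfl : V' = fun x => V x * W x := funext hVW
  have hp : ∀ x, ((F.tilt γ V hV).tilt γ W hW).p x =
      1 * (F.tilt γ (fun x => V x * W x) hV').p x := by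
    intro x
    change F.p x * (F.Q γ D V 0 x * F.Mde γ V 0 D x) *
      ((F.tilt γ V hV).Q γ D W 0 x * (F.tilt γ V hV).Mde γ W 0 D x) =
      1 * (F.p x * (F.Q γ D (fun x => V x * W x) 0 x * F.Mde γ (fun x => V x * W x) 0 D x))
    rw [← F.Mde_tilt γ hV hW 0 D le_rfl, Q_tilt _ γ hV fun x => (hW x).le]
    have h1 := (F.Q_pos γ D hV 0 x).ne'
    field_simp
  exact ⟨morEx_of_equiv _ _ (Equiv.refl _) one_ne_zero hp fun _ _ _ => Iff.rfl,
    morEx_of_equiv _ _ (Equiv.refl _) one_ne_zero (fun x => by rw [one_mul, Equiv.refl_apply, hp, one_mul])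
      fun _ _ _ => Iff.rfl⟩

/-- Tilting the first factor commutes with taking a product. -/
lemma morEx_tilt_prod (F : Filt Ω D) (G : Filt Ω' D) (γ : ℕ → ℝ) {V : Ω → ℝ} (hV : ∀ ω, 0 < V ω)
    {V' : Ω × Ω' → ℝ} (hV' : ∀ x, 0 < V' x) (hVV : ∀ x, V' x = V x.1) :
    ((F.tilt γ V hV).prod G).MorEx ((F.prod G).tilt γ V' hV') (fun x => x) ∧
      ((F.prod G).tilt γ V' hV').MorEx ((F.tilt γ V hV).prod G) (fun x => x) := by
  obtain rfl : V' = fun x => V x.1 := funext hVV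
  have hp : ∀ x, ((F.tilt γ V hV).prod G).p x =
      1 * ((F.prod G).tilt γ (fun x => V x.1) hV').p x := by
    intro x
    change F.p x.1 * (F.Q γ D V 0 x.1 * F.Mde γ V 0 D x.1) * G.p x.2 =
      1 * (F.p x.1 * G.p x.2 * ((F.prod G).Q γ D (fun x => V x.1) 0 x *
        (F.prod G).Mde γ (fun x => V x.1) 0 D x))
    rw [(mor_fst F G).Q, (mor_fst F G).Mde]; ring
  exact ⟨morEx_of_equiv _ _ (Equiv.refl _) one_ne_zero hp fun _ _ _ => Iff.rfl,
    morEx_of_equiv _ _ (Equiv.refl _) one_ne_zero (fun x => by rw [one_mul, Equiv.refl_apply, hp, one_mul])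
      fun _ _ _ => Iff.rfl⟩

/-- Adding a term to a tilted system is tilting the product by the product weight. -/
lemma morEx_tilt_prod_tilt [Nonempty Ω] [Nonempty Ω'] (F : Filt Ω D) (G : Filt Ω' D) (γ : ℕ → ℝ)
    {V : Ω → ℝ} (hV : ∀ ω, 0 < V ω) {W : Ω × Ω' → ℝ} (hW : ∀ x, 0 < W x)
    {V' : Ω × Ω' → ℝ} (hV' : ∀ x, 0 < V' x) (hVW : ∀ x, V' x = V x.1 * W x) :
    (((F.tilt γ V hV).prod G).tilt γ W hW).MorEx ((F.prod G).tilt γ V' hV') (fun x => x) ∧
      ((F.prod G).tilt γ V' hV').MorEx (((F.tilt γ V hV).prod G).tilt γ W hW) (fun x => x) := by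
  have h1 := morEx_tilt_prod F G γ hV (V' := fun x => V x.1) (fun x => hV x.1) fun _ => rfl
  have h2 := morEx_tilt_tilt (F.prod G) γ (V := fun x => V x.1) (fun x => hV x.1) hW hV' hVW
  exact ⟨(h1.1.tilt (γ := γ) hW hW fun _ => rfl).comp h2.1,
    h2.2.comp (h1.2.tilt (γ := γ) hW hW fun _ => rfl)⟩

lemma pm_tilt_prod [Nonempty Ω] [Nonempty Ω'] (F : Filt Ω D) (G : Filt Ω' D) (γ : ℕ → ℝ)
    {V : Ω → ℝ} (hV : ∀ ω, 0 < V ω) {W : Ω × Ω' → ℝ} (hW : ∀ x, 0 ≤ W x) :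
    ((F.tilt γ V hV).prod G).pm γ W = (F.prod G).pm γ (fun x => V x.1 * W x) / F.pm γ V := by
  have h1 := morEx_tilt_prod F G γ hV (V' := fun x => V x.1) (fun x => hV x.1) fun _ => rfl
  rw [← h1.2.pm, pm_tilt _ γ _ hW, (morEx_fst F G).pm]

end tilt

end Filt

lemma Fm.eval_nonneg {Ω : Type} [Fintype Ω] {D : ℕ} (F : Filt Ω D) (s : Ω → Bool) (P : Fm)
    (ω : Ω) : 0 ≤ P.eval F s ω := by
  induction P generalizing ω with
  | spin t => exact ind_nonneg _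
  | one => exact zero_le_one
  | mul a b iha ihb => exact mul_nonneg (iha ω) (ihb ω)
  | cond d a ih => exact F.E_nonneg d ih ω

lemma Fm.eval_le_one {Ω : Type} [Fintype Ω] {D : ℕ} (F : Filt Ω D) (s : Ω → Bool) (P : Fm)
    (ω : Ω) : P.eval F s ω ≤ 1 := by
  induction P generalizing ω with
  | spin t => exact ind_le_one _
  | one => exact le_rfl
  | mul a b iha ihb => exact mul_le_one₀ (iha ω) (Fm.eval_nonneg F s b ω) (ihb ω)
  | cond d a ih => exact F.E_le_of_le d ih ω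

end Crest.Agent.R153
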