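import Mathlib
import Crest.Prelude.Def_RandomSAT
import Crest.Agent.R153.Av

/-!
Row 153: definitions on the satisfiability side (hitting times with an energy budget, frozen
literals, ground energies, the clause model with replacement and its soft partition function).
-/

set_option autoImplicit false

namespace Crest.Agent.R153

open Finset Crest.ProbabilityR.RandomSAT

/-- Assignments. -/
abbrev Asg (n : ℕ) : Type := Fin n → Bool

/-- Literals: `(v, b)` is true under `σ` iff `σ v = b`. -/
abbrev Lit (n : ℕ) : Type := Fin n × Bool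

section proper
variable {k n T : ℕ}

open Classical in
/-- Number of clauses among the first `m` of `F` that `σ` violates. -/
noncomputable def violUpTo (F : Fin T → Clause k n) (m : ℕ) (σ : Asg n) : ℕ :=
  (univ.filter fun s : Fin T => (s : ℕ) < m ∧ ¬ ClauseSat σ (F s)).card

/-- `σ` is alive at time `m`: initial energy plus violations so far is at most the budget `j`. -/
def Alive (j : ℕ) (e : Asg n → ℕ) (F : Fin T → Clause k n) (m : ℕ) (σ : Asg n) : Prop :=
  e σ + violUpTo F m σ ≤ j

open Classical in
/-- The (truncated) hitting time: the number of times `m < T` at which some assignment is alive. -/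
noncomputable def hit (j : ℕ) (e : Asg n → ℕ) (F : Fin T → Clause k n) : ℕ :=
  ((range T).filter fun m => ∃ σ, Alive j e F m σ).card

open Classical in
/-- The literals that are false under every assignment alive `t` steps before the hitting time,
provided `1 ≤ t ≤ hit` and every alive assignment has exhausted the budget at that time;
empty otherwise. -/
noncomputable def Frz (j : ℕ) (e : Asg n → ℕ) (F : Fin T → Clause k n) (t : ℕ) :
    Finset (Lit n) :=
  if 1 ≤ t ∧ t ≤ hit j e F ∧
      ∀ σ, Alive j e F (hit j e F - t) σ → e σ + violUpTo F (hit j e F - t) σ = j then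
    univ.filter fun l : Lit n => ∀ σ, Alive j e F (hit j e F - t) σ → σ l.1 ≠ l.2
  else ∅

/-- The initial energy `e` reads only the variables in `P`. -/
def Cyl (P : Finset (Fin n)) (e : Asg n → ℕ) : Prop :=
  ∀ σ σ' : Asg n, (∀ v ∈ P, σ v = σ' v) → e σ = e σ'

open Classical in
/-- The penalty of a clause: `1` on the assignments violating it. -/
noncomputable def pen (c : Clause k n) (σ : Asg n) : ℕ := if ClauseSat σ c then 0 else 1

open Classical in
/-- Number of clauses of `F` that `σ` violates. -/
noncomputable def viol (F : Fin T → Clause k n) (σ : Asg n) : ℕ :=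
  (univ.filter fun s : Fin T => ¬ ClauseSat σ (F s)).card

/-- Ground energy of a formula. -/
noncomputable def energy (F : Fin T → Clause k n) : ℕ := ⨅ σ : Asg n, viol F σ

end proper

/-- Moment bound with exponent `a` for the fraction of frozen literals. -/
def Mom (k a : ℕ) : Prop :=
  ∀ q : ℕ, 1 ≤ q → ∃ C : ℝ, 0 < C ∧ ∀ (n T j R t : ℕ) (P : Finset (Fin n)) (e : Asg n → ℕ) (z : ℝ),
    k ≤ n → j ≤ n → P.card ≤ R → Cyl P e → 1 ≤ t → 0 < z → 1 ≤ z ^ k * t →
    av (fun F : Fin T → Clause k n => (((Frz j e F t).card : ℝ) / n) ^ q) ≤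
      (C * (z ^ a + ((R : ℝ) + 1) / n)) ^ q

/-- Mean ground energy of `m` uniform proper 3-clauses on `n` variables. -/
noncomputable def PEn (n m : ℕ) : ℝ := av fun F : Fin m → Clause 3 n => (energy F : ℝ)

/-- A 3-clause with replacement: three independent literals. -/
abbrev RCl (N : ℕ) : Type := Fin 3 → Lit N

/-- `σ` violates the clause `c`. -/
def RViol {N : ℕ} (σ : Asg N) (c : RCl N) : Prop := ∀ j, σ (c j).1 ≠ (c j).2

open Classical in
/-- Number of violated clauses (model with replacement). -/
noncomputable def rviol {N M : ℕ} (F : Fin M → RCl N) (σ : Asg N) : ℕ :=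
  (univ.filter fun s : Fin M => RViol σ (F s)).card

/-- Ground energy (model with replacement). -/
noncomputable def renergy {N M : ℕ} (F : Fin M → RCl N) : ℕ := ⨅ σ : Asg N, rviol F σ

/-- Mean ground energy of `M` uniform clauses with replacement on `N` variables. -/
noncomputable def REn (N M : ℕ) : ℝ := av fun F : Fin M → RCl N => (renergy F : ℝ)

/-- A slot: a coin in `Fin (q+1)` (the slot is active iff the coin is `< p`) and a clause. -/
abbrev Slot (q N : ℕ) : Type := Fin (q + 1) × RCl N

/-- Boltzmann factor of a slot: `1 - b` if the slot is active and its clause is violated. -/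
noncomputable def slotW (p : ℕ) {q N : ℕ} (b : ℝ) (c : Slot q N) (σ : Asg N) : ℝ :=
  1 - b * ind ((c.1 : ℕ) < p) * ∏ j, ind (σ (c.2 j).1 ≠ (c.2 j).2)

/-- Fractional moment of the normalised partition function of `M` independent slots. -/
noncomputable def Psi (p q : ℕ) (b m : ℝ) (N M : ℕ) : ℝ :=
  av fun F : Fin M → Slot q N => (av fun σ : Asg N => ∏ s, slotW p b (F s) σ) ^ m

/-- Lower certificates for the threshold. -/
def LowReal (C₀ : ℕ) (c : ℚ) : Prop :=
  c ≤ 0 ∨ ∃ (N M : ℕ) (η z : ℚ), 1 ≤ N ∧ 0 < η ∧ η ≤ 1 ∧ 0 < z ∧ (M : ℚ) ≤ z ^ 2 ∧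
    (C₀ : ℝ) * (REn N M + z) ≤ (η : ℝ) ^ 2 * N ∧ c ≤ (M : ℚ) / N - η

end Crest.Agent.R153
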