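import Mathlib
import Crest.Agent.R153.Filt2
import Crest.Agent.R153.SatDefs

/-!
Row 153, cavity bound, part 1: averaging operators and reindexing lemmas.
-/

set_option autoImplicit false

namespace Crest.Agent.R153

open Finset

section ops
variable {X : Type} [CommMonoid X] {A B C : Type} [Fintype A] [Fintype B] [Fintype C]

/-- The averaging operator on functionals. -/
noncomputable def assT (α : A → X) : Module.End ℝ (X → ℝ) where
  toFun Θ w := av fun a => Θ (w * α a)
  map_add' Θ Θ' := by funext w; simp [av_add]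
  map_smul' c Θ := by funext w; simp [av_const_mul]

lemma assT_apply (α : A → X) (Θ : X → ℝ) (w : X) :
    assT α Θ w = av fun a => Θ (w * α a) := rfl

lemma assT_pow (α : A → X) (j : ℕ) (Θ : X → ℝ) (w : X) :
    (assT α ^ j) Θ w = av fun F : Fin j → A => Θ (w * ∏ s, α (F s)) := by
  induction j generalizing w with
  | zero => simp
  | succ j ih =>
    rw [pow_succ', Module.End.mul_apply, assT_apply, av_fin_cons]
    refine av_congr fun a => ?_
    rw [ih]
    refine av_congr fun F => ?_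
    simp [Fin.prod_univ_succ, mul_assoc]

lemma assT_commute (α : A → X) (β : B → X) : Commute (assT α) (assT β) := by
  refine LinearMap.ext fun Θ => funext fun w => ?_
  simp only [Module.End.mul_apply, assT_apply]
  rw [av_comm]
  simp only [mul_right_comm]

lemma assT_pow_nonneg {P : X → Prop} (hmul : ∀ x y, P x → P y → P (x * y)) {α : A → X}
    (hα : ∀ a, P (α a)) {Φ : X → ℝ} (hΦ : ∀ w, P w → 0 ≤ Φ w) (j : ℕ) :
    ∀ w, P w → 0 ≤ (assT α ^ j) Φ w := by
  induction j with
  | zero => simpa using hΦ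
  | succ j ih =>
    intro w hw
    rw [pow_succ', Module.End.mul_apply, assT_apply]
    exact av_nonneg fun a => ih _ (hmul _ _ hw (hα a))

lemma ass_pascal {P : X → Prop} (hmul : ∀ x y, P x → P y → P (x * y)) {α : A → X} {β : B → X}
    {χ : C → X} (hα : ∀ a, P (α a)) (hβ : ∀ a, P (β a)) (hχ : ∀ a, P (χ a)) {p0 p1 : ℝ}
    (h0 : 0 ≤ p0) (h1 : 0 ≤ p1)
    (H : ∀ Θ : X → ℝ, (∀ w, P w → 0 ≤ Θ w) →
      p0 * av (fun a => Θ (α a)) + p1 * av (fun b => Θ (β b)) ≤ av fun c => Θ (χ c))
    {Φ : X → ℝ} (hΦ : ∀ w, P w → 0 ≤ Φ w) (M : ℕ) (w : X) (hw : P w) :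
    ∑ K ∈ range (M + 1), (M.choose K : ℝ) * p1 ^ K * p0 ^ (M - K) *
      (assT β ^ K) ((assT α ^ (M - K)) Φ) w ≤ (assT χ ^ M) Φ w := by
  have key : ∀ M : ℕ, ∀ w, P w → ((p1 • assT β + p0 • assT α) ^ M) Φ w ≤ (assT χ ^ M) Φ w := by
    intro M
    induction M with
    | zero => intro w _; simp
    | succ M ih =>
      intro w hw
      rw [pow_succ', pow_succ', Module.End.mul_apply, Module.End.mul_apply, assT_apply]
      refine le_trans ?_ (H (fun v => (assT χ ^ M) Φ (w * v))
        fun v hv => assT_pow_nonneg hmul hχ hΦ M _ (hmul _ _ hw hv))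
      simp only [LinearMap.add_apply, LinearMap.smul_apply, Pi.add_apply, Pi.smul_apply,
        smul_eq_mul, assT_apply]
      rw [add_comm]
      exact add_le_add
        (mul_le_mul_of_nonneg_left (av_mono fun a => ih _ (hmul _ _ hw (hα a))) h0)
        (mul_le_mul_of_nonneg_left (av_mono fun a => ih _ (hmul _ _ hw (hβ a))) h1)
  refine le_of_eq_of_le ?_ (key M w hw)
  have hc : Commute (p1 • assT β) (p0 • assT α) :=
    ((assT_commute β α).smul_left p1).smul_right p0
  rw [hc.add_pow, LinearMap.sum_apply, Finset.sum_apply]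
  refine Finset.sum_congr rfl fun K _ => ?_
  rw [smul_pow, smul_pow, Module.End.mul_apply, Module.End.natCast_apply, map_nsmul,
    Pi.smul_apply, nsmul_eq_mul]
  simp only [Module.End.mul_apply, LinearMap.smul_apply, map_smul, Pi.smul_apply, smul_eq_mul]
  ring

end ops

section reindex
variable {α : Type} [Fintype α]

lemma ass_av_fin_two (f : (Fin 2 → α) → ℝ) : av f = av fun x => av fun y => f ![x, y] := by
  rw [av_fin_cons]
  refine av_congr fun x => ?_
  rw [av_fin_cons]
  refine av_congr fun y => ?_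
  rw [av_fin_zero]
  rfl

lemma ass_av_fin_three (f : (Fin 3 → α) → ℝ) :
    av f = av fun x => av fun y => av fun z => f ![x, y, z] := by
  rw [av_fin_cons]
  refine av_congr fun x => ?_
  rw [ass_av_fin_two]
  rfl

lemma ass_av_pi_pair {κ ι T L : Type} [Fintype κ] [DecidableEq κ] [Fintype ι] [DecidableEq ι]
    [Fintype T] [Fintype L] (h : (κ → T × (ι → L)) → ℝ) :
    av h = av fun τ : κ → T => av fun i : κ × ι → L => h fun k => (τ k, fun j => i (k, j)) := by
  let e : (κ → T) × (κ × ι → L) ≃ (κ → T × (ι → L)) :=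
    { toFun := fun x k => (x.1 k, fun j => x.2 (k, j))
      invFun := fun y => (fun k => (y k).1, fun z => (y z.1).2 z.2)
      left_inv := fun _ => rfl
      right_inv := fun _ => rfl }
  rw [← av_equiv e, av_prod]
  rfl

lemma ass_av_sum_arrow {κ ι L : Type} [Fintype κ] [DecidableEq κ] [Fintype ι] [DecidableEq ι]
    [Fintype L] (h : (ι ⊕ κ → L) → ℝ) :
    av h = av fun i1 : ι → L => av fun i2 : κ → L => h (Sum.elim i1 i2) := by
  rw [← av_equiv (Equiv.sumArrowEquivProdArrow ι κ L).symm, av_prod]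
  rfl

lemma ass_av_inj {β : Type} [Fintype β] (e : α → β) (he : Function.Injective e) {f : β → ℝ}
    (hf : ∀ b, 0 ≤ f b) :
    (Fintype.card α : ℝ) / Fintype.card β * av (fun a => f (e a)) ≤ av f := by
  classical
  unfold av
  rcases Nat.eq_zero_or_pos (Fintype.card α) with h | h
  · rw [h]
    simp only [Nat.cast_zero, zero_div, zero_mul]
    exact div_nonneg (Finset.sum_nonneg fun b _ => hf b) (Nat.cast_nonneg _)
  have h' : (Fintype.card α : ℝ) ≠ 0 := by positivity
  rw [div_mul_div_comm, mul_comm (Fintype.card β : ℝ), mul_div_mul_left _ _ h']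
  refine div_le_div_of_nonneg_right ?_ (Nat.cast_nonneg _)
  rw [← Finset.sum_image (s := Finset.univ) (g := e) (f := f) fun a _ b _ h => he h]
  exact Finset.sum_le_sum_of_subset_of_nonneg (Finset.subset_univ _) fun b _ _ => hf b

end reindex

/-- An old literal seen as a literal on one more variable. -/
def assEmb {N : ℕ} (l : Lit N) : Lit (N + 1) := (l.1.castSucc, l.2)

lemma assEmb_injective {N : ℕ} : Function.Injective (assEmb (N := N)) := by
  rintro ⟨a, b⟩ ⟨c, d⟩ h
  simp only [assEmb, Prod.mk.injEq, Fin.castSucc_inj] at h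
  exact Prod.ext h.1 h.2

lemma ass_av_lit_succ {N : ℕ} (hN : 1 ≤ N) (f : Lit (N + 1) → ℝ) :
    av f = (N : ℝ) / (N + 1) * av (fun l : Lit N => f (assEmb l)) +
      1 / (N + 1) * av fun ε : Bool => f (Fin.last N, ε) := by
  have hN' : (N : ℝ) ≠ 0 := by positivity
  unfold av
  simp only [Fintype.sum_prod_type, Fin.sum_univ_castSucc, Fintype.card_prod, Fintype.card_fin,
    Fintype.card_bool, assEmb]
  push_cast
  field_simp

/-- The data of a slot containing the new variable: coin, sign, two old literals. -/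
abbrev AssSite (q N : ℕ) : Type := (Fin (q + 1) × Bool) × (Fin 2 → Lit N)

/-- Boltzmann factor of a slot containing the new variable (with value `ε`). -/
noncomputable def assSiteW (p : ℕ) {q N : ℕ} (b : ℝ) (c : AssSite q N) (σ : Asg N) (ε : Bool) : ℝ :=
  1 - b * ind ((c.1.1 : ℕ) < p) * ind (ε ≠ c.1.2) * ∏ j, ind (σ (c.2 j).1 ≠ (c.2 j).2)

lemma ass_factor_mem {b : ℝ} (hb0 : 0 ≤ b) {t : ℝ} (h0 : 0 ≤ t) (h1 : t ≤ 1) :
    1 - b ≤ 1 - b * t ∧ 1 - b * t ≤ 1 := by
  constructor <;> nlinarith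

lemma ass_prod_ind_mem {ι : Type} [Fintype ι] (P : ι → Prop) :
    0 ≤ ∏ j, ind (P j) ∧ ∏ j, ind (P j) ≤ 1 := by
  rw [← ind_forall]; exact ⟨ind_nonneg _, ind_le_one _⟩

lemma ass_edge_mem {b : ℝ} (hb0 : 0 ≤ b) {ι : Type} [Fintype ι] (Q : Prop) (P : ι → Prop) :
    1 - b ≤ 1 - b * ind Q * ∏ j, ind (P j) ∧ 1 - b * ind Q * ∏ j, ind (P j) ≤ 1 := by
  rw [mul_assoc]
  exact ass_factor_mem hb0 (mul_nonneg (ind_nonneg _) (ass_prod_ind_mem P).1)
    (mul_le_one₀ (ind_le_one _) (ass_prod_ind_mem P).1 (ass_prod_ind_mem P).2)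

lemma ass_site_mem {b : ℝ} (hb0 : 0 ≤ b) {ι : Type} [Fintype ι] (Q Q' : Prop) (P : ι → Prop) :
    1 - b ≤ 1 - b * ind Q * ind Q' * ∏ j, ind (P j) ∧
      1 - b * ind Q * ind Q' * ∏ j, ind (P j) ≤ 1 := by
  rw [mul_assoc b, ← ind_and]
  exact ass_edge_mem hb0 _ P

lemma ass_slotW_mem (p : ℕ) {q N : ℕ} {b : ℝ} (hb0 : 0 ≤ b) (c : Slot q N) (σ : Asg N) :
    1 - b ≤ slotW p b c σ ∧ slotW p b c σ ≤ 1 := ass_edge_mem hb0 _ _

lemma ass_siteW_mem (p : ℕ) {q N : ℕ} {b : ℝ} (hb0 : 0 ≤ b) (c : AssSite q N) (σ : Asg N)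
    (ε : Bool) : 1 - b ≤ assSiteW p b c σ ε ∧ assSiteW p b c σ ε ≤ 1 := ass_site_mem hb0 _ _ _

lemma ass_prod_mem {ι : Type} [Fintype ι] {lo : ℝ} (h0 : 0 ≤ lo) {f : ι → ℝ}
    (hf : ∀ i, lo ≤ f i ∧ f i ≤ 1) : lo ^ Fintype.card ι ≤ ∏ i, f i ∧ ∏ i, f i ≤ 1 := by
  constructor
  · rw [← Finset.card_univ, ← Finset.prod_const]
    exact Finset.prod_le_prod (fun _ _ => h0) fun i _ => (hf i).1
  · exact Finset.prod_le_one (fun i _ => h0.trans (hf i).1) fun i _ => (hf i).2

/-- One slot on `N + 1` variables dominates a mixture of an old slot and a site slot. -/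
lemma ass_slot_split (p : ℕ) {q N : ℕ} (hN : 1 ≤ N) {b : ℝ} (hb0 : 0 ≤ b) (hb1 : b < 1)
    (Θ : (Asg (N + 1) → ℝ) → ℝ) (hΘ : ∀ w, (∀ σ, 0 < w σ) → 0 ≤ Θ w) :
    ((N : ℝ) / (N + 1)) ^ 3 * av (fun c : Slot q N => Θ fun σ => slotW p b c (Fin.init σ)) +
      3 * ((N : ℝ) / (N + 1)) ^ 2 * (1 / (N + 1)) *
        av (fun c : AssSite q N => Θ fun σ => assSiteW p b c (Fin.init σ) (σ (Fin.last N))) ≤
      av fun c : Slot q (N + 1) => Θ (slotW p b c) := by
  rw [av_prod, av_prod (fun c : AssSite q N => _), av_prod (fun c : Fin (q + 1) × Bool => _),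
    av_prod (fun c : Slot q (N + 1) => _), ← av_const_mul, ← av_const_mul, ← av_add]
  refine av_mono fun u => ?_
  set h : Lit (N + 1) → Lit (N + 1) → Lit (N + 1) → ℝ := fun x y z => Θ fun σ =>
    1 - b * ind ((u : ℕ) < p) * (ind (σ x.1 ≠ x.2) * ind (σ y.1 ≠ y.2) * ind (σ z.1 ≠ z.2))
    with hh
  have h0 : ∀ x y z, 0 ≤ h x y z := by
    intro x y z
    refine hΘ _ fun σ => ?_
    rw [← ind_and, ← ind_and, mul_assoc, ← ind_and]
    have := (ass_factor_mem hb0 (ind_nonneg ((u : ℕ) < p ∧ (σ x.1 ≠ x.2 ∧ σ y.1 ≠ y.2) ∧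
      σ z.1 ≠ z.2)) (ind_le_one _)).1
    linarith
  have s1 : ∀ x y z, h x y z = h y x z := by
    intro x y z
    simp only [hh, mul_comm (ind (_ ≠ x.2))]
  have s2 : ∀ x y z, h x y z = h z x y := by
    intro x y z
    simp only [hh]
    congr 1
    funext σ
    ring
  have e1 : (av fun c : RCl (N + 1) => Θ (slotW p b (u, c))) =
      av fun x => av fun y => av fun z => h x y z := by
    rw [ass_av_fin_three]
    refine av_congr fun x => av_congr fun y => av_congr fun z => ?_
    simp only [hh]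
    congr 1
    funext σ
    simp [slotW, Fin.prod_univ_three]
  have e2 : (av fun c : RCl N => Θ fun σ => slotW p b (u, c) (Fin.init σ)) =
      av fun x => av fun y => av fun z => h (assEmb x) (assEmb y) (assEmb z) := by
    rw [ass_av_fin_three]
    refine av_congr fun x => av_congr fun y => av_congr fun z => ?_
    simp only [hh]
    congr 1
    funext σ
    simp [slotW, Fin.prod_univ_three, assEmb, Fin.init]
  have e3 : (av fun ε : Bool => av fun c : Fin 2 → Lit N =>
      Θ fun σ => assSiteW p b ((u, ε), c) (Fin.init σ) (σ (Fin.last N))) =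
      av fun ε : Bool => av fun y => av fun z => h (Fin.last N, ε) (assEmb y) (assEmb z) := by
    refine av_congr fun ε => ?_
    rw [ass_av_fin_two]
    refine av_congr fun y => av_congr fun z => ?_
    simp only [hh]
    congr 1
    funext σ
    simp [assSiteW, Fin.prod_univ_two, assEmb, Fin.init, mul_assoc]
  rw [e1, e2, e3]
  simp only [ass_av_lit_succ hN, av_add, av_const_mul]
  have t1 : (av fun x : Lit N => av fun ε : Bool => av fun z : Lit N =>
      h (assEmb x) (Fin.last N, ε) (assEmb z)) =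
      av fun ε : Bool => av fun y => av fun z => h (Fin.last N, ε) (assEmb y) (assEmb z) := by
    rw [av_comm]
    exact av_congr fun _ => av_congr fun _ => av_congr fun _ => s1 _ _ _
  have t2 : (av fun x : Lit N => av fun y : Lit N => av fun ε : Bool =>
      h (assEmb x) (assEmb y) (Fin.last N, ε)) =
      av fun ε : Bool => av fun y => av fun z => h (Fin.last N, ε) (assEmb y) (assEmb z) := by
    rw [av_comm (fun ε : Bool => _)]
    refine av_congr fun x => ?_
    rw [av_comm]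
    exact av_congr fun _ => av_congr fun _ => s2 _ _ _
  rw [t1, t2]
  have n1 : 0 ≤ av fun x : Lit N => av fun ε : Bool => av fun ε' : Bool =>
      h (assEmb x) (Fin.last N, ε) (Fin.last N, ε') :=
    av_nonneg fun _ => av_nonneg fun _ => av_nonneg fun _ => h0 _ _ _
  have n2 : 0 ≤ av fun ε : Bool => av fun x : Lit N => av fun ε' : Bool =>
      h (Fin.last N, ε) (assEmb x) (Fin.last N, ε') :=
    av_nonneg fun _ => av_nonneg fun _ => av_nonneg fun _ => h0 _ _ _
  have n3 : 0 ≤ av fun ε : Bool => av fun ε' : Bool => av fun x : Lit N =>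
      h (Fin.last N, ε) (Fin.last N, ε') (assEmb x) :=
    av_nonneg fun _ => av_nonneg fun _ => av_nonneg fun _ => h0 _ _ _
  have n4 : 0 ≤ av fun ε : Bool => av fun ε' : Bool => av fun ε'' : Bool =>
      h (Fin.last N, ε) (Fin.last N, ε') (Fin.last N, ε'') :=
    av_nonneg fun _ => av_nonneg fun _ => av_nonneg fun _ => h0 _ _ _
  have hr : (0 : ℝ) ≤ N / (N + 1) := by positivity
  have hs : (0 : ℝ) ≤ 1 / (N + 1) := by positivity
  generalize (N : ℝ) / (N + 1) = r at *
  generalize (1 : ℝ) / (N + 1) = s at *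
  have m1 := mul_nonneg (mul_nonneg (mul_nonneg hr hs) hs) n1
  have m2 := mul_nonneg (mul_nonneg (mul_nonneg hr hs) hs) n2
  have m3 := mul_nonneg (mul_nonneg (mul_nonneg hr hs) hs) n3
  have m4 := mul_nonneg (mul_nonneg (mul_nonneg hs hs) hs) n4
  nlinarith

end Crest.Agent.R153
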