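import Mathlib
import Crest.Agent.R153.ASSAux1

/-!
Row 153, cavity bound, part 2: the perturbed functional `assPhi`.
-/

set_option autoImplicit false

namespace Crest.Agent.R153

open Finset Filt

/-- Literal spins: `true` iff the literal is false. -/
def assLs {N : ℕ} (σ : Asg N) (l : Lit N) : Bool := decide (σ l.1 ≠ l.2)

lemma ind_assLs {N : ℕ} (σ : Asg N) (l : Lit N) : ind (assLs σ l = true) = ind (σ l.1 ≠ l.2) :=
  ind_congr (by simp [assLs])

/-- The perturbed fractional moment of the partition function with weight `w`. -/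
noncomputable def assPhi (D R n S : ℕ) (γ : ℝ) (x : Fam D R → ℝ) (N : ℕ) (w : Asg N → ℝ) : ℝ :=
  ((coin (Asg N) D D).prod (PertF (Lit N) D R n S)).pm (fun _ => γ)
    fun y => w y.1 * pertW x y.2 (assLs y.1)

section
variable {D R n S : ℕ} {γ : ℝ} {x : Fam D R → ℝ} {N : ℕ}

lemma ass_adm (h0 : 0 < γ) (h1 : γ ≤ 1) : Adm fun _ => γ := fun _ => ⟨h0, h1⟩

lemma assPhi_nonneg {w : Asg N → ℝ} (hw : ∀ σ, 0 ≤ w σ) : 0 ≤ assPhi D R n S γ x N w :=
  pm_nonneg _ _ fun _ => mul_nonneg (hw _) (pertW_pos _ _ _).le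

lemma ass_lit_nonempty (hN : 1 ≤ N) : Nonempty (Lit N) := ⟨(⟨0, hN⟩, true)⟩

lemma assPhi_pos (hN : 1 ≤ N) {w : Asg N → ℝ} (hw : ∀ σ, 0 < w σ) :
    0 < assPhi D R n S γ x N w := by
  have := ass_lit_nonempty hN
  exact pm_pos _ _ fun y => mul_pos (hw _) (pertW_pos _ _ _)

lemma ass_termW_mem (φ : Fam D R) {t : ℝ} (h0 : 0 ≤ t) (h1 : t ≤ 1) (u : U D R) (s : Bool) :
    1 / 2 ≤ termW φ t u s ∧ termW φ t u s ≤ 3 := by
  unfold termW famObs
  have a0 := ind_nonneg (u φ.c ∈ φ.A)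
  have a1 := ind_le_one (u φ.c ∈ φ.A)
  have e1 : 1 ≤ Real.exp (t * ind (u φ.c ∈ φ.A)) := Real.one_le_exp (mul_nonneg h0 a0)
  have e2 : Real.exp (t * ind (u φ.c ∈ φ.A)) ≤ 3 :=
    (Real.exp_le_exp.2 (mul_le_one₀ h1 a0 a1)).trans Real.exp_one_lt_three.le
  split_ifs <;> constructor <;> nlinarith

lemma ass_pertW_mem {I : Type} (hx : ∀ φ, 0 ≤ x φ ∧ x φ ≤ 1) (v : PertLab I D R n S)
    (σ : I → Bool) : (1 / 2 : ℝ) ^ Fintype.card (Fam D R × Fin S) ≤ pertW x v σ ∧
      pertW x v σ ≤ 3 ^ Fintype.card (Fam D R × Fin S) := by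
  have h : ∀ k : Fam D R × Fin S, 1 / 2 ≤ slotTermW k.1 (x k.1) (v k) σ ∧
      slotTermW k.1 (x k.1) (v k) σ ≤ 3 := by
    intro k
    unfold slotTermW
    split_ifs
    · exact ass_termW_mem _ (hx _).1 (hx _).2 _ _
    · norm_num
  unfold pertW
  rw [← Finset.card_univ, ← Finset.prod_const, ← Finset.prod_const]
  exact ⟨Finset.prod_le_prod (fun _ _ => by norm_num) fun k _ => (h k).1,
    Finset.prod_le_prod (fun k _ => (slotTermW_pos _ _ _ _).le) fun k _ => (h k).2⟩

lemma assPhi_cmp (hN : 1 ≤ N) (hD : 1 ≤ D) (h0 : 0 < γ) (h1 : γ ≤ 1)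
    (hx : ∀ φ, 0 ≤ x φ ∧ x φ ≤ 1) {w : Asg N → ℝ} (hw : ∀ σ, 0 < w σ) :
    (1 / 2 : ℝ) ^ Fintype.card (Fam D R × Fin S) * av w ^ (γ ^ D) ≤ assPhi D R n S γ x N w ∧
      assPhi D R n S γ x N w ≤ 3 ^ Fintype.card (Fam D R × Fin S) * av w ^ (γ ^ D) := by
  have := ass_lit_nonempty hN
  have hγ := ass_adm h0 h1
  have base : ∀ c : ℝ, 0 < c →
      ((coin (Asg N) D D).prod (PertF (Lit N) D R n S)).pm (fun _ => γ) (fun y => c * w y.1) =
        c ^ (γ ^ D) * av w ^ (γ ^ D) := by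
    intro c hc
    rw [pm_const_mul _ _ hc fun y => (hw _).le, (morEx_fst _ _).pm, pm_coin_top _ hD hw]
    simp
  have hm0 : 0 ≤ γ ^ D := by positivity
  have hm1 : γ ^ D ≤ 1 := pow_le_one₀ h0.le h1
  have hA : 0 ≤ av w ^ (γ ^ D) := Real.rpow_nonneg (av_nonneg fun σ => (hw σ).le) _
  constructor
  · refine le_trans ?_ (pm_mono _ hγ
      (V := fun y => (1 / 2 : ℝ) ^ Fintype.card (Fam D R × Fin S) * w y.1)
      (fun y => mul_nonneg (by positivity) (hw _).le) fun y => ?_)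
    · rw [base _ (by positivity)]
      refine mul_le_mul_of_nonneg_right ?_ hA
      exact Real.self_le_rpow_of_le_one (by positivity) (pow_le_one₀ (by norm_num) (by norm_num)) hm1
    · rw [mul_comm]
      exact mul_le_mul_of_nonneg_left (ass_pertW_mem hx _ _).1 (hw _).le
  · refine le_trans (pm_mono _ hγ
      (W := fun y => (3 : ℝ) ^ Fintype.card (Fam D R × Fin S) * w y.1)
      (fun y => mul_nonneg (hw _).le (pertW_pos _ _ _).le) fun y => ?_) ?_
    · rw [mul_comm (_ ^ _)]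
      exact mul_le_mul_of_nonneg_left (ass_pertW_mem hx _ _).2 (hw _).le
    · rw [base _ (by positivity)]
      refine mul_le_mul_of_nonneg_right ?_ hA
      exact Real.rpow_le_self_of_one_le (one_le_pow₀ (by norm_num)) hm1

/-- The perturbation labels without the sites. -/
noncomputable def assPF (D R n S : ℕ) : Filt (Fam D R × Fin S → Fin (n + 1) × U D R) D :=
  Filt.pi fun _ : Fam D R × Fin S => (coin (Fin (n + 1)) D 0).prod (UF D R)

/-- Extraction of the level-`0` sites. -/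
lemma ass_pm_sites {Ω I : Type} [Fintype Ω] [Fintype I] (F : Filt Ω D) (γ' : ℕ → ℝ)
    (V : Ω × PertLab I D R n S → ℝ) :
    (F.prod (PertF I D R n S)).pm γ' V = av fun i : Fam D R × Fin S → I =>
      (F.prod (assPF D R n S)).pm γ' fun y => V (y.1, fun k => ((y.2 k).1, (i k, (y.2 k).2))) := by
  let e : (Ω × (Fam D R × Fin S → Fin (n + 1) × U D R)) × (Fam D R × Fin S → I) ≃
      Ω × PertLab I D R n S :=
    { toFun := fun z => (z.1.1, fun k => ((z.1.2 k).1, (z.2 k, (z.1.2 k).2)))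
      invFun := fun y => ((y.1, fun k => ((y.2 k).1, (y.2 k).2.2)), fun k => (y.2 k).2.1)
      left_inv := fun _ => rfl
      right_inv := fun _ => rfl }
  have h : ((F.prod (assPF D R n S)).prod (coin (Fam D R × Fin S → I) D 0)).MorEx
      (F.prod (PertF I D R n S)) e := by
    refine morEx_of_equiv _ _ e one_ne_zero (fun z => ?_) fun d z z' => ?_
    · simp [e, prod, assPF, PertF, SlotF, LabF, Filt.pi, coin]
    · simp only [e, prod, assPF, PertF, SlotF, LabF, Filt.pi, coin, Equiv.coe_fn_mk, zero_le,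
        true_or, forall_const, funext_iff]
      constructor
      · rintro ⟨⟨a, b⟩, c⟩
        exact ⟨a, fun k => ⟨(b k).1, c k, (b k).2⟩⟩
      · rintro ⟨a, b⟩
        exact ⟨⟨a, fun k => ⟨(b k).1, (b k).2.2⟩⟩, fun k => (b k).2.1⟩
  rw [← h.pm, pm_prod_coin_zero]
  rfl

/-- Averaging out the last spin. -/
lemma ass_pm_last {Ω : Type} [Fintype Ω] (hD : 1 ≤ D) (G : Filt Ω D) (γ' : ℕ → ℝ)
    (w : Asg (N + 1) → ℝ) (u : Asg N → Ω → ℝ) :
    ((coin (Asg (N + 1)) D D).prod G).pm γ' (fun y => w y.1 * u (Fin.init y.1) y.2) =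
      ((coin (Asg N) D D).prod G).pm γ'
        fun y => av (fun ε : Bool => w (Fin.snoc y.1 ε)) * u y.1 y.2 := by
  let e : (Asg N × Ω) × Bool ≃ Asg (N + 1) × Ω :=
    { toFun := fun z => (Fin.snoc z.1.1 z.2, z.1.2)
      invFun := fun y => ((Fin.init y.1, y.2), y.1 (Fin.last N))
      left_inv := fun z => by simp
      right_inv := fun y => by simp }
  have h : (((coin (Asg N) D D).prod G).prod (coin Bool D D)).MorEx
      ((coin (Asg (N + 1)) D D).prod G) e := by
    refine morEx_of_equiv _ _ e one_ne_zero (fun z => ?_) fun d z z' => ?_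
    · simp [e, prod, coin]
    · simp only [e, prod, coin, Equiv.coe_fn_mk, or_self]
      constructor
      · rintro ⟨⟨a, b⟩, c⟩
        exact ⟨fun h => by rw [a h, c h], b⟩
      · rintro ⟨a, b⟩
        refine ⟨⟨fun h => ?_, b⟩, fun h => ?_⟩
        · simpa using congrArg Fin.init (a h)
        · simpa using congrFun (a h) (Fin.last N)
  rw [← h.pm, pm_prod_coin_top _ _ hD]
  refine pm_congr _ _ fun y => ?_
  simp [e, av_mul_const]

lemma assPhi_succ (hD : 1 ≤ D) {w : Asg (N + 1) → ℝ} (hw : ∀ σ, 0 ≤ w σ) :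
    ((N : ℝ) / (N + 1)) ^ Fintype.card (Fam D R × Fin S) *
        assPhi D R n S γ x N (fun σ => av fun ε : Bool => w (Fin.snoc σ ε)) ≤
      assPhi D R n S γ x (N + 1) w := by
  unfold assPhi
  rw [ass_pm_sites, ass_pm_sites]
  have hinj : Function.Injective fun (i : Fam D R × Fin S → Lit N) k => assEmb (i k) :=
    fun i i' h => funext fun k => assEmb_injective (congrFun h k)
  refine le_trans (le_of_eq ?_) (ass_av_inj _ hinj fun i =>
    pm_nonneg _ _ fun y => mul_nonneg (hw _) (pertW_pos _ _ _).le)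
  congr 1
  · simp only [Fintype.card_pi, Finset.prod_const, Finset.card_univ, Fintype.card_prod,
      Fintype.card_fin, Fintype.card_bool]
    push_cast
    rw [← div_pow, mul_div_mul_right _ _ (by norm_num)]
  · refine av_congr fun i => ?_
    rw [← ass_pm_last hD (assPF D R n S) (fun _ => γ) w
      fun σ v => pertW x (fun k => ((v k).1, (i k, (v k).2))) (assLs σ)]
    rfl

/-- The base system with `M` slots. -/
noncomputable def assSys (p q : ℕ) {b : ℝ} (hb0 : 0 < b) (hb1 : b < 1) (D R n S : ℕ) (γ : ℝ)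
    (x : Fam D R → ℝ) (N M : ℕ) :
    Filt (((Fin M → Slot q N) × Asg N) × PertLab (Lit N) D R n S) D :=
  enrich ((coin (Fin M → Slot q N) D 0).prod (coin (Asg N) D D)) (fun ω => assLs ω.2)
    (fun ω => ∏ s, slotW p b (ω.1 s) ω.2)
    (fun ω => Finset.prod_pos fun s _ => by
      have := (ass_slotW_mem p hb0.le (ω.1 s) ω.2).1
      linarith) γ R n S x

lemma ass_base (p q : ℕ) {b : ℝ} (hb0 : 0 < b) (hb1 : b < 1) (hN : 1 ≤ N) (M : ℕ)
    {V : Asg N → ℝ} (hV : ∀ σ, 0 ≤ V σ) :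
    (av fun F : Fin M → Slot q N => assPhi D R n S γ x N fun σ => V σ * ∏ s, slotW p b (F s) σ) =
      (av fun F : Fin M → Slot q N => assPhi D R n S γ x N fun σ => ∏ s, slotW p b (F s) σ) *
        (assSys p q hb0 hb1 D R n S γ x N M).pm (fun _ => γ) fun y => V y.1.2 := by
  have := ass_lit_nonempty hN
  have key : ∀ V : Asg N → ℝ,
      (((coin (Fin M → Slot q N) D 0).prod (coin (Asg N) D D)).prod
        (PertF (Lit N) D R n S)).pm (fun _ => γ)
        (fun y => (∏ s, slotW p b (y.1.1 s) y.1.2) * pertW x y.2 (assLs y.1.2) * V y.1.2) =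
      av fun F : Fin M → Slot q N =>
        assPhi D R n S γ x N fun σ => V σ * ∏ s, slotW p b (F s) σ := by
    intro V
    rw [← (morEx_assoc_symm _ _ _).pm, pm_coin_zero_prod]
    refine av_congr fun F => pm_congr _ _ fun y => ?_
    ring
  have hpos : 0 < av fun F : Fin M → Slot q N =>
      assPhi D R n S γ x N fun σ => ∏ s, slotW p b (F s) σ :=
    av_pos fun F => assPhi_pos hN fun σ => Finset.prod_pos fun s _ => by
      have := (ass_slotW_mem p hb0.le (F s) σ).1
      linarith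
  have k1 := key fun _ => 1
  simp only [mul_one, one_mul] at k1
  unfold assSys enrich
  rw [pm_tilt _ _ _ fun y => hV _, key V, k1, mul_div_cancel₀ _ hpos.ne']

end

end Crest.Agent.R153
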