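import Mathlib
import Crest.Agent.R153.Filt2

/-!
Row 153: definitions for the decoupling theorem.
-/

set_option autoImplicit false

namespace Crest.Agent.R153

open Finset

/-- `Phi γ y = 1 - (1 - y) ^ γ`. -/
noncomputable def Phi (γ y : ℝ) : ℝ := 1 - (1 - y) ^ γ

/-- Density of a set of digits. -/
noncomputable def dens {R : ℕ} (A : Finset (Fin (R + 1))) : ℝ := (A.card : ℝ) / (R + 1)

section
variable {Ω I : Type} [Fintype Ω] [Fintype I] {D : ℕ}

/-- Squared `L²` norm of a site-indexed observable. -/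
noncomputable def nrm2 (F : Filt Ω D) (f : Ω → I → ℝ) : ℝ := F.Ex fun ω => av fun i => f ω i ^ 2

/-- Conditional expectation of a site-indexed observable. -/
noncomputable def cE (F : Filt Ω D) (d : ℕ) (f : Ω → I → ℝ) (ω : Ω) (i : I) : ℝ :=
  F.E d (fun x => f x i) ω

/-- Conditional covariance matrix of a site-indexed observable. -/
noncomputable def cov (F : Filt Ω D) (d : ℕ) (f : Ω → I → ℝ) (ω : Ω) (i i' : I) : ℝ :=
  F.E d (fun x => f x i * f x i') ω - cE F d f ω i * cE F d f ω i'

/-- Mean squared (normalised) Hilbert-Schmidt norm of the conditional covariance matrix. -/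
noncomputable def hs (F : Filt Ω D) (d : ℕ) (f : Ω → I → ℝ) : ℝ :=
  F.Ex fun ω => av fun i => av fun i' => cov F d f ω i i' ^ 2

/-- Variance of the site average. -/
noncomputable def vr (F : Filt Ω D) (f : Ω → I → ℝ) : ℝ :=
  F.Ex (fun ω => (av fun i => f ω i) ^ 2) - F.Ex (fun ω => av fun i => f ω i) ^ 2

/-- A formula as a site-indexed observable. -/
noncomputable def fmEval (F : Filt Ω D) (s : Ω → I → Bool) (P : Fm) (ω : Ω) (i : I) : ℝ :=
  P.eval F (fun x => s x i) ω

/-- Observables generated by perturbation terms whose labels are read below level `e`. -/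
inductive Gen (F : Filt Ω D) (s : Ω → I → Bool) (γ : ℝ) (R : ℕ) : ℕ → (Ω → I → ℝ) → Prop
  | top (t : Bool) : Gen F s γ R D fun ω i => (1 / 2) * ind (s ω i = t)
  | mix {e : ℕ} (he : e < D) {ya yb : Ω → I → ℝ} (ha : Gen F s γ R (e + 1) ya)
      (hb : Gen F s γ R (e + 1) yb) (A B : Finset (Fin (R + 1))) (hAB : Disjoint A B) :
      Gen F s γ R e fun ω i =>
        Phi γ (cE F e (fun x j => dens A * ya x j + dens B * yb x j) ω i)

/-- `P` is within `η` in `L²` of a combination of generated observables of level `e` with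
coefficients of total size at most `K`. -/
def Approx (F : Filt Ω D) (s : Ω → I → Bool) (γ : ℝ) (R e : ℕ) (P : Ω → I → ℝ) (η K : ℝ) : Prop :=
  ∃ (n : ℕ) (c : Fin n → ℝ) (y : Fin n → Ω → I → ℝ), (∀ α, Gen F s γ R e (y α)) ∧
    ∑ α, |c α| ≤ K ∧ nrm2 F (fun ω i => P ω i - ∑ α, c α * y α ω i) ≤ η ^ 2

/-- Sensitivity of a formula to one more perturbation term. -/
noncomputable def tiltErr (F : Filt Ω D) (s : Ω → I → Bool) (γ : ℝ) {R : ℕ} (φ : Fam D R) (x : ℝ)
    (P : Fm) : ℝ :=
  nrm2 (F.prod (LabF I D R)) fun y i =>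
    fmEval (plus F s γ φ x) (fun y' => s y'.1) P y i - fmEval F s P y.1 i

/-- The sensitivity is at most `τ` for all terms. -/
def TiltSmall (F : Filt Ω D) (s : Ω → I → Bool) (γ : ℝ) (R : ℕ) (P : Fm) (τ : ℝ) : Prop :=
  ∀ (φ : Fam D R) (x : ℝ), 0 ≤ x → x ≤ 1 → tiltErr F s γ φ x P ≤ τ

end

/-- Iterated monomials: `Mon (k+1)` is a list of factors from `Mon k`. -/
def Mon : ℕ → Type
  | 0 => Bool
  | k + 1 => List (Mon k)

/-- The formula of a monomial: at depth `k + 1` the product of the conditional expectations, at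
level `lev (k+1)`, of the factors. -/
def Mon.toFm (lev : ℕ → ℕ) : ∀ k, Mon k → Fm
  | 0, t => .spin t
  | k + 1, l => List.foldr (fun a P => .mul (.cond (lev (k + 1)) (Mon.toFm lev k a)) P) .one l

/-- All lists in the monomial have length at most `J`. -/
def Mon.Bdd (J : ℕ) : ∀ k, Mon k → Prop
  | 0, _ => True
  | k + 1, l => List.length l ≤ J ∧ ∀ a ∈ (show List (Mon k) from l), Mon.Bdd J k a

end Crest.Agent.R153
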