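import Mathlib
import Crest.Agent.R153.DecDefs

/-!
Row 153, decoupling, part A, auxiliary facts: the function `Phi`, the `L²` norm, chains.
-/

set_option autoImplicit false
set_option linter.unusedSectionVars false

namespace Crest.Agent.R153

open Finset

/-! ### The function `Phi` -/

lemma decA_Phi_nonneg {γ w : ℝ} (h0 : 0 < γ) (hw0 : 0 ≤ w) (hw : w ≤ 1 / 2) : 0 ≤ Phi γ w := by
  have := Real.rpow_le_one (x := 1 - w) (z := γ) (by linarith) (by linarith) h0.le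
  unfold Phi; linarith

lemma decA_Phi_le {γ w : ℝ} (h1 : γ ≤ 1) (hw0 : 0 ≤ w) (hw : w ≤ 1 / 2) : Phi γ w ≤ w := by
  have := Real.rpow_le_rpow_of_exponent_ge (x := 1 - w) (by linarith) (by linarith) h1
  rw [Real.rpow_one] at this
  unfold Phi; linarith

lemma decA_Phi_second {γ w : ℝ} (h0 : 0 < γ) (h1 : γ ≤ 1) (hw0 : 0 ≤ w) (hw : w ≤ 1 / 2) :
    |Phi γ w - γ * w - γ * (1 - γ) / 2 * w ^ 2| ≤ 10 * (1 - γ) * w ^ 3 := by
  set δ := 1 - γ with hδ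
  have hδ0 : 0 ≤ δ := by linarith
  have hδ1 : δ ≤ 1 := by linarith
  have hpos : 0 < 1 - w := by linarith
  set L := -Real.log (1 - w) with hL
  have hl : |L - w - w ^ 2 / 2| ≤ 2 * w ^ 3 := by
    have h := Real.abs_log_sub_add_sum_range_le (x := w) (by rw [abs_of_nonneg hw0]; linarith) 2
    rw [abs_of_nonneg hw0] at h
    simp only [Finset.sum_range_succ, Finset.sum_range_zero] at h
    have h2 : w ^ (2 + 1) / (1 - w) ≤ 2 * w ^ 3 := by
      rw [div_le_iff₀ hpos]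
      have := mul_nonneg (show 0 ≤ w ^ 3 by positivity) (show 0 ≤ 1 - 2 * w by linarith)
      have e : w ^ (2 + 1) = w ^ 3 := rfl
      rw [e]; linarith
    rw [← abs_neg]
    refine le_trans (le_of_eq ?_) (h.trans h2)
    congr 1
    rw [hL]; push_cast; ring
  obtain ⟨hl1, hl2⟩ := abs_le.1 hl
  have hw2 : w ^ 2 ≤ w / 2 := by nlinarith
  have hw3 : w ^ 3 ≤ w ^ 2 / 2 := by nlinarith [sq_nonneg w]
  have hw30 : 0 ≤ w ^ 3 := by positivity
  have hL0 : 0 ≤ L := by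
    rw [hL, neg_nonneg]; exact Real.log_nonpos hpos.le (by linarith)
  have hL2 : L ≤ 2 * w := by linarith
  have ht0 : 0 ≤ δ * L := mul_nonneg hδ0 hL0
  have ht1 : δ * L ≤ L := by nlinarith
  have hr := Real.exp_bound (x := δ * L) (by rw [abs_of_nonneg ht0]; linarith) (n := 3)
    (by norm_num)
  rw [abs_of_nonneg ht0] at hr
  simp only [Finset.sum_range_succ, Finset.sum_range_zero, Nat.factorial] at hr
  norm_num at hr
  set r := Real.exp (δ * L) - (1 + δ * L + (δ * L) ^ 2 / 2) with hrdef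
  have hL3 : L ^ 3 ≤ 8 * w ^ 3 := by
    calc L ^ 3 ≤ (2 * w) ^ 3 := pow_le_pow_left₀ hL0 hL2 3
      _ = _ := by ring
  have hδ3 : δ ^ 3 ≤ δ := by
    calc δ ^ 3 ≤ δ ^ 1 := pow_le_pow_of_le_one hδ0 hδ1 (by norm_num)
      _ = δ := pow_one δ
  have hr2 : |r| ≤ 2 * δ * w ^ 3 := by
    refine hr.trans ?_
    have : (δ * L) ^ 3 ≤ δ * (8 * w ^ 3) := by
      rw [mul_pow]; exact mul_le_mul hδ3 hL3 (by positivity) hδ0
    have : 0 ≤ δ * w ^ 3 := by positivity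
    nlinarith
  have hexp : (1 - w) ^ γ = (1 - w) * Real.exp (δ * L) := by
    rw [Real.rpow_def_of_pos hpos]
    conv_rhs => rw [← Real.exp_log hpos]
    rw [← Real.exp_add]
    congr 1
    rw [hL, hδ]; ring
  have hid : Phi γ w - γ * w - γ * δ / 2 * w ^ 2 =
      -(δ * (-(w ^ 3) / 2 + (1 - w) * (L - w - w ^ 2 / 2)) + δ * (δ / 2 * (L ^ 2 - w ^ 2 - w * L ^ 2))
        + (1 - w) * r) := by
    have hγ : γ = 1 - δ := by rw [hδ]; ring
    unfold Phi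
    rw [hexp, hrdef, hγ]; ring
  rw [hid, abs_neg]
  have e1 : |-(w ^ 3) / 2 + (1 - w) * (L - w - w ^ 2 / 2)| ≤ 5 / 2 * w ^ 3 := by
    have : |(1 - w) * (L - w - w ^ 2 / 2)| ≤ 2 * w ^ 3 := by
      rw [abs_mul, abs_of_pos hpos]
      have := abs_nonneg (L - w - w ^ 2 / 2)
      nlinarith
    obtain ⟨a, b⟩ := abs_le.1 this
    rw [abs_le]; constructor <;> linarith
  have e2 : |L ^ 2 - w ^ 2 - w * L ^ 2| ≤ 9 * w ^ 3 := by
    have a1 : |L - w| ≤ 3 / 2 * w ^ 2 := by rw [abs_le]; constructor <;> nlinarith [sq_nonneg w]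
    have a2 : |L ^ 2 - w ^ 2| ≤ 9 / 2 * w ^ 3 := by
      have : L ^ 2 - w ^ 2 = (L - w) * (L + w) := by ring
      rw [this, abs_mul, abs_of_nonneg (show 0 ≤ L + w by linarith)]
      calc |L - w| * (L + w) ≤ (3 / 2 * w ^ 2) * (3 * w) :=
            mul_le_mul a1 (by linarith) (by linarith) (by positivity)
        _ = _ := by ring
    have a3 : w * L ^ 2 ≤ 4 * w ^ 3 := by
      have : L ^ 2 ≤ (2 * w) ^ 2 := pow_le_pow_left₀ hL0 hL2 2
      calc w * L ^ 2 ≤ w * (2 * w) ^ 2 := mul_le_mul_of_nonneg_left this hw0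
        _ = _ := by ring
    have a4 : 0 ≤ w * L ^ 2 := by positivity
    obtain ⟨a, b⟩ := abs_le.1 a2
    rw [abs_le]; constructor <;> linarith
  have e3 : |δ / 2 * (L ^ 2 - w ^ 2 - w * L ^ 2)| ≤ 9 / 2 * w ^ 3 := by
    rw [abs_mul, abs_of_nonneg (show 0 ≤ δ / 2 by positivity)]
    calc δ / 2 * |L ^ 2 - w ^ 2 - w * L ^ 2| ≤ 1 / 2 * (9 * w ^ 3) :=
          mul_le_mul (by linarith) e2 (abs_nonneg _) (by norm_num)
      _ = _ := by ring
  have e4 : |(1 - w) * r| ≤ 2 * δ * w ^ 3 := by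
    rw [abs_mul, abs_of_pos hpos]
    have := abs_nonneg r
    nlinarith
  have e5 : |δ * (-(w ^ 3) / 2 + (1 - w) * (L - w - w ^ 2 / 2))| ≤ δ * (5 / 2 * w ^ 3) := by
    rw [abs_mul, abs_of_nonneg hδ0]; exact mul_le_mul_of_nonneg_left e1 hδ0
  have e6 : |δ * (δ / 2 * (L ^ 2 - w ^ 2 - w * L ^ 2))| ≤ δ * (9 / 2 * w ^ 3) := by
    rw [abs_mul, abs_of_nonneg hδ0]; exact mul_le_mul_of_nonneg_left e3 hδ0
  have e7 : 0 ≤ δ * w ^ 3 := by positivity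
  obtain ⟨a1, b1⟩ := abs_le.1 e4
  obtain ⟨a2, b2⟩ := abs_le.1 e5
  obtain ⟨a3, b3⟩ := abs_le.1 e6
  rw [abs_le]; constructor <;> linarith

lemma decA_Phi_first {γ w : ℝ} (h0 : 0 < γ) (h1 : γ ≤ 1) (hw0 : 0 ≤ w) (hw : w ≤ 1 / 2) :
    |Phi γ w - γ * w| ≤ 6 * (1 - γ) * w ^ 2 := by
  obtain ⟨a, b⟩ := abs_le.1 (decA_Phi_second h0 h1 hw0 hw)
  have hδ : 0 ≤ 1 - γ := by linarith
  have h2 : 0 ≤ (1 - γ) * w ^ 2 := by positivity
  have h3 : (1 - γ) * w ^ 3 ≤ (1 - γ) * w ^ 2 / 2 := by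
    have : w ^ 3 ≤ w ^ 2 / 2 := by nlinarith [sq_nonneg w]
    nlinarith
  have h4 : γ * ((1 - γ) * w ^ 2) ≤ (1 - γ) * w ^ 2 := by nlinarith
  have h5 : 0 ≤ γ * ((1 - γ) * w ^ 2) := by positivity
  rw [abs_le]; constructor <;> linarith

/-! ### The `L²` norm -/

section
variable {Ω I : Type} [Fintype Ω] [Fintype I] {D : ℕ} (F : Filt Ω D)

/-- `L²` norm -/
noncomputable def nrA (f : Ω → I → ℝ) : ℝ := √(nrm2 F f)

lemma decA_Ex_av (f : Ω → I → ℝ) :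
    (F.Ex fun ω => av fun i => f ω i) = (F.prod (Filt.coin I D 0)).Ex fun x => f x.1 x.2 := by
  rw [Filt.Ex_prod_coin, Filt.Ex_av]

lemma decA_nrm2_nonneg (f : Ω → I → ℝ) : 0 ≤ nrm2 F f :=
  F.Ex_nonneg fun _ => av_nonneg fun _ => sq_nonneg _

lemma nrA_nonneg (f : Ω → I → ℝ) : 0 ≤ nrA F f := Real.sqrt_nonneg _

lemma nrA_sq (f : Ω → I → ℝ) : nrA F f ^ 2 = nrm2 F f := Real.sq_sqrt (decA_nrm2_nonneg F f)

lemma nrA_le_iff {f : Ω → I → ℝ} {η : ℝ} (hη : 0 ≤ η) : nrA F f ≤ η ↔ nrm2 F f ≤ η ^ 2 :=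
  Real.sqrt_le_left hη

lemma nrA_congr {f g : Ω → I → ℝ} (h : ∀ ω i, f ω i = g ω i) : nrA F f = nrA F g := by
  have : f = g := funext fun ω => funext fun i => h ω i
  rw [this]

lemma nrA_mono {f g : Ω → I → ℝ} (h : ∀ ω i, |f ω i| ≤ |g ω i|) : nrA F f ≤ nrA F g :=
  Real.sqrt_le_sqrt (F.Ex_mono fun ω => av_mono fun i => sq_le_sq.2 (h ω i))

lemma nrA_smul (c : ℝ) (f : Ω → I → ℝ) : nrA F (fun ω i => c * f ω i) = |c| * nrA F f := by
  unfold nrA nrm2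
  simp only [mul_pow, av_const_mul, Filt.Ex_const_mul]
  rw [Real.sqrt_mul (sq_nonneg c), Real.sqrt_sq_eq_abs]

lemma nrA_zero : nrA F (fun (_ : Ω) (_ : I) => 0) = 0 := by simp [nrA, nrm2]

lemma nrA_add_le (f g : Ω → I → ℝ) : nrA F (fun ω i => f ω i + g ω i) ≤ nrA F f + nrA F g := by
  rw [nrA_le_iff F (add_nonneg (nrA_nonneg F f) (nrA_nonneg F g))]
  have h1 : nrm2 F (fun ω i => f ω i + g ω i) =
      nrm2 F f + 2 * (F.Ex fun ω => av fun i => f ω i * g ω i) + nrm2 F g := by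
    unfold nrm2
    rw [← F.Ex_const_mul, ← F.Ex_add, ← F.Ex_add]
    refine F.Ex_congr fun ω => ?_
    rw [← av_const_mul, ← av_add, ← av_add]
    exact av_congr fun i => by ring
  have h2 : (F.Ex fun ω => av fun i => f ω i * g ω i) ≤ nrA F f * nrA F g := by
    unfold nrA
    rw [← Real.sqrt_mul (decA_nrm2_nonneg F f)]
    refine Real.le_sqrt_of_sq_le ?_
    unfold nrm2
    rw [decA_Ex_av F (fun ω i => f ω i * g ω i), decA_Ex_av F (fun ω i => f ω i ^ 2),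
      decA_Ex_av F (fun ω i => g ω i ^ 2)]
    exact Filt.Ex_mul_sq_le _ (fun x : Ω × I => f x.1 x.2) (fun x : Ω × I => g x.1 x.2)
  rw [h1, ← nrA_sq F f, ← nrA_sq F g]
  nlinarith

lemma nrA_sum_le {κ : Type*} (S : Finset κ) (f : κ → Ω → I → ℝ) :
    nrA F (fun ω i => ∑ t ∈ S, f t ω i) ≤ ∑ t ∈ S, nrA F (f t) := by
  classical
  induction S using Finset.induction_on with
  | empty => simp [nrA_zero]
  | insert a S ha ih =>
    simp only [Finset.sum_insert ha]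
    exact (nrA_add_le F _ _).trans (by linarith)

lemma nrA_neg (f : Ω → I → ℝ) : nrA F (fun ω i => - f ω i) = nrA F f := by
  unfold nrA nrm2; simp only [neg_sq]

lemma nrA_sub_comm (f g : Ω → I → ℝ) :
    nrA F (fun ω i => f ω i - g ω i) = nrA F (fun ω i => g ω i - f ω i) := by
  rw [← nrA_neg]; exact nrA_congr F fun ω i => by ring

lemma nrA_tri (f g h : Ω → I → ℝ) : nrA F (fun ω i => f ω i - h ω i) ≤
    nrA F (fun ω i => f ω i - g ω i) + nrA F (fun ω i => g ω i - h ω i) :=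
  le_trans (le_of_eq (nrA_congr F fun ω i => by ring)) (nrA_add_le F _ _)

lemma nrA_le_of_abs_le [Nonempty Ω] {f : Ω → I → ℝ} {c : ℝ} (hc : 0 ≤ c)
    (h : ∀ ω i, |f ω i| ≤ c) : nrA F f ≤ c := by
  rw [nrA_le_iff F hc]
  refine F.Ex_le_of_le fun ω => av_le_of_le' (sq_nonneg c) fun i => ?_
  exact sq_le_sq.2 (by rw [abs_of_nonneg hc]; exact h ω i)

lemma nrA_mul_le {f g : Ω → I → ℝ} {c : ℝ} (hc : 0 ≤ c) (h : ∀ ω i, |g ω i| ≤ c) :
    nrA F (fun ω i => f ω i * g ω i) ≤ nrA F f * c := by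
  have := nrA_smul F c f
  rw [abs_of_nonneg hc] at this
  rw [mul_comm, ← this]
  refine nrA_mono F fun ω i => ?_
  rw [abs_mul, abs_mul, abs_of_nonneg hc, mul_comm]
  exact mul_le_mul_of_nonneg_right (h ω i) (abs_nonneg _)

lemma nrA_cE_le (d : ℕ) (f : Ω → I → ℝ) : nrA F (cE F d f) ≤ nrA F f := by
  refine Real.sqrt_le_sqrt ?_
  unfold nrm2
  rw [F.Ex_av, F.Ex_av]
  refine av_mono fun i => ?_
  rw [← F.Ex_E d (fun ω => f ω i ^ 2)]
  exact F.Ex_mono fun ω => F.sq_E_le d (fun x => f x i) ω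

lemma decA_cE_sub (d : ℕ) (f g : Ω → I → ℝ) (ω : Ω) (i : I) :
    cE F d (fun ω i => f ω i - g ω i) ω i = cE F d f ω i - cE F d g ω i :=
  F.E_sub d (fun x => f x i) (fun x => g x i) ω

lemma decA_cE_add (d : ℕ) (f g : Ω → I → ℝ) (ω : Ω) (i : I) :
    cE F d (fun ω i => f ω i + g ω i) ω i = cE F d f ω i + cE F d g ω i :=
  F.E_add d (fun x => f x i) (fun x => g x i) ω

lemma decA_cE_smul (d : ℕ) (c : ℝ) (f : Ω → I → ℝ) (ω : Ω) (i : I) :
    cE F d (fun ω i => c * f ω i) ω i = c * cE F d f ω i :=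
  F.E_const_mul d c (fun x => f x i) ω

lemma decA_cE_sum (d : ℕ) {κ : Type*} (S : Finset κ) (f : κ → Ω → I → ℝ) (ω : Ω) (i : I) :
    cE F d (fun ω i => ∑ t ∈ S, f t ω i) ω i = ∑ t ∈ S, cE F d (f t) ω i :=
  F.E_sum d S (fun t x => f t x i) ω

lemma decA_cE_cE {d e : ℕ} (h : d ≤ e) (f : Ω → I → ℝ) : cE F d (cE F e f) = cE F d f :=
  funext fun ω => funext fun i => F.E_E_of_le h (fun x => f x i) ω

lemma decA_cE_cE' {d e : ℕ} (h : d ≤ e) (f : Ω → I → ℝ) : cE F e (cE F d f) = cE F d f :=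
  funext fun ω => funext fun i => F.E_E_of_ge h (fun x => f x i) ω

lemma decA_meas_cE (d : ℕ) (f : Ω → I → ℝ) (i : I) : F.Meas d fun ω => cE F d f ω i :=
  F.meas_E d fun x => f x i

lemma decA_cE_of_meas {d : ℕ} {f : Ω → I → ℝ} (hf : ∀ i, F.Meas d fun ω => f ω i) :
    cE F d f = f :=
  funext fun ω => funext fun i => F.E_of_meas (hf i) ω

lemma decA_abs_cE_le (d : ℕ) {f : Ω → I → ℝ} {c : ℝ} (h : ∀ ω i, |f ω i| ≤ c) (ω : Ω) (i : I) :
    |cE F d f ω i| ≤ c :=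
  F.abs_E_le_of_le d (fun x => h x i) ω

lemma decA_cE_mem (d : ℕ) {f : Ω → I → ℝ} {c : ℝ} (h : ∀ ω i, 0 ≤ f ω i ∧ f ω i ≤ c) (ω : Ω)
    (i : I) : 0 ≤ cE F d f ω i ∧ cE F d f ω i ≤ c :=
  ⟨F.E_nonneg d (fun x => (h x i).1) ω, F.E_le_of_le d (fun x => (h x i).2) ω⟩

/-! ### Chains -/

/-- iterate `Phi ∘ cE` downwards from level `e` -/
noncomputable def chainA (γ : ℝ) (e : ℕ) (W : Ω → I → ℝ) (k : ℕ) : Ω → I → ℝ :=
  Nat.rec W (fun k z ω i => Phi γ (cE F (e - (k + 1)) z ω i)) k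

lemma chainA_zero (γ : ℝ) (e : ℕ) (W : Ω → I → ℝ) : chainA F γ e W 0 = W := rfl

lemma chainA_succ (γ : ℝ) (e : ℕ) (W : Ω → I → ℝ) (k : ℕ) (ω : Ω) (i : I) :
    chainA F γ e W (k + 1) ω i = Phi γ (cE F (e - (k + 1)) (chainA F γ e W k) ω i) := rfl

variable {γ : ℝ} {e : ℕ} {μ : ℝ}

lemma chainA_mem (h0 : 0 < γ) (h1 : γ ≤ 1) (hμ : μ ≤ 1 / 2) {W : Ω → I → ℝ}
    (hW : ∀ ω i, 0 ≤ W ω i ∧ W ω i ≤ μ) (k : ℕ) :
    ∀ ω i, 0 ≤ chainA F γ e W k ω i ∧ chainA F γ e W k ω i ≤ μ := by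
  induction k with
  | zero => exact hW
  | succ k ih =>
    intro ω i
    obtain ⟨a, b⟩ := decA_cE_mem F (e - (k + 1)) ih ω i
    rw [chainA_succ]
    exact ⟨decA_Phi_nonneg h0 a (b.trans hμ), (decA_Phi_le h1 a (b.trans hμ)).trans b⟩

lemma chainA_first (h0 : 0 < γ) (h1 : γ ≤ 1) (hμ : μ ≤ 1 / 2) {W : Ω → I → ℝ}
    (hW : ∀ ω i, 0 ≤ W ω i ∧ W ω i ≤ μ) (hm : ∀ i, F.Meas e fun ω => W ω i) (k : ℕ) :
    ∀ ω i, |chainA F γ e W k ω i - γ ^ k * cE F (e - k) W ω i| ≤ 6 * μ ^ 2 := by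
  induction k with
  | zero =>
    intro ω i
    rw [Nat.sub_zero, decA_cE_of_meas F hm, chainA_zero]
    simp only [pow_zero, one_mul, sub_self, abs_zero]
    positivity
  | succ k ih =>
    intro ω i
    obtain ⟨a, b⟩ := decA_cE_mem F (e - (k + 1)) (chainA_mem F (e := e) h0 h1 hμ hW k) ω i
    have e1 := decA_Phi_first h0 h1 a (b.trans hμ)
    have e2 := decA_abs_cE_le F (e - (k + 1)) ih ω i
    rw [decA_cE_sub, decA_cE_smul, decA_cE_cE F (by omega)] at e2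
    rw [chainA_succ]
    set w := cE F (e - (k + 1)) (chainA F γ e W k) ω i
    set v := cE F (e - (k + 1)) W ω i
    have e3 : 6 * (1 - γ) * w ^ 2 ≤ 6 * (1 - γ) * μ ^ 2 :=
      mul_le_mul_of_nonneg_left (pow_le_pow_left₀ a b 2) (by linarith)
    have e4 : |γ * (w - γ ^ k * v)| ≤ γ * (6 * μ ^ 2) := by
      rw [abs_mul, abs_of_pos h0]; exact mul_le_mul_of_nonneg_left e2 h0.le
    have e5 : Phi γ w - γ ^ (k + 1) * v = (Phi γ w - γ * w) + γ * (w - γ ^ k * v) := by ring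
    rw [e5]
    refine (abs_add_le _ _).trans ?_
    linarith

/-- one step of a chainA, to second order -/
lemma chainA_step (h0 : 0 < γ) (h1 : γ ≤ 1) (hμ : μ ≤ 1 / 2) {W : Ω → I → ℝ}
    (hW : ∀ ω i, 0 ≤ W ω i ∧ W ω i ≤ μ) (hm : ∀ i, F.Meas e fun ω => W ω i) (k : ℕ) (ω : Ω)
    (i : I) :
    |chainA F γ e W (k + 1) ω i - γ * cE F (e - (k + 1)) (chainA F γ e W k) ω i -
      γ * (1 - γ) / 2 * (γ ^ k * cE F (e - (k + 1)) W ω i) ^ 2| ≤ 16 * (1 - γ) * μ ^ 3 := by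
  obtain ⟨a, b⟩ := decA_cE_mem F (e - (k + 1)) (chainA_mem F (e := e) h0 h1 hμ hW k) ω i
  obtain ⟨a', b'⟩ := decA_cE_mem F (e - (k + 1)) hW ω i
  have e1 := decA_Phi_second h0 h1 a (b.trans hμ)
  have e2 := decA_abs_cE_le F (e - (k + 1)) (chainA_first F h0 h1 hμ hW hm k) ω i
  rw [decA_cE_sub, decA_cE_smul, decA_cE_cE F (by omega)] at e2
  rw [chainA_succ]
  set w := cE F (e - (k + 1)) (chainA F γ e W k) ω i
  set v := cE F (e - (k + 1)) W ω i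
  have hμ0 : 0 ≤ μ := a.trans b
  have hδ : 0 ≤ 1 - γ := by linarith
  have e3 : 10 * (1 - γ) * w ^ 3 ≤ 10 * (1 - γ) * μ ^ 3 :=
    mul_le_mul_of_nonneg_left (pow_le_pow_left₀ a b 3) (by linarith)
  have hk : γ ^ k ≤ 1 := pow_le_one₀ h0.le h1
  have hk0 : 0 ≤ γ ^ k := by positivity
  have e4 : 0 ≤ γ ^ k * v := mul_nonneg hk0 a'
  have e5 : γ ^ k * v ≤ μ := by nlinarith
  have e6 : |w ^ 2 - (γ ^ k * v) ^ 2| ≤ 12 * μ ^ 3 := by
    have : w ^ 2 - (γ ^ k * v) ^ 2 = (w - γ ^ k * v) * (w + γ ^ k * v) := by ring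
    rw [this, abs_mul, abs_of_nonneg (add_nonneg a e4)]
    calc |w - γ ^ k * v| * (w + γ ^ k * v) ≤ (6 * μ ^ 2) * (2 * μ) :=
          mul_le_mul e2 (by linarith) (add_nonneg a e4) (by positivity)
      _ = _ := by ring
  have e7 : |γ * (1 - γ) / 2 * (w ^ 2 - (γ ^ k * v) ^ 2)| ≤ 6 * (1 - γ) * μ ^ 3 := by
    rw [abs_mul, abs_of_nonneg (show 0 ≤ γ * (1 - γ) / 2 by positivity)]
    calc γ * (1 - γ) / 2 * |w ^ 2 - (γ ^ k * v) ^ 2| ≤ (1 - γ) / 2 * (12 * μ ^ 3) :=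
          mul_le_mul (by nlinarith) e6 (abs_nonneg _) (by positivity)
      _ = _ := by ring
  have e8 : Phi γ w - γ * w - γ * (1 - γ) / 2 * (γ ^ k * v) ^ 2 =
      (Phi γ w - γ * w - γ * (1 - γ) / 2 * w ^ 2) +
        γ * (1 - γ) / 2 * (w ^ 2 - (γ ^ k * v) ^ 2) := by ring
  rw [e8]
  refine (abs_add_le _ _).trans ?_
  linarith

lemma chainA_second (h0 : 0 < γ) (h1 : γ ≤ 1) (hμ : μ ≤ 1 / 2) {Wa Wb : Ω → I → ℝ}
    (ha : ∀ ω i, 0 ≤ Wa ω i ∧ Wa ω i ≤ μ / 2) (hb : ∀ ω i, 0 ≤ Wb ω i ∧ Wb ω i ≤ μ / 2)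
    (hma : ∀ i, F.Meas e fun ω => Wa ω i) (hmb : ∀ i, F.Meas e fun ω => Wb ω i) (hμ0 : 0 ≤ μ)
    (k : ℕ) : ∀ ω i,
    |chainA F γ e (fun ω i => Wa ω i + Wb ω i) k ω i - chainA F γ e Wa k ω i - chainA F γ e Wb k ω i
      - ∑ j ∈ range k, (1 - γ) * γ ^ (k + j) * cE F (e - k)
        (fun ω i => cE F (e - (j + 1)) Wa ω i * cE F (e - (j + 1)) Wb ω i) ω i| ≤ 48 * μ ^ 3 := by
  have ha' : ∀ ω i, 0 ≤ Wa ω i ∧ Wa ω i ≤ μ := fun ω i => ⟨(ha ω i).1, by linarith [(ha ω i).2]⟩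
  have hb' : ∀ ω i, 0 ≤ Wb ω i ∧ Wb ω i ≤ μ := fun ω i => ⟨(hb ω i).1, by linarith [(hb ω i).2]⟩
  have hab : ∀ ω i, 0 ≤ Wa ω i + Wb ω i ∧ Wa ω i + Wb ω i ≤ μ := fun ω i =>
    ⟨add_nonneg (ha ω i).1 (hb ω i).1, by linarith [(ha ω i).2, (hb ω i).2]⟩
  induction k with
  | zero =>
    intro ω i
    simp only [chainA_zero, Finset.range_zero, Finset.sum_empty, sub_zero, add_sub_cancel_left,
      sub_self, abs_zero]
    positivity
  | succ k ih =>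
    intro ω i
    have e1 := chainA_step F h0 h1 hμ hab (fun i => (hma i).add (hmb i)) k ω i
    have e2 := chainA_step F h0 h1 hμ ha' hma k ω i
    have e3 := chainA_step F h0 h1 hμ hb' hmb k ω i
    have e4 := decA_abs_cE_le F (e - (k + 1)) ih ω i
    rw [decA_cE_sub, decA_cE_sub, decA_cE_sub, decA_cE_sum] at e4
    simp only [decA_cE_smul] at e4
    rw [decA_cE_add] at e1
    have e5 : ∀ j, cE F (e - (k + 1)) (cE F (e - k)
        (fun ω i => cE F (e - (j + 1)) Wa ω i * cE F (e - (j + 1)) Wb ω i)) =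
        cE F (e - (k + 1)) (fun ω i => cE F (e - (j + 1)) Wa ω i * cE F (e - (j + 1)) Wb ω i) :=
      fun j => decA_cE_cE F (by omega) _
    have e5' : ∀ j, cE F (e - (k + 1)) (fun ω i => cE F (e - k)
        (fun ω i => cE F (e - (j + 1)) Wa ω i * cE F (e - (j + 1)) Wb ω i) ω i) =
        cE F (e - (k + 1)) (fun ω i => cE F (e - (j + 1)) Wa ω i * cE F (e - (j + 1)) Wb ω i) := e5
    simp only [e5'] at e4
    have e6 : cE F (e - (k + 1))
        (fun ω i => cE F (e - (k + 1)) Wa ω i * cE F (e - (k + 1)) Wb ω i) ω i =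
        cE F (e - (k + 1)) Wa ω i * cE F (e - (k + 1)) Wb ω i := by
      rw [decA_cE_of_meas F fun i => (decA_meas_cE F _ Wa i).mul (decA_meas_cE F _ Wb i)]
    rw [Finset.sum_range_succ, e6]
    have e7 : ∑ j ∈ range k, (1 - γ) * γ ^ (k + 1 + j) * cE F (e - (k + 1))
        (fun ω i => cE F (e - (j + 1)) Wa ω i * cE F (e - (j + 1)) Wb ω i) ω i =
        γ * ∑ j ∈ range k, (1 - γ) * γ ^ (k + j) * cE F (e - (k + 1))
        (fun ω i => cE F (e - (j + 1)) Wa ω i * cE F (e - (j + 1)) Wb ω i) ω i := by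
      rw [Finset.mul_sum]
      exact Finset.sum_congr rfl fun j _ => by ring
    rw [e7]
    set S := ∑ j ∈ range k, (1 - γ) * γ ^ (k + j) * cE F (e - (k + 1))
        (fun ω i => cE F (e - (j + 1)) Wa ω i * cE F (e - (j + 1)) Wb ω i) ω i
    set A := cE F (e - (k + 1)) Wa ω i
    set B := cE F (e - (k + 1)) Wb ω i
    set wab := cE F (e - (k + 1)) (chainA F γ e (fun ω i => Wa ω i + Wb ω i) k) ω i
    set wa := cE F (e - (k + 1)) (chainA F γ e Wa k) ω i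
    set wb := cE F (e - (k + 1)) (chainA F γ e Wb k) ω i
    have e8 : |γ * (wab - wa - wb - S)| ≤ γ * (48 * μ ^ 3) := by
      rw [abs_mul, abs_of_pos h0]; exact mul_le_mul_of_nonneg_left e4 h0.le
    have e9 : (1 - γ) * γ ^ (k + 1 + k) * (A * B) =
        γ * (1 - γ) / 2 * (γ ^ k * (A + B)) ^ 2 - γ * (1 - γ) / 2 * (γ ^ k * A) ^ 2
          - γ * (1 - γ) / 2 * (γ ^ k * B) ^ 2 := by ring
    rw [e9]
    obtain ⟨a1, b1⟩ := abs_le.1 e1
    obtain ⟨a2, b2⟩ := abs_le.1 e2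
    obtain ⟨a3, b3⟩ := abs_le.1 e3
    obtain ⟨a8, b8⟩ := abs_le.1 e8
    rw [abs_le]; constructor <;> linarith

end

/-! ### Sets of digits -/

lemma decA_dens_univ (R : ℕ) : dens (univ : Finset (Fin (R + 1))) = 1 := by
  unfold dens
  rw [Finset.card_univ, Fintype.card_fin]
  push_cast
  exact div_self (by positivity)

lemma decA_dens_empty (R : ℕ) : dens (∅ : Finset (Fin (R + 1))) = 0 := by simp [dens]

lemma decA_dens_nonneg {R : ℕ} (A : Finset (Fin (R + 1))) : 0 ≤ dens A := by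
  unfold dens; positivity

lemma decA_dens_add_le {R : ℕ} {A B : Finset (Fin (R + 1))} (h : Disjoint A B) :
    dens A + dens B ≤ 1 := by
  unfold dens
  rw [← add_div, div_le_one (by positivity)]
  have h1 := Finset.card_le_univ (A ∪ B)
  rw [Finset.card_union_of_disjoint h, Fintype.card_fin] at h1
  exact_mod_cast h1

lemma decA_av_ind_mem {R : ℕ} (A : Finset (Fin (R + 1))) :
    (av fun t : Fin (R + 1) => ind (t ∈ A)) = dens A := by
  unfold av dens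
  simp only [ind_eq_ite]
  rw [Finset.sum_boole, Fintype.card_fin]
  simp

lemma decA_exists_digits {l : ℝ} (hl0 : 0 < l) (hl : l ≤ 1 / 2) :
    ∃ R₀ : ℕ, ∀ R, R₀ ≤ R → ∃ A B : Finset (Fin (R + 1)), Disjoint A B ∧ dens B = dens A ∧
      l / 2 ≤ dens A ∧ dens A ≤ l := by
  refine ⟨⌈2 / l⌉₊, fun R hR => ?_⟩
  have hN : (0 : ℝ) < R + 1 := by positivity
  have h1 : 2 / l ≤ R + 1 := by
    have := Nat.le_ceil (2 / l)
    have : (⌈2 / l⌉₊ : ℝ) ≤ R := by exact_mod_cast hR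
    linarith
  have h2 : 2 ≤ l * (R + 1) := by rwa [div_le_iff₀' hl0] at h1
  set k := ⌊l * (R + 1)⌋₊ with hk
  have h3 : (k : ℝ) ≤ l * (R + 1) := Nat.floor_le (by positivity)
  have h4 : l * (R + 1) < k + 1 := Nat.lt_floor_add_one _
  have h5 : 2 * k ≤ R + 1 := by
    have : (2 * k : ℝ) ≤ R + 1 := by nlinarith
    exact_mod_cast this
  obtain ⟨A, -, hA⟩ := Finset.exists_subset_card_eq (s := (univ : Finset (Fin (R + 1)))) (n := k)
    (by rw [Finset.card_univ, Fintype.card_fin]; omega)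
  obtain ⟨B, hBA, hB⟩ := Finset.exists_subset_card_eq (s := Aᶜ) (n := k)
    (by rw [Finset.card_compl, Fintype.card_fin, hA]; omega)
  refine ⟨A, B, ?_, by unfold dens; rw [hA, hB], ?_, ?_⟩
  · exact Finset.disjoint_left.2 fun x hx hx' => Finset.mem_compl.1 (hBA hx') hx
  · unfold dens; rw [hA, le_div_iff₀ hN]; nlinarith
  · unfold dens; rw [hA, div_le_iff₀ hN]; exact h3

end Crest.Agent.R153
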