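import Mathlib
import Crest.Agent.R153.DecAAux

/-!
Row 153, decoupling, part A: generated observables and approximation by them.
-/

set_option autoImplicit false
set_option linter.unusedSectionVars false

namespace Crest.Agent.R153

open Finset

section
variable {Ω I : Type} [Fintype Ω] [Fintype I] {D : ℕ} {F : Filt Ω D} {s : Ω → I → Bool} {γ : ℝ}
  {R : ℕ}

theorem Gen.le_top {e : ℕ} {y : Ω → I → ℝ} (h : Gen F s γ R e y) : e ≤ D := by
  cases h with
  | top t => exact le_rfl
  | mix he => exact he.le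

theorem Gen.mem (h0 : 0 < γ) (h1 : γ ≤ 1) {e : ℕ} {y : Ω → I → ℝ} (h : Gen F s γ R e y)
    (ω : Ω) (i : I) : 0 ≤ y ω i ∧ y ω i ≤ 1 / 2 := by
  induction h generalizing ω i with
  | top t =>
    have h1 := ind_nonneg (s ω i = t)
    have h2 := ind_le_one (s ω i = t)
    constructor <;> linarith
  | @mix e he ya yb ha hb A B hAB iha ihb =>
    have hA := decA_dens_nonneg A
    have hB := decA_dens_nonneg B
    have hAB' := decA_dens_add_le hAB
    obtain ⟨a, b⟩ := decA_cE_mem F e (f := fun x j => dens A * ya x j + dens B * yb x j)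
      (c := 1 / 2) (fun x j => by
        obtain ⟨a1, a2⟩ := iha x j
        obtain ⟨b1, b2⟩ := ihb x j
        constructor
        · positivity
        · nlinarith) ω i
    exact ⟨decA_Phi_nonneg h0 a b, (decA_Phi_le h1 a b).trans b⟩

theorem Gen.meas {e : ℕ} {y : Ω → I → ℝ} (h : Gen F s γ R e y) (i : I) :
    F.Meas e fun ω => y ω i := by
  cases h with
  | top t => exact F.meas_top le_rfl _
  | mix he ha hb A B hAB => exact (decA_meas_cE F e _ i).comp (Phi γ)

lemma decA_Q_local {Ω' : Type} [Fintype Ω'] (G : Filt Ω' D) (γ' : ℕ → ℝ) (e : ℕ)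
    (V V' : Ω' → ℝ) : ∀ d, d ≤ e → ∀ x, (∀ x', G.rel d x x' → V x' = V' x') →
      G.Q γ' e V d x = G.Q γ' e V' d x := by
  refine Filt.down_induction ?_ ?_
  · intro x hx
    rw [G.Q_self, G.Q_self]
    exact hx x (G.refl _ _)
  · intro d hd ih x hx
    rw [G.Q_succ γ' hd, G.Q_succ γ' hd]
    congr 1
    exact G.E_congr_rel d x fun x' hx' => ih x' fun x'' hx'' => hx x'' (G.trans hx' (G.mono hx''))

lemma decA_E_digit {e : ℕ} (he : e < D) (A : Finset (Fin (R + 1))) (u : U D R) :
    (UF D R).E e (fun u' => ind (u' ⟨e + 1, by omega⟩ ∈ A)) u = dens A := by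
  have h := Filt.mor_eval (fun j : Fin (D + 1) => Filt.coin (Fin (R + 1)) D j) ⟨e + 1, by omega⟩
    e (fun t => ind (t ∈ A)) u
  rw [Filt.E_coin_of_lt (by simp) he, decA_av_ind_mem] at h
  exact h

/-- Every generated observable is produced by a term reading only the digits below level `e`. -/
theorem Gen.realize (h0 : 0 < γ) (h1 : γ ≤ 1) {e : ℕ} {y : Ω → I → ℝ} (h : Gen F s γ R e y) :
    ∃ g : U D R → Bool → Bool,
      (∀ u u' : U D R, (∀ j : Fin (D + 1), e < (j : ℕ) → u j = u' j) → g u = g u') ∧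
      ∀ (ω : Ω) (i : I) (u : U D R),
        (F.prod (UF D R)).Q (fun _ => γ) D
          (fun x => 1 - (if g x.2 (s x.1 i) then 1 / 2 else 0)) e (ω, u) = 1 - y ω i := by
  classical
  induction h with
  | top t =>
    refine ⟨fun _ b => decide (b = t), fun _ _ _ => rfl, fun ω i u => ?_⟩
    rw [Filt.Q_self]
    by_cases hs : s ω i = t
    · simp [hs, ind_pos]
    · simp [hs, ind_neg]
  | @mix e he ya yb ha hb A B hAB iha ihb =>
    obtain ⟨ga, hga, hQa⟩ := iha
    obtain ⟨gb, hgb, hQb⟩ := ihb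
    let j₀ : Fin (D + 1) := ⟨e + 1, by omega⟩
    refine ⟨fun u => if u j₀ ∈ A then ga u else if u j₀ ∈ B then gb u else fun _ => false,
      fun u u' hu => ?_, fun ω i u => ?_⟩
    · have e0 : u j₀ = u' j₀ := hu j₀ (by simp [j₀])
      have e1 : ga u = ga u' := hga u u' fun j hj => hu j (by omega)
      have e2 : gb u = gb u' := hgb u u' fun j hj => hu j (by omega)
      simp only [e0, e1, e2]
    · rw [Filt.Q_succ _ _ he]
      have key : ∀ x : Ω × U D R, (F.prod (UF D R)).Q (fun _ => γ) D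
          (fun x => 1 - (if (if x.2 j₀ ∈ A then ga x.2 else if x.2 j₀ ∈ B then gb x.2
            else fun _ => false) (s x.1 i) then (1 / 2 : ℝ) else 0)) (e + 1) x =
          1 - (ya x.1 i * ind (x.2 j₀ ∈ A) + yb x.1 i * ind (x.2 j₀ ∈ B)) := by
        rintro ⟨ω', u'⟩
        have hrel : ∀ x' : Ω × U D R, (F.prod (UF D R)).rel (e + 1) (ω', u') x' →
            x'.2 j₀ = u' j₀ := fun x' hx' => (hx'.2 j₀ (Or.inl le_rfl)).symm
        by_cases hA : u' j₀ ∈ A
        · have hB : u' j₀ ∉ B := Finset.disjoint_left.1 hAB hA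
          rw [ind_pos hA, ind_neg hB, mul_one, mul_zero, add_zero, ← hQa ω' i u']
          refine decA_Q_local _ _ _ _ _ _ he _ fun x' hx' => ?_
          simp only [hrel x' hx', hA, if_true]
        · by_cases hB : u' j₀ ∈ B
          · rw [ind_neg hA, ind_pos hB, mul_one, mul_zero, zero_add, ← hQb ω' i u']
            refine decA_Q_local _ _ _ _ _ _ he _ fun x' hx' => ?_
            simp only [hrel x' hx', hA, hB, if_true, if_false]
          · rw [ind_neg hA, ind_neg hB, mul_zero, mul_zero, add_zero, sub_zero,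
              decA_Q_local _ _ _ _ (fun _ => 1) _ he _ fun x' hx' => by
                simp [hrel x' hx', hA, hB],
              Filt.Q_const _ _ he one_pos, Real.one_rpow]
      rw [Filt.E_congr _ e key, Filt.E_sub, Filt.E_const, Filt.E_add,
        Filt.E_prod_mul F (UF D R) e (fun ω => ya ω i) (fun u => ind (u j₀ ∈ A)),
        Filt.E_prod_mul F (UF D R) e (fun ω => yb ω i) (fun u => ind (u j₀ ∈ B)),
        decA_E_digit he, decA_E_digit he]
      beta_reduce
      rw [decA_cE_add, decA_cE_smul, decA_cE_smul]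
      unfold Phi cE
      rw [sub_sub_cancel, mul_comm (dens A), mul_comm (dens B)]

theorem Approx.mono {e : ℕ} {P : Ω → I → ℝ} {η η' K K' : ℝ} (h : Approx F s γ R e P η K)
    (hη0 : 0 ≤ η) (hη : η ≤ η') (hK : K ≤ K') : Approx F s γ R e P η' K' := by
  obtain ⟨n, c, y, hy, hc, hn⟩ := h
  exact ⟨n, c, y, hy, hc.trans hK, hn.trans (pow_le_pow_left₀ hη0 hη 2)⟩

/-- Changing the target by `η'` in `L²`. -/
theorem Approx.of_close {e : ℕ} {P P' : Ω → I → ℝ} {η η' K : ℝ} (h : Approx F s γ R e P η K)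
    (hη : 0 ≤ η) (hη' : 0 ≤ η') (hP : nrm2 F (fun ω i => P' ω i - P ω i) ≤ η' ^ 2) :
    Approx F s γ R e P' (η + η') K := by
  obtain ⟨n, c, y, hy, hc, hn⟩ := h
  refine ⟨n, c, y, hy, hc, (nrA_le_iff F (add_nonneg hη hη')).1 ?_⟩
  have h1 := (nrA_le_iff F hη).2 hn
  have h2 := (nrA_le_iff F hη').2 hP
  have h3 := nrA_tri F P' P (fun ω i => ∑ α, c α * y α ω i)
  linarith

theorem approx_spin (t : Bool) : Approx F s γ R D (fun ω i => ind (s ω i = t)) 0 2 := by
  refine ⟨1, fun _ => 2, fun _ ω i => (1 / 2) * ind (s ω i = t), fun _ => Gen.top t, by simp, ?_⟩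
  refine (nrA_le_iff F le_rfl).1 (le_of_eq ?_)
  rw [← nrA_zero F (I := I)]
  exact nrA_congr F fun ω i => by simp

theorem approx_one_top : Approx F s γ R D (fun _ _ => 1) 0 4 := by
  refine ⟨2, fun _ => 2, fun α ω i => (1 / 2) * ind (s ω i = decide (α = 0)),
    fun _ => Gen.top _, by norm_num, ?_⟩
  refine (nrA_le_iff F le_rfl).1 (le_of_eq ?_)
  rw [← nrA_zero F (I := I)]
  refine nrA_congr F fun ω i => ?_
  cases hs : s ω i <;> simp [Fin.sum_univ_two, hs, ind_pos, ind_neg]

lemma decA_approx_of_fintype {e : ℕ} {P : Ω → I → ℝ} {η K : ℝ} (hη : 0 ≤ η) (κ : Type)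
    [Fintype κ] (c : κ → ℝ) (y : κ → Ω → I → ℝ) (hy : ∀ α, Gen F s γ R e (y α))
    (hc : ∑ α, |c α| ≤ K) (hn : nrA F (fun ω i => P ω i - ∑ α, c α * y α ω i) ≤ η) :
    Approx F s γ R e P η K := by
  let φ := (Fintype.equivFin κ).symm
  refine ⟨Fintype.card κ, fun α => c (φ α), fun α => y (φ α), fun α => hy _, ?_, ?_⟩
  · rw [Equiv.sum_comp φ fun α => |c α|]; exact hc
  · refine (nrA_le_iff F hη).1 (le_trans (le_of_eq (nrA_congr F fun ω i => ?_)) hn)
    rw [Equiv.sum_comp φ fun α => c α * y α ω i]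

lemma decA_gen_chain {e' : ℕ} {ya yb : Ω → I → ℝ} (ha : Gen F s γ R e' ya)
    (hb : Gen F s γ R e' yb) (A B : Finset (Fin (R + 1))) (hAB : Disjoint A B)
    {W : Ω → I → ℝ} (hW : ∀ ω i, W ω i = dens A * ya ω i + dens B * yb ω i) (k : ℕ)
    (hk : k + 1 ≤ e') : Gen F s γ R (e' - (k + 1)) (chainA F γ e' W (k + 1)) := by
  have hD := ha.le_top
  induction k with
  | zero =>
    obtain rfl : W = fun ω i => dens A * ya ω i + dens B * yb ω i :=
      funext fun ω => funext fun i => hW ω i
    have e1 : e' - (0 + 1) + 1 = e' := by omega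
    exact Gen.mix (e := e' - (0 + 1)) (by omega) (e1.symm ▸ ha) (e1.symm ▸ hb) A B hAB
  | succ k ih =>
    have h1 := ih (by omega)
    have e1 : e' - (k + 1 + 1) + 1 = e' - (k + 1) := by omega
    have h2 := Gen.mix (e := e' - (k + 1 + 1)) (by omega) (e1.symm ▸ h1) (e1.symm ▸ h1)
      univ ∅ (Finset.disjoint_empty_right _)
    simp only [decA_dens_univ, decA_dens_empty, one_mul, zero_mul, add_zero] at h2
    exact h2

lemma decA_abs_comb_le (h0 : 0 < γ) (h1 : γ ≤ 1) {e n : ℕ} {c : Fin n → ℝ}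
    {y : Fin n → Ω → I → ℝ} (hy : ∀ α, Gen F s γ R e (y α)) {K : ℝ} (hc : ∑ α, |c α| ≤ K)
    (ω : Ω) (i : I) : |∑ α, c α * y α ω i| ≤ K := by
  refine (Finset.abs_sum_le_sum_abs _ _).trans (le_trans (Finset.sum_le_sum fun α _ => ?_) hc)
  obtain ⟨a, b⟩ := (hy α).mem h0 h1 ω i
  rw [abs_mul, abs_of_nonneg a]
  have := abs_nonneg (c α)
  nlinarith

end

/-- Conditional expectations of approximable observables are approximable. -/
theorem approx_cond (m : ℝ) (hm : 0 < m) (K η₀ : ℝ) (hη₀ : 0 < η₀) :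
    ∃ (K' : ℝ) (R₀ : ℕ), ∀ (Ω I : Type) [Fintype Ω] [Nonempty Ω] [Fintype I] [Nonempty I] (D : ℕ)
      (F : Filt Ω D) (s : Ω → I → Bool) (γ : ℝ) (R e e' : ℕ) (P : Ω → I → ℝ) (η : ℝ),
      0 < γ → γ ≤ 1 → m ≤ γ ^ D → R₀ ≤ R → e < e' → e' ≤ D → 0 ≤ η →
      Approx F s γ R e' P η K → Approx F s γ R e (cE F e P) (η + η₀) K' := by
  have hK : 0 < |K| + 1 := by positivity
  set l := min (1 / 2) (η₀ * m / (6 * (|K| + 1))) with hl
  have hl0 : 0 < l := lt_min (by norm_num) (by positivity)
  obtain ⟨R₀, hR₀⟩ := decA_exists_digits hl0 (min_le_left _ _)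
  refine ⟨|K| / (l / 2 * m), R₀, ?_⟩
  intro Ω I _ _ _ _ D F s γ R e e' P η h0 h1 hmD hR hee he' hη hP
  obtain ⟨n, c, y, hy, hc, hn⟩ := hP
  obtain ⟨A, B, -, -, hA1, hA2⟩ := hR₀ R hR
  obtain ⟨k, rfl⟩ : ∃ k, e' = e + (k + 1) := ⟨e' - e - 1, by omega⟩
  have hsub : e + (k + 1) - (k + 1) = e := by omega
  set lam := dens A with hlam
  have hlam0 : 0 < lam := by linarith
  have hlam1 : lam ≤ 1 / 2 := hA2.trans (min_le_left _ _)
  have hγk : m ≤ γ ^ (k + 1) := hmD.trans (pow_le_pow_of_le_one h0.le h1 (by omega))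
  have hγk0 : 0 < γ ^ (k + 1) := by positivity
  have hcK : ∑ α, |c α| ≤ |K| := hc.trans (le_abs_self K)
  refine decA_approx_of_fintype (by linarith) (Fin n) (fun α => c α / (lam * γ ^ (k + 1)))
    (fun α => chainA F γ (e + (k + 1)) (fun ω i => lam * y α ω i) (k + 1)) (fun α => ?_) ?_ ?_
  · have := decA_gen_chain (hy α) (hy α) A ∅ (Finset.disjoint_empty_right _)
      (W := fun ω i => lam * y α ω i) (fun ω i => by rw [decA_dens_empty]; ring) k (by omega)
    rwa [hsub] at this
  · simp only [abs_div, abs_of_pos (mul_pos hlam0 hγk0)]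
    rw [← Finset.sum_div]
    exact div_le_div₀ (abs_nonneg K) hcK (by positivity)
      (mul_le_mul hA1 hγk hm.le hlam0.le)
  · have t1 := nrA_tri F (cE F e P) (cE F e fun ω i => ∑ α, c α * y α ω i)
      (fun ω i => ∑ α, c α / (lam * γ ^ (k + 1)) *
        chainA F γ (e + (k + 1)) (fun ω i => lam * y α ω i) (k + 1) ω i)
    have t2 : nrA F (fun ω i => cE F e P ω i - cE F e (fun ω i => ∑ α, c α * y α ω i) ω i) ≤ η := by
      refine le_trans (le_of_eq (nrA_congr F fun ω i => (decA_cE_sub F e _ _ ω i).symm)) ?_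
      exact (nrA_cE_le F e _).trans ((nrA_le_iff F hη).2 hn)
    have t3 : nrA F (fun ω i => cE F e (fun ω i => ∑ α, c α * y α ω i) ω i -
        ∑ α, c α / (lam * γ ^ (k + 1)) *
          chainA F γ (e + (k + 1)) (fun ω i => lam * y α ω i) (k + 1) ω i) ≤ η₀ := by
      refine nrA_le_of_abs_le F hη₀.le fun ω i => ?_
      rw [decA_cE_sum, ← Finset.sum_sub_distrib]
      refine (Finset.abs_sum_le_sum_abs _ _).trans ?_
      have hb : ∀ α, |cE F e (fun ω i => c α * y α ω i) ω i - c α / (lam * γ ^ (k + 1)) *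
          chainA F γ (e + (k + 1)) (fun ω i => lam * y α ω i) (k + 1) ω i| ≤
          |c α| * (6 * l / m) := by
        intro α
        have f1 := chainA_first F (e := e + (k + 1)) h0 h1 hlam1
          (W := fun ω i => lam * y α ω i) (fun ω i => by
            obtain ⟨a, b⟩ := (hy α).mem h0 h1 ω i
            constructor
            · positivity
            · nlinarith) (fun i => (F.meas_const _ lam).mul ((hy α).meas i)) (k + 1) ω i
        rw [hsub, decA_cE_smul] at f1
        rw [decA_cE_smul]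
        have f2 : c α * cE F e (y α) ω i - c α / (lam * γ ^ (k + 1)) *
            chainA F γ (e + (k + 1)) (fun ω i => lam * y α ω i) (k + 1) ω i =
            -(c α * ((chainA F γ (e + (k + 1)) (fun ω i => lam * y α ω i) (k + 1) ω i -
              γ ^ (k + 1) * (lam * cE F e (y α) ω i)) / (lam * γ ^ (k + 1)))) := by
          field_simp
          ring
        rw [f2, abs_neg, abs_mul, abs_div, abs_of_pos (mul_pos hlam0 hγk0)]
        refine mul_le_mul_of_nonneg_left ?_ (abs_nonneg _)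
        calc _ ≤ 6 * lam ^ 2 / (lam * m) := div_le_div₀ (by positivity) f1 (by positivity)
              (mul_le_mul_of_nonneg_left hγk hlam0.le)
          _ = 6 * lam / m := by field_simp
          _ ≤ 6 * l / m := by gcongr
      refine (Finset.sum_le_sum fun α _ => hb α).trans ?_
      rw [← Finset.sum_mul]
      have f3 : l ≤ η₀ * m / (6 * (|K| + 1)) := min_le_right _ _
      rw [le_div_iff₀ (by positivity)] at f3
      calc (∑ α, |c α|) * (6 * l / m) ≤ (|K| + 1) * (6 * l / m) :=
            mul_le_mul_of_nonneg_right (by linarith) (by positivity)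
        _ = l * (6 * (|K| + 1)) / m := by ring
        _ ≤ η₀ := by rw [div_le_iff₀ hm]; exact f3
    linarith

/-- Products of conditional expectations are approximable at the start of a window of
macroscopic length `ρ` over which the two martingales move little. -/
theorem approx_mul (m ρ : ℝ) (hm : 0 < m) (hρ : 0 < ρ) (Ka Kb η₀ : ℝ) (hη₀ : 0 < η₀) :
    ∃ (K' : ℝ) (R₀ : ℕ), ∀ (Ω I : Type) [Fintype Ω] [Nonempty Ω] [Fintype I] [Nonempty I] (D : ℕ)
      (F : Filt Ω D) (s : Ω → I → Bool) (γ : ℝ) (R e e' : ℕ) (Pa Pb : Ω → I → ℝ)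
      (ηa ηb ηw : ℝ),
      0 < γ → γ < 1 → m ≤ γ ^ D → R₀ ≤ R → e < e' → e' ≤ D →
      ρ ≤ ((e' : ℝ) - e) * (1 - γ) → 0 ≤ ηa → 0 ≤ ηb → 0 ≤ ηw →
      (∀ ω i, |Pa ω i| ≤ 1) → (∀ ω i, |Pb ω i| ≤ 1) →
      Approx F s γ R e' Pa ηa Ka → Approx F s γ R e' Pb ηb Kb →
      nrm2 F (fun ω i => Pa ω i - cE F e Pa ω i) ≤ ηw ^ 2 →
      nrm2 F (fun ω i => Pb ω i - cE F e Pb ω i) ≤ ηw ^ 2 →
      Approx F s γ R e (fun ω i => cE F e Pa ω i * cE F e Pb ω i)
        (ηa * Kb + ηb + 2 * ηw + η₀) K' := by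
  have hK : 0 < |Ka| * |Kb| + 1 := by positivity
  set l := min (1 / 2) (η₀ * (ρ * m ^ 2) / (48 * (|Ka| * |Kb| + 1))) with hl
  have hl0 : 0 < l := lt_min (by norm_num) (by positivity)
  obtain ⟨R₀, hR₀⟩ := decA_exists_digits hl0 (min_le_left _ _)
  refine ⟨3 * (|Ka| * |Kb| / ((l / 2) ^ 2 * (ρ * m ^ 2))), R₀, ?_⟩
  intro Ω I _ _ _ _ D F s γ R e e' Pa Pb ηa ηb ηw h0 h1' hmD hR hee he' hρ' hηa hηb hηw hPa1 hPb1
    hPa hPb hwa hwb
  have h1 := h1'.le
  obtain ⟨na, ca, ya, hya, hca, hna⟩ := hPa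
  obtain ⟨nb, cb, yb, hyb, hcb, hnb⟩ := hPb
  obtain ⟨A, B, hAB, hBA, hA1, hA2⟩ := hR₀ R hR
  obtain ⟨k, rfl⟩ : ∃ k, e' = e + (k + 1) := ⟨e' - e - 1, by omega⟩
  have hsub : e + (k + 1) - (k + 1) = e := by omega
  set lam := dens A with hlam
  have hlam0 : 0 < lam := by linarith
  have hlam1 : lam ≤ 1 / 2 := hA2.trans (min_le_left _ _)
  have hKb0 : 0 ≤ Kb := (Finset.sum_nonneg fun _ _ => abs_nonneg _).trans hcb
  have hδ : 0 < 1 - γ := by linarith
  -- weights
  set om : ℕ → ℝ := fun j => (1 - γ) * γ ^ (k + 1 + j) with hom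
  have hom0 : ∀ j, 0 ≤ om j := fun j => by simp only [hom]; positivity
  set Om := ∑ j ∈ range (k + 1), om j with hOm
  have hOm1 : ρ * m ^ 2 ≤ Om := by
    have e1 : ∀ j ∈ range (k + 1), (1 - γ) * m ^ 2 ≤ om j := by
      intro j hj
      have hj' := Finset.mem_range.1 hj
      refine mul_le_mul_of_nonneg_left ?_ hδ.le
      rw [pow_add, sq]
      exact mul_le_mul (hmD.trans (pow_le_pow_of_le_one h0.le h1 (by omega)))
        (hmD.trans (pow_le_pow_of_le_one h0.le h1 (by omega))) hm.le (by positivity)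
    have e2 := Finset.sum_le_sum e1
    rw [Finset.sum_const, Finset.card_range, nsmul_eq_mul] at e2
    refine le_trans ?_ e2
    push_cast at hρ' ⊢
    rw [← mul_assoc]
    refine mul_le_mul_of_nonneg_right (hρ'.trans (le_of_eq ?_)) (by positivity)
    ring
  have hOm0 : 0 < Om := lt_of_lt_of_le (by positivity) hOm1
  have hden : 0 < lam ^ 2 * Om := by positivity
  set Qa : Ω → I → ℝ := fun ω i => ∑ α, ca α * ya α ω i with hQa
  set Qb : Ω → I → ℝ := fun ω i => ∑ β, cb β * yb β ω i with hQb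
  have hab : ∑ α, ∑ β, |ca α| * |cb β| ≤ |Ka| * |Kb| := by
    rw [← Finset.sum_mul_sum]
    exact mul_le_mul (hca.trans (le_abs_self _)) (hcb.trans (le_abs_self _))
      (Finset.sum_nonneg fun _ _ => abs_nonneg _) (abs_nonneg _)
  let za : Fin na → Ω → I → ℝ := fun α =>
    chainA F γ (e + (k + 1)) (fun ω i => lam * ya α ω i) (k + 1)
  let zb : Fin nb → Ω → I → ℝ := fun β =>
    chainA F γ (e + (k + 1)) (fun ω i => lam * yb β ω i) (k + 1)
  let zab : Fin na → Fin nb → Ω → I → ℝ := fun α β =>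
    chainA F γ (e + (k + 1)) (fun ω i => lam * ya α ω i + lam * yb β ω i) (k + 1)
  refine decA_approx_of_fintype (by positivity) (Fin na × Fin nb × Fin 3)
    (fun x => ca x.1 * cb x.2.1 / (lam ^ 2 * Om) * ![1, -1, -1] x.2.2)
    (fun x => ![zab x.1 x.2.1, za x.1, zb x.2.1] x.2.2) ?_ ?_ ?_
  · rintro ⟨α, β, t⟩
    fin_cases t
    · have := decA_gen_chain (hya α) (hyb β) A B hAB
        (W := fun ω i => lam * ya α ω i + lam * yb β ω i) (fun ω i => by rw [hBA]) k (by omega)
      rwa [hsub] at this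
    · have := decA_gen_chain (hya α) (hya α) A ∅ (Finset.disjoint_empty_right _)
        (W := fun ω i => lam * ya α ω i) (fun ω i => by rw [decA_dens_empty]; ring) k (by omega)
      rwa [hsub] at this
    · have := decA_gen_chain (hyb β) (hyb β) A ∅ (Finset.disjoint_empty_right _)
        (W := fun ω i => lam * yb β ω i) (fun ω i => by rw [decA_dens_empty]; ring) k (by omega)
      rwa [hsub] at this
  · have e1 : ∑ x : Fin na × Fin nb × Fin 3,
        |ca x.1 * cb x.2.1 / (lam ^ 2 * Om) * (![1, -1, -1] : Fin 3 → ℝ) x.2.2| =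
        3 * ((∑ α, ∑ β, |ca α| * |cb β|) / (lam ^ 2 * Om)) := by
      rw [Fintype.sum_prod_type, Finset.sum_div, Finset.mul_sum _ _ (3 : ℝ)]
      refine Finset.sum_congr rfl fun α _ => ?_
      rw [Fintype.sum_prod_type, Finset.sum_div, Finset.mul_sum _ _ (3 : ℝ)]
      refine Finset.sum_congr rfl fun β _ => ?_
      simp only [Fin.sum_univ_three, abs_mul, abs_div, abs_of_pos hden]
      simp
      ring
    rw [e1]
    refine mul_le_mul_of_nonneg_left (div_le_div₀ (by positivity) hab (by positivity) ?_)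
      (by norm_num)
    exact mul_le_mul (pow_le_pow_left₀ (by positivity) hA1 2) hOm1 (by positivity) (by positivity)
  · -- the main estimate
    set G : ℕ → Ω → I → ℝ := fun j ω i =>
      cE F (e + (k + 1) - (j + 1)) Qa ω i * cE F (e + (k + 1) - (j + 1)) Qb ω i with hG
    set T : Ω → I → ℝ := fun ω i => cE F e Pa ω i * cE F e Pb ω i with hT
    have hTm : cE F e T = T :=
      decA_cE_of_meas F fun i => (decA_meas_cE F _ Pa i).mul (decA_meas_cE F _ Pb i)
    have t1 := nrA_tri F T (fun ω i => ∑ j ∈ range (k + 1), om j / Om * cE F e (G j) ω i)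
      (fun ω i => ∑ x : Fin na × Fin nb × Fin 3,
        ca x.1 * cb x.2.1 / (lam ^ 2 * Om) * (![1, -1, -1] : Fin 3 → ℝ) x.2.2 *
          (![zab x.1 x.2.1, za x.1, zb x.2.1] : Fin 3 → Ω → I → ℝ) x.2.2 ω i)
    have t2 : ∀ j ∈ range (k + 1), nrA F (fun ω i => T ω i - G j ω i) ≤
        ηa * Kb + ηb + 2 * ηw := by
      intro j hj
      have hj' := Finset.mem_range.1 hj
      have hd : e ≤ e + (k + 1) - (j + 1) := by omega
      set d := e + (k + 1) - (j + 1)
      have s1 : nrA F (fun ω i => cE F d Pa ω i - cE F e Pa ω i) ≤ ηw := by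
        refine le_trans (le_of_eq (nrA_congr F fun ω i => ?_))
          ((nrA_cE_le F d _).trans ((nrA_le_iff F hηw).2 hwa))
        rw [decA_cE_sub F d Pa (cE F e Pa), decA_cE_cE' F hd]
      have s2 : nrA F (fun ω i => cE F d Pb ω i - cE F e Pb ω i) ≤ ηw := by
        refine le_trans (le_of_eq (nrA_congr F fun ω i => ?_))
          ((nrA_cE_le F d _).trans ((nrA_le_iff F hηw).2 hwb))
        rw [decA_cE_sub F d Pb (cE F e Pb), decA_cE_cE' F hd]
      have s3 : nrA F (fun ω i => cE F d Pa ω i - cE F d Qa ω i) ≤ ηa :=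
        le_trans (le_of_eq (nrA_congr F fun ω i => (decA_cE_sub F d Pa Qa ω i).symm))
          ((nrA_cE_le F d _).trans ((nrA_le_iff F hηa).2 hna))
      have s4 : nrA F (fun ω i => cE F d Pb ω i - cE F d Qb ω i) ≤ ηb :=
        le_trans (le_of_eq (nrA_congr F fun ω i => (decA_cE_sub F d Pb Qb ω i).symm))
          ((nrA_cE_le F d _).trans ((nrA_le_iff F hηb).2 hnb))
      have r1 := nrA_mul_le F (f := fun ω i => cE F d Pa ω i - cE F e Pa ω i) (g := cE F e Pb)
        zero_le_one (decA_abs_cE_le F e hPb1)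
      have r2 := nrA_mul_le F (f := fun ω i => cE F d Pb ω i - cE F e Pb ω i) (g := cE F d Pa)
        zero_le_one (decA_abs_cE_le F d hPa1)
      have r3 := nrA_mul_le F (f := fun ω i => cE F d Pa ω i - cE F d Qa ω i) (g := cE F d Qb)
        hKb0 (decA_abs_cE_le F d (decA_abs_comb_le h0 h1 hyb hcb))
      have r4 := nrA_mul_le F (f := fun ω i => cE F d Pb ω i - cE F d Qb ω i) (g := cE F d Pa)
        zero_le_one (decA_abs_cE_le F d hPa1)
      have r3' := mul_le_mul_of_nonneg_right s3 hKb0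
      have u1 := nrA_add_le F (fun ω i => (cE F d Pa ω i - cE F e Pa ω i) * cE F e Pb ω i)
        (fun ω i => (cE F d Pb ω i - cE F e Pb ω i) * cE F d Pa ω i)
      have u2 := nrA_add_le F (fun ω i => (cE F d Pa ω i - cE F d Qa ω i) * cE F d Qb ω i)
        (fun ω i => (cE F d Pb ω i - cE F d Qb ω i) * cE F d Pa ω i)
      have u3 := nrA_tri F T (fun ω i => cE F d Pa ω i * cE F d Pb ω i) (G j)
      have u4 : nrA F (fun ω i => T ω i - cE F d Pa ω i * cE F d Pb ω i) =
          nrA F (fun ω i => (cE F d Pa ω i - cE F e Pa ω i) * cE F e Pb ω i +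
            (cE F d Pb ω i - cE F e Pb ω i) * cE F d Pa ω i) := by
        rw [nrA_sub_comm]
        exact nrA_congr F fun ω i => by simp only [hT]; ring
      have u5 : nrA F (fun ω i => cE F d Pa ω i * cE F d Pb ω i - G j ω i) =
          nrA F (fun ω i => (cE F d Pa ω i - cE F d Qa ω i) * cE F d Qb ω i +
            (cE F d Pb ω i - cE F d Qb ω i) * cE F d Pa ω i) :=
        nrA_congr F fun ω i => by simp only [hG]; ring
      linarith
    have t3 : nrA F (fun ω i => T ω i - ∑ j ∈ range (k + 1), om j / Om * cE F e (G j) ω i) ≤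
        ηa * Kb + ηb + 2 * ηw := by
      have e1 : nrA F (fun ω i => T ω i - ∑ j ∈ range (k + 1), om j / Om * cE F e (G j) ω i) =
          nrA F (fun ω i => ∑ j ∈ range (k + 1),
            om j / Om * cE F e (fun ω i => T ω i - G j ω i) ω i) := by
        refine nrA_congr F fun ω i => ?_
        simp only [decA_cE_sub F e T, hTm, mul_sub, Finset.sum_sub_distrib]
        rw [← Finset.sum_mul, ← Finset.sum_div, div_self hOm0.ne', one_mul]
      rw [e1]
      refine (nrA_sum_le F _ _).trans ?_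
      calc ∑ j ∈ range (k + 1), nrA F (fun ω i =>
            om j / Om * cE F e (fun ω i => T ω i - G j ω i) ω i)
          ≤ ∑ j ∈ range (k + 1), om j / Om * (ηa * Kb + ηb + 2 * ηw) := by
            refine Finset.sum_le_sum fun j hj => ?_
            rw [nrA_smul, abs_of_nonneg (div_nonneg (hom0 j) hOm0.le)]
            exact mul_le_mul_of_nonneg_left ((nrA_cE_le F e _).trans (t2 j hj))
              (div_nonneg (hom0 j) hOm0.le)
        _ = _ := by rw [← Finset.sum_mul, ← Finset.sum_div, div_self hOm0.ne', one_mul]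
    have t4 : nrA F (fun ω i => (∑ j ∈ range (k + 1), om j / Om * cE F e (G j) ω i) -
        ∑ x : Fin na × Fin nb × Fin 3,
        ca x.1 * cb x.2.1 / (lam ^ 2 * Om) * (![1, -1, -1] : Fin 3 → ℝ) x.2.2 *
          (![zab x.1 x.2.1, za x.1, zb x.2.1] : Fin 3 → Ω → I → ℝ) x.2.2 ω i) ≤ η₀ := by
      refine nrA_le_of_abs_le F hη₀.le fun ω i => ?_
      let H : Fin na → Fin nb → ℕ → ℝ := fun α β j => cE F e (fun ω i =>
        cE F (e + (k + 1) - (j + 1)) (ya α) ω i * cE F (e + (k + 1) - (j + 1)) (yb β) ω i) ω i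
      have e1 : ∀ j, cE F e (G j) ω i = ∑ α, ∑ β, ca α * cb β * H α β j := by
        intro j
        have : G j = fun ω i => ∑ α, ∑ β, ca α * cb β *
            (cE F (e + (k + 1) - (j + 1)) (ya α) ω i * cE F (e + (k + 1) - (j + 1)) (yb β) ω i) := by
          funext ω i
          simp only [hG, hQa, hQb]
          rw [decA_cE_sum, decA_cE_sum, Finset.sum_mul_sum]
          refine Finset.sum_congr rfl fun α _ => Finset.sum_congr rfl fun β _ => ?_
          rw [decA_cE_smul, decA_cE_smul]; ring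
        rw [this, decA_cE_sum]
        refine Finset.sum_congr rfl fun α _ => ?_
        rw [decA_cE_sum]
        refine Finset.sum_congr rfl fun β _ => ?_
        rw [decA_cE_smul]
      have e2 : (∑ j ∈ range (k + 1), om j / Om * cE F e (G j) ω i) -
          ∑ x : Fin na × Fin nb × Fin 3,
          ca x.1 * cb x.2.1 / (lam ^ 2 * Om) * (![1, -1, -1] : Fin 3 → ℝ) x.2.2 *
            (![zab x.1 x.2.1, za x.1, zb x.2.1] : Fin 3 → Ω → I → ℝ) x.2.2 ω i =
          ∑ α, ∑ β, -(ca α * cb β * ((zab α β ω i - za α ω i - zb β ω i -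
            ∑ j ∈ range (k + 1), om j * (lam ^ 2 * H α β j)) / (lam ^ 2 * Om))) := by
        simp only [e1, Finset.mul_sum]
        rw [Finset.sum_comm, Fintype.sum_prod_type, ← Finset.sum_sub_distrib]
        refine Finset.sum_congr rfl fun α _ => ?_
        rw [Finset.sum_comm, Fintype.sum_prod_type, ← Finset.sum_sub_distrib]
        refine Finset.sum_congr rfl fun β _ => ?_
        have e3 : ∑ j ∈ range (k + 1), om j / Om * (ca α * cb β * H α β j) =
            ca α * cb β * ((∑ j ∈ range (k + 1), om j * (lam ^ 2 * H α β j)) / (lam ^ 2 * Om)) := by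
          rw [Finset.sum_div, Finset.mul_sum]
          refine Finset.sum_congr rfl fun j _ => ?_
          field_simp
        rw [e3]
        simp only [Fin.sum_univ_three, Matrix.cons_val_zero, Matrix.cons_val_one,
          Matrix.cons_val_two, Matrix.head_cons, Matrix.tail_cons]
        ring
      rw [e2]
      have hb : ∀ α β, |-(ca α * cb β * ((zab α β ω i - za α ω i - zb β ω i -
            ∑ j ∈ range (k + 1), om j * (lam ^ 2 * H α β j)) / (lam ^ 2 * Om)))| ≤
          |ca α| * |cb β| * (48 * l / (ρ * m ^ 2)) := by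
        intro α β
        have f1 := chainA_second F (e := e + (k + 1)) h0 h1 hlam1
          (Wa := fun ω i => lam * ya α ω i) (Wb := fun ω i => lam * yb β ω i)
          (fun ω i => by
            obtain ⟨a, b⟩ := (hya α).mem h0 h1 ω i
            constructor
            · positivity
            · nlinarith)
          (fun ω i => by
            obtain ⟨a, b⟩ := (hyb β).mem h0 h1 ω i
            constructor
            · positivity
            · nlinarith)
          (fun i => (F.meas_const _ lam).mul ((hya α).meas i))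
          (fun i => (F.meas_const _ lam).mul ((hyb β).meas i)) hlam0.le (k + 1) ω i
        rw [hsub] at f1
        have f2 : ∀ j, cE F e (fun ω i =>
            cE F (e + (k + 1) - (j + 1)) (fun ω i => lam * ya α ω i) ω i *
            cE F (e + (k + 1) - (j + 1)) (fun ω i => lam * yb β ω i) ω i) ω i =
            lam ^ 2 * H α β j := by
          intro j
          simp only [decA_cE_smul, H]
          rw [← decA_cE_smul]
          congr 1
          funext ω i; ring
        simp only [f2] at f1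
        rw [abs_neg, abs_mul, abs_mul, abs_div, abs_of_pos hden]
        refine mul_le_mul_of_nonneg_left ?_ (by positivity)
        calc _ ≤ 48 * lam ^ 3 / (lam ^ 2 * (ρ * m ^ 2)) :=
              div_le_div₀ (by positivity) f1 (by positivity)
                (mul_le_mul_of_nonneg_left hOm1 (by positivity))
          _ = 48 * lam / (ρ * m ^ 2) := by field_simp
          _ ≤ 48 * l / (ρ * m ^ 2) := by gcongr
      refine (Finset.abs_sum_le_sum_abs _ _).trans ?_
      refine (Finset.sum_le_sum fun α _ => (Finset.abs_sum_le_sum_abs _ _).trans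
        (Finset.sum_le_sum fun β _ => hb α β)).trans ?_
      simp only [← Finset.sum_mul]
      have f3 : l ≤ η₀ * (ρ * m ^ 2) / (48 * (|Ka| * |Kb| + 1)) := min_le_right _ _
      rw [le_div_iff₀ (by positivity)] at f3
      calc (∑ α, ∑ β, |ca α| * |cb β|) * (48 * l / (ρ * m ^ 2))
          ≤ (|Ka| * |Kb| + 1) * (48 * l / (ρ * m ^ 2)) :=
            mul_le_mul_of_nonneg_right (by linarith) (by positivity)
        _ = l * (48 * (|Ka| * |Kb| + 1)) / (ρ * m ^ 2) := by ring
        _ ≤ η₀ := by rw [div_le_iff₀ (by positivity)]; exact f3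
    linarith

end Crest.Agent.R153
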