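import Mathlib
import Crest.Agent.R153.DecDefs

/-!
Row 153, decoupling, part C1: first-order expansion of the tilting densities of a weight that is
close to `1` above level `e`.
-/

set_option autoImplicit false

namespace Crest.Agent.R153

open Finset

lemma decC_abs_Phi_le {γ w : ℝ} (h0 : 0 < γ) (h1 : γ ≤ 1) (hw : w < 1) : |Phi γ w| ≤ |w| := by
  unfold Phi
  rcases le_total 0 w with h | h
  · have a1 : (1 - w) ^ γ ≤ 1 := Real.rpow_le_one (by linarith) (by linarith) h0.le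
    have a2 : 1 - w ≤ (1 - w) ^ γ := Real.self_le_rpow_of_le_one (by linarith) (by linarith) h1
    rw [abs_of_nonneg h, abs_of_nonneg (by linarith)]; linarith
  · have a1 : 1 ≤ (1 - w) ^ γ := Real.one_le_rpow (by linarith) h0.le
    have a2 : (1 - w) ^ γ ≤ 1 - w := Real.rpow_le_self_of_one_le (by linarith) h1
    rw [abs_of_nonpos h, abs_of_nonpos (by linarith)]; linarith

lemma decC_abs_Phi_sub_le {γ w : ℝ} (h0 : 0 < γ) (h1 : γ ≤ 1) (hw : |w| ≤ 1 / 2) :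
    |Phi γ w - γ * w| ≤ 2 * (1 - γ) * w ^ 2 := by
  obtain ⟨hw1, hw2⟩ := abs_le.1 hw
  unfold Phi
  have a1 : (1 - w) ^ γ ≤ 1 - γ * w := by
    have := rpow_one_add_le_one_add_mul_self (s := -w) (by linarith) h0.le h1
    simpa [sub_eq_add_neg] using this
  have a2 : (1 - w) ^ (1 - γ) ≤ 1 - (1 - γ) * w := by
    have := rpow_one_add_le_one_add_mul_self (s := -w) (p := 1 - γ) (by linarith)
      (by linarith) (by linarith)
    simpa [sub_eq_add_neg] using this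
  have hpos : 0 < 1 - w := by linarith
  have a3 : (1 - w) ^ γ * (1 - w) ^ (1 - γ) = 1 - w := by
    rw [← Real.rpow_add hpos]; simp
  have a4 : 0 < (1 - w) ^ γ := Real.rpow_pos_of_pos hpos _
  have a5 : 1 - w ≤ (1 - w) ^ γ * (1 - (1 - γ) * w) := by
    exact a3.symm.le.trans (mul_le_mul_of_nonneg_left a2 a4.le)
  have hd : 0 < 1 - (1 - γ) * w := by nlinarith
  have a6 : 1 - γ * w - 2 * (1 - γ) * w ^ 2 ≤ (1 - w) ^ γ := by
    by_contra hc
    push Not at hc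
    have := mul_lt_mul_of_pos_right hc hd
    have h7 : 0 ≤ (1 - γ) * w ^ 2 * (2 - γ - 2 * (1 - γ) * w) :=
      mul_nonneg (mul_nonneg (by linarith) (sq_nonneg _)) (by nlinarith)
    nlinarith
  have : 0 ≤ 2 * (1 - γ) * w ^ 2 := mul_nonneg (by linarith) (sq_nonneg _)
  rw [abs_le]; constructor <;> linarith

/-- First-order expansion of a product of negative powers. -/
lemma decC_prod_rpow_approx {ι : Type*} (S : Finset ι) (c w u : ι → ℝ) {h lam : ℝ} (hh : 1 ≤ h)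
    (hl0 : 0 ≤ lam) (hl : 2 * h * lam ≤ 1) (hc : ∀ j ∈ S, 0 ≤ c j) (hs : ∑ j ∈ S, c j ≤ h)
    (hw : ∀ j ∈ S, |w j| ≤ lam) (hu : ∀ j ∈ S, |w j - u j| ≤ 4 * lam ^ 2) :
    |∏ j ∈ S, (1 - w j) ^ (-c j) - 1 - ∑ j ∈ S, c j * u j| ≤ 10 * h ^ 2 * lam ^ 2 := by
  have hl2 : lam ≤ 1 / 2 := by nlinarith
  have hpos : ∀ j ∈ S, 0 < 1 - w j := fun j hj => by
    have := (abs_le.1 (hw j hj)).2; linarith
  set z := ∑ j ∈ S, c j * (-Real.log (1 - w j)) with hz
  have h1 : ∏ j ∈ S, (1 - w j) ^ (-c j) = Real.exp z := by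
    rw [hz, Real.exp_sum]
    refine Finset.prod_congr rfl fun j hj => ?_
    rw [Real.rpow_def_of_pos (hpos j hj)]; congr 1; ring
  have hlog : ∀ j ∈ S, |-Real.log (1 - w j) - w j| ≤ 2 * lam ^ 2 := by
    intro j hj
    have hwj := hw j hj
    have h := Real.abs_log_sub_add_sum_range_le (x := w j) (by linarith) 1
    simp only [Finset.range_one, Finset.sum_singleton, zero_add, pow_one, Nat.cast_zero,
      div_one] at h
    have h2 : |w j| ^ (1 + 1) / (1 - |w j|) ≤ 2 * lam ^ 2 := by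
      rw [div_le_iff₀ (by linarith)]
      have : |w j| ^ (1 + 1) ≤ lam ^ 2 := pow_le_pow_left₀ (abs_nonneg _) hwj 2
      nlinarith [sq_nonneg lam]
    calc _ = |w j + Real.log (1 - w j)| := by rw [← abs_neg]; congr 1; ring
      _ ≤ _ := h.trans h2
  have wsum : ∀ (f : ι → ℝ) (B : ℝ), 0 ≤ B → (∀ j ∈ S, |f j| ≤ B) →
      |∑ j ∈ S, c j * f j| ≤ h * B := by
    intro f B hB hf
    calc _ ≤ ∑ j ∈ S, |c j * f j| := Finset.abs_sum_le_sum_abs _ _
      _ ≤ ∑ j ∈ S, c j * B := Finset.sum_le_sum fun j hj => by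
          rw [abs_mul, abs_of_nonneg (hc j hj)]
          exact mul_le_mul_of_nonneg_left (hf j hj) (hc j hj)
      _ ≤ h * B := by rw [← Finset.sum_mul]; exact mul_le_mul_of_nonneg_right hs hB
  have hz1 : |z| ≤ h * (2 * lam) := wsum _ _ (by positivity) fun j hj => by
    have h1 := abs_le.1 (hlog j hj)
    have h2 := abs_le.1 (hw j hj)
    rw [abs_le]; constructor <;> nlinarith
  have hz2 : |z - ∑ j ∈ S, c j * u j| ≤ h * (6 * lam ^ 2) := by
    rw [hz, ← Finset.sum_sub_distrib]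
    simp only [← mul_sub]
    refine wsum _ _ (by positivity) fun j hj => ?_
    have h1 := abs_le.1 (hlog j hj)
    have h2 := abs_le.1 (hu j hj)
    rw [abs_le]; constructor <;> linarith
  have hz3 : |Real.exp z - 1 - z| ≤ z ^ 2 := Real.abs_exp_sub_one_sub_id_le (by linarith)
  have hz4 : z ^ 2 ≤ (h * (2 * lam)) ^ 2 := by
    rw [← sq_abs z]; exact pow_le_pow_left₀ (abs_nonneg _) hz1 2
  rw [h1]
  calc _ = |(Real.exp z - 1 - z) + (z - ∑ j ∈ S, c j * u j)| := by congr 1; ring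
    _ ≤ (h * (2 * lam)) ^ 2 + h * (6 * lam ^ 2) :=
        (abs_add_le _ _).trans (add_le_add (hz3.trans hz4) hz2)
    _ ≤ _ := by
        have h9 : 0 ≤ h * (h - 1) * lam ^ 2 :=
          mul_nonneg (mul_nonneg (by linarith) (by linarith)) (sq_nonneg lam)
        nlinarith

lemma decC_delta_mul_le {m γ : ℝ} {D : ℕ} (hm : 0 < m) (h0 : 0 < γ) (hD : m ≤ γ ^ D) :
    (1 - γ) * D ≤ -Real.log m := by
  have h1 : Real.log m ≤ D * Real.log γ := by
    rw [← Real.log_pow]; exact Real.log_le_log hm hD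
  have h2 : Real.log γ ≤ γ - 1 := Real.log_le_sub_one_of_pos h0
  have h3 : (0 : ℝ) ≤ D := Nat.cast_nonneg D
  nlinarith

section
variable {Ω : Type} [Fintype Ω] {D : ℕ} (G : Filt Ω D) {γ : ℝ} {V : Ω → ℝ}

/-- Locality of the nested powers. -/
lemma decC_Q_congr_rel (γ : ℕ → ℝ) (e d : ℕ) {V W : Ω → ℝ} (ω : Ω)
    (h : ∀ ω', G.rel d ω ω' → V ω' = W ω') : G.Q γ e V d ω = G.Q γ e W d ω := by
  rcases le_total e d with hd | hd
  · rw [G.Q_of_le γ hd, G.Q_of_le γ hd]; exact h ω (G.refl d ω)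
  · have key : ∀ j, j ≤ e → d ≤ j → ∀ ω', G.rel d ω ω' → G.Q γ e V j ω' = G.Q γ e W j ω' := by
      refine Filt.down_induction (fun _ ω' hr => by simpa using h ω' hr) fun j hj ih hdj ω' hr => ?_
      rw [G.Q_succ γ hj, G.Q_succ γ hj]
      congr 1
      exact G.E_congr_rel j ω' fun ω'' hr' => ih (by omega) ω'' (G.trans hr (G.rel_mono hdj hr'))
    exact key d hd le_rfl ω (G.refl d ω)

/-- The defect of the conditional expectation of the nested power. -/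
noncomputable def decCw (G : Filt Ω D) (γ : ℝ) (V : Ω → ℝ) (j : ℕ) (ω : Ω) : ℝ :=
  1 - G.E j (G.Q (fun _ => γ) D V (j + 1)) ω

lemma decC_one_sub_Q {j : ℕ} (hj : j < D) (ω : Ω) :
    1 - G.Q (fun _ => γ) D V j ω = Phi γ (decCw G γ V j ω) := by
  rw [G.Q_succ _ hj]; simp [Phi, decCw]

lemma decCw_lt_one (hV : ∀ ω, 0 < V ω) (j : ℕ) (ω : Ω) : decCw G γ V j ω < 1 := by
  have := G.E_pos j (G.Q_pos (fun _ => γ) D hV (j + 1)) ω
  unfold decCw; linarith

lemma decCw_eq (j : ℕ) (ω : Ω) :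
    decCw G γ V j ω = G.E j (fun x => 1 - G.Q (fun _ => γ) D V (j + 1) x) ω := by
  rw [G.E_sub]; simp [decCw]

lemma decC_abs_w_le (h0 : 0 < γ) (h1 : γ ≤ 1) (hV : ∀ ω, 0 < V ω) {e : ℕ} (he : e < D) {lam : ℝ}
    (hw : ∀ ω, |decCw G γ V e ω| ≤ lam) : ∀ j, j ≤ e → ∀ ω, |decCw G γ V j ω| ≤ lam := by
  refine Filt.down_induction hw fun j hj ih ω => ?_
  rw [decCw_eq]
  refine G.abs_E_le_of_le j (fun x => ?_) ω
  rw [decC_one_sub_Q G (by omega)]
  exact (decC_abs_Phi_le h0 h1 (decCw_lt_one G hV _ _)).trans (ih x)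

lemma decC_abs_one_sub_pm_le [Nonempty Ω] (h0 : 0 < γ) (h1 : γ ≤ 1) (hV : ∀ ω, 0 < V ω)
    (hD : 0 < D) {lam : ℝ} (hw : ∀ ω, |decCw G γ V 0 ω| ≤ lam) :
    |1 - G.pm (fun _ => γ) V| ≤ lam := by
  have : 1 - G.pm (fun _ => γ) V = G.Ex fun x => 1 - G.Q (fun _ => γ) D V 0 x := by
    rw [G.Ex_sub]; simp [Filt.pm]
  rw [this]
  refine (G.abs_Ex_le _).trans (G.Ex_le_of_le fun x => ?_)
  rw [decC_one_sub_Q G hD]
  exact (decC_abs_Phi_le h0 h1 (decCw_lt_one G hV _ _)).trans (hw x)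

lemma decC_w_lin (h0 : 0 < γ) (h1 : γ ≤ 1) (hV : ∀ ω, 0 < V ω) {e : ℕ} (he : e < D) {lam : ℝ}
    (hl : lam ≤ 1 / 2) (hw : ∀ ω, |decCw G γ V e ω| ≤ lam) {Z : Ω → ℝ}
    (hZ : ∀ ω, |decCw G γ V e ω - G.E e Z ω| ≤ 2 * lam ^ 2) :
    ∀ j, j ≤ e → ∀ ω, |decCw G γ V j ω - γ ^ (e - j) * G.E j Z ω| ≤ 2 * lam ^ 2 := by
  refine Filt.down_induction (by simpa using hZ) fun j hj ih ω => ?_
  have hwj := decC_abs_w_le G h0 h1 hV he hw (j + 1) hj
  have : decCw G γ V j ω - γ ^ (e - j) * G.E j Z ω = G.E j (fun x =>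
      (Phi γ (decCw G γ V (j + 1) x) - γ * decCw G γ V (j + 1) x) +
        γ * (decCw G γ V (j + 1) x - γ ^ (e - (j + 1)) * G.E (j + 1) Z x)) ω := by
    have h2 : e - j = (e - (j + 1)) + 1 := by omega
    rw [decCw_eq, G.E_congr j (decC_one_sub_Q G (by omega : j + 1 < D)),
      ← G.E_E_of_le (Nat.le_succ j) Z, ← G.E_const_mul, ← G.E_sub, h2]
    exact G.E_congr j (fun x => by ring) ω
  rw [this]
  refine G.abs_E_le_of_le j (fun x => ?_) ω
  have a1 := decC_abs_Phi_sub_le h0 h1 ((hwj x).trans hl)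
  have a2 : decCw G γ V (j + 1) x ^ 2 ≤ lam ^ 2 := by
    rw [← sq_abs]; exact pow_le_pow_left₀ (abs_nonneg _) (hwj x) 2
  have a3 : |γ * (decCw G γ V (j + 1) x - γ ^ (e - (j + 1)) * G.E (j + 1) Z x)| ≤
      γ * (2 * lam ^ 2) := by
    rw [abs_mul, abs_of_pos h0]; exact mul_le_mul_of_nonneg_left (ih x) h0.le
  refine (abs_add_le _ _).trans ?_
  nlinarith [mul_le_mul_of_nonneg_left a2 (by linarith : 0 ≤ 1 - γ)]

lemma decC_pm_lin [Nonempty Ω] (h0 : 0 < γ) (h1 : γ ≤ 1) (hD : 0 < D) {lam c : ℝ}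
    (hl : lam ≤ 1 / 2) (hw : ∀ ω, |decCw G γ V 0 ω| ≤ lam) {Z : Ω → ℝ}
    (hZ : ∀ ω, |decCw G γ V 0 ω - c * G.E 0 Z ω| ≤ 2 * lam ^ 2) :
    |1 - G.pm (fun _ => γ) V - γ * c * G.Ex Z| ≤ 2 * lam ^ 2 := by
  have : 1 - G.pm (fun _ => γ) V - γ * c * G.Ex Z = G.Ex fun x =>
      (Phi γ (decCw G γ V 0 x) - γ * decCw G γ V 0 x) +
        γ * (decCw G γ V 0 x - c * G.E 0 Z x) := by
    have h2 : 1 - G.pm (fun _ => γ) V = G.Ex fun x => 1 - G.Q (fun _ => γ) D V 0 x := by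
      rw [G.Ex_sub]; simp [Filt.pm]
    rw [h2, G.Ex_congr (decC_one_sub_Q G hD), ← G.Ex_E 0 Z, ← G.Ex_const_mul, ← G.Ex_sub]
    exact G.Ex_congr fun x => by ring
  rw [this]
  refine (G.abs_Ex_le _).trans (G.Ex_le_of_le fun x => ?_)
  have a1 := decC_abs_Phi_sub_le h0 h1 ((hw x).trans hl)
  have a2 : decCw G γ V 0 x ^ 2 ≤ lam ^ 2 := by
    rw [← sq_abs]; exact pow_le_pow_left₀ (abs_nonneg _) (hw x) 2
  have a3 : |γ * (decCw G γ V 0 x - c * G.E 0 Z x)| ≤ γ * (2 * lam ^ 2) := by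
    rw [abs_mul, abs_of_pos h0]; exact mul_le_mul_of_nonneg_left (hZ x) h0.le
  refine (abs_add_le _ _).trans ?_
  nlinarith [mul_le_mul_of_nonneg_left a2 (by linarith : 0 ≤ 1 - γ)]

/-- The total density up to level `e` as the nested power times a product of defects. -/
lemma decC_Q_mul_Mde (hV : ∀ ω, 0 < V ω) (d e : ℕ) (hde : d ≤ e) (he : e ≤ D) (ω : Ω) :
    G.Q (fun _ => γ) D V d ω * G.Mde (fun _ => γ) V d e ω =
      G.Q (fun _ => γ) D V e ω * ∏ j ∈ Finset.Ico d e, (1 - decCw G γ V j ω) ^ (-(1 - γ)) := by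
  induction e, hde using Nat.le_induction with
  | base => simp
  | succ e hde ih =>
    rw [← G.Mde_mul _ V hde (Nat.le_succ e), ← mul_assoc, ih (by omega),
      Finset.prod_Ico_succ_top hde, G.Mde_succ, G.Q_succ _ (by omega : e < D)]
    have hp := G.E_pos e (G.Q_pos (fun _ => γ) D hV (e + 1)) ω
    have h1 : 1 - decCw G γ V e ω = G.E e (G.Q (fun _ => γ) D V (e + 1)) ω := by simp [decCw]
    rw [h1, show -(1 - γ) = γ - 1 by ring, Real.rpow_sub_one hp.ne']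
    ring

lemma decC_Mde_eq (hV : ∀ ω, 0 < V ω) {d e : ℕ} (hde : d < e) (he : e ≤ D) (ω : Ω) :
    G.Mde (fun _ => γ) V d e ω = G.Q (fun _ => γ) D V e ω *
      ∏ j ∈ Finset.Ico d e, (1 - decCw G γ V j ω) ^ (-(if j = d then 1 else 1 - γ)) := by
  have hp := G.E_pos d (G.Q_pos (fun _ => γ) D hV (d + 1)) ω
  rw [← G.Mde_mul _ V (Nat.le_succ d) hde, G.Mde_succ, div_mul_eq_mul_div,
    decC_Q_mul_Mde G hV (d + 1) e hde he, Finset.prod_eq_prod_Ico_succ_bot hde, if_pos rfl]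
  have h1 : 1 - decCw G γ V d ω = G.E d (G.Q (fun _ => γ) D V (d + 1)) ω := by simp [decCw]
  rw [h1, Real.rpow_neg_one]
  have h2 : ∏ j ∈ Finset.Ico (d + 1) e, (1 - decCw G γ V j ω) ^ (-(if j = d then 1 else 1 - γ)) =
      ∏ j ∈ Finset.Ico (d + 1) e, (1 - decCw G γ V j ω) ^ (-(1 - γ)) :=
    Finset.prod_congr rfl fun j hj => by
      rw [if_neg (by have := (Finset.mem_Ico.1 hj).1; omega)]
  rw [h2]; ring

/-- First-order expansion of the conditional density from level `d` to level `e + 1`. -/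
lemma decC_Mde_expand (h0 : 0 < γ) (h1 : γ ≤ 1) (hV : ∀ ω, 0 < V ω) {d e : ℕ} (hde : d ≤ e)
    (he : e < D) {h lam : ℝ} (hh : (1 - γ) * D + 1 ≤ h) (hl0 : 0 ≤ lam) (hl : 2 * h * lam ≤ 1)
    (hw : ∀ ω, |decCw G γ V e ω| ≤ lam) {Z : Ω → ℝ}
    (hZ : ∀ ω, |decCw G γ V e ω - G.E e Z ω| ≤ 2 * lam ^ 2) (ω : Ω) :
    ∃ N : ℝ, G.Mde (fun _ => γ) V d (e + 1) ω = G.Q (fun _ => γ) D V (e + 1) ω * N ∧
      |N - 1 - ∑ j ∈ Finset.Ico d (e + 1),
        (if j = d then 1 else 1 - γ) * (γ ^ (e - j) * G.E j Z ω)| ≤ 10 * h ^ 2 * lam ^ 2 := by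
  have hδ : 0 ≤ (1 - γ) * D := mul_nonneg (by linarith) (Nat.cast_nonneg D)
  have hl2 : lam ≤ 1 / 2 := by nlinarith
  refine ⟨_, decC_Mde_eq G hV (Nat.lt_succ_of_le hde) he ω, ?_⟩
  refine decC_prod_rpow_approx _ _ _ _ (by linarith) hl0 hl (fun j _ => ?_) ?_ (fun j hj => ?_)
    fun j hj => ?_
  · split_ifs <;> linarith
  · rw [Finset.sum_eq_sum_Ico_succ_bot (Nat.lt_succ_of_le hde), if_pos rfl]
    have : ∑ j ∈ Finset.Ico (d + 1) (e + 1), (if j = d then 1 else 1 - γ) =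
        (1 - γ) * ((e - d : ℕ) : ℝ) := by
      rw [Finset.sum_congr rfl (g := fun _ => 1 - γ) fun j hj => by
        rw [if_neg (by have := (Finset.mem_Ico.1 hj).1; omega)]]
      rw [Finset.sum_const, Nat.card_Ico, nsmul_eq_mul, mul_comm]
      congr 2; omega
    rw [this]
    have h3 : ((e - d : ℕ) : ℝ) ≤ D := by exact_mod_cast (by omega : e - d ≤ D)
    nlinarith
  · exact decC_abs_w_le G h0 h1 hV he hw j (by have := (Finset.mem_Ico.1 hj).2; omega) ω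
  · have := decC_w_lin G h0 h1 hV he hl2 hw hZ j (by have := (Finset.mem_Ico.1 hj).2; omega) ω
    nlinarith [sq_nonneg lam]

/-- First-order expansion of the total density up to level `e + 1`. -/
lemma decC_total_expand [Nonempty Ω] (h0 : 0 < γ) (h1 : γ ≤ 1) (hV : ∀ ω, 0 < V ω) {e : ℕ}
    (he : e < D) {h lam : ℝ} (hh : (1 - γ) * D + 1 ≤ h) (hl0 : 0 ≤ lam) (hl : 2 * h * lam ≤ 1)
    (hw : ∀ ω, |decCw G γ V e ω| ≤ lam) {Z : Ω → ℝ}
    (hZ : ∀ ω, |decCw G γ V e ω - G.E e Z ω| ≤ 2 * lam ^ 2) (ω : Ω) :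
    ∃ N : ℝ, G.Q (fun _ => γ) D V 0 ω * G.Mde (fun _ => γ) V 0 (e + 1) ω / G.pm (fun _ => γ) V =
        G.Q (fun _ => γ) D V (e + 1) ω * N ∧
      |N - 1 - (γ ^ (e + 1) * G.Ex Z +
        ∑ j ∈ range (e + 1), (1 - γ) * (γ ^ (e - j) * G.E j Z ω))| ≤ 10 * h ^ 2 * lam ^ 2 := by
  have hδ : 0 ≤ (1 - γ) * D := mul_nonneg (by linarith) (Nat.cast_nonneg D)
  have hl2 : lam ≤ 1 / 2 := by nlinarith
  have hw0 := decC_abs_w_le G h0 h1 hV he hw
  have hlin := decC_w_lin G h0 h1 hV he hl2 hw hZ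
  let c : Option ℕ → ℝ := fun o => o.elim 1 fun _ => 1 - γ
  let w : Option ℕ → ℝ := fun o => o.elim (1 - G.pm (fun _ => γ) V) fun j => decCw G γ V j ω
  let u : Option ℕ → ℝ := fun o => o.elim (γ ^ (e + 1) * G.Ex Z) fun j => γ ^ (e - j) * G.E j Z ω
  have key := decC_prod_rpow_approx (Finset.insertNone (range (e + 1))) c w u (h := h)
    (lam := lam) (by linarith) hl0 hl ?_ ?_ ?_ ?_
  · refine ⟨∏ j ∈ Finset.insertNone (range (e + 1)), (1 - w j) ^ (-c j), ?_, ?_⟩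
    · rw [decC_Q_mul_Mde G hV 0 (e + 1) (Nat.zero_le _) he, Finset.prod_insertNone,
        Finset.range_eq_Ico]
      simp only [c, w, Option.elim, sub_sub_cancel, Real.rpow_neg_one]
      ring
    · rw [Finset.sum_insertNone] at key
      simpa only [c, u, Option.elim, one_mul] using key
  · rintro (_ | j) _
    · simp [c]
    · simp only [c, Option.elim]; linarith
  · rw [Finset.sum_insertNone]
    simp only [c, Option.elim, Finset.sum_const, Finset.card_range, nsmul_eq_mul]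
    have h3 : ((e + 1 : ℕ) : ℝ) ≤ D := by exact_mod_cast he
    nlinarith
  · rintro (_ | j) hj
    · exact decC_abs_one_sub_pm_le G h0 h1 hV (by omega) (hw0 0 (Nat.zero_le _))
    · have hj' : j ≤ e := by simpa [Nat.lt_succ_iff] using hj
      exact hw0 j hj' ω
  · rintro (_ | j) hj
    · have := decC_pm_lin G h0 h1 (by omega) hl2 (hw0 0 (Nat.zero_le _)) (hlin 0 (Nat.zero_le _))
      simp only [w, u, Option.elim]
      rw [Nat.sub_zero, ← pow_succ'] at this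
      nlinarith [sq_nonneg lam]
    · have hj' : j ≤ e := by simpa [Nat.lt_succ_iff] using hj
      have := hlin j hj' ω
      simp only [w, u, Option.elim]
      nlinarith [sq_nonneg lam]

/-- Zeroth-order expansion of the total density up to level `e`. -/
lemma decC_total_close [Nonempty Ω] (h1 : γ ≤ 1) (hV : ∀ ω, 0 < V ω) {e : ℕ}
    (he : e ≤ D) {h lam : ℝ} (hh : (1 - γ) * D + 1 ≤ h) (hl0 : 0 ≤ lam) (hl : 2 * h * lam ≤ 1)
    (hw : ∀ j, j < e → ∀ ω, |decCw G γ V j ω| ≤ lam) (hpm : |1 - G.pm (fun _ => γ) V| ≤ lam)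
    (ω : Ω) :
    ∃ N : ℝ, G.Q (fun _ => γ) D V 0 ω * G.Mde (fun _ => γ) V 0 e ω / G.pm (fun _ => γ) V =
        G.Q (fun _ => γ) D V e ω * N ∧ |N - 1| ≤ 6 * h * lam := by
  have hδ : 0 ≤ (1 - γ) * D := mul_nonneg (by linarith) (Nat.cast_nonneg D)
  let c : Option ℕ → ℝ := fun o => o.elim 1 fun _ => 1 - γ
  let w : Option ℕ → ℝ := fun o => o.elim (1 - G.pm (fun _ => γ) V) fun j => decCw G γ V j ω
  have hc : ∀ j ∈ Finset.insertNone (range e), 0 ≤ c j := by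
    rintro (_ | j) _
    · simp [c]
    · simp only [c, Option.elim]; linarith
  have hs : ∑ j ∈ Finset.insertNone (range e), c j ≤ h := by
    rw [Finset.sum_insertNone]
    simp only [c, Option.elim, Finset.sum_const, Finset.card_range, nsmul_eq_mul]
    have h3 : (e : ℝ) ≤ D := by exact_mod_cast he
    nlinarith
  have hw' : ∀ j ∈ Finset.insertNone (range e), |w j| ≤ lam := by
    rintro (_ | j) hj
    · exact hpm
    · exact hw j (by simpa using hj) ω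
  have key := decC_prod_rpow_approx (Finset.insertNone (range e)) c w w (h := h)
    (lam := lam) (by linarith) hl0 hl hc hs hw' (fun j _ => by simp [sq_nonneg])
  refine ⟨∏ j ∈ Finset.insertNone (range e), (1 - w j) ^ (-c j), ?_, ?_⟩
  · rw [decC_Q_mul_Mde G hV 0 e (Nat.zero_le _) he, Finset.prod_insertNone, Finset.range_eq_Ico]
    simp only [c, w, Option.elim, sub_sub_cancel, Real.rpow_neg_one]
    ring
  · have h2 : |∑ j ∈ Finset.insertNone (range e), c j * w j| ≤ h * lam :=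
      calc _ ≤ ∑ j ∈ Finset.insertNone (range e), |c j * w j| := Finset.abs_sum_le_sum_abs _ _
        _ ≤ ∑ j ∈ Finset.insertNone (range e), c j * lam := Finset.sum_le_sum fun j hj => by
            rw [abs_mul, abs_of_nonneg (hc j hj)]
            exact mul_le_mul_of_nonneg_left (hw' j hj) (hc j hj)
        _ ≤ h * lam := by rw [← Finset.sum_mul]; exact mul_le_mul_of_nonneg_right hs hl0
    have h3 : 10 * h ^ 2 * lam ^ 2 ≤ 5 * h * lam := by
      have : 0 ≤ h * lam := mul_nonneg (by linarith) hl0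
      nlinarith
    have h4 := abs_le.1 key
    have h5 := abs_le.1 h2
    rw [abs_le]; constructor <;> linarith

end

end Crest.Agent.R153
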