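import Mathlib
import Crest.Agent.R153.DecC1
import Crest.Agent.R153.DecA

/-!
Row 153, decoupling, part C2: the label space and the nested power of a mixed term.
-/

set_option autoImplicit false

namespace Crest.Agent.R153

open Finset

section U
variable {D R : ℕ}

lemma decC_E_UF_one (c : Fin (D + 1)) (k : Fin (R + 1) → ℝ) (d : ℕ) (u : U D R) :
    (UF D R).E d (fun u => k (u c)) u = (Filt.coin (Fin (R + 1)) D c).E d k (u c) :=
  Filt.mor_eval (fun j : Fin (D + 1) => Filt.coin (Fin (R + 1)) D j) c d k u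

lemma decC_two_prod {c1 c2 : Fin (D + 1)} (h : c1 ≠ c2) (Φ : Fin (D + 1) → (Fin (R + 1) → ℝ) → ℝ)
    (hΦ : ∀ j, Φ j (fun _ => 1) = 1) (k1 k2 : Fin (R + 1) → ℝ) :
    ∏ j, Φ j (if j = c1 then k1 else if j = c2 then k2 else fun _ => 1) = Φ c1 k1 * Φ c2 k2 := by
  rw [Finset.prod_eq_mul c1 c2 h]
  · simp [h.symm]
  · intro j _ hj; rw [if_neg hj.1, if_neg hj.2, hΦ]
  · simp
  · simp

lemma decC_E_UF_two {c1 c2 : Fin (D + 1)} (h : c1 ≠ c2) (k1 k2 : Fin (R + 1) → ℝ) (d : ℕ)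
    (u : U D R) : (UF D R).E d (fun u => k1 (u c1) * k2 (u c2)) u =
      (Filt.coin (Fin (R + 1)) D c1).E d k1 (u c1) * (Filt.coin (Fin (R + 1)) D c2).E d k2 (u c2) := by
  have h1 := Filt.E_pi_prod (fun j : Fin (D + 1) => Filt.coin (Fin (R + 1)) D j) d
    (fun j => if j = c1 then k1 else if j = c2 then k2 else fun _ => 1) u
  rw [decC_two_prod h (fun j k => (Filt.coin (Fin (R + 1)) D j).E d k (u j)) (fun _ => by simp)]
    at h1
  rw [← h1]
  exact Filt.E_congr _ d (fun v => (decC_two_prod h (fun j k => k (v j)) (fun _ => rfl) k1 k2).symm) u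

lemma decC_Ex_UF_one (c : Fin (D + 1)) (k : Fin (R + 1) → ℝ) :
    (UF D R).Ex (fun u => k (u c)) = av k := by
  rw [← Filt.Ex_coin (D := D) c k]
  exact (Filt.morEx_eval (fun j : Fin (D + 1) => Filt.coin (Fin (R + 1)) D j) c).2 k

lemma decC_Ex_UF_two {c1 c2 : Fin (D + 1)} (h : c1 ≠ c2) (k1 k2 : Fin (R + 1) → ℝ) :
    (UF D R).Ex (fun u => k1 (u c1) * k2 (u c2)) = av k1 * av k2 := by
  have h1 := Filt.Ex_pi_prod (fun j : Fin (D + 1) => Filt.coin (Fin (R + 1)) D j)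
    (fun j => if j = c1 then k1 else if j = c2 then k2 else fun _ => 1)
  rw [decC_two_prod h (fun j k => (Filt.coin (Fin (R + 1)) D j).Ex k) (fun _ => by simp),
    Filt.Ex_coin, Filt.Ex_coin] at h1
  rw [← h1]
  exact Filt.Ex_congr _ fun v => (decC_two_prod h (fun j k => k (v j)) (fun _ => rfl) k1 k2).symm

lemma decC_av_ind_mem (A : Finset (Fin (R + 1))) : (av fun c => ind (c ∈ A)) = dens A := by
  simp [av, dens, ind_eq_ite]

lemma decC_dens_nonneg (A : Finset (Fin (R + 1))) : 0 ≤ dens A := by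
  unfold dens; positivity

lemma decC_div_dens {n q : ℕ} (hq : 0 < q) (h : q ≤ n) :
    1 / (2 * (q : ℝ)) ≤ ((n / q : ℕ) : ℝ) / n ∧ ((n / q : ℕ) : ℝ) / n ≤ 1 / q := by
  have hn : (0 : ℝ) < n := by exact_mod_cast hq.trans_le h
  have hq' : (0 : ℝ) < q := by exact_mod_cast hq
  have h1 : q * (n / q) ≤ n := Nat.mul_div_le n q
  have h2 : n < q * (n / q + 1) := Nat.lt_mul_div_succ n hq
  have h3 : 1 ≤ n / q := (Nat.one_le_div_iff hq).2 h
  have h1' : (q : ℝ) * ((n / q : ℕ) : ℝ) ≤ n := by exact_mod_cast h1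
  have h2' : (n : ℝ) < q * (((n / q : ℕ) : ℝ) + 1) := by exact_mod_cast h2
  have h3' : (1 : ℝ) ≤ ((n / q : ℕ) : ℝ) := by exact_mod_cast h3
  constructor
  · rw [div_le_div_iff₀ (by positivity) hn]; nlinarith
  · rw [div_le_div_iff₀ hn hq']; nlinarith

lemma decC_exists_set {q : ℕ} (hq : 0 < q) (h : q ≤ R + 1) :
    ∃ A : Finset (Fin (R + 1)), 1 / (2 * (q : ℝ)) ≤ dens A ∧ dens A ≤ 1 / q := by
  obtain ⟨A, -, hA⟩ := Finset.exists_subset_card_eq (s := (Finset.univ : Finset (Fin (R + 1))))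
    (n := (R + 1) / q) (by simpa using Nat.div_le_self _ _)
  refine ⟨A, ?_⟩
  have := decC_div_dens hq h
  simpa [dens, hA] using this

lemma decC_exists_sets {l : ℕ} (hl : 2 ≤ l) (h : l ^ 2 ≤ R + 1) :
    ∃ A B : Finset (Fin (R + 1)), Disjoint A B ∧
      (1 / (2 * (l : ℝ) ^ 2) ≤ dens A ∧ dens A ≤ 1 / (l : ℝ) ^ 2) ∧
      (1 / (2 * (l : ℝ)) ≤ dens B ∧ dens B ≤ 1 / l) := by
  have hl1 : l ≤ l ^ 2 := by nlinarith
  obtain ⟨A, -, hA⟩ := Finset.exists_subset_card_eq (s := (Finset.univ : Finset (Fin (R + 1))))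
    (n := (R + 1) / l ^ 2) (by simpa using Nat.div_le_self _ _)
  have h1 : (R + 1) / l ^ 2 ≤ (R + 1) / 2 := Nat.div_le_div_left (by omega) (by norm_num)
  have h2 : (R + 1) / l ≤ (R + 1) / 2 := Nat.div_le_div_left hl (by norm_num)
  obtain ⟨B, hB1, hB⟩ := Finset.exists_subset_card_eq (s := Aᶜ) (n := (R + 1) / l) (by
    rw [Finset.card_compl, hA, Fintype.card_fin]; omega)
  refine ⟨A, B, (Finset.disjoint_left.2 fun c hc hc' => by simpa [hc] using hB1 hc'), ?_, ?_⟩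
  · have := decC_div_dens (q := l ^ 2) (by positivity) h
    simpa [dens, hA] using this
  · have := decC_div_dens (q := l) (by omega) (hl1.trans h)
    simpa [dens, hB] using this

/-- The mixed family: switched on by digit `j`, of type `a` or `b` according to digit `e`. -/
def famMix (j e : Fin (D + 1)) (On A B : Finset (Fin (R + 1))) (ga gb : U D R → Bool → Bool) :
    Fam D R :=
  ⟨fun u t => if u j ∈ On then (if u e ∈ A then ga u t else if u e ∈ B then gb u t else false)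
    else false, e, A⟩

end U

section X
variable {Ω I : Type} [Fintype Ω] [Fintype I] {D R : ℕ} (F : Filt Ω D)

lemma decC_E_X (d : ℕ) (f : Ω → I → ℝ) (h : U D R → ℝ) (y : Ω × (I × U D R)) :
    (F.prod (LabF I D R)).E d (fun y => f y.1 y.2.1 * h y.2.2) y =
      cE F d f y.1 y.2.1 * (UF D R).E d h y.2.2 := by
  rw [Filt.E_prod]
  simp only [LabF, Filt.E_prod, Filt.E_coin_of_le (Nat.zero_le d), Filt.E_const_mul,
    Filt.E_mul_const, cE]

lemma decC_Ex_X (f : Ω → I → U D R → ℝ) :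
    (F.prod (LabF I D R)).Ex (fun y => f y.1 y.2.1 y.2.2) =
      F.Ex fun ω => av fun i => (UF D R).Ex (f ω i) := by
  rw [Filt.Ex_prod]
  simp only [LabF, Filt.Ex_coin_prod]

lemma decC_mor_site (i : I) :
    (F.prod (UF D R)).Mor (F.prod (LabF I D R)) fun x => (x.1, (i, x.2)) :=
  Filt.Mor.prod_map (Filt.morEx_id F).1 (Filt.mor_fiber' (UF D R) i)

omit [Fintype Ω] [Fintype I] in
lemma decC_rel_X {d : ℕ} {y y' : Ω × (I × U D R)} (h : (F.prod (LabF I D R)).rel d y y') :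
    y.2.1 = y'.2.1 ∧ ∀ j : Fin (D + 1), (j : ℕ) ≤ d → y.2.2 j = y'.2.2 j :=
  ⟨h.2.1 (Or.inl (Nat.zero_le d)), fun j hj => h.2.2 j (Or.inl hj)⟩

/-- The nested power at level `e` of the weight of a mixed term. -/
lemma decC_Q_famMix (s : Ω → I → Bool) {γ : ℝ} (h0 : 0 < γ) (h1 : γ ≤ 1) (j e : Fin (D + 1))
    (hje : (j : ℕ) ≤ e) (On A B : Finset (Fin (R + 1))) (hAB : Disjoint A B)
    {ya yb : Ω → I → ℝ} (ha : Gen F s γ R e ya) (hb : Gen F s γ R e yb) :
    ∃ ga gb : U D R → Bool → Bool, ∀ x : ℝ, 0 ≤ x → x ≤ 1 → ∃ κ : ℝ, 1 ≤ κ ∧ κ ≤ 3 ∧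
      ∀ y : Ω × (I × U D R), (F.prod (LabF I D R)).Q (fun _ => γ) D
        (fun y => termW (famMix j e On A B ga gb) x y.2.2 (s y.1 y.2.1)) e y =
        (1 + (κ - 1) * ind (y.2.2 e ∈ A)) * (1 - ind (y.2.2 j ∈ On) *
          (ind (y.2.2 e ∈ A) * ya y.1 y.2.1 + ind (y.2.2 e ∈ B) * yb y.1 y.2.1)) := by
  obtain ⟨ga, -, hga⟩ := ha.realize h0 h1
  obtain ⟨gb, -, hgb⟩ := hb.realize h0 h1
  refine ⟨ga, gb, fun x hx0 hx1 => ?_⟩
  have he : (e : ℕ) ≤ D := Nat.lt_succ_iff.1 e.2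
  set μ := ∏ _j ∈ Finset.Ico (e : ℕ) D, γ with hμ
  have hμ0 : 0 ≤ μ := Finset.prod_nonneg fun _ _ => h0.le
  have hμ1 : μ ≤ 1 := Finset.prod_le_one (fun _ _ => h0.le) fun _ _ => h1
  refine ⟨Real.exp x ^ μ, Real.one_le_rpow (Real.one_le_exp hx0) hμ0, ?_, fun y => ?_⟩
  · refine (Real.rpow_le_self_of_one_le (Real.one_le_exp hx0) hμ1).trans ?_
    exact (Real.exp_le_exp.2 hx1).trans (Real.exp_one_lt_d9.le.trans (by norm_num))
  set X := F.prod (LabF I D R) with hX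
  have hmeas : X.Meas e fun y : Ω × (I × U D R) => Real.exp (x * ind (y.2.2 e ∈ A)) :=
    fun y y' h => by simp only [(decC_rel_X F h).2 e le_rfl]
  have hnn : ∀ (g : U D R → Bool → Bool) (y : Ω × (I × U D R)),
      (0 : ℝ) ≤ 1 - (if g y.2.2 (s y.1 y.2.1) then 1 / 2 else 0) := by
    intro g y; split_ifs <;> norm_num
  have hsite : ∀ (g : U D R → Bool → Bool), X.Q (fun _ => γ) D
      (fun y => 1 - (if g y.2.2 (s y.1 y.2.1) then 1 / 2 else 0)) e y =
      (F.prod (UF D R)).Q (fun _ => γ) D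
        (fun x => 1 - (if g x.2 (s x.1 y.2.1) then 1 / 2 else 0)) e (y.1, y.2.2) := fun g =>
    ((decC_mor_site F y.2.1).Q (fun _ => γ) D
      (fun y => 1 - (if g y.2.2 (s y.1 y.2.1) then 1 / 2 else 0)) e (y.1, y.2.2)).symm
  have h2 : X.Q (fun _ => γ) D
      (fun y => termW (famMix j e On A B ga gb) x y.2.2 (s y.1 y.2.1)) e y =
      Real.exp (x * ind (y.2.2 e ∈ A)) ^ μ * X.Q (fun _ => γ) D
        (fun y => 1 - (if (famMix j e On A B ga gb).g y.2.2 (s y.1 y.2.1) then 1 / 2 else 0))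
        e y := by
    rw [← X.Q_meas_mul (fun _ => γ) he hmeas (fun _ => Real.exp_pos _) (hnn _)]
    congr 1
    funext y
    simp only [termW, famObs, famMix, mul_comm]
  rw [h2]
  have hone : X.Q (fun _ => γ) D (fun _ => (1 : ℝ)) e y = 1 := by
    rw [X.Q_const _ he one_pos, Real.one_rpow]
  have h3 : X.Q (fun _ => γ) D
      (fun y => 1 - (if (famMix j e On A B ga gb).g y.2.2 (s y.1 y.2.1) then 1 / 2 else 0)) e y =
      1 - ind (y.2.2 j ∈ On) *
        (ind (y.2.2 e ∈ A) * ya y.1 y.2.1 + ind (y.2.2 e ∈ B) * yb y.1 y.2.1) := by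
    by_cases hon : y.2.2 j ∈ On
    · by_cases hA : y.2.2 e ∈ A
      · have hB : y.2.2 e ∉ B := Finset.disjoint_left.1 hAB hA
        rw [ind_pos hon, ind_pos hA, ind_neg hB, decC_Q_congr_rel X _ D e y
          (W := fun y => 1 - (if ga y.2.2 (s y.1 y.2.1) then 1 / 2 else 0)), hsite, hga]
        · ring
        · intro y' h
          obtain ⟨-, h'⟩ := decC_rel_X F h
          simp only [famMix, ← h' j hje, ← h' e le_rfl, hon, hA, if_true]
      · by_cases hB : y.2.2 e ∈ B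
        · rw [ind_pos hon, ind_neg hA, ind_pos hB, decC_Q_congr_rel X _ D e y
            (W := fun y => 1 - (if gb y.2.2 (s y.1 y.2.1) then 1 / 2 else 0)), hsite, hgb]
          · ring
          · intro y' h
            obtain ⟨-, h'⟩ := decC_rel_X F h
            simp only [famMix, ← h' j hje, ← h' e le_rfl, hon, hA, hB, if_true, if_false]
        · rw [ind_neg hA, ind_neg hB, decC_Q_congr_rel X _ D e y (W := fun _ => 1), hone]
          · ring
          · intro y' h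
            obtain ⟨-, h'⟩ := decC_rel_X F h
            simp [famMix, ← h' j hje, ← h' e le_rfl, hon, hA, hB]
    · rw [ind_neg hon, decC_Q_congr_rel X _ D e y (W := fun _ => 1), hone]
      · ring
      · intro y' h
        obtain ⟨-, h'⟩ := decC_rel_X F h
        simp [famMix, ← h' j hje, hon]
  rw [h3]
  congr 1
  by_cases hA : y.2.2 e ∈ A
  · simp [ind_pos hA]
  · simp [ind_neg hA]

end X

end Crest.Agent.R153
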