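import Mathlib
import Crest.Agent.R153.DecDefs

/-!
Row 153, decoupling, part C3: the bilinear form appearing in the identities and its positivity.
-/

set_option autoImplicit false

namespace Crest.Agent.R153

open Finset

section
variable {Ω I : Type} [Fintype Ω] [Fintype I] {D : ℕ} (F : Filt Ω D)

lemma decC_nrm2_nonneg (f : Ω → I → ℝ) : 0 ≤ nrm2 F f :=
  F.Ex_nonneg fun _ => av_nonneg fun _ => sq_nonneg _

lemma decC_Ex_av_mul_le (f g : Ω → I → ℝ) :
    F.Ex (fun ω => av fun i => f ω i * g ω i) ≤ √(nrm2 F f) * √(nrm2 F g) := by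
  have h1 : F.Ex (fun ω => av fun i => f ω i * g ω i) ≤
      F.Ex fun ω => √(av fun i => f ω i ^ 2) * √(av fun i => g ω i ^ 2) :=
    F.Ex_mono fun ω => av_mul_le_sqrt _ _
  refine h1.trans ?_
  rw [← Real.sqrt_mul (decC_nrm2_nonneg F f)]
  refine Real.le_sqrt_of_sq_le ((F.Ex_mul_sq_le _ _).trans_eq ?_)
  unfold nrm2
  congr 1 <;> exact F.Ex_congr fun ω => Real.sq_sqrt (av_nonneg fun _ => sq_nonneg _)

lemma decC_nrm2_le_one [Nonempty Ω] {f : Ω → I → ℝ} (hf : ∀ ω i, |f ω i| ≤ 1) : nrm2 F f ≤ 1 :=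
  F.Ex_le_of_le fun ω => av_le_of_le' zero_le_one fun i => by
    rw [← sq_abs]; exact pow_le_one₀ (abs_nonneg _) (hf ω i)

lemma decC_Ex_av_abs_le [Nonempty Ω] (f : Ω → I → ℝ) :
    F.Ex (fun ω => av fun i => |f ω i|) ≤ √(nrm2 F f) := by
  have h := decC_Ex_av_mul_le F (fun ω i => |f ω i|) fun _ _ => 1
  have h1 : √(nrm2 F fun (_ : Ω) (_ : I) => (1 : ℝ)) ≤ 1 :=
    Real.sqrt_le_one.2 (decC_nrm2_le_one F fun _ _ => by simp)
  have h2 : nrm2 F (fun ω i => |f ω i|) = nrm2 F f := by simp [nrm2]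
  simp only [mul_one, h2] at h
  exact h.trans (mul_le_of_le_one_right (Real.sqrt_nonneg _) h1)

lemma decC_nrm2_cE_le (d : ℕ) (f : Ω → I → ℝ) : nrm2 F (cE F d f) ≤ nrm2 F f := by
  unfold nrm2
  rw [← F.Ex_E d fun ω => av fun i => f ω i ^ 2]
  refine F.Ex_mono fun ω => ?_
  rw [F.E_av]
  exact av_mono fun i => F.sq_E_le d _ ω

/-- The bilinear form. -/
noncomputable def Bf (d : ℕ) (P u z : Ω → I → ℝ) : ℝ :=
  F.Ex fun ω => av fun i => av fun i' => u ω i * (P ω i' * F.E d (fun x => P x i' * z x i) ω)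

lemma Bf_abs_le (d : ℕ) {P : Ω → I → ℝ} (hP : ∀ ω i, |P ω i| ≤ 1) (u z : Ω → I → ℝ) :
    |Bf F d P u z| ≤ √(nrm2 F u) * √(nrm2 F z) := by
  have h1 : |Bf F d P u z| ≤
      F.Ex fun ω => av fun i => |u ω i| * cE F d (fun x j => |z x j|) ω i := by
    refine (F.abs_Ex_le _).trans (F.Ex_mono fun ω => (abs_av_le _).trans (av_mono fun i => ?_))
    have hc : 0 ≤ cE F d (fun x j => |z x j|) ω i := F.E_nonneg d (fun _ => abs_nonneg _) ω
    refine (abs_av_le _).trans (av_le_of_le' (mul_nonneg (abs_nonneg _) hc) fun i' => ?_)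
    rw [abs_mul, abs_mul]
    refine mul_le_mul_of_nonneg_left ?_ (abs_nonneg _)
    refine (mul_le_of_le_one_left (abs_nonneg _) (hP ω i')).trans ((F.abs_E_le d _ ω).trans ?_)
    refine F.E_mono d (fun x => ?_) ω
    rw [abs_mul]
    exact mul_le_of_le_one_left (abs_nonneg _) (hP x i')
  refine h1.trans ((decC_Ex_av_mul_le F _ _).trans ?_)
  have h2 : nrm2 F (fun ω i => |u ω i|) = nrm2 F u := by simp [nrm2]
  have h3 : nrm2 F (fun ω i => |z ω i|) = nrm2 F z := by simp [nrm2]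
  rw [h2]
  exact mul_le_mul_of_nonneg_left (Real.sqrt_le_sqrt ((decC_nrm2_cE_le F d _).trans h3.le))
    (Real.sqrt_nonneg _)

lemma Bf_sum_left (d : ℕ) (P z : Ω → I → ℝ) {κ : Type*} (S : Finset κ) (c : κ → ℝ)
    (u : κ → Ω → I → ℝ) :
    Bf F d P (fun ω i => ∑ t ∈ S, c t * u t ω i) z = ∑ t ∈ S, c t * Bf F d P (u t) z := by
  unfold Bf
  simp only [Finset.sum_mul, mul_assoc, av_sum, av_const_mul (c _), F.Ex_sum, F.Ex_const_mul]

lemma Bf_sum_right (d : ℕ) (P u : Ω → I → ℝ) {κ : Type*} (S : Finset κ) (c : κ → ℝ)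
    (z : κ → Ω → I → ℝ) :
    Bf F d P u (fun ω i => ∑ t ∈ S, c t * z t ω i) = ∑ t ∈ S, c t * Bf F d P u (z t) := by
  unfold Bf
  have : ∀ ω i i', u ω i * (P ω i' * F.E d (fun x => P x i' * ∑ t ∈ S, c t * z t x i) ω) =
      ∑ t ∈ S, c t * (u ω i * (P ω i' * F.E d (fun x => P x i' * z t x i) ω)) := by
    intro ω i i'
    have h1 : F.E d (fun x => P x i' * ∑ t ∈ S, c t * z t x i) ω =
        ∑ t ∈ S, c t * F.E d (fun x => P x i' * z t x i) ω := by
      simp only [← F.E_const_mul, ← F.E_sum, Finset.mul_sum]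
      exact F.E_congr d (fun x => Finset.sum_congr rfl fun _ _ => by ring) ω
    rw [h1, Finset.mul_sum, Finset.mul_sum]
    exact Finset.sum_congr rfl fun _ _ => by ring
  simp only [this, av_sum, av_const_mul (c _), F.Ex_sum, F.Ex_const_mul]

lemma Bf_sub_left (d : ℕ) (P u u' z : Ω → I → ℝ) :
    Bf F d P (fun ω i => u ω i - u' ω i) z = Bf F d P u z - Bf F d P u' z := by
  unfold Bf
  simp only [sub_mul, av_sub, F.Ex_sub]

lemma Bf_sub_right (d : ℕ) (P u z z' : Ω → I → ℝ) :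
    Bf F d P u (fun ω i => z ω i - z' ω i) = Bf F d P u z - Bf F d P u z' := by
  unfold Bf
  simp only [mul_sub, F.E_sub, av_sub, F.Ex_sub]

lemma decC_psd (d : ℕ) (a : I → ℝ) (Z : Ω → I → ℝ) (ω : Ω) :
    0 ≤ av fun i => av fun i' => a i * a i' * F.E d (fun x => Z x i * Z x i') ω := by
  have : (av fun i => av fun i' => a i * a i' * F.E d (fun x => Z x i * Z x i') ω) =
      F.E d (fun x => (av fun i => a i * Z x i) ^ 2) ω := by
    simp only [sq, av_mul_av, F.E_av, ← F.E_const_mul]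
    exact av_congr fun i => av_congr fun i' => F.E_congr d (fun x => by ring) ω
  rw [this]
  exact F.E_nonneg d (fun _ => sq_nonneg _) ω

lemma decC_Bf_self_eq (d : ℕ) (P z : Ω → I → ℝ) : Bf F d P P z = F.Ex fun ω => av fun i =>
    av fun i' => F.E d (fun x => P x i * P x i') ω * F.E d (fun x => P x i' * z x i) ω := by
  unfold Bf
  simp only [F.Ex_av]
  refine av_congr fun i => av_congr fun i' => ?_
  rw [F.Ex_E_mul]
  refine F.Ex_congr fun ω => ?_
  rw [F.E_E_of_le le_rfl, mul_assoc]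

/-- The orthogonality relation of martingale differences. -/
lemma decC_E_mul_sub_cE {d j : ℕ} (h : d ≤ j) (P : Ω → I → ℝ) (i i' : I) (ω : Ω) :
    F.E d (fun x => P x i' * (P x i - cE F j P x i)) ω =
      F.E d (fun x => (P x i - cE F j P x i) * (P x i' - cE F j P x i')) ω := by
  have h0 : F.E d (fun x => cE F j P x i' * (P x i - cE F j P x i)) ω = 0 := by
    rw [← F.E_mul_E h (g := fun x => cE F j P x i') (F.meas_E j _)]
    have : ∀ x, F.E j (fun x => P x i - cE F j P x i) x = 0 := fun x => by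
      rw [F.E_sub]; unfold cE; rw [F.E_E_of_le le_rfl, sub_self]
    simp [this]
  rw [← sub_zero (F.E d (fun x => P x i' * _) ω), ← h0, ← F.E_sub]
  exact F.E_congr d (fun x => by ring) ω

lemma decC_Bf_nonneg {d j : ℕ} (h : d ≤ j) (P : Ω → I → ℝ) :
    0 ≤ Bf F d P P fun ω i => P ω i - cE F j P ω i := by
  rw [decC_Bf_self_eq]
  refine F.Ex_nonneg fun ω => ?_
  simp only [decC_E_mul_sub_cE F h]
  have : (av fun i => av fun i' => F.E d (fun x => P x i * P x i') ω *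
      F.E d (fun x => (P x i - cE F j P x i) * (P x i' - cE F j P x i')) ω) =
      F.E d (fun y => av fun i => av fun i' => P y i * P y i' *
        F.E d (fun x => (P x i - cE F j P x i) * (P x i' - cE F j P x i')) ω) ω := by
    simp only [F.E_av, F.E_mul_const]
  rw [this]
  exact F.E_nonneg d (fun y => decC_psd F d (P y) (fun x i => P x i - cE F j P x i) ω) ω

lemma decC_hs_le_Bf (d : ℕ) (P : Ω → I → ℝ) :
    hs F d P ≤ Bf F d P P fun ω i => P ω i - cE F d P ω i := by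
  rw [decC_Bf_self_eq]
  refine F.Ex_mono fun ω => ?_
  simp only [decC_E_mul_sub_cE F le_rfl]
  have hc : ∀ i i', F.E d (fun x => (P x i - cE F d P x i) * (P x i' - cE F d P x i')) ω =
      cov F d P ω i i' := by
    intro i i'
    rw [← decC_E_mul_sub_cE F le_rfl]
    simp only [mul_sub, F.E_sub]
    rw [F.E_mul_meas (g := fun x => cE F d P x i) (F.meas_E d _)]
    unfold cov cE
    rw [F.E_congr d (fun x => mul_comm (P x i') (P x i)), mul_comm (F.E d (fun x => P x i') ω)]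
  have hp := decC_psd F d (cE F d P ω) (fun x i => P x i - cE F d P x i) ω
  simp only [hc] at hp ⊢
  have : (av fun i => av fun i' => F.E d (fun x => P x i * P x i') ω * cov F d P ω i i') =
      (av fun i => av fun i' => cov F d P ω i i' ^ 2) +
        av fun i => av fun i' => cE F d P ω i * cE F d P ω i' * cov F d P ω i i' := by
    simp only [← av_add]
    refine av_congr fun i => av_congr fun i' => ?_
    unfold cov; ring
  rw [this]; linarith

/-- The weights of the levels `d ≤ j ≤ e`. -/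
noncomputable def wt (γ : ℝ) (d e j : ℕ) : ℝ := (if j = d then 1 else 1 - γ) * γ ^ (e - j)

lemma wt_nonneg {γ : ℝ} (h0 : 0 < γ) (h1 : γ ≤ 1) (d e j : ℕ) : 0 ≤ wt γ d e j := by
  unfold wt
  refine mul_nonneg ?_ (pow_nonneg h0.le _)
  split_ifs <;> linarith

lemma sum_wt (γ : ℝ) {d e : ℕ} (h : d ≤ e) : ∑ j ∈ Finset.Ico d (e + 1), wt γ d e j = 1 := by
  induction e, h using Nat.le_induction with
  | base => simp [wt]
  | succ e h ih =>
    rw [Finset.sum_Ico_succ_top (by omega)]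
    have : ∑ j ∈ Finset.Ico d (e + 1), wt γ d (e + 1) j =
        γ * ∑ j ∈ Finset.Ico d (e + 1), wt γ d e j := by
      rw [Finset.mul_sum]
      refine Finset.sum_congr rfl fun j hj => ?_
      have hj' := (Finset.mem_Ico.1 hj).2
      unfold wt
      rw [show e + 1 - j = (e - j) + 1 by omega, pow_succ]; ring
    rw [this, ih]
    simp [wt, show e + 1 ≠ d by omega]

/-- The linear response operator. -/
noncomputable def Rop (γ : ℝ) (d e : ℕ) (y : Ω → I → ℝ) (ω : Ω) (i : I) : ℝ :=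
  (∑ j ∈ Finset.Ico d (e + 1), wt γ d e j * cE F j y ω i) - y ω i

lemma Bf_Rop (γ : ℝ) (d e : ℕ) (P u y : Ω → I → ℝ) : Bf F d P u (Rop F γ d e y) =
    (∑ j ∈ Finset.Ico d (e + 1), wt γ d e j * Bf F d P u (cE F j y)) - Bf F d P u y := by
  rw [← Bf_sum_right, ← Bf_sub_right]; rfl

lemma Bf_Rop_abs_le {γ : ℝ} (h0 : 0 < γ) (h1 : γ ≤ 1) {d e : ℕ} (h : d ≤ e) {P : Ω → I → ℝ}
    (hP : ∀ ω i, |P ω i| ≤ 1) (u y : Ω → I → ℝ) :
    |Bf F d P u (Rop F γ d e y)| ≤ 2 * (√(nrm2 F u) * √(nrm2 F y)) := by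
  rw [Bf_Rop]
  have h2 : |∑ j ∈ Finset.Ico d (e + 1), wt γ d e j * Bf F d P u (cE F j y)| ≤
      √(nrm2 F u) * √(nrm2 F y) := by
    refine (Finset.abs_sum_le_sum_abs _ _).trans ?_
    rw [← one_mul (√(nrm2 F u) * √(nrm2 F y)), ← sum_wt γ h, Finset.sum_mul]
    refine Finset.sum_le_sum fun j _ => ?_
    rw [abs_mul, abs_of_nonneg (wt_nonneg h0 h1 d e j)]
    refine mul_le_mul_of_nonneg_left ((Bf_abs_le F d hP _ _).trans ?_) (wt_nonneg h0 h1 d e j)
    exact mul_le_mul_of_nonneg_left (Real.sqrt_le_sqrt (decC_nrm2_cE_le F j y)) (Real.sqrt_nonneg _)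
  have h3 := Bf_abs_le F d hP u y
  refine (abs_sub _ _).trans ?_
  linarith

lemma decC_hs_le_neg_Bf {γ : ℝ} (h0 : 0 < γ) (h1 : γ ≤ 1) {d e : ℕ} (h : d ≤ e)
    (P : Ω → I → ℝ) : γ ^ (e - d) * hs F d P ≤ -Bf F d P P (Rop F γ d e P) := by
  have h2 : -Bf F d P P (Rop F γ d e P) = ∑ j ∈ Finset.Ico d (e + 1),
      wt γ d e j * Bf F d P P fun ω i => P ω i - cE F j P ω i := by
    simp only [Bf_Rop, Bf_sub_right, mul_sub, Finset.sum_sub_distrib, ← Finset.sum_mul,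
      sum_wt γ h]
    ring
  rw [h2]
  refine le_trans ?_ (Finset.single_le_sum (f := fun j => wt γ d e j * Bf F d P P
    fun ω i => P ω i - cE F j P ω i) (fun j hj => mul_nonneg (wt_nonneg h0 h1 d e j)
      (decC_Bf_nonneg F (Finset.mem_Ico.1 hj).1 P)) (Finset.mem_Ico.2 ⟨le_rfl, by omega⟩))
  simp only [wt, if_true, one_mul]
  exact mul_le_mul_of_nonneg_left (decC_hs_le_Bf F d P) (pow_nonneg h0.le _)

lemma Rop_sum (γ : ℝ) (d e : ℕ) {κ : Type*} (S : Finset κ) (c : κ → ℝ) (y : κ → Ω → I → ℝ) :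
    Rop F γ d e (fun ω i => ∑ t ∈ S, c t * y t ω i) =
      fun ω i => ∑ t ∈ S, c t * Rop F γ d e (y t) ω i := by
  funext ω i
  simp only [Rop, cE, F.E_sum, F.E_const_mul, mul_sub, Finset.sum_sub_distrib, Finset.mul_sum]
  rw [Finset.sum_comm]
  congr 1
  exact Finset.sum_congr rfl fun _ _ => Finset.sum_congr rfl fun _ _ => by ring

lemma Rop_sub (γ : ℝ) (d e : ℕ) (y y' : Ω → I → ℝ) :
    Rop F γ d e (fun ω i => y ω i - y' ω i) =
      fun ω i => Rop F γ d e y ω i - Rop F γ d e y' ω i := by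
  funext ω i
  simp only [Rop, cE, F.E_sub, mul_sub, Finset.sum_sub_distrib]
  ring

lemma Rop_abs_le {γ : ℝ} (h0 : 0 < γ) (h1 : γ ≤ 1) {d e : ℕ} (h : d ≤ e) {y : Ω → I → ℝ}
    (hy : ∀ ω i, 0 ≤ y ω i ∧ y ω i ≤ 1) (ω : Ω) (i : I) : |Rop F γ d e y ω i| ≤ 1 := by
  have h2 : 0 ≤ ∑ j ∈ Finset.Ico d (e + 1), wt γ d e j * cE F j y ω i :=
    Finset.sum_nonneg fun j _ => mul_nonneg (wt_nonneg h0 h1 d e j)
      (F.E_nonneg j (fun x => (hy x i).1) ω)
  have h3 : ∑ j ∈ Finset.Ico d (e + 1), wt γ d e j * cE F j y ω i ≤ 1 := by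
    rw [← sum_wt γ h]
    exact Finset.sum_le_sum fun j _ => mul_le_of_le_one_right (wt_nonneg h0 h1 d e j)
      (F.E_le_of_le j (fun x => (hy x i).2) ω)
  have := hy ω i
  unfold Rop
  rw [abs_le]; constructor <;> linarith

/-- From the bound on generated pairs to the bound on an approximable observable. -/
lemma decC_hs_of_pairs [Nonempty Ω] {s : Ω → I → Bool} {γ : ℝ} {R : ℕ} (h0 : 0 < γ) (h1 : γ ≤ 1)
    {d e e' : ℕ} (h : d ≤ e) {P : Ω → I → ℝ} (hP : ∀ ω i, |P ω i| ≤ 1) {η K β : ℝ} (hη0 : 0 ≤ η)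
    (hη1 : η ≤ 1) (hβ : 0 ≤ β) (hA : Approx F s γ R e' P η K)
    (hpair : ∀ ya yb, Gen F s γ R e' ya → Gen F s γ R e' yb →
      |Bf F d P ya (Rop F γ d e yb)| ≤ β) :
    γ ^ (e - d) * hs F d P ≤ K ^ 2 * β + 6 * η := by
  obtain ⟨n, c, y, hy, hK, hv⟩ := hA
  set Pt : Ω → I → ℝ := fun ω i => ∑ α, c α * y α ω i with hPt
  set v : Ω → I → ℝ := fun ω i => P ω i - Pt ω i with hvd
  have hv' : √(nrm2 F v) ≤ η := Real.sqrt_le_iff.2 ⟨hη0, hv⟩
  have hP1 : √(nrm2 F P) ≤ 1 := Real.sqrt_le_one.2 (decC_nrm2_le_one F hP)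
  have hs0 : 0 ≤ ∑ α, |c α| := Finset.sum_nonneg fun _ _ => abs_nonneg _
  have h2 : |Bf F d P Pt (Rop F γ d e Pt)| ≤ K ^ 2 * β := by
    rw [hPt, Bf_sum_left, Rop_sum]
    simp only [Bf_sum_right]
    calc _ ≤ ∑ α, |c α * ∑ α', c α' * Bf F d P (y α) (Rop F γ d e (y α'))| :=
          Finset.abs_sum_le_sum_abs _ _
      _ ≤ ∑ α, |c α| * ∑ α', |c α'| * β := Finset.sum_le_sum fun α _ => by
          rw [abs_mul]
          refine mul_le_mul_of_nonneg_left ((Finset.abs_sum_le_sum_abs _ _).trans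
            (Finset.sum_le_sum fun α' _ => ?_)) (abs_nonneg _)
          rw [abs_mul]
          exact mul_le_mul_of_nonneg_left (hpair _ _ (hy α) (hy α')) (abs_nonneg _)
      _ = (∑ α, |c α|) ^ 2 * β := by rw [← Finset.sum_mul, ← Finset.sum_mul]; ring
      _ ≤ K ^ 2 * β := mul_le_mul_of_nonneg_right (pow_le_pow_left₀ hs0 hK 2) hβ
  have hPt' : Pt = fun ω i => P ω i - v ω i := by funext ω i; simp [hvd]
  have h3 : Bf F d P Pt (Rop F γ d e Pt) = Bf F d P P (Rop F γ d e P) -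
      Bf F d P P (Rop F γ d e v) - Bf F d P v (Rop F γ d e P) + Bf F d P v (Rop F γ d e v) := by
    rw [hPt', Rop_sub, Bf_sub_left, Bf_sub_right, Bf_sub_right]; ring
  have sP := Real.sqrt_nonneg (nrm2 F P)
  have sv := Real.sqrt_nonneg (nrm2 F v)
  have h4 := abs_le.1 (Bf_Rop_abs_le F h0 h1 h hP P v)
  have h5 := abs_le.1 (Bf_Rop_abs_le F h0 h1 h hP v P)
  have h6 := abs_le.1 (Bf_Rop_abs_le F h0 h1 h hP v v)
  have h7 := abs_le.1 h2
  have h8 := decC_hs_le_neg_Bf F h0 h1 h P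
  have a1 : √(nrm2 F P) * √(nrm2 F v) ≤ η := by nlinarith
  have a2 : √(nrm2 F v) * √(nrm2 F v) ≤ η := by nlinarith
  nlinarith

end

end Crest.Agent.R153
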