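import Mathlib
import Crest.Agent.R153.DecC1
import Crest.Agent.R153.DecC2
import Crest.Agent.R153.DecC3

/-!
Row 153, decoupling, part C4: second-order expansion of the identity for a mixed family.
-/

set_option autoImplicit false
set_option linter.unusedSectionVars false

namespace Crest.Agent.R153

open Finset

section
variable {Ω I : Type} [Fintype Ω] [Fintype I] {D R : ℕ}

lemma decC_E_lab (F : Filt Ω D) (d : ℕ) (h : U D R → ℝ) (y : Ω × (I × U D R)) :
    (F.prod (LabF I D R)).E d (fun y => h y.2.2) y = (UF D R).E d h y.2.2 :=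
  (Filt.Mor.comp (Filt.mor_snd F (LabF I D R)) (Filt.mor_snd (Filt.coin I D 0) (UF D R))) d h y

lemma decC_E_lin {Ω : Type} [Fintype Ω] (G : Filt Ω D) (d : ℕ) {κ : Type*} (S : Finset κ)
    (c : κ → ℝ) (f : κ → Ω → ℝ) (f0 f1 : Ω → ℝ) (ω : Ω) :
    G.E d (fun x => f0 x + ∑ t ∈ S, c t * f t x - f1 x) ω =
      G.E d f0 ω + ∑ t ∈ S, c t * G.E d (f t) ω - G.E d f1 ω := by
  rw [Filt.E_sub, Filt.E_add, Filt.E_sum]
  simp only [Filt.E_const_mul]

lemma decC_E_psi (F : Filt Ω D) {d : ℕ} {e : Fin (D + 1)} (hd : d < e) (A : Finset (Fin (R + 1)))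
    (y : Ω × (I × U D R)) :
    (F.prod (LabF I D R)).E d (fun y => ind (y.2.2 e ∈ A)) y = dens A := by
  rw [decC_E_lab F d (fun u => ind (u e ∈ A)) y, decC_E_UF_one e (fun c => ind (c ∈ A)),
    Filt.E_coin_of_lt hd (by have := e.2; omega), decC_av_ind_mem]

lemma decC_Ex_psi [Nonempty Ω] [Nonempty I] (F : Filt Ω D) (e : Fin (D + 1))
    (A : Finset (Fin (R + 1))) :
    (F.prod (LabF I D R)).Ex (fun y => ind (y.2.2 e ∈ A)) = dens A := by
  rw [decC_Ex_X F (fun _ _ u => ind (u e ∈ A))]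
  simp only [decC_Ex_UF_one e (fun c => ind (c ∈ A)), decC_av_ind_mem, av_const, Filt.Ex_const]

/-- The conditional probability at level `d` that digit `j` lies in `On`. -/
noncomputable def otil (j d : ℕ) (On : Finset (Fin (R + 1))) (c : Fin (R + 1)) : ℝ :=
  if j ≤ d then ind (c ∈ On) else dens On

lemma decC_dens_le_one (A : Finset (Fin (R + 1))) : dens A ≤ 1 := by
  rw [← decC_av_ind_mem]; exact av_le_of_le fun _ => ind_le_one _

lemma otil_mem (j d : ℕ) (On : Finset (Fin (R + 1))) (c : Fin (R + 1)) :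
    0 ≤ otil j d On c ∧ otil j d On c ≤ 1 := by
  unfold otil
  split_ifs
  · exact ⟨ind_nonneg _, ind_le_one _⟩
  · exact ⟨decC_dens_nonneg _, decC_dens_le_one _⟩

lemma decC_E_coin_otil (j : Fin (D + 1)) (d : ℕ) (On : Finset (Fin (R + 1))) (c : Fin (R + 1)) :
    (Filt.coin (Fin (R + 1)) D j).E d (fun c => ind (c ∈ On)) c = otil j d On c := by
  unfold otil
  split_ifs with h
  · exact Filt.E_coin_of_le h _ _
  · rw [Filt.E_coin_of_lt (by omega) (by have := j.2; omega), decC_av_ind_mem]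

/-- The data of one mixed family. -/
structure Setup (F : Filt Ω D) (γ : ℝ) (V : Ω × (I × U D R) → ℝ) (j e : Fin (D + 1)) (e' : ℕ)
    (On A B : Finset (Fin (R + 1))) (ya yb : Ω → I → ℝ) (κ h lam : ℝ) : Prop where
  h0 : 0 < γ
  h1 : γ ≤ 1
  hV : ∀ y, 0 < V y
  he : (e : ℕ) = e' + 1
  hj : (j : ℕ) ≤ e'
  hAB : Disjoint A B
  hya : ∀ ω i, 0 ≤ ya ω i ∧ ya ω i ≤ 1 / 2
  hyb : ∀ ω i, 0 ≤ yb ω i ∧ yb ω i ≤ 1 / 2
  hk1 : 1 ≤ κ
  hk3 : κ ≤ 3
  hQ : ∀ y, (F.prod (LabF I D R)).Q (fun _ => γ) D V e y =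
    (1 + (κ - 1) * ind (y.2.2 e ∈ A)) * (1 - ind (y.2.2 j ∈ On) *
      (ind (y.2.2 e ∈ A) * ya y.1 y.2.1 + ind (y.2.2 e ∈ B) * yb y.1 y.2.1))
  hh : (1 - γ) * D + 1 ≤ h
  hl0 : 0 ≤ lam
  hl : 2 * h * lam ≤ 1
  hl4 : lam ≤ 1 / 4
  hA : dens A ≤ lam ^ 2
  hB : dens B ≤ lam

/-- The first-order part of `1 - Q`. -/
noncomputable def Zmix (j : Fin (D + 1)) (On B : Finset (Fin (R + 1))) (yb : Ω → I → ℝ)
    (y : Ω × (I × U D R)) : ℝ :=
  yb y.1 y.2.1 * (dens B * ind (y.2.2 j ∈ On))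

lemma E_Zmix (F : Filt Ω D) (j : Fin (D + 1)) (On B : Finset (Fin (R + 1))) (yb : Ω → I → ℝ)
    (d : ℕ) (y : Ω × (I × U D R)) :
    (F.prod (LabF I D R)).E d (Zmix j On B yb) y =
      cE F d yb y.1 y.2.1 * (dens B * otil j d On (y.2.2 j)) := by
  have := decC_E_X F d yb (fun u => dens B * ind (u j ∈ On)) y
  rw [Filt.E_const_mul, decC_E_UF_one j (fun c => ind (c ∈ On)), decC_E_coin_otil] at this
  exact this

lemma Ex_Zmix (F : Filt Ω D) (j : Fin (D + 1)) (On B : Finset (Fin (R + 1))) (yb : Ω → I → ℝ) :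
    (F.prod (LabF I D R)).Ex (Zmix j On B yb) =
      dens B * dens On * F.Ex fun ω => av fun i => yb ω i := by
  have := decC_Ex_X F (fun ω i (u : U D R) => yb ω i * (dens B * ind (u j ∈ On)))
  simp only [Filt.Ex_const_mul, decC_Ex_UF_one j (fun c => ind (c ∈ On)), decC_av_ind_mem,
    av_mul_const, Filt.Ex_mul_const] at this
  rw [mul_comm]
  exact this

namespace Setup
variable {F : Filt Ω D} {γ : ℝ} {V : Ω × (I × U D R) → ℝ} {j e : Fin (D + 1)} {e' : ℕ}
  {On A B : Finset (Fin (R + 1))} {ya yb : Ω → I → ℝ} {κ h lam : ℝ}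

lemma lt_D (S : Setup F γ V j e e' On A B ya yb κ h lam) : e' < D := by
  have := e.2; have := S.he; omega

lemma j_ne (S : Setup F γ V j e e' On A B ya yb κ h lam) : j ≠ e := by
  intro h; have := S.hj; have := S.he; subst h; omega

lemma one_le_h (S : Setup F γ V j e e' On A B ya yb κ h lam) : 1 ≤ h := by
  have := S.hh; have := S.h1
  have : 0 ≤ (1 - γ) * D := mul_nonneg (by linarith) (Nat.cast_nonneg _)
  linarith

lemma Q_split (S : Setup F γ V j e e' On A B ya yb κ h lam) (y : Ω × (I × U D R)) :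
    |1 - (F.prod (LabF I D R)).Q (fun _ => γ) D V (e' + 1) y -
      yb y.1 y.2.1 * (ind (y.2.2 j ∈ On) * ind (y.2.2 e ∈ B))| ≤ 2 * ind (y.2.2 e ∈ A) := by
  rw [← S.he, S.hQ]
  have ha := S.hya y.1 y.2.1
  have hk1 := S.hk1
  have hk3 := S.hk3
  by_cases hA : y.2.2 e ∈ A
  · have hB : y.2.2 e ∉ B := Finset.disjoint_left.1 S.hAB hA
    rw [ind_pos hA, ind_neg hB]
    by_cases ho : y.2.2 j ∈ On
    · rw [ind_pos ho, abs_le]; constructor <;> nlinarith
    · rw [ind_neg ho, abs_le]; constructor <;> nlinarith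
  · rw [ind_neg hA]
    have : (1 : ℝ) - (1 + (κ - 1) * 0) * (1 - ind (y.2.2 j ∈ On) * (0 * ya y.1 y.2.1 +
        ind (y.2.2 e ∈ B) * yb y.1 y.2.1)) -
        yb y.1 y.2.1 * (ind (y.2.2 j ∈ On) * ind (y.2.2 e ∈ B)) = 0 := by ring
    rw [this]; simp

lemma Q_mem (S : Setup F γ V j e e' On A B ya yb κ h lam) (y : Ω × (I × U D R)) :
    0 ≤ (F.prod (LabF I D R)).Q (fun _ => γ) D V (e' + 1) y ∧
      (F.prod (LabF I D R)).Q (fun _ => γ) D V (e' + 1) y ≤ 3 := by
  refine ⟨(Filt.Q_pos _ _ _ S.hV _ _).le, ?_⟩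
  rw [← S.he, S.hQ]
  have ha := S.hya y.1 y.2.1
  have hb := S.hyb y.1 y.2.1
  have hk1 := S.hk1
  have hk3 := S.hk3
  have h1 := ind_nonneg (y.2.2 e ∈ A)
  have h2 := ind_le_one (y.2.2 e ∈ A)
  have h3 : 0 ≤ ind (y.2.2 j ∈ On) *
      (ind (y.2.2 e ∈ A) * ya y.1 y.2.1 + ind (y.2.2 e ∈ B) * yb y.1 y.2.1) :=
    mul_nonneg (ind_nonneg _) (add_nonneg (mul_nonneg h1 ha.1) (mul_nonneg (ind_nonneg _) hb.1))
  have h4 : 0 ≤ (κ - 1) * ind (y.2.2 e ∈ A) := mul_nonneg (by linarith) h1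
  have h5 : (κ - 1) * ind (y.2.2 e ∈ A) ≤ 2 := by nlinarith
  nlinarith

lemma E_yb_o_psi (S : Setup F γ V j e e' On A B ya yb κ h lam) {d : ℕ} (hd : d ≤ e')
    (f : Ω → I → ℝ) (y : Ω × (I × U D R)) :
    (F.prod (LabF I D R)).E d
      (fun y => f y.1 y.2.1 * (ind (y.2.2 j ∈ On) * ind (y.2.2 e ∈ B))) y =
      cE F d f y.1 y.2.1 * (dens B * otil j d On (y.2.2 j)) := by
  rw [decC_E_X F d f (fun u => ind (u j ∈ On) * ind (u e ∈ B)) y,
    decC_E_UF_two S.j_ne (fun c => ind (c ∈ On)) (fun c => ind (c ∈ B)), decC_E_coin_otil,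
    Filt.E_coin_of_lt (by have := S.he; omega) (by have := S.lt_D; omega), decC_av_ind_mem,
    mul_comm (dens B)]

lemma abs_E_Z (S : Setup F γ V j e e' On A B ya yb κ h lam) (d : ℕ) (y : Ω × (I × U D R)) :
    |(F.prod (LabF I D R)).E d (Zmix j On B yb) y| ≤ lam / 2 := by
  refine Filt.abs_E_le_of_le _ d (fun y => ?_) y
  have hb := S.hyb y.1 y.2.1
  have h1 := decC_dens_nonneg B
  have h2 : 0 ≤ dens B * ind (y.2.2 j ∈ On) := mul_nonneg h1 (ind_nonneg _)
  have h3 : dens B * ind (y.2.2 j ∈ On) ≤ lam :=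
    (mul_le_of_le_one_right h1 (ind_le_one _)).trans S.hB
  unfold Zmix
  rw [abs_of_nonneg (mul_nonneg hb.1 h2)]
  nlinarith

lemma w_sub (S : Setup F γ V j e e' On A B ya yb κ h lam) (y : Ω × (I × U D R)) :
    |decCw (F.prod (LabF I D R)) γ V e' y - (F.prod (LabF I D R)).E e' (Zmix j On B yb) y| ≤
      2 * lam ^ 2 := by
  rw [decCw_eq, E_Zmix, ← S.E_yb_o_psi le_rfl yb y, ← Filt.E_sub]
  refine (Filt.abs_E_le _ _ _ _).trans ((Filt.E_mono _ _ (fun y => S.Q_split y) y).trans ?_)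
  rw [Filt.E_const_mul, decC_E_psi F (by have := S.he; omega)]
  have := S.hA
  linarith

lemma w_le (S : Setup F γ V j e e' On A B ya yb κ h lam) (y : Ω × (I × U D R)) :
    |decCw (F.prod (LabF I D R)) γ V e' y| ≤ lam := by
  have h1 := S.w_sub y
  have h2 := S.abs_E_Z e' y
  have h3 := abs_sub_abs_le_abs_sub (decCw (F.prod (LabF I D R)) γ V e' y)
    ((F.prod (LabF I D R)).E e' (Zmix j On B yb) y)
  have := S.hl0
  have := S.hl4
  nlinarith

/-- Expansion of the tilted conditional expectation. -/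
lemma inner (S : Setup F γ V j e e' On A B ya yb κ h lam) {d : ℕ} (hd : d ≤ e') {P : Ω → ℝ}
    (hP : ∀ ω, |P ω| ≤ 1) (hPm : F.Meas (e' + 1) P) (y : Ω × (I × U D R)) :
    |((F.prod (LabF I D R)).tilt (fun _ => γ) V S.hV).E d (fun y => P y.1) y - F.E d P y.1 -
      dens B * otil j d On (y.2.2 j) *
        F.E d (fun x => P x * Rop F γ d e' yb x y.2.1) y.1| ≤ (30 * h ^ 2 + 5) * lam ^ 2 := by
  have hD := S.lt_D
  set X := F.prod (LabF I D R) with hX
  rw [Filt.E_tilt_meas X (fun _ => γ) S.hV (show d ≤ e' + 1 by omega) (show e' + 1 ≤ D by omega)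
    (Filt.meas_prod_fst F _ hPm)]
  set L : Ω × (I × U D R) → ℝ := fun y =>
    ∑ j' ∈ Finset.Ico d (e' + 1), wt γ d e' j' * X.E j' (Zmix j On B yb) y with hL
  have hLb : ∀ y, |L y| ≤ lam / 2 := by
    intro y
    refine (Finset.abs_sum_le_sum_abs _ _).trans ?_
    calc ∑ j' ∈ Finset.Ico d (e' + 1), |wt γ d e' j' * X.E j' (Zmix j On B yb) y|
        ≤ ∑ j' ∈ Finset.Ico d (e' + 1), wt γ d e' j' * (lam / 2) := by
          refine Finset.sum_le_sum fun j' _ => ?_
          rw [abs_mul, abs_of_nonneg (wt_nonneg S.h0 S.h1 _ _ _)]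
          exact mul_le_mul_of_nonneg_left (S.abs_E_Z j' y) (wt_nonneg S.h0 S.h1 _ _ _)
      _ = lam / 2 := by rw [← Finset.sum_mul, sum_wt γ hd, one_mul]
  -- the main term
  have hmain : X.E d (fun y => (1 + L y -
      yb y.1 y.2.1 * (ind (y.2.2 j ∈ On) * ind (y.2.2 e ∈ B))) * P y.1) y =
      F.E d P y.1 + dens B * otil j d On (y.2.2 j) *
        F.E d (fun x => P x * Rop F γ d e' yb x y.2.1) y.1 := by
    have e1 : X.E d (fun y => (1 + L y -
        yb y.1 y.2.1 * (ind (y.2.2 j ∈ On) * ind (y.2.2 e ∈ B))) * P y.1) y =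
        X.E d (fun y => P y.1) y + ∑ j' ∈ Finset.Ico d (e' + 1), wt γ d e' j' *
          X.E d (fun y => (P y.1 * cE F j' yb y.1 y.2.1) *
            (UF D R).E j' (fun u => dens B * ind (u j ∈ On)) y.2.2) y -
          X.E d (fun y => (P y.1 * yb y.1 y.2.1) *
            (ind (y.2.2 j ∈ On) * ind (y.2.2 e ∈ B))) y := by
      rw [← decC_E_lin]
      refine Filt.E_congr _ _ (fun y => ?_) y
      have : ∀ j', X.E j' (Zmix j On B yb) y = cE F j' yb y.1 y.2.1 *
          (UF D R).E j' (fun u => dens B * ind (u j ∈ On)) y.2.2 := fun j' =>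
        decC_E_X F j' yb (fun u => dens B * ind (u j ∈ On)) y
      simp only [hL, this]
      rw [sub_mul, add_mul, Finset.sum_mul]
      congr 1
      · congr 1
        · ring
        · exact Finset.sum_congr rfl fun j' _ => by ring
      · ring
    rw [e1, S.E_yb_o_psi hd (fun ω i => P ω * yb ω i) y, Filt.mor_fst F (LabF I D R) d P y]
    have e2 : ∀ j' ∈ Finset.Ico d (e' + 1), wt γ d e' j' *
        X.E d (fun y => (P y.1 * cE F j' yb y.1 y.2.1) *
          (UF D R).E j' (fun u => dens B * ind (u j ∈ On)) y.2.2) y =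
        dens B * otil j d On (y.2.2 j) *
          (wt γ d e' j' * F.E d (fun x => P x * cE F j' yb x y.2.1) y.1) := by
      intro j' hj'
      rw [decC_E_X F d (fun ω i => P ω * cE F j' yb ω i)
        ((UF D R).E j' fun u => dens B * ind (u j ∈ On)) y,
        Filt.E_E_of_le _ (Finset.mem_Ico.1 hj').1, Filt.E_const_mul,
        decC_E_UF_one j (fun c => ind (c ∈ On)), decC_E_coin_otil]
      unfold cE
      ring
    rw [Finset.sum_congr rfl e2, ← Finset.mul_sum]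
    have e3 : F.E d (fun x => P x * Rop F γ d e' yb x y.2.1) y.1 =
        ∑ j' ∈ Finset.Ico d (e' + 1), wt γ d e' j' *
          F.E d (fun x => P x * cE F j' yb x y.2.1) y.1 -
          F.E d (fun x => P x * yb x y.2.1) y.1 := by
      simp only [← Filt.E_const_mul, ← Filt.E_sum, ← Filt.E_sub]
      refine Filt.E_congr _ _ (fun x => ?_) _
      unfold Rop
      rw [mul_sub, Finset.mul_sum]
      congr 1
      exact Finset.sum_congr rfl fun j' _ => by ring
    rw [e3]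
    unfold cE
    ring
  rw [sub_sub, ← hmain, ← Filt.E_sub]
  have hl0 := S.hl0
  have hl4 := S.hl4
  have hpt : ∀ y, |X.Mde (fun _ => γ) V d (e' + 1) y * P y.1 - (1 + L y -
      yb y.1 y.2.1 * (ind (y.2.2 j ∈ On) * ind (y.2.2 e ∈ B))) * P y.1| ≤
      30 * h ^ 2 * lam ^ 2 + (lam * ind (y.2.2 e ∈ B) + 4 * ind (y.2.2 e ∈ A)) := by
    intro y
    obtain ⟨N, hN, hNe⟩ := decC_Mde_expand X S.h0 S.h1 S.hV hd hD S.hh hl0 S.hl S.w_le S.w_sub y
    have hNe' : |N - 1 - L y| ≤ 10 * h ^ 2 * lam ^ 2 := by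
      have : L y = ∑ j' ∈ Finset.Ico d (e' + 1),
          (if j' = d then 1 else 1 - γ) * (γ ^ (e' - j') * X.E j' (Zmix j On B yb) y) :=
        Finset.sum_congr rfl fun j' _ => by unfold wt; ring
      rw [this]; exact hNe
    rw [hN, ← sub_mul, abs_mul]
    refine (mul_le_of_le_one_right (abs_nonneg _) (hP _)).trans ?_
    have hs := S.Q_split y
    have hq := S.Q_mem y
    have hb := S.hyb y.1 y.2.1
    set q := X.Q (fun _ => γ) D V (e' + 1) y
    set t := yb y.1 y.2.1 * (ind (y.2.2 j ∈ On) * ind (y.2.2 e ∈ B)) with ht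
    have ht0 : 0 ≤ t := mul_nonneg hb.1 (mul_nonneg (ind_nonneg _) (ind_nonneg _))
    have ht1 : t ≤ ind (y.2.2 e ∈ B) := by
      have h1 : ind (y.2.2 j ∈ On) * ind (y.2.2 e ∈ B) ≤ ind (y.2.2 e ∈ B) :=
        mul_le_of_le_one_left (ind_nonneg _) (ind_le_one _)
      have h2 : t ≤ ind (y.2.2 j ∈ On) * ind (y.2.2 e ∈ B) :=
        mul_le_of_le_one_left (mul_nonneg (ind_nonneg _) (ind_nonneg _)) (by linarith [hb.2])
      linarith
    have hid : q * N - (1 + L y - t) = q * (N - 1 - L y) - t * L y - (1 - q - t) * (1 + L y) := by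
      ring
    rw [hid]
    have b1 : |q * (N - 1 - L y)| ≤ 30 * h ^ 2 * lam ^ 2 := by
      rw [abs_mul, abs_of_nonneg hq.1]
      have := mul_le_mul hq.2 hNe' (abs_nonneg _) (by norm_num)
      linarith
    have b2 : |t * L y| ≤ lam * ind (y.2.2 e ∈ B) := by
      rw [abs_mul, abs_of_nonneg ht0, mul_comm]
      exact mul_le_mul ((hLb y).trans (by linarith)) ht1 ht0 hl0
    have b3 : |(1 - q - t) * (1 + L y)| ≤ 4 * ind (y.2.2 e ∈ A) := by
      rw [abs_mul]
      have h1 : |1 + L y| ≤ 2 := by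
        have := abs_le.1 (hLb y)
        rw [abs_le]; constructor <;> linarith
      have := mul_le_mul hs h1 (abs_nonneg _) (mul_nonneg (by norm_num) (ind_nonneg _))
      linarith
    have := abs_sub (q * (N - 1 - L y) - t * L y) ((1 - q - t) * (1 + L y))
    have := abs_sub (q * (N - 1 - L y)) (t * L y)
    linarith
  refine (Filt.abs_E_le _ _ _ _).trans ((Filt.E_mono _ _ hpt y).trans ?_)
  rw [Filt.E_add, Filt.E_add, Filt.E_const, Filt.E_const_mul, Filt.E_const_mul,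
    decC_E_psi F (by have := S.he; omega), decC_E_psi F (by have := S.he; omega)]
  have := S.hA
  have := mul_le_mul_of_nonneg_left S.hB hl0
  nlinarith

end Setup

end

end Crest.Agent.R153
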