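import Mathlib
import Crest.Agent.R153.DecC4

/-!
Row 153, decoupling, part C5: the outer expansion and the difference of two identities.
-/

set_option autoImplicit false
set_option linter.unusedSectionVars false

namespace Crest.Agent.R153

open Finset

section
variable {Ω I : Type} [Fintype Ω] [Nonempty Ω] [Fintype I] [Nonempty I] {D R : ℕ}

/-- First-order part of the total tilting density. -/
noncomputable def Lone (F : Filt Ω D) (γ : ℝ) (j e' : ℕ) (On B : Finset (Fin (R + 1)))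
    (yb : Ω → I → ℝ) (ω : Ω) (i : I) (c : Fin (R + 1)) : ℝ :=
  γ ^ (e' + 1) * (dens B * dens On * F.Ex fun ω => av fun i => yb ω i) +
    ∑ j' ∈ range (e' + 1), (1 - γ) * (γ ^ (e' - j') * (cE F j' yb ω i * (dens B * otil j j' On c)))

/-- The main term of the identity. -/
noncomputable def Dl (F : Filt Ω D) (γ : ℝ) (j d e' : ℕ) (On B : Finset (Fin (R + 1)))
    (ya yb : Ω → I → ℝ) (H : Ω → ℝ) (Lam : Ω → I → ℝ) : ℝ :=
  F.Ex fun ω => av fun i => av fun c : Fin (R + 1) => (1 - ind (c ∈ On) * ya ω i) *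
    (H ω * (1 + Lone F γ j e' On B yb ω i c) + dens B * otil j d On c * Lam ω i)

lemma Lone_sub (F : Filt Ω D) (γ : ℝ) {d e' : ℕ} (hd : d ≤ e') (On B : Finset (Fin (R + 1)))
    (yb : Ω → I → ℝ) (ω : Ω) (i : I) (c : Fin (R + 1)) :
    Lone F γ d e' On B yb ω i c - Lone F γ (d + 1) e' On B yb ω i c =
      (1 - γ) * (γ ^ (e' - d) * (cE F d yb ω i * (dens B * (ind (c ∈ On) - dens On)))) := by
  unfold Lone
  rw [add_sub_add_left_eq_sub, ← Finset.sum_sub_distrib,
    Finset.sum_eq_single_of_mem d (Finset.mem_range.2 (by omega))]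
  · unfold otil
    rw [if_pos le_rfl, if_neg (by omega)]
    ring
  · intro j' _ hne
    unfold otil
    by_cases h : d ≤ j'
    · rw [if_pos h, if_pos (by omega), sub_self]
    · rw [if_neg h, if_neg (by omega), sub_self]

lemma Dl_sub (F : Filt Ω D) (γ : ℝ) {d e' : ℕ} (hd : d ≤ e') (On B : Finset (Fin (R + 1)))
    (ya yb : Ω → I → ℝ) (H : Ω → ℝ) (Lam : Ω → I → ℝ) :
    Dl F γ d d e' On B ya yb H Lam - Dl F γ (d + 1) d e' On B ya yb H Lam =
      -(dens B * (dens On * (1 - dens On))) * F.Ex fun ω => av fun i =>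
        ya ω i * (H ω * ((1 - γ) * (γ ^ (e' - d) * cE F d yb ω i)) + Lam ω i) := by
  unfold Dl
  rw [← Filt.Ex_sub, ← Filt.Ex_const_mul]
  refine F.Ex_congr fun ω => ?_
  rw [← av_sub, ← av_const_mul]
  refine av_congr fun i => ?_
  rw [← av_sub]
  have key : ∀ c : Fin (R + 1), (1 - ind (c ∈ On) * ya ω i) *
      (H ω * (1 + Lone F γ d e' On B yb ω i c) + dens B * otil d d On c * Lam ω i) -
      (1 - ind (c ∈ On) * ya ω i) *
      (H ω * (1 + Lone F γ (d + 1) e' On B yb ω i c) + dens B * otil (d + 1) d On c * Lam ω i) =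
      dens B * (H ω * ((1 - γ) * (γ ^ (e' - d) * cE F d yb ω i)) + Lam ω i) *
        ((1 - ya ω i + ya ω i * dens On) * ind (c ∈ On) - dens On) := by
    intro c
    have h1 := Lone_sub F γ hd On B yb ω i c
    have h2 : otil d d On c = ind (c ∈ On) := if_pos le_rfl
    have h3 : otil (d + 1) d On c = dens On := if_neg (by omega)
    have h4 := ind_mul_self (c ∈ On)
    rw [h2, h3, eq_add_of_sub_eq h1]
    linear_combination (-(dens B * (H ω * ((1 - γ) * (γ ^ (e' - d) * cE F d yb ω i)) + Lam ω i) *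
      ya ω i)) * h4
  rw [av_congr key, av_const_mul, av_sub, av_const_mul, decC_av_ind_mem, av_const]
  ring

namespace Setup
variable {F : Filt Ω D} {γ : ℝ} {V : Ω × (I × U D R) → ℝ} {j e : Fin (D + 1)} {e' : ℕ}
  {On A B : Finset (Fin (R + 1))} {ya yb : Ω → I → ℝ} {κ h lam : ℝ}

lemma Lone_eq (_S : Setup F γ V j e e' On A B ya yb κ h lam) (y : Ω × (I × U D R)) :
    γ ^ (e' + 1) * (F.prod (LabF I D R)).Ex (Zmix j On B yb) +
      ∑ j' ∈ range (e' + 1), (1 - γ) *
        (γ ^ (e' - j') * (F.prod (LabF I D R)).E j' (Zmix j On B yb) y) =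
      Lone F γ j e' On B yb y.1 y.2.1 (y.2.2 j) := by
  unfold Lone
  rw [Ex_Zmix]
  simp only [E_Zmix]

lemma abs_Lone_le (S : Setup F γ V j e e' On A B ya yb κ h lam) (y : Ω × (I × U D R)) :
    |Lone F γ j e' On B yb y.1 y.2.1 (y.2.2 j)| ≤ h * lam / 2 := by
  rw [← S.Lone_eq y]
  have h0 := S.h0
  have h1 := S.h1
  have hl0 := S.hl0
  have a1 : |γ ^ (e' + 1) * (F.prod (LabF I D R)).Ex (Zmix j On B yb)| ≤ lam / 2 := by
    rw [abs_mul, abs_of_nonneg (pow_nonneg h0.le _), ← Filt.Ex_E _ 0]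
    refine (mul_le_of_le_one_left (abs_nonneg _) (pow_le_one₀ h0.le h1)).trans ?_
    exact (Filt.abs_Ex_le _ _).trans (Filt.Ex_le_of_le _ fun y => S.abs_E_Z 0 y)
  have a2 : |∑ j' ∈ range (e' + 1), (1 - γ) *
      (γ ^ (e' - j') * (F.prod (LabF I D R)).E j' (Zmix j On B yb) y)| ≤
      ((e' : ℝ) + 1) * ((1 - γ) * (lam / 2)) := by
    refine (Finset.abs_sum_le_sum_abs _ _).trans ?_
    have : ∀ j' ∈ range (e' + 1), |(1 - γ) *
        (γ ^ (e' - j') * (F.prod (LabF I D R)).E j' (Zmix j On B yb) y)| ≤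
        (1 - γ) * (lam / 2) := by
      intro j' _
      rw [abs_mul, abs_of_nonneg (by linarith : 0 ≤ 1 - γ), abs_mul,
        abs_of_nonneg (pow_nonneg h0.le _)]
      refine mul_le_mul_of_nonneg_left ?_ (by linarith)
      exact (mul_le_of_le_one_left (abs_nonneg _) (pow_le_one₀ h0.le h1)).trans (S.abs_E_Z j' y)
    refine (Finset.sum_le_sum this).trans ?_
    rw [Finset.sum_const, Finset.card_range, nsmul_eq_mul]
    push_cast
    exact le_rfl
  have a3 : (e' : ℝ) + 1 ≤ D := by exact_mod_cast S.lt_D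
  have a4 := S.hh
  have a5 : ((e' : ℝ) + 1) * ((1 - γ) * (lam / 2)) ≤ D * ((1 - γ) * (lam / 2)) :=
    mul_le_mul_of_nonneg_right a3 (mul_nonneg (by linarith) (by linarith))
  refine (abs_add_le _ _).trans ?_
  nlinarith

/-- Expansion of the tilted total expectation. -/
lemma outer (S : Setup F γ V j e e' On A B ya yb κ h lam) {G H0 H1 : Ω × (I × U D R) → ℝ}
    {β : ℝ} (hGm : (F.prod (LabF I D R)).Meas (e' + 1) G) (hG : ∀ y, |G y| ≤ 1)
    (hH1 : ∀ y, |H1 y| ≤ lam) (hβ : ∀ y, |G y - H0 y - H1 y| ≤ β) :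
    |((F.prod (LabF I D R)).tilt (fun _ => γ) V S.hV).Ex (fun y => ind (y.2.2 e ∈ A) * G y) -
      κ * (F.prod (LabF I D R)).Ex (fun y => ind (y.2.2 e ∈ A) *
        ((1 - ind (y.2.2 j ∈ On) * ya y.1 y.2.1) *
          (H0 y * (1 + Lone F γ j e' On B yb y.1 y.2.1 (y.2.2 j)) + H1 y)))| ≤
      κ * (dens A * (11 * h ^ 2 * lam ^ 2 + 2 * β)) := by
  have hD := S.lt_D
  set X := F.prod (LabF I D R) with hX
  have hm : X.Meas (e' + 1) fun y => ind (y.2.2 e ∈ A) * G y := by
    refine Filt.Meas.mul (fun y y' hr => ?_) hGm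
    rw [(decC_rel_X F hr).2 e S.he.le]
  rw [Filt.Ex_tilt_meas X (fun _ => γ) S.hV (show e' + 1 ≤ D by omega) hm, ← Filt.Ex_div_const,
    ← Filt.Ex_const_mul, ← Filt.Ex_sub]
  have hl0 := S.hl0
  have hh1 := S.one_le_h
  have hpt : ∀ y, |X.Q (fun _ => γ) D V 0 y * X.Mde (fun _ => γ) V 0 (e' + 1) y *
      (ind (y.2.2 e ∈ A) * G y) / X.pm (fun _ => γ) V - κ * (ind (y.2.2 e ∈ A) *
        ((1 - ind (y.2.2 j ∈ On) * ya y.1 y.2.1) *
          (H0 y * (1 + Lone F γ j e' On B yb y.1 y.2.1 (y.2.2 j)) + H1 y)))| ≤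
      κ * (11 * h ^ 2 * lam ^ 2 + 2 * β) * ind (y.2.2 e ∈ A) := by
    intro y
    by_cases hA : y.2.2 e ∈ A
    swap
    · rw [ind_neg hA]; simp
    obtain ⟨N, hN, hNe⟩ := decC_total_expand X S.h0 S.h1 S.hV hD S.hh hl0 S.hl S.w_le S.w_sub y
    rw [S.Lone_eq y] at hNe
    have hB : y.2.2 e ∉ B := Finset.disjoint_left.1 S.hAB hA
    have hq : X.Q (fun _ => γ) D V (e' + 1) y = κ * (1 - ind (y.2.2 j ∈ On) * ya y.1 y.2.1) := by
      rw [← S.he, S.hQ, ind_pos hA, ind_neg hB]; ring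
    rw [mul_div_right_comm, hN, hq, ind_pos hA]
    have hL := S.abs_Lone_le y
    set L := Lone F γ j e' On B yb y.1 y.2.1 (y.2.2 j)
    set r := 1 - ind (y.2.2 j ∈ On) * ya y.1 y.2.1 with hr
    have ha := S.hya y.1 y.2.1
    have hr0 : 0 ≤ r := by
      have := mul_le_of_le_one_left ha.1 (ind_le_one (y.2.2 j ∈ On))
      linarith [ha.2]
    have hr1 : r ≤ 1 := by
      have := mul_nonneg (ind_nonneg (y.2.2 j ∈ On)) ha.1
      linarith
    have hid : κ * r * N * (1 * G y) - κ * (1 * (r * (H0 y * (1 + L) + H1 y))) =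
        κ * (r * ((N - 1 - L) * G y + (1 + L) * (G y - H0 y - H1 y) + L * H1 y)) := by ring
    have hk : 0 ≤ κ := by linarith [S.hk1]
    rw [hid, abs_mul, abs_of_nonneg hk, mul_one]
    refine mul_le_mul_of_nonneg_left ?_ hk
    rw [abs_mul, abs_of_nonneg hr0]
    refine (mul_le_of_le_one_left (abs_nonneg _) hr1).trans ?_
    have b1 : |(N - 1 - L) * G y| ≤ 10 * h ^ 2 * lam ^ 2 := by
      rw [abs_mul]; exact (mul_le_of_le_one_right (abs_nonneg _) (hG y)).trans hNe
    have b2 : |(1 + L) * (G y - H0 y - H1 y)| ≤ 2 * β := by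
      rw [abs_mul]
      have h1 : |1 + L| ≤ 2 := by
        have := abs_le.1 hL
        have := S.hl
        rw [abs_le]; constructor <;> linarith
      exact mul_le_mul h1 (hβ y) (abs_nonneg _) (by norm_num)
    have b3 : |L * H1 y| ≤ h ^ 2 * lam ^ 2 := by
      rw [abs_mul]
      have h1 := mul_le_mul hL (hH1 y) (abs_nonneg _) (by positivity)
      have h2 : h * lam ^ 2 ≤ h ^ 2 * lam ^ 2 :=
        mul_le_mul_of_nonneg_right (by nlinarith) (sq_nonneg _)
      nlinarith [sq_nonneg lam]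
    have := abs_add_three ((N - 1 - L) * G y) ((1 + L) * (G y - H0 y - H1 y)) (L * H1 y)
    linarith
  refine (Filt.abs_Ex_le _ _).trans ((Filt.Ex_mono _ hpt).trans ?_)
  rw [Filt.Ex_const_mul, decC_Ex_psi]
  exact le_of_eq (by ring)

lemma Ex_main (S : Setup F γ V j e e' On A B ya yb κ h lam) (d : ℕ) (H : Ω → ℝ)
    (Lam : Ω → I → ℝ) :
    (F.prod (LabF I D R)).Ex (fun y => ind (y.2.2 e ∈ A) *
        ((1 - ind (y.2.2 j ∈ On) * ya y.1 y.2.1) *
          (H y.1 * (1 + Lone F γ j e' On B yb y.1 y.2.1 (y.2.2 j)) +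
            dens B * otil j d On (y.2.2 j) * Lam y.1 y.2.1))) =
      dens A * Dl F γ j d e' On B ya yb H Lam := by
  rw [decC_Ex_X F (fun ω i (u : U D R) => ind (u e ∈ A) * ((1 - ind (u j ∈ On) * ya ω i) *
    (H ω * (1 + Lone F γ j e' On B yb ω i (u j)) + dens B * otil j d On (u j) * Lam ω i)))]
  unfold Dl
  rw [← Filt.Ex_const_mul]
  refine F.Ex_congr fun ω => ?_
  rw [← av_const_mul]
  refine av_congr fun i => ?_
  rw [decC_Ex_UF_two S.j_ne.symm (fun c => ind (c ∈ A)) (fun c => (1 - ind (c ∈ On) * ya ω i) *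
    (H ω * (1 + Lone F γ j e' On B yb ω i c) + dens B * otil j d On c * Lam ω i)),
    decC_av_ind_mem]

/-- The main term is small as soon as the identity holds. -/
lemma Dl_le (S : Setup F γ V j e e' On A B ya yb κ h lam) {d : ℕ} (hd : d ≤ e')
    {P : Ω → I → ℝ} (hP : ∀ ω i, 0 ≤ P ω i ∧ P ω i ≤ 1) (hPm : ∀ i, F.Meas (e' + 1) fun ω => P ω i)
    {T ε : ℝ} (hT0 : 0 ≤ T) (hT1 : T ≤ 1)
    (hε : |((F.prod (LabF I D R)).tilt (fun _ => γ) V S.hV).Ex (fun y => ind (y.2.2 e ∈ A) *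
      ((av fun i' => P y.1 i' *
        ((F.prod (LabF I D R)).tilt (fun _ => γ) V S.hV).E d (fun y' => P y'.1 i') y) - T))| ≤ ε) :
    dens A * |Dl F γ j d e' On B ya yb (fun ω => (av fun i' => P ω i' * cE F d P ω i') - T)
      (fun ω i => av fun i' => P ω i' * F.E d (fun x => P x i' * Rop F γ d e' yb x i) ω)| ≤
      ε + dens A * ((71 * h ^ 2 + 10) * lam ^ 2) := by
  have hPa : ∀ ω i, |P ω i| ≤ 1 := fun ω i => by rw [abs_of_nonneg (hP ω i).1]; exact (hP ω i).2
  set Xp := (F.prod (LabF I D R)).tilt (fun _ => γ) V S.hV with hXp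
  have hO := S.outer
    (G := fun y => (av fun i' => P y.1 i' * Xp.E d (fun y' => P y'.1 i') y) - T)
    (H0 := fun y => (av fun i' => P y.1 i' * cE F d P y.1 i') - T)
    (H1 := fun y => dens B * otil j d On (y.2.2 j) *
      av fun i' => P y.1 i' * F.E d (fun x => P x i' * Rop F γ d e' yb x y.2.1) y.1)
    (β := (30 * h ^ 2 + 5) * lam ^ 2) ?_ ?_ ?_ ?_
  · rw [S.Ex_main d (fun ω => (av fun i' => P ω i' * cE F d P ω i') - T)
      (fun ω i => av fun i' => P ω i' * F.E d (fun x => P x i' * Rop F γ d e' yb x i) ω)] at hO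
    set a := Xp.Ex (fun y => ind (y.2.2 e ∈ A) *
      ((av fun i' => P y.1 i' * Xp.E d (fun y' => P y'.1 i') y) - T))
    set b := Dl F γ j d e' On B ya yb (fun ω => (av fun i' => P ω i' * cE F d P ω i') - T)
      (fun ω i => av fun i' => P ω i' * F.E d (fun x => P x i' * Rop F γ d e' yb x i) ω)
    have hk := S.hk1
    have hA0 := decC_dens_nonneg A
    have h1 : |κ * (dens A * b)| ≤ |a| + |a - κ * (dens A * b)| := by
      have := abs_sub a (a - κ * (dens A * b))
      rwa [sub_sub_cancel] at this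
    rw [abs_mul, abs_mul, abs_of_nonneg (by linarith : 0 ≤ κ), abs_of_nonneg hA0] at h1
    have hε0 : 0 ≤ ε := (abs_nonneg _).trans hε
    have h2 : κ * (dens A * |b|) ≤ κ * (ε + dens A * ((71 * h ^ 2 + 10) * lam ^ 2)) := by
      have : ε ≤ κ * ε := le_mul_of_one_le_left hε0 hk
      nlinarith
    exact le_of_mul_le_mul_left h2 (by linarith)
  · refine Filt.Meas.sub (Filt.meas_av fun i' => Filt.Meas.mul
      (Filt.meas_prod_fst F _ (hPm i')) ?_) (Filt.meas_const _ _ _)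
    exact (Xp.meas_E d _).mono (by omega)
  · intro y
    have h1 : 0 ≤ av fun i' => P y.1 i' * Xp.E d (fun y' => P y'.1 i') y :=
      av_nonneg fun i' => mul_nonneg (hP _ _).1 (Xp.E_nonneg d (fun y' => (hP _ _).1) y)
    have h2 : (av fun i' => P y.1 i' * Xp.E d (fun y' => P y'.1 i') y) ≤ 1 :=
      av_le_of_le fun i' => mul_le_one₀ (hP _ _).2 (Xp.E_nonneg d (fun y' => (hP _ _).1) y)
        (Xp.E_le_of_le d (fun y' => (hP _ _).2) y)
    rw [abs_le]; constructor <;> linarith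
  · intro y
    have h1 : |av fun i' => P y.1 i' * F.E d (fun x => P x i' * Rop F γ d e' yb x y.2.1) y.1| ≤
        1 := by
      refine (abs_av_le _).trans (av_le_of_le fun i' => ?_)
      rw [abs_mul]
      refine mul_le_one₀ (hPa _ _) (abs_nonneg _) (F.abs_E_le_of_le d (fun x => ?_) _)
      rw [abs_mul]
      exact mul_le_one₀ (hPa _ _) (abs_nonneg _) (Rop_abs_le F S.h0 S.h1 hd
        (fun ω i => ⟨(S.hyb ω i).1, by linarith [(S.hyb ω i).2]⟩) _ _)
    have h2 := otil_mem j d On (y.2.2 j)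
    have h3 := decC_dens_nonneg B
    rw [abs_mul, abs_of_nonneg (mul_nonneg h3 h2.1)]
    refine (mul_le_of_le_one_right (mul_nonneg h3 h2.1) h1).trans ?_
    exact (mul_le_of_le_one_right h3 h2.2).trans S.hB
  · intro y
    rw [sub_sub_sub_cancel_right, ← av_const_mul, ← av_sub, ← av_sub]
    refine (abs_av_le _).trans (av_le_of_le fun i' => ?_)
    have := S.inner hd (P := fun ω => P ω i') (fun ω => hPa ω i') (hPm i') y
    have hid : P y.1 i' * Xp.E d (fun y' => P y'.1 i') y - P y.1 i' * cE F d P y.1 i' -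
        dens B * otil j d On (y.2.2 j) *
          (P y.1 i' * F.E d (fun x => P x i' * Rop F γ d e' yb x y.2.1) y.1) =
        P y.1 i' * (Xp.E d (fun y' => P y'.1 i') y - F.E d (fun ω => P ω i') y.1 -
          dens B * otil j d On (y.2.2 j) *
            F.E d (fun x => P x i' * Rop F γ d e' yb x y.2.1) y.1) := by
      unfold cE; ring
    rw [hid, abs_mul]
    exact (mul_le_of_le_one_left (abs_nonneg _) (hPa _ _)).trans this

end Setup

end

end Crest.Agent.R153
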