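import Mathlib
import Crest.Agent.R153.DecDefs

/-!
Row 153, decoupling, part T: bounded tilting densities, the Hilbert-Schmidt lemma, and the
insensitivity of formulas to one more perturbation term.
-/

set_option autoImplicit false

namespace Crest.Agent.R153

open Finset

theorem decT_step {X γ : ℝ} (hX : 1 / 2 ≤ X) (h0 : 0 < γ) (h1 : γ ≤ 1) : X ^ γ * γ ≤ X := by
  have hX0 : 0 < X := by linarith
  have hl : -1 ≤ Real.log X := by
    have h2 : Real.log (1 / 2) ≤ Real.log X := Real.log_le_log (by norm_num) hX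
    rw [one_div, Real.log_inv] at h2
    linarith [Real.log_two_lt_d9]
  have hγ := Real.log_le_sub_one_of_pos h0
  rw [← Real.log_le_log_iff (by positivity) hX0, Real.log_mul (by positivity) h0.ne',
    Real.log_rpow hX0]
  nlinarith

theorem decT_Q_Mde {Ω : Type} [Fintype Ω] {D : ℕ} (F : Filt Ω D) {γ : ℝ} {V : Ω → ℝ}
    (h0 : 0 < γ) (h1 : γ ≤ 1) (hV : ∀ ω, 1 / 2 ≤ V ω ∧ V ω ≤ 3) {d e : ℕ} (hde : d ≤ e)
    (he : e ≤ D) (ω : Ω) :
    F.Q (fun _ => γ) D V d ω * F.Mde (fun _ => γ) V d e ω * γ ^ (e - d) ≤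
      F.Q (fun _ => γ) D V e ω := by
  have hγ : Adm fun _ => γ := fun _ => ⟨h0, h1⟩
  have hV0 : ∀ ω, 0 < V ω := fun ω => by linarith [(hV ω).1]
  induction e, hde using Nat.le_induction with
  | base => simp
  | succ e hde ih =>
    have ih' := ih (by omega)
    have hX : 1 / 2 ≤ F.E e (F.Q (fun _ => γ) D V (e + 1)) ω :=
      F.le_E_of_le e (F.le_Q hγ D (by norm_num) (by norm_num) (fun ω => (hV ω).1) (e + 1)) ω
    have hQ : 0 < F.Q (fun _ => γ) D V (e + 1) ω := F.Q_pos _ D hV0 _ ω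
    have hs := decT_step hX h0 h1
    rw [F.Q_succ _ (show e < D by omega) V ω] at ih'
    rw [← F.Mde_mul _ V hde (Nat.le_succ e), F.Mde_succ, show e + 1 - d = e - d + 1 by omega,
      pow_succ]
    set X := F.E e (F.Q (fun _ => γ) D V (e + 1)) ω
    have hX0 : 0 < X := by linarith
    set q := F.Q (fun _ => γ) D V (e + 1) ω
    calc F.Q (fun _ => γ) D V d ω * (F.Mde (fun _ => γ) V d e ω * (q / X)) * (γ ^ (e - d) * γ)
        = (F.Q (fun _ => γ) D V d ω * F.Mde (fun _ => γ) V d e ω * γ ^ (e - d)) *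
            (γ * (q / X)) := by ring
      _ ≤ X ^ γ * (γ * (q / X)) := mul_le_mul_of_nonneg_right ih' (by positivity)
      _ = (X ^ γ * γ) * (q / X) := by ring
      _ ≤ X * (q / X) := mul_le_mul_of_nonneg_right hs (by positivity)
      _ = q := by field_simp

/-- The tilting densities of a weight with values in `[1/2, 3]` are bounded in terms of `m`. -/
theorem Mde_bound (m : ℝ) (hm : 0 < m) : ∃ C : ℝ, 1 ≤ C ∧ ∀ (Ω : Type) [Fintype Ω] [Nonempty Ω]
    (D : ℕ) (F : Filt Ω D) (γ : ℝ) (V : Ω → ℝ), 0 < γ → γ ≤ 1 → m ≤ γ ^ D →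
    (∀ ω, 1 / 2 ≤ V ω ∧ V ω ≤ 3) → ∀ (d e : ℕ) (ω : Ω), e ≤ D →
      F.Mde (fun _ => γ) V d e ω ≤ C ∧
      F.Q (fun _ => γ) D V 0 ω * F.Mde (fun _ => γ) V 0 e ω / F.pm (fun _ => γ) V ≤ C := by
  refine ⟨6 / m + 1, by have := div_pos (by norm_num : (0 : ℝ) < 6) hm; linarith, ?_⟩
  intro Ω _ _ D F γ V h0 h1 hmD hV d e ω he
  have hγ : Adm fun _ => γ := fun _ => ⟨h0, h1⟩
  have hV0 : ∀ ω, 0 < V ω := fun ω => by linarith [(hV ω).1]
  have h6 : 0 < 6 / m := div_pos (by norm_num) hm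
  have key : ∀ d, d ≤ e → F.Q (fun _ => γ) D V d ω * F.Mde (fun _ => γ) V d e ω * m ≤ 3 := by
    intro d hde
    have h2 := decT_Q_Mde F h0 h1 hV hde he ω
    have h3 : F.Q (fun _ => γ) D V e ω ≤ 3 :=
      F.Q_le hγ D (by norm_num) (fun ω => (hV0 ω).le) (fun ω => (hV ω).2) e ω
    have h4 : m ≤ γ ^ (e - d) := hmD.trans (pow_le_pow_of_le_one h0.le h1 (by omega))
    have h5 := mul_pos (F.Q_pos (fun _ => γ) D hV0 d ω) (F.Mde_pos (fun _ => γ) hV0 d e ω)
    nlinarith
  constructor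
  · rcases le_total e d with hde | hde
    · rw [F.Mde_of_le _ V hde]
      linarith
    · have h2 := key d hde
      have h3 : 1 / 2 ≤ F.Q (fun _ => γ) D V d ω :=
        F.le_Q hγ D (by norm_num) (by norm_num) (fun ω => (hV ω).1) d ω
      have h4 := mul_pos (F.Mde_pos (fun _ => γ) hV0 d e ω) hm
      have h5 : F.Mde (fun _ => γ) V d e ω ≤ 6 / m := by
        rw [le_div_iff₀ hm]
        nlinarith
      linarith
  · have h2 := key 0 (Nat.zero_le e)
    have h3 : 1 / 2 ≤ F.pm (fun _ => γ) V :=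
      F.le_pm hγ (by norm_num) (by norm_num) (fun ω => (hV ω).1)
    have h5 : F.Q (fun _ => γ) D V 0 ω * F.Mde (fun _ => γ) V 0 e ω / F.pm (fun _ => γ) V ≤
        6 / m := by
      rw [div_le_div_iff₀ (by linarith) hm]
      linarith
    linarith

theorem termW_mem {D R : ℕ} (φ : Fam D R) {x : ℝ} (h0 : 0 ≤ x) (h1 : x ≤ 1) (u : U D R)
    (t : Bool) : 1 / 2 ≤ termW φ x u t ∧ termW φ x u t ≤ 3 := by
  have ha : 0 ≤ x * famObs φ u := mul_nonneg h0 (ind_nonneg _)
  have hb : x * famObs φ u ≤ 1 := mul_le_one₀ h1 (ind_nonneg _) (ind_le_one _)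
  have h2 : 1 ≤ Real.exp (x * famObs φ u) := Real.one_le_exp ha
  have h3 : Real.exp (x * famObs φ u) ≤ 3 :=
    (Real.exp_le_exp.2 hb).trans (by linarith [Real.exp_one_lt_d9])
  unfold termW
  split_ifs <;> constructor <;> linarith

section
variable {Ω I : Type} [Fintype Ω] [Fintype I] {D : ℕ}

/-- A bounded test function is nearly uncorrelated with most coordinates of an observable whose
conditional covariance matrix is small. -/
theorem av_cov_sq_le (F : Filt Ω D) (d : ℕ) (a : Ω → I → ℝ) (N : Ω → ℝ) (C : ℝ)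
    (hN : ∀ ω, |N ω| ≤ C) (ω : Ω) :
    (av fun i => (F.E d (fun x => N x * a x i) ω - F.E d N ω * cE F d a ω i) ^ 2) ≤
      C ^ 2 * √(av fun i => av fun i' => cov F d a ω i i' ^ 2) := by
  set c : I → ℝ := fun i => F.E d (fun x => N x * a x i) ω - F.E d N ω * cE F d a ω i with hc
  set b : Ω → I → ℝ := fun x i => a x i - cE F d a ω i with hb
  set H := √(av fun i => av fun i' => cov F d a ω i i' ^ 2) with hH
  set S := av fun i => c i ^ 2 with hS
  have hS0 : 0 ≤ S := av_nonneg fun i => sq_nonneg _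
  have hH0 : 0 ≤ H := Real.sqrt_nonneg _
  have e1 : ∀ i, c i = F.E d (fun x => N x * b x i) ω := by
    intro i
    simp only [hc, hb, mul_sub]
    rw [F.E_sub, F.E_mul_const]
  have e2 : ∀ i i', F.E d (fun x => b x i * b x i') ω = cov F d a ω i i' := by
    intro i i'
    have : ∀ x, b x i * b x i' = a x i * a x i' - cE F d a ω i' * a x i - cE F d a ω i * a x i' +
        cE F d a ω i * cE F d a ω i' := fun x => by simp only [hb]; ring
    rw [F.E_congr d this, F.E_add, F.E_sub, F.E_sub, F.E_const_mul, F.E_const_mul, F.E_const]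
    unfold cov cE
    ring
  have e3 : S = F.E d (fun x => N x * av fun i => c i * b x i) ω := by
    have : ∀ x, N x * (av fun i => c i * b x i) = av fun i => c i * (N x * b x i) := fun x => by
      rw [← av_const_mul]
      exact av_congr fun i => by ring
    rw [F.E_congr d this, F.E_av]
    refine av_congr fun i => ?_
    rw [F.E_const_mul, ← e1, sq]
  have e4 : F.E d (fun x => (av fun i => c i * b x i) ^ 2) ω =
      av fun p : I × I => (c p.1 * c p.2) * cov F d a ω p.1 p.2 := by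
    have : ∀ x, (av fun i => c i * b x i) ^ 2 =
        av fun p : I × I => (c p.1 * c p.2) * (b x p.1 * b x p.2) := fun x => by
      rw [sq, av_mul_av, av_prod]
      exact av_congr fun i => av_congr fun i' => by ring
    rw [F.E_congr d this, F.E_av]
    refine av_congr fun p => ?_
    rw [F.E_const_mul, e2]
  have e5 : (av fun p : I × I => (c p.1 * c p.2) * cov F d a ω p.1 p.2) ≤ S * H := by
    refine (av_mul_le_sqrt _ _).trans (le_of_eq ?_)
    have h1 : (av fun p : I × I => (c p.1 * c p.2) ^ 2) = S ^ 2 := by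
      rw [sq S, hS, av_mul_av, av_prod]
      exact av_congr fun i => av_congr fun i' => by ring
    rw [h1, Real.sqrt_sq hS0, av_prod]
  have e6 : F.E d (fun x => N x ^ 2) ω ≤ C ^ 2 :=
    F.E_le_of_le d (fun x => sq_le_sq' (abs_le.1 (hN x)).1 (abs_le.1 (hN x)).2) ω
  have e7 : S ^ 2 ≤ C ^ 2 * (S * H) := by
    have h1 := F.E_mul_sq_le d N (fun x => av fun i => c i * b x i) ω
    rw [← e3] at h1
    refine h1.trans (mul_le_mul e6 (e4.le.trans e5) (F.E_nonneg d (fun x => sq_nonneg _) ω)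
      (sq_nonneg _))
  rcases hS0.eq_or_lt with h0 | h0
  · rw [← h0]
    positivity
  · refine le_of_mul_le_mul_left ?_ h0
    nlinarith

theorem hs_nonneg (F : Filt Ω D) (d : ℕ) (a : Ω → I → ℝ) : 0 ≤ hs F d a := by
  exact F.Ex_nonneg fun _ => av_nonneg fun _ => av_nonneg fun _ => sq_nonneg _

theorem Ex_sqrt_le_sqrt_hs [Nonempty Ω] (F : Filt Ω D) (d : ℕ) (a : Ω → I → ℝ) :
    F.Ex (fun ω => √(av fun i => av fun i' => cov F d a ω i i' ^ 2)) ≤ √(hs F d a) := by
  refine Real.le_sqrt_of_sq_le ((F.sq_Ex_le _).trans (le_of_eq ?_))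
  exact F.Ex_congr fun ω => Real.sq_sqrt (av_nonneg fun _ => av_nonneg fun _ => sq_nonneg _)

variable (F : Filt Ω D) (s : Ω → I → Bool) (γ : ℝ) {R : ℕ} (φ : Fam D R) (x : ℝ)

theorem tiltErr_nonneg (P : Fm) : 0 ≤ tiltErr F s γ φ x P := by
  exact Filt.Ex_nonneg _ fun _ => av_nonneg fun _ => sq_nonneg _

theorem tiltErr_spin (t : Bool) : tiltErr F s γ φ x (.spin t) = 0 := by
  simp [tiltErr, nrm2, fmEval, Fm.eval, Filt.Ex]

theorem tiltErr_one : tiltErr F s γ φ x .one = 0 := by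
  simp [tiltErr, nrm2, fmEval, Fm.eval, Filt.Ex]

theorem tiltErr_mul (a b : Fm) :
    tiltErr F s γ φ x (.mul a b) ≤ 2 * (tiltErr F s γ φ x a + tiltErr F s γ φ x b) := by
  unfold tiltErr nrm2
  rw [← Filt.Ex_add, ← Filt.Ex_const_mul]
  refine Filt.Ex_mono _ fun y => ?_
  rw [← av_add, ← av_const_mul]
  refine av_mono fun i => ?_
  have e1 : fmEval (plus F s γ φ x) (fun y' => s y'.1) (.mul a b) y i =
      fmEval (plus F s γ φ x) (fun y' => s y'.1) a y i *
        fmEval (plus F s γ φ x) (fun y' => s y'.1) b y i := rfl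
  have e2 : fmEval F s (.mul a b) y.1 i = fmEval F s a y.1 i * fmEval F s b y.1 i := rfl
  have h1 : 0 ≤ fmEval (plus F s γ φ x) (fun y' => s y'.1) b y i := Fm.eval_nonneg _ _ _ _
  have h2 : fmEval (plus F s γ φ x) (fun y' => s y'.1) b y i ≤ 1 := Fm.eval_le_one _ _ _ _
  have h3 : 0 ≤ fmEval F s a y.1 i := Fm.eval_nonneg _ _ _ _
  have h4 : fmEval F s a y.1 i ≤ 1 := Fm.eval_le_one _ _ _ _
  beta_reduce
  rw [e1, e2]
  generalize fmEval (plus F s γ φ x) (fun y' => s y'.1) a y i = a1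
  generalize fmEval (plus F s γ φ x) (fun y' => s y'.1) b y i = b1 at h1 h2
  generalize fmEval F s a y.1 i = a0 at h3 h4
  generalize fmEval F s b y.1 i = b0
  have e3 : a1 * b1 - a0 * b0 = (a1 - a0) * b1 + a0 * (b1 - b0) := by ring
  have h5 : ((a1 - a0) * b1) ^ 2 ≤ (a1 - a0) ^ 2 := by
    rw [mul_pow]
    exact mul_le_of_le_one_right (sq_nonneg _) (pow_le_one₀ h1 h2)
  have h6 : (a0 * (b1 - b0)) ^ 2 ≤ (b1 - b0) ^ 2 := by
    rw [mul_pow]
    exact mul_le_of_le_one_left (sq_nonneg _) (pow_le_one₀ h3 h4)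
  rw [e3]
  nlinarith [sq_nonneg ((a1 - a0) * b1 - a0 * (b1 - b0))]

end

theorem tiltErr_cond (m : ℝ) (hm : 0 < m) : ∃ C : ℝ, 0 < C ∧ ∀ (Ω I : Type) [Fintype Ω]
    [Nonempty Ω] [Fintype I] [Nonempty I] (D : ℕ) (F : Filt Ω D) (s : Ω → I → Bool) (γ : ℝ)
    (R : ℕ) (φ : Fam D R) (x : ℝ) (d : ℕ) (a : Fm), 0 < γ → γ ≤ 1 → m ≤ γ ^ D → 0 ≤ x → x ≤ 1 →
    tiltErr F s γ φ x (.cond d a) ≤ C * (tiltErr F s γ φ x a + √(hs F d (fmEval F s a))) := by
  obtain ⟨C, hC1, hC⟩ := Mde_bound m hm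
  refine ⟨2 * C ^ 2, by positivity, ?_⟩
  intro Ω I _ _ _ _ D F s γ R φ x d a h0 h1 hmD hx0 hx1
  set G := F.prod (LabF I D R) with hG
  set V : Ω × (I × U D R) → ℝ := fun y => termW φ x y.2.2 (s y.1 y.2.1) with hV
  have hV0 : ∀ y, 0 < V y := fun _ => termW_pos _ _ _ _
  set M := G.Mde (fun _ => γ) V d D with hM
  have hM0 : ∀ y, 0 < M y := fun y => G.Mde_pos _ hV0 d D y
  have hMC : ∀ y, M y ≤ C := fun y =>
    (hC _ D G γ V h0 h1 hmD (fun _ => termW_mem φ hx0 hx1 _ _) d D y le_rfl).1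
  have hM1 : ∀ y, G.E d M y = 1 := fun y => G.E_Mde hV0 d D y
  set f : Ω × (I × U D R) → I → ℝ := fun y i =>
    fmEval (plus F s γ φ x) (fun y' => s y'.1) a y i - fmEval F s a y.1 i with hf
  have key : ∀ y : Ω × (I × U D R), (av fun i =>
      (fmEval (plus F s γ φ x) (fun y' => s y'.1) (.cond d a) y i -
        fmEval F s (.cond d a) y.1 i) ^ 2) ≤
      2 * C ^ 2 * (G.E d (fun z => av fun i => f z i ^ 2) y +
        √(av fun i => av fun i' => cov F d (fmEval F s a) y.1 i i' ^ 2)) := by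
    intro y
    set N : Ω → ℝ := fun w => (LabF I D R).E d (fun b => M (w, b)) y.2 with hN
    have hNC : ∀ w, |N w| ≤ C := fun w =>
      Filt.abs_E_le_of_le _ d (fun b => by rw [abs_of_pos (hM0 _)]; exact hMC _) _
    have hN1 : F.E d N y.1 = 1 := by
      rw [← hM1 y, hG, Filt.E_prod]
    have e1 : ∀ i, fmEval (plus F s γ φ x) (fun y' => s y'.1) (.cond d a) y i -
        fmEval F s (.cond d a) y.1 i = G.E d (fun z => M z * f z i) y +
          (F.E d (fun w => N w * fmEval F s a w i) y.1 -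
            F.E d N y.1 * cE F d (fmEval F s a) y.1 i) := by
      intro i
      have a1 : fmEval (plus F s γ φ x) (fun y' => s y'.1) (.cond d a) y i =
          G.E d (fun z => M z * fmEval (plus F s γ φ x) (fun y' => s y'.1) a z i) y :=
        G.E_tilt (fun _ => γ) hV0 d _ y
      have a2 : fmEval F s (.cond d a) y.1 i = cE F d (fmEval F s a) y.1 i := rfl
      have a3 : G.E d (fun z => M z * fmEval F s a z.1 i) y =
          F.E d (fun w => N w * fmEval F s a w i) y.1 := by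
        rw [hG, Filt.E_prod]
        exact F.E_congr d (fun w => Filt.E_mul_const _ d _ _ _) _
      rw [a1, a2, hN1, ← a3]
      simp only [hf, mul_sub]
      rw [G.E_sub]
      ring
    have e2 : ∀ i, G.E d (fun z => M z * f z i) y ^ 2 ≤ C ^ 2 * G.E d (fun z => f z i ^ 2) y := by
      intro i
      refine (G.E_mul_sq_le d _ _ y).trans (mul_le_mul_of_nonneg_right ?_
        (G.E_nonneg d (fun _ => sq_nonneg _) y))
      exact G.E_le_of_le d (fun z => pow_le_pow_left₀ (hM0 z).le (hMC z) 2) y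
    have e3 := av_cov_sq_le F d (fmEval F s a) N C hNC y.1
    rw [G.E_av]
    calc _ ≤ av fun i => 2 * (C ^ 2 * G.E d (fun z => f z i ^ 2) y) +
            2 * (F.E d (fun w => N w * fmEval F s a w i) y.1 -
              F.E d N y.1 * cE F d (fmEval F s a) y.1 i) ^ 2 := by
          refine av_mono fun i => ?_
          rw [e1]
          have := e2 i
          nlinarith [sq_nonneg (G.E d (fun z => M z * f z i) y -
            (F.E d (fun w => N w * fmEval F s a w i) y.1 -
              F.E d N y.1 * cE F d (fmEval F s a) y.1 i))]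
      _ ≤ _ := by
          rw [av_add, av_const_mul, av_const_mul, av_const_mul]
          linarith
  refine (G.Ex_mono key).trans ?_
  rw [G.Ex_const_mul, G.Ex_add, G.Ex_E]
  refine mul_le_mul_of_nonneg_left (add_le_add le_rfl ?_) (by positivity)
  rw [hG, (Filt.morEx_fst F (LabF I D R)).2
    (fun w => √(av fun i => av fun i' => cov F d (fmEval F s a) w i i' ^ 2))]
  exact Ex_sqrt_le_sqrt_hs F d _

end Crest.Agent.R153
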