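import Mathlib
import Crest.Agent.R153.DecA
import Crest.Agent.R153.DecT
import Crest.Agent.R153.DecC5

/-!
Row 153, decoupling, part C: the identities force small conditional covariances and small
variances.
-/

set_option autoImplicit false
set_option linter.unusedSectionVars false

namespace Crest.Agent.R153

open Finset

/-- The density bound supplied by `Mde_bound`. -/
def DensBd (m C : ℝ) : Prop := ∀ (Ω : Type) [Fintype Ω] [Nonempty Ω]
    (D : ℕ) (F : Filt Ω D) (γ : ℝ) (V : Ω → ℝ), 0 < γ → γ ≤ 1 → m ≤ γ ^ D →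
    (∀ ω, 1 / 2 ≤ V ω ∧ V ω ≤ 3) → ∀ (d e : ℕ) (ω : Ω), e ≤ D →
      F.Mde (fun _ => γ) V d e ω ≤ C ∧
      F.Q (fun _ => γ) D V 0 ω * F.Mde (fun _ => γ) V 0 e ω / F.pm (fun _ => γ) V ≤ C

section
variable {Ω I : Type} [Fintype Ω] [Nonempty Ω] [Fintype I] [Nonempty I] {D R : ℕ}
  {F : Filt Ω D} {s : Ω → I → Bool} {γ m C : ℝ}

lemma fmEval_mem (F : Filt Ω D) (s : Ω → I → Bool) (P : Fm) (ω : Ω) (i : I) :
    0 ≤ fmEval F s P ω i ∧ fmEval F s P ω i ≤ 1 :=
  ⟨Fm.eval_nonneg _ _ _ _, Fm.eval_le_one _ _ _ _⟩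

lemma decC_close (hC : DensBd m C) (hC1 : 1 ≤ C) (h0 : 0 < γ) (h1 : γ ≤ 1) (hm : m ≤ γ ^ D)
    {P : Fm} {τ : ℝ} (hτ : TiltSmall F s γ R P τ) (φ : Fam D R) {x : ℝ} (hx0 : 0 ≤ x)
    (hx1 : x ≤ 1) :
    (plus F s γ φ x).Ex (fun y => av fun i =>
      |fmEval (plus F s γ φ x) (fun y' => s y'.1) P y i - fmEval F s P y.1 i|) ≤ C * √τ := by
  set f : Ω × (I × U D R) → I → ℝ := fun y i =>
    fmEval (plus F s γ φ x) (fun y' => s y'.1) P y i - fmEval F s P y.1 i with hf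
  have h2 : (F.prod (LabF I D R)).Ex (fun y => av fun i => |f y i|) ≤ √τ :=
    (decC_Ex_av_abs_le _ f).trans (Real.sqrt_le_sqrt (hτ φ x hx0 hx1))
  have h3 : (plus F s γ φ x).Ex (fun y => av fun i => |f y i|) ≤
      C * (F.prod (LabF I D R)).Ex (fun y => av fun i => |f y i|) := by
    unfold plus
    rw [Filt.Ex_tilt, ← Filt.Ex_div_const, ← Filt.Ex_const_mul]
    refine Filt.Ex_mono _ fun y => ?_
    rw [mul_div_right_comm]
    exact mul_le_mul_of_nonneg_right (hC _ D _ γ _ h0 h1 hm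
      (fun y => termW_mem φ hx0 hx1 _ _) 0 D y le_rfl).2 (av_nonneg fun _ => abs_nonneg _)
  exact h3.trans (mul_le_mul_of_nonneg_left h2 (by linarith))

lemma decC_abs_sub_Ex {Ω' : Type} [Fintype Ω'] (G : Filt Ω' D) {ψ a b c : Ω' → ℝ}
    (hψ : ∀ y, |ψ y| ≤ 1) (h : ∀ y, |a y - b y| ≤ c y) :
    |G.Ex (fun y => ψ y * a y) - G.Ex (fun y => ψ y * b y)| ≤ G.Ex c := by
  rw [← Filt.Ex_sub]
  refine (Filt.abs_Ex_le _ _).trans (Filt.Ex_mono _ fun y => ?_)
  rw [← mul_sub, abs_mul]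
  exact (mul_le_of_le_one_left (abs_nonneg _) (hψ y)).trans (h y)

lemma abs_famObs_le (φ : Fam D R) (u : U D R) : |famObs φ u| ≤ 1 := by
  unfold famObs; rw [abs_of_nonneg (ind_nonneg _)]; exact ind_le_one _

/-- The identity for `P`, with the untilted formula. -/
lemma decC_GG_one (hC : DensBd m C) (hC1 : 1 ≤ C) (h0 : 0 < γ) (h1 : γ ≤ 1) (hm : m ≤ γ ^ D)
    {P : Fm} {τ ε : ℝ} (hτ : TiltSmall F s γ R P τ) (φ : Fam D R) {x : ℝ} (hx0 : 0 ≤ x)
    (hx1 : x ≤ 1) (hε : GGerr F s γ φ x P ≤ ε) :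
    |(plus F s γ φ x).Ex (fun y => famObs φ y.2.2 * ((av fun i => fmEval F s P y.1 i) -
      F.Ex fun ω => av fun i => fmEval F s P ω i))| ≤ ε + C * √τ := by
  have h2 := decC_abs_sub_Ex (plus F s γ φ x) (ψ := fun y => famObs φ y.2.2)
    (a := siteAv (plus F s γ φ x) (fun y' => s y'.1) P)
    (b := fun y => av fun i => fmEval F s P y.1 i)
    (c := fun y => av fun i =>
      |fmEval (plus F s γ φ x) (fun y' => s y'.1) P y i - fmEval F s P y.1 i|)
    (fun y => abs_famObs_le φ _) (fun y => by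
      unfold siteAv
      rw [← av_sub]
      exact abs_av_le _)
  have h3 := h2.trans (decC_close hC hC1 h0 h1 hm hτ φ hx0 hx1)
  unfold GGerr at hε
  simp only [mul_sub]
  rw [Filt.Ex_sub, Filt.Ex_mul_const]
  have h4 : F.Ex (siteAv F s P) = F.Ex fun ω => av fun i => fmEval F s P ω i := rfl
  rw [h4] at hε
  rw [abs_le] at h3 hε ⊢
  constructor <;> linarith [h3.1, h3.2, hε.1, hε.2]

/-- The identity for `P * E_d P`, with the untilted formula `P`. -/
lemma decC_GG_two (hC : DensBd m C) (hC1 : 1 ≤ C) (h0 : 0 < γ) (h1 : γ ≤ 1) (hm : m ≤ γ ^ D)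
    {P : Fm} {τ ε : ℝ} (hτ : TiltSmall F s γ R P τ) (φ : Fam D R) {x : ℝ} (hx0 : 0 ≤ x)
    (hx1 : x ≤ 1) (d : ℕ) (hε : GGerr F s γ φ x (.mul P (.cond d P)) ≤ ε) :
    |(plus F s γ φ x).Ex (fun y => famObs φ y.2.2 * ((av fun i => fmEval F s P y.1 i *
      (plus F s γ φ x).E d (fun y' => fmEval F s P y'.1 i) y) -
      F.Ex fun ω => av fun i => fmEval F s P ω i * cE F d (fmEval F s P) ω i))| ≤
      ε + 2 * (C * √τ) := by
  set Xp := plus F s γ φ x with hXp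
  set Pp : Ω × (I × U D R) → I → ℝ := fmEval Xp (fun y' => s y'.1) P with hPp
  have h2 := decC_abs_sub_Ex Xp (ψ := fun y => famObs φ y.2.2)
    (a := siteAv Xp (fun y' => s y'.1) (.mul P (.cond d P)))
    (b := fun y => av fun i => fmEval F s P y.1 i * Xp.E d (fun y' => fmEval F s P y'.1 i) y)
    (c := fun y => (av fun i => |Pp y i - fmEval F s P y.1 i|) +
      Xp.E d (fun y' => av fun i => |Pp y' i - fmEval F s P y'.1 i|) y)
    (fun y => abs_famObs_le φ _) (fun y => by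
      have e1 : siteAv Xp (fun y' => s y'.1) (.mul P (.cond d P)) y =
          av fun i => Pp y i * Xp.E d (fun y' => Pp y' i) y := rfl
      rw [e1, ← av_sub, Filt.E_av, ← av_add]
      refine (abs_av_le _).trans (av_mono fun i => ?_)
      have hid : Pp y i * Xp.E d (fun y' => Pp y' i) y -
          fmEval F s P y.1 i * Xp.E d (fun y' => fmEval F s P y'.1 i) y =
          (Pp y i - fmEval F s P y.1 i) * Xp.E d (fun y' => Pp y' i) y +
          fmEval F s P y.1 i * Xp.E d (fun y' => Pp y' i - fmEval F s P y'.1 i) y := by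
        rw [Filt.E_sub]; ring
      rw [hid]
      refine (abs_add_le _ _).trans (add_le_add ?_ ?_)
      · rw [abs_mul]
        refine mul_le_of_le_one_right (abs_nonneg _) (Xp.abs_E_le_of_le d (fun y' => ?_) y)
        have := fmEval_mem Xp (fun y' => s y'.1) P y' i
        rw [abs_of_nonneg this.1]; exact this.2
      · rw [abs_mul]
        have := fmEval_mem F s P y.1 i
        refine (mul_le_of_le_one_left (abs_nonneg _) ?_).trans (Xp.abs_E_le d _ y)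
        rw [abs_of_nonneg this.1]; exact this.2)
  rw [Filt.Ex_add, Filt.Ex_E] at h2
  have h3 := decC_close hC hC1 h0 h1 hm hτ φ hx0 hx1
  unfold GGerr at hε
  simp only [mul_sub]
  rw [Filt.Ex_sub, Filt.Ex_mul_const]
  have h4 : F.Ex (siteAv F s (.mul P (.cond d P))) =
      F.Ex fun ω => av fun i => fmEval F s P ω i * cE F d (fmEval F s P) ω i := rfl
  rw [h4] at hε
  rw [abs_le] at h2 hε ⊢
  constructor <;> linarith [h2.1, h2.2, hε.1, hε.2]

lemma decC_Dl_bound (hC : DensBd m C) (hC1 : 1 ≤ C) (h0 : 0 < γ) (h1 : γ ≤ 1) (hm : m ≤ γ ^ D)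
    {P : Fm} {τ ε : ℝ} (hτ : TiltSmall F s γ R P τ) (hG : GG F s γ R ε) {j d e' : ℕ}
    (hj : j ≤ e') (hd : d ≤ e') (he : e' < D)
    (hPm : ∀ i, F.Meas (e' + 1) fun ω => fmEval F s P ω i) {ya yb : Ω → I → ℝ}
    (ha : Gen F s γ R (e' + 1) ya) (hb : Gen F s γ R (e' + 1) yb)
    (On : Finset (Fin (R + 1))) {A B : Finset (Fin (R + 1))} (hAB : Disjoint A B) {h lam : ℝ}
    (hh : (1 - γ) * D + 1 ≤ h) (hl0 : 0 ≤ lam) (hl : 2 * h * lam ≤ 1) (hl4 : lam ≤ 1 / 4)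
    (hA : dens A ≤ lam ^ 2) (hB : dens B ≤ lam) :
    dens A * |Dl F γ j d e' On B ya yb
      (fun ω => (av fun i' => fmEval F s P ω i' * cE F d (fmEval F s P) ω i') -
        F.Ex fun ω => av fun i => fmEval F s P ω i * cE F d (fmEval F s P) ω i)
      (fun ω i => av fun i' => fmEval F s P ω i' *
        F.E d (fun x => fmEval F s P x i' * Rop F γ d e' yb x i) ω)| ≤
      (ε + 2 * (C * √τ)) + dens A * ((71 * h ^ 2 + 10) * lam ^ 2) := by
  let jF : Fin (D + 1) := ⟨j, by omega⟩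
  let eF : Fin (D + 1) := ⟨e' + 1, by omega⟩
  obtain ⟨ga, gb, hg⟩ := decC_Q_famMix F s h0 h1 jF eF (show j ≤ e' + 1 by omega) On A B hAB ha hb
  obtain ⟨x, hx0, hx1, hx⟩ := hG (famMix jF eF On A B ga gb)
  obtain ⟨κ, hk1, hk3, hQ⟩ := hg x hx0 hx1
  have S : Setup F γ (fun y => termW (famMix jF eF On A B ga gb) x y.2.2 (s y.1 y.2.1)) jF eF e'
      On A B ya yb κ h lam :=
    ⟨h0, h1, fun _ => termW_pos _ _ _ _, rfl, hj, hAB, ha.mem h0 h1, hb.mem h0 h1, hk1, hk3, hQ,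
      hh, hl0, hl, hl4, hA, hB⟩
  have hS : ∀ ω, 0 ≤ (av fun i => fmEval F s P ω i * cE F d (fmEval F s P) ω i) ∧
      (av fun i => fmEval F s P ω i * cE F d (fmEval F s P) ω i) ≤ 1 := fun ω =>
    ⟨av_nonneg fun i => mul_nonneg (fmEval_mem F s P ω i).1
        (F.E_nonneg d (fun x => (fmEval_mem F s P x i).1) ω),
      av_le_of_le fun i => mul_le_one₀ (fmEval_mem F s P ω i).2
        (F.E_nonneg d (fun x => (fmEval_mem F s P x i).1) ω)
        (F.E_le_of_le d (fun x => (fmEval_mem F s P x i).2) ω)⟩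
  exact S.Dl_le hd (fmEval_mem F s P) hPm (F.Ex_nonneg fun ω => (hS ω).1)
    (F.Ex_le_of_le fun ω => (hS ω).2)
    (decC_GG_two hC hC1 h0 h1 hm hτ (famMix jF eF On A B ga gb) hx0 hx1 d (hx _))

lemma decC_pair (hC : DensBd m C) (hC1 : 1 ≤ C) (h0 : 0 < γ) (h1 : γ ≤ 1) (hm : m ≤ γ ^ D)
    {P : Fm} {τ ε : ℝ} (hτ : TiltSmall F s γ R P τ) (hG : GG F s γ R ε) {d e' : ℕ}
    (hd : d + 1 ≤ e') (he : e' < D)
    (hPm : ∀ i, F.Meas (e' + 1) fun ω => fmEval F s P ω i) {ya yb : Ω → I → ℝ}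
    (ha : Gen F s γ R (e' + 1) ya) (hb : Gen F s γ R (e' + 1) yb) {h : ℝ} {l : ℕ}
    (hh : (1 - γ) * D + 1 ≤ h) (hl : 2 * h ≤ l) (hl4 : 4 ≤ l) (hR : l ^ 2 ≤ R + 1)
    (hε : 0 ≤ ε) :
    |Bf F d (fmEval F s P) ya (Rop F γ d e' yb)| ≤
      (1 - γ) + (64 * (l : ℝ) ^ 3 * (ε + 2 * (C * √τ)) + 32 * (71 * h ^ 2 + 10) * (1 / l)) := by
  obtain ⟨On, hO1, hO2⟩ := decC_exists_set (R := R) (q := 2) (by norm_num) (by nlinarith)
  obtain ⟨A, B, hAB, ⟨hA1, hA2⟩, hB1, hB2⟩ := decC_exists_sets (R := R) (l := l) (by omega) hR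
  have hl4' : (4 : ℝ) ≤ l := by exact_mod_cast hl4
  have hlp : (0 : ℝ) < l := by linarith
  have k1 : 2 * h * (1 / (l : ℝ)) ≤ 1 := by rw [mul_one_div, div_le_one hlp]; exact hl
  have k2 : 1 / (l : ℝ) ≤ 1 / 4 := one_div_le_one_div_of_le (by norm_num) hl4'
  have k3 : dens A ≤ (1 / (l : ℝ)) ^ 2 := by rw [div_pow, one_pow]; exact hA2
  have b1 := decC_Dl_bound hC hC1 h0 h1 hm hτ hG (j := d) (d := d) (by omega) (by omega) he hPm
    ha hb On hAB hh (by positivity) k1 k2 k3 hB2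
  have b2 := decC_Dl_bound hC hC1 h0 h1 hm hτ hG (j := d + 1) (d := d) hd (by omega) he hPm
    ha hb On hAB hh (by positivity) k1 k2 k3 hB2
  set H : Ω → ℝ := fun ω => (av fun i' => fmEval F s P ω i' * cE F d (fmEval F s P) ω i') -
    F.Ex fun ω => av fun i => fmEval F s P ω i * cE F d (fmEval F s P) ω i with hH
  set Lam : Ω → I → ℝ := fun ω i => av fun i' => fmEval F s P ω i' *
    F.E d (fun x => fmEval F s P x i' * Rop F γ d e' yb x i) ω with hLam
  have b3 := Dl_sub F γ (show d ≤ e' by omega) On B ya yb H Lam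
  set W := F.Ex fun ω => av fun i =>
    ya ω i * (H ω * ((1 - γ) * (γ ^ (e' - d) * cE F d yb ω i)) + Lam ω i) with hW
  set W1 := F.Ex fun ω => av fun i =>
    ya ω i * (H ω * ((1 - γ) * (γ ^ (e' - d) * cE F d yb ω i))) with hW1
  have hWB : W = W1 + Bf F d (fmEval F s P) ya (Rop F γ d e' yb) := by
    rw [hW, hW1]
    unfold Bf
    rw [← Filt.Ex_add]
    refine F.Ex_congr fun ω => ?_
    rw [← av_add]
    refine av_congr fun i => ?_
    rw [av_const_mul, mul_add]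
  have hS : ∀ ω, 0 ≤ (av fun i => fmEval F s P ω i * cE F d (fmEval F s P) ω i) ∧
      (av fun i => fmEval F s P ω i * cE F d (fmEval F s P) ω i) ≤ 1 := fun ω =>
    ⟨av_nonneg fun i => mul_nonneg (fmEval_mem F s P ω i).1
        (F.E_nonneg d (fun x => (fmEval_mem F s P x i).1) ω),
      av_le_of_le fun i => mul_le_one₀ (fmEval_mem F s P ω i).2
        (F.E_nonneg d (fun x => (fmEval_mem F s P x i).1) ω)
        (F.E_le_of_le d (fun x => (fmEval_mem F s P x i).2) ω)⟩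
  have hH1 : ∀ ω, |H ω| ≤ 1 := by
    intro ω
    have t1 := F.Ex_nonneg fun ω => (hS ω).1
    have t2 := F.Ex_le_of_le fun ω => (hS ω).2
    have := hS ω
    rw [hH, abs_le]; constructor <;> simp only <;> linarith [this.1, this.2]
  have hW1b : |W1| ≤ 1 - γ := by
    refine (F.abs_Ex_le _).trans (F.Ex_le_of_le fun ω => (abs_av_le _).trans
      (av_le_of_le fun i => ?_))
    have t1 := ha.mem h0 h1 ω i
    have t2 : |cE F d yb ω i| ≤ 1 := F.abs_E_le_of_le d (fun x => by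
      have := hb.mem h0 h1 x i
      rw [abs_of_nonneg this.1]; linarith [this.2]) ω
    rw [abs_mul, abs_mul, abs_mul, abs_mul, abs_of_nonneg t1.1,
      abs_of_nonneg (by linarith : 0 ≤ 1 - γ), abs_of_nonneg (pow_nonneg h0.le _)]
    have t3 : γ ^ (e' - d) * |cE F d yb ω i| ≤ 1 :=
      mul_le_one₀ (pow_le_one₀ h0.le h1) (abs_nonneg _) t2
    have t4 : (1 - γ) * (γ ^ (e' - d) * |cE F d yb ω i|) ≤ 1 - γ :=
      mul_le_of_le_one_right (by linarith) t3
    have t5 : 0 ≤ (1 - γ) * (γ ^ (e' - d) * |cE F d yb ω i|) :=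
      mul_nonneg (by linarith) (by positivity)
    have t6 := mul_le_of_le_one_left t5 (hH1 ω)
    have t7 := mul_le_of_le_one_left (mul_nonneg (abs_nonneg (H ω)) t5)
      (show ya ω i ≤ 1 by linarith [t1.2])
    linarith
  have hA0 : 0 < dens A := lt_of_lt_of_le (by positivity) hA1
  have hθ : 1 / 8 ≤ dens On * (1 - dens On) := by
    norm_num at hO1 hO2; nlinarith
  set ε' := ε + 2 * (C * √τ) with hε'
  have hε'0 : 0 ≤ ε' := by positivity
  set c2 := 71 * h ^ 2 + 10 with hc2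
  have hc20 : 0 ≤ c2 := by positivity
  have b4 : dens A * (dens B * (dens On * (1 - dens On)) * |W|) ≤
      2 * ε' + 2 * (dens A * (c2 * (1 / (l : ℝ)) ^ 2)) := by
    have t1 : dens B * (dens On * (1 - dens On)) * |W| =
        |Dl F γ d d e' On B ya yb H Lam - Dl F γ (d + 1) d e' On B ya yb H Lam| := by
      rw [b3, abs_mul, abs_neg, abs_of_nonneg (mul_nonneg (decC_dens_nonneg B) (by linarith))]
    rw [t1]
    have := mul_le_mul_of_nonneg_left
      (abs_sub (Dl F γ d d e' On B ya yb H Lam) (Dl F γ (d + 1) d e' On B ya yb H Lam)) hA0.le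
    linarith
  have b5 : 1 / (16 * (l : ℝ)) * |W| ≤ dens B * (dens On * (1 - dens On)) * |W| := by
    refine mul_le_mul_of_nonneg_right ?_ (abs_nonneg _)
    calc 1 / (16 * (l : ℝ)) = 1 / (2 * l) * (1 / 8) := by field_simp; norm_num
      _ ≤ _ := mul_le_mul hB1 hθ (by norm_num) (decC_dens_nonneg B)
  have b6 : 2 * ε' ≤ dens A * (4 * (l : ℝ) ^ 2 * ε') := by
    calc 2 * ε' = 1 / (2 * (l : ℝ) ^ 2) * (4 * (l : ℝ) ^ 2 * ε') := by field_simp; ring
      _ ≤ _ := mul_le_mul_of_nonneg_right hA1 (by positivity)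
  have b7 : 1 / (16 * (l : ℝ)) * |W| ≤ 4 * (l : ℝ) ^ 2 * ε' + 2 * (c2 * (1 / (l : ℝ)) ^ 2) := by
    refine le_of_mul_le_mul_left ?_ hA0
    have := mul_le_mul_of_nonneg_left b5 hA0.le
    nlinarith
  have b8 : |W| ≤ 64 * (l : ℝ) ^ 3 * ε' + 32 * c2 * (1 / l) := by
    have := mul_le_mul_of_nonneg_left b7 (show (0 : ℝ) ≤ 16 * l by positivity)
    calc |W| = 16 * l * (1 / (16 * (l : ℝ)) * |W|) := by field_simp
      _ ≤ _ := this
      _ = _ := by field_simp; ring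
  have b9 : |Bf F d (fmEval F s P) ya (Rop F γ d e' yb)| ≤ |W1| + |W| := by
    have := abs_sub W W1
    rw [hWB, add_sub_cancel_left] at this
    rw [hWB]; linarith
  linarith

lemma decC_cov (hC : DensBd m C) (hC1 : 1 ≤ C) (h0 : 0 < γ) (h1 : γ ≤ 1) (hm : m ≤ γ ^ D)
    {P : Fm} {τ ε : ℝ} (hτ : TiltSmall F s γ R P τ) (hG : GG F s γ R ε) {e : ℕ} (he : e ≤ D)
    (hPm : ∀ i, F.Meas e fun ω => fmEval F s P ω i) {ya : Ω → I → ℝ}
    (ha : Gen F s γ R e ya) {h : ℝ} {l : ℕ}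
    (hh : (1 - γ) * D + 1 ≤ h) (hl : 2 * h ≤ l) (hl1 : 1 ≤ l) (hR : 2 * l ≤ R + 1)
    (hε : 0 ≤ ε) :
    |F.Ex fun ω => (av fun i => ya ω i) * ((av fun i => fmEval F s P ω i) -
      F.Ex fun ω => av fun i => fmEval F s P ω i)| ≤
      4 * l * (ε + C * √τ) + 6 * h * (1 / l) := by
  obtain ⟨A, hA1, hA2⟩ := decC_exists_set (R := R) (q := 2 * l) (by omega) hR
  push_cast at hA1 hA2
  have hlp : (0 : ℝ) < l := by exact_mod_cast hl1
  let eF : Fin (D + 1) := ⟨e, by omega⟩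
  obtain ⟨ga, gb, hg⟩ := decC_Q_famMix F s h0 h1 eF eF le_rfl univ A ∅ (disjoint_empty_right _)
    ha ha
  obtain ⟨x, hx0, hx1, hx⟩ := hG (famMix eF eF univ A ∅ ga gb)
  obtain ⟨κ, hk1, hk3, hQ⟩ := hg x hx0 hx1
  have hI := decC_GG_one hC hC1 h0 h1 hm hτ (famMix eF eF univ A ∅ ga gb) hx0 hx1 (hx P)
  set X := F.prod (LabF I D R) with hX
  set V : Ω × (I × U D R) → ℝ :=
    fun y => termW (famMix eF eF univ A ∅ ga gb) x y.2.2 (s y.1 y.2.1) with hV
  have hVp : ∀ y, 0 < V y := fun _ => termW_pos _ _ _ _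
  set H : Ω → ℝ := fun ω => (av fun i => fmEval F s P ω i) -
    F.Ex fun ω => av fun i => fmEval F s P ω i with hH
  have hS : ∀ ω, 0 ≤ (av fun i => fmEval F s P ω i) ∧ (av fun i => fmEval F s P ω i) ≤ 1 :=
    fun ω => ⟨av_nonneg fun i => (fmEval_mem F s P ω i).1,
      av_le_of_le fun i => (fmEval_mem F s P ω i).2⟩
  have hH1 : ∀ ω, |H ω| ≤ 1 := by
    intro ω
    have t1 := F.Ex_nonneg fun ω => (hS ω).1
    have t2 := F.Ex_le_of_le fun ω => (hS ω).2
    have := hS ω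
    rw [hH, abs_le]; constructor <;> simp only <;> linarith [this.1, this.2]
  have hQ' : ∀ y, X.Q (fun _ => γ) D V e y =
      (1 + (κ - 1) * ind (y.2.2 eF ∈ A)) * (1 - ind (y.2.2 eF ∈ A) * ya y.1 y.2.1) := by
    intro y
    have := hQ y
    rw [ind_pos (mem_univ _), ind_neg (notMem_empty _)] at this
    rw [show X.Q (fun _ => γ) D V e y = _ from this]
    ring
  have hQ1 : ∀ y, |1 - X.Q (fun _ => γ) D V e y| ≤ 2 * ind (y.2.2 eF ∈ A) := by
    intro y
    rw [hQ']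
    have t := ha.mem h0 h1 y.1 y.2.1
    by_cases hA : y.2.2 eF ∈ A
    · rw [ind_pos hA, abs_le]; constructor <;> nlinarith [t.1, t.2]
    · rw [ind_neg hA]; simp
  have hAl : 2 * dens A ≤ 1 / l := by
    have : 2 * (1 / (2 * (l : ℝ))) = 1 / l := by field_simp
    linarith
  have hw : ∀ j, j < e → ∀ y, |decCw X γ V j y| ≤ 1 / l := by
    intro j hj
    obtain ⟨e', rfl⟩ : ∃ e', e = e' + 1 := ⟨e - 1, by omega⟩
    refine decC_abs_w_le X h0 h1 hVp (show e' < D by omega) (fun y => ?_) j (by omega)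
    rw [decCw_eq]
    refine (Filt.abs_E_le _ _ _ _).trans ((Filt.E_mono _ _ hQ1 y).trans ?_)
    rw [Filt.E_const_mul, decC_E_psi F (show e' < (eF : ℕ) from Nat.lt_succ_self _)]
    exact hAl
  have hpm : |1 - X.pm (fun _ => γ) V| ≤ 1 / l := by
    rcases Nat.eq_zero_or_pos e with rfl | hpos
    · have : 1 - X.pm (fun _ => γ) V = X.Ex fun y => 1 - X.Q (fun _ => γ) D V 0 y := by
        rw [Filt.Ex_sub, Filt.Ex_const]; rfl
      rw [this]
      refine (Filt.abs_Ex_le _ _).trans ((Filt.Ex_mono _ hQ1).trans ?_)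
      rw [Filt.Ex_const_mul, decC_Ex_psi]
      exact hAl
    · exact decC_abs_one_sub_pm_le X h0 h1 hVp (by omega) (hw 0 hpos)
  have k1 : 2 * h * (1 / (l : ℝ)) ≤ 1 := by rw [mul_one_div, div_le_one hlp]; exact hl
  have hm' : X.Meas e fun y => ind (y.2.2 eF ∈ A) * H y.1 := by
    refine Filt.Meas.mul (fun y y' hr => ?_) (Filt.meas_prod_fst F _
      (Filt.Meas.sub (Filt.meas_av hPm) (Filt.meas_const _ _ _)))
    rw [(decC_rel_X F hr).2 eF le_rfl]
  have hI' : |(X.tilt (fun _ => γ) V hVp).Ex fun y => ind (y.2.2 eF ∈ A) * H y.1| ≤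
      ε + C * √τ := hI
  rw [Filt.Ex_tilt_meas X (fun _ => γ) hVp he hm', ← Filt.Ex_div_const] at hI'
  have hmain : X.Ex (fun y => ind (y.2.2 eF ∈ A) * ((1 - ya y.1 y.2.1) * H y.1)) =
      -(dens A * F.Ex fun ω => (av fun i => ya ω i) * H ω) := by
    rw [decC_Ex_X F (fun ω i (u : U D R) => ind (u eF ∈ A) * ((1 - ya ω i) * H ω))]
    simp only [Filt.Ex_mul_const, decC_Ex_UF_one eF (fun c => ind (c ∈ A)), decC_av_ind_mem,
      av_const_mul, av_mul_const, av_sub, av_const, Filt.Ex_const_mul, sub_mul, one_mul,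
      Filt.Ex_sub]
    have : F.Ex H = 0 := by rw [hH, Filt.Ex_sub, Filt.Ex_const, sub_self]
    rw [this]; ring
  have hh0 : 0 ≤ h := by
    have : 0 ≤ (1 - γ) * D := mul_nonneg (by linarith) (Nat.cast_nonneg _)
    linarith
  have hpt : ∀ y, |X.Q (fun _ => γ) D V 0 y * X.Mde (fun _ => γ) V 0 e y *
      (ind (y.2.2 eF ∈ A) * H y.1) / X.pm (fun _ => γ) V -
      κ * (ind (y.2.2 eF ∈ A) * ((1 - ya y.1 y.2.1) * H y.1))| ≤
      κ * (6 * h * (1 / l)) * ind (y.2.2 eF ∈ A) := by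
    intro y
    by_cases hA : y.2.2 eF ∈ A
    swap
    · rw [ind_neg hA]; simp
    obtain ⟨N, hN, hNe⟩ := decC_total_close X h1 hVp he hh (by positivity) k1 hw hpm y
    rw [mul_div_right_comm, hN, hQ', ind_pos hA]
    have t := ha.mem h0 h1 y.1 y.2.1
    have hid : (1 + (κ - 1) * 1) * (1 - 1 * ya y.1 y.2.1) * N * (1 * H y.1) -
        κ * (1 * ((1 - ya y.1 y.2.1) * H y.1)) = κ * ((1 - ya y.1 y.2.1) * (H y.1 * (N - 1))) := by
      ring
    rw [hid, abs_mul, abs_of_nonneg (by linarith : 0 ≤ κ), mul_one, abs_mul, abs_mul,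
      abs_of_nonneg (by linarith [t.2] : 0 ≤ 1 - ya y.1 y.2.1)]
    refine mul_le_mul_of_nonneg_left ?_ (by linarith)
    refine (mul_le_of_le_one_left (by positivity) (by linarith [t.1])).trans ?_
    exact (mul_le_of_le_one_left (abs_nonneg _) (hH1 _)).trans hNe
  have b1 := (Filt.abs_Ex_le _ _).trans (Filt.Ex_mono X hpt)
  rw [Filt.Ex_sub, Filt.Ex_const_mul, Filt.Ex_const_mul, hmain, decC_Ex_psi] at b1
  set W := F.Ex fun ω => (av fun i => ya ω i) * H ω with hW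
  set a := X.Ex fun y => X.Q (fun _ => γ) D V 0 y * X.Mde (fun _ => γ) V 0 e y *
      (ind (y.2.2 eF ∈ A) * H y.1) / X.pm (fun _ => γ) V
  have hA0 : 0 < dens A := lt_of_lt_of_le (by positivity) hA1
  have b2 : κ * (dens A * |W|) ≤ |a| + |a - κ * -(dens A * W)| := by
    have := abs_sub a (a - κ * -(dens A * W))
    rwa [sub_sub_cancel, abs_mul, abs_neg, abs_mul, abs_of_nonneg (by linarith : 0 ≤ κ),
      abs_of_nonneg hA0.le] at this
  set ε' := ε + C * √τ with hε'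
  have hε'0 : 0 ≤ ε' := by positivity
  have b3 : dens A * |W| ≤ ε' + dens A * (6 * h * (1 / l)) := by
    refine le_of_mul_le_mul_left ?_ (show 0 < κ by linarith)
    have : ε' ≤ κ * ε' := le_mul_of_one_le_left hε'0 hk1
    nlinarith
  have b4 : ε' ≤ dens A * (4 * l * ε') := by
    calc ε' = 1 / (2 * (2 * (l : ℝ))) * (4 * l * ε') := by field_simp; ring
      _ ≤ _ := mul_le_mul_of_nonneg_right hA1 (by positivity)
  refine le_of_mul_le_mul_left ?_ hA0
  nlinarith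

end

theorem hs_small (m : ℝ) (hm : 0 < m) : ∃ (C : ℝ) (l₀ : ℕ), 0 < C ∧ ∀ (Ω I : Type) [Fintype Ω]
    [Nonempty Ω] [Fintype I] [Nonempty I] (D : ℕ) (F : Filt Ω D) (s : Ω → I → Bool) (γ : ℝ)
    (R d e l : ℕ) (P : Fm) (η K ε τ : ℝ),
    0 < γ → γ ≤ 1 → m ≤ γ ^ D → l₀ ≤ l → 2 * l ^ 2 ≤ R + 1 → d + 2 ≤ e → e ≤ D →
    0 ≤ η → η ≤ 1 → 0 ≤ ε → 0 ≤ τ → (∀ i, F.Meas e fun ω => fmEval F s P ω i) →
    Approx F s γ R e (fmEval F s P) η K → GG F s γ R ε → TiltSmall F s γ R P τ →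
    hs F d (fmEval F s P) ≤ C * (K ^ 2 * ((1 - γ) + 1 / l + (l : ℝ) ^ 3 * (ε + √τ)) + η) := by
  obtain ⟨C, hC1, hC⟩ := Mde_bound m hm
  set h : ℝ := |Real.log m| + 1 with hh
  set c : ℝ := 128 * C + 32 * (71 * h ^ 2 + 10) + 6 with hc
  have hc0 : 0 < c := by positivity
  refine ⟨c / m, ⌈2 * h⌉₊ + 4, by positivity, ?_⟩
  intro Ω I _ _ _ _ D F s γ R d e l P η K ε τ h0 h1 hmD hl hR hde heD hη0 hη1 hε hτ hPm hA hG hT
  obtain ⟨e', rfl⟩ : ∃ e', e = e' + 1 := ⟨e - 1, by omega⟩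
  have hh' : (1 - γ) * D + 1 ≤ h := by
    have := decC_delta_mul_le hm h0 hmD
    have := neg_abs_le (Real.log m)
    linarith
  have hl' : 2 * h ≤ l := (Nat.le_ceil _).trans (by exact_mod_cast (by omega : ⌈2 * h⌉₊ ≤ l))
  have hlp : (0 : ℝ) < l := by exact_mod_cast (by omega : 0 < l)
  set t : ℝ := (1 - γ) + 1 / l + (l : ℝ) ^ 3 * (ε + √τ) with ht
  have hγ' : 0 ≤ 1 - γ := by linarith
  have ht0 : 0 ≤ t := by positivity
  have key := decC_hs_of_pairs F h0 h1 (show d ≤ e' by omega) (P := fmEval F s P)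
    (fun ω i => by rw [abs_of_nonneg (fmEval_mem F s P ω i).1]; exact (fmEval_mem F s P ω i).2)
    hη0 hη1 (β := c * t) (by positivity) hA (fun ya yb ha hb => by
      refine (decC_pair hC hC1 h0 h1 hmD hT hG (by omega) (by omega) hPm ha hb hh' hl'
        (by omega) (by nlinarith) hε).trans ?_
      have u1 : 0 ≤ 1 / (l : ℝ) := by positivity
      have u2 : 0 ≤ (l : ℝ) ^ 3 * ε := by positivity
      have u3 : 0 ≤ (l : ℝ) ^ 3 * √τ := by positivity
      have u4 : 0 ≤ 71 * h ^ 2 + 10 := by positivity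
      have v1 : 1 - γ ≤ c * (1 - γ) := le_mul_of_one_le_left hγ' (by linarith)
      have v2 : 32 * (71 * h ^ 2 + 10) * (1 / (l : ℝ)) ≤ c * (1 / l) :=
        mul_le_mul_of_nonneg_right (by linarith) u1
      have v3 : 64 * ((l : ℝ) ^ 3 * ε) ≤ c * ((l : ℝ) ^ 3 * ε) :=
        mul_le_mul_of_nonneg_right (by linarith) u2
      have v4 : 128 * C * ((l : ℝ) ^ 3 * √τ) ≤ c * ((l : ℝ) ^ 3 * √τ) :=
        mul_le_mul_of_nonneg_right (by linarith) u3
      rw [ht]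
      nlinarith)
  have hpow : m ≤ γ ^ (e' - d) := hmD.trans (pow_le_pow_of_le_one h0.le h1 (by omega))
  have hs0 := hs_nonneg F d (fmEval F s P)
  rw [div_mul_eq_mul_div, le_div_iff₀ hm]
  have w1 := mul_le_mul_of_nonneg_right hpow hs0
  have w2 : 6 * η ≤ c * η := mul_le_mul_of_nonneg_right (by
    have : 0 ≤ 71 * h ^ 2 + 10 := by positivity
    linarith) hη0
  nlinarith

theorem vr_small (m : ℝ) (hm : 0 < m) : ∃ (C : ℝ) (l₀ : ℕ), 0 < C ∧ ∀ (Ω I : Type) [Fintype Ω]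
    [Nonempty Ω] [Fintype I] [Nonempty I] (D : ℕ) (F : Filt Ω D) (s : Ω → I → Bool) (γ : ℝ)
    (R e l : ℕ) (P : Fm) (η K ε τ : ℝ),
    0 < γ → γ ≤ 1 → m ≤ γ ^ D → l₀ ≤ l → 2 * l ≤ R + 1 → e ≤ D →
    0 ≤ η → 0 ≤ ε → 0 ≤ τ → (∀ i, F.Meas e fun ω => fmEval F s P ω i) →
    Approx F s γ R e (fmEval F s P) η K → GG F s γ R ε → TiltSmall F s γ R P τ →
    vr F (fmEval F s P) ≤ C * (K * (1 / l + (l : ℝ) * (ε + √τ)) + η) := by
  obtain ⟨C, hC1, hC⟩ := Mde_bound m hm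
  set h : ℝ := |Real.log m| + 1 with hh
  set c : ℝ := 4 * C + 6 * h + 1 with hc
  have hh0 : 0 ≤ h := by positivity
  have hc0 : 0 < c := by positivity
  refine ⟨c, ⌈2 * h⌉₊ + 1, hc0, ?_⟩
  intro Ω I _ _ _ _ D F s γ R e l P η K ε τ h0 h1 hmD hl hR heD hη0 hε hτ hPm hA hG hT
  have hh' : (1 - γ) * D + 1 ≤ h := by
    have := decC_delta_mul_le hm h0 hmD
    have := neg_abs_le (Real.log m)
    linarith
  have hl' : 2 * h ≤ l := (Nat.le_ceil _).trans (by exact_mod_cast (by omega : ⌈2 * h⌉₊ ≤ l))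
  have hlp : (0 : ℝ) < l := by exact_mod_cast (by omega : 0 < l)
  set t : ℝ := 1 / l + (l : ℝ) * (ε + √τ) with ht
  have ht0 : 0 ≤ t := by positivity
  obtain ⟨n, a, y, hy, hK, hη⟩ := hA
  set H : Ω → ℝ := fun ω => (av fun i => fmEval F s P ω i) -
    F.Ex fun ω => av fun i => fmEval F s P ω i with hH
  have hcov : ∀ α, |F.Ex fun ω => (av fun i => y α ω i) * H ω| ≤ c * t := by
    intro α
    refine (decC_cov hC hC1 h0 h1 hmD hT hG heD hPm (hy α) hh' hl' (by omega) hR hε).trans ?_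
    have u1 : 0 ≤ 1 / (l : ℝ) := by positivity
    have u2 : 0 ≤ (l : ℝ) * ε := by positivity
    have u3 : 0 ≤ (l : ℝ) * √τ := by positivity
    have v2 : 6 * h * (1 / (l : ℝ)) ≤ c * (1 / l) := mul_le_mul_of_nonneg_right (by linarith) u1
    have v3 : 4 * ((l : ℝ) * ε) ≤ c * ((l : ℝ) * ε) := mul_le_mul_of_nonneg_right (by linarith) u2
    have v4 : 4 * C * ((l : ℝ) * √τ) ≤ c * ((l : ℝ) * √τ) :=
      mul_le_mul_of_nonneg_right (by linarith) u3
    rw [ht]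
    nlinarith
  have hS : ∀ ω, 0 ≤ (av fun i => fmEval F s P ω i) ∧ (av fun i => fmEval F s P ω i) ≤ 1 :=
    fun ω => ⟨av_nonneg fun i => (fmEval_mem F s P ω i).1,
      av_le_of_le fun i => (fmEval_mem F s P ω i).2⟩
  have hH1 : ∀ ω, |H ω| ≤ 1 := by
    intro ω
    have t1 := F.Ex_nonneg fun ω => (hS ω).1
    have t2 := F.Ex_le_of_le fun ω => (hS ω).2
    have := hS ω
    rw [hH, abs_le]; constructor <;> simp only <;> linarith [this.1, this.2]
  have e1 : vr F (fmEval F s P) =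
      F.Ex (fun ω => (av fun i => fmEval F s P ω i - ∑ α, a α * y α ω i) * H ω) +
        ∑ α, a α * F.Ex fun ω => (av fun i => y α ω i) * H ω := by
    have e2 : vr F (fmEval F s P) = F.Ex fun ω => (av fun i => fmEval F s P ω i) * H ω := by
      unfold vr
      simp only [hH, mul_sub, Filt.Ex_sub, Filt.Ex_mul_const, sq]
    rw [e2]
    simp only [← Filt.Ex_const_mul]
    rw [← Filt.Ex_sum, ← Filt.Ex_add]
    refine F.Ex_congr fun ω => ?_
    rw [av_sub, av_sum]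
    simp only [av_const_mul]
    rw [sub_mul, Finset.sum_mul]
    simp only [mul_assoc]
    ring
  have b1 : F.Ex (fun ω => (av fun i => fmEval F s P ω i - ∑ α, a α * y α ω i) * H ω) ≤ η := by
    have t1 := decC_Ex_av_abs_le F fun ω i => fmEval F s P ω i - ∑ α, a α * y α ω i
    have t2 : √(nrm2 F fun ω i => fmEval F s P ω i - ∑ α, a α * y α ω i) ≤ η :=
      Real.sqrt_le_iff.2 ⟨hη0, hη⟩
    refine (F.Ex_mono fun ω => ?_).trans (t1.trans t2)
    refine (le_abs_self _).trans ?_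
    rw [abs_mul]
    exact (mul_le_of_le_one_right (abs_nonneg _) (hH1 ω)).trans (abs_av_le _)
  have b2 : ∑ α, a α * (F.Ex fun ω => (av fun i => y α ω i) * H ω) ≤ K * (c * t) := by
    calc ∑ α, a α * (F.Ex fun ω => (av fun i => y α ω i) * H ω) ≤ ∑ α, |a α| * (c * t) :=
          Finset.sum_le_sum fun α _ => (le_abs_self _).trans (by
            rw [abs_mul]; exact mul_le_mul_of_nonneg_left (hcov α) (abs_nonneg _))
      _ ≤ K * (c * t) := by
          rw [← Finset.sum_mul]; exact mul_le_mul_of_nonneg_right hK (by positivity)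
  have b3 : η ≤ c * η := le_mul_of_one_le_left hη0 (by linarith)
  rw [e1]
  nlinarith

end Crest.Agent.R153
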