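import Mathlib
import Crest.Agent.R153.Filt2

/-!
Row 153, interpolation upper bound: the completely positive cone and the one-step inequality.
-/

set_option autoImplicit false

namespace Crest.Agent.R153

open Finset

/-! ### The binomial series -/

/-- Coefficients of `1 - (1 - y) ^ g`. -/
noncomputable def upPi (g : ℝ) (n : ℕ) : ℝ := -((-1) ^ (n + 1) * Ring.choose g (n + 1))

lemma up_choose_succ (g : ℝ) (n : ℕ) :
    Ring.choose g (n + 1) = Ring.choose g n * (g - n) / (n + 1) := by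
  have h1 := Ring.descPochhammer_eq_factorial_smul_choose g (n + 1)
  have h2 := Ring.descPochhammer_eq_factorial_smul_choose g n
  rw [descPochhammer_succ_right, Polynomial.smeval_mul, h2] at h1
  have h3 : Polynomial.smeval (Polynomial.X - (n : Polynomial ℤ)) g = g - n := by
    rw [Polynomial.smeval_sub, Polynomial.smeval_X, Polynomial.smeval_natCast]
    simp
  rw [h3, Nat.factorial_succ] at h1
  simp only [nsmul_eq_mul, Nat.cast_mul, Nat.cast_add, Nat.cast_one] at h1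
  have hf : (n.factorial : ℝ) ≠ 0 := by exact_mod_cast n.factorial_ne_zero
  have hn : (n : ℝ) + 1 ≠ 0 := by positivity
  rw [eq_div_iff hn]
  apply mul_left_cancel₀ hf
  linarith

lemma upPi_nonneg {g : ℝ} (h0 : 0 ≤ g) (h1 : g ≤ 1) (n : ℕ) : 0 ≤ upPi g n := by
  induction n with
  | zero => simp [upPi, h0]
  | succ n ih =>
    have : upPi g (n + 1) = upPi g n * (((n + 1 : ℕ) : ℝ) - g) / (((n + 1 : ℕ) : ℝ) + 1) := by
      unfold upPi
      rw [up_choose_succ g (n + 1)]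
      ring
    rw [this]
    refine div_nonneg (mul_nonneg ih ?_) (by positivity)
    have : (1 : ℝ) ≤ ((n + 1 : ℕ) : ℝ) := by exact_mod_cast Nat.le_add_left 1 n
    linarith

lemma hasSum_upPi (g : ℝ) {y : ℝ} (hy0 : 0 ≤ y) (hy1 : y < 1) :
    HasSum (fun n => upPi g n * y ^ (n + 1)) (1 - (1 - y) ^ g) := by
  have hmem : -y ∈ Metric.eball (0 : ℝ) 1 := by
    rw [← ENNReal.ofReal_one, Metric.eball_ofReal]
    simp [abs_of_nonneg hy0, hy1]
  have h := (Real.one_add_rpow_hasFPowerSeriesOnBall_zero (a := g)).hasSum hmem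
  simp only [binomialSeries_apply, List.ofFn_const, List.prod_replicate, smul_eq_mul,
    zero_add] at h
  have h2 := (hasSum_nat_add_iff' 1).2 h
  simp only [Finset.range_one, Finset.sum_singleton, Ring.choose_zero_right, pow_zero,
    mul_one] at h2
  have h3 := h2.neg
  have e1 : (fun n => upPi g n * y ^ (n + 1)) =
      fun b => -(Ring.choose g (b + 1) * (-y) ^ (b + 1)) := by
    funext n
    unfold upPi
    rw [neg_pow y]; ring
  have e2 : 1 - (1 - y) ^ g = -((1 + -y) ^ g - 1) := by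
    rw [← sub_eq_add_neg]; ring
  rw [e1, e2]
  exact h3

/-! ### The cone -/

section cone
variable {A : Type} [Fintype A]

/-- A generator of the cone. -/
def upGen (φ : A → ℝ) : (Fin 3 → A) → ℝ := fun a => ∏ j, φ (a j)

/-- The (bidual of the) completely positive cone of order three. -/
def UpCP (Y : (Fin 3 → A) → ℝ) : Prop :=
  ∀ Λ : ((Fin 3 → A) → ℝ) →ₗ[ℝ] ℝ, (∀ φ : A → ℝ, (∀ a, 0 ≤ φ a) → 0 ≤ Λ (upGen φ)) → 0 ≤ Λ Y

omit [Fintype A] in
lemma upCP_gen {φ : A → ℝ} (h : ∀ a, 0 ≤ φ a) : UpCP (upGen φ) := fun _ hΛ => hΛ φ h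

omit [Fintype A] in
lemma UpCP.smul {Y : (Fin 3 → A) → ℝ} (h : UpCP Y) {c : ℝ} (hc : 0 ≤ c) : UpCP (c • Y) :=
  fun Λ hΛ => by rw [map_smul, smul_eq_mul]; exact mul_nonneg hc (h Λ hΛ)

omit [Fintype A] in
lemma upCP_sum {κ : Type*} (S : Finset κ) {Y : κ → (Fin 3 → A) → ℝ} (h : ∀ t ∈ S, UpCP (Y t)) :
    UpCP (∑ t ∈ S, Y t) :=
  fun Λ hΛ => by rw [map_sum]; exact Finset.sum_nonneg fun t ht => h t ht Λ hΛ

omit [Fintype A] in
lemma UpCP.map {Y : (Fin 3 → A) → ℝ} (h : UpCP Y)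
    (T : ((Fin 3 → A) → ℝ) →ₗ[ℝ] ((Fin 3 → A) → ℝ))
    (hT : ∀ φ : A → ℝ, (∀ a, 0 ≤ φ a) → UpCP (T (upGen φ))) : UpCP (T Y) :=
  fun Λ hΛ => h (Λ ∘ₗ T) fun φ hφ => hT φ hφ Λ hΛ

omit [Fintype A] in
lemma UpCP.mul {Y Z : (Fin 3 → A) → ℝ} (hY : UpCP Y) (hZ : UpCP Z) : UpCP (Y * Z) := by
  refine hY.map (LinearMap.mulRight ℝ Z) fun φ hφ => ?_
  refine hZ.map (LinearMap.mulLeft ℝ (upGen φ)) fun ψ hψ => ?_
  have : LinearMap.mulLeft ℝ (upGen φ) (upGen ψ) = upGen fun a => φ a * ψ a := by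
    funext a
    simp [upGen, Finset.prod_mul_distrib]
  rw [this]
  exact upCP_gen fun a => mul_nonneg (hφ a) (hψ a)

omit [Fintype A] in
lemma UpCP.pow {Y : (Fin 3 → A) → ℝ} (hY : UpCP Y) (n : ℕ) : UpCP (Y ^ (n + 1)) := by
  induction n with
  | zero => simpa using hY
  | succ n ih => rw [pow_succ]; exact ih.mul hY

lemma upCP_hasSum {Y : ℕ → (Fin 3 → A) → ℝ} {Z : (Fin 3 → A) → ℝ} (h : HasSum Y Z)
    (hY : ∀ n, UpCP (Y n)) : UpCP Z := fun Λ hΛ =>
  (h.map Λ.toAddMonoidHom Λ.continuous_of_finiteDimensional).nonneg fun n => hY n Λ hΛ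

lemma UpCP.phi {Y : (Fin 3 → A) → ℝ} (hY : UpCP Y) (h0 : ∀ a, 0 ≤ Y a) (h1 : ∀ a, Y a < 1)
    {g : ℝ} (hg0 : 0 ≤ g) (hg1 : g ≤ 1) : UpCP fun a => 1 - (1 - Y a) ^ g := by
  refine upCP_hasSum (Y := fun n => upPi g n • Y ^ (n + 1)) ?_
    fun n => (hY.pow n).smul (upPi_nonneg hg0 hg1 n)
  rw [Pi.hasSum]
  intro a
  simpa using hasSum_upPi g (h0 a) (h1 a)

variable {D : ℕ}

/-- The conditional expectation as a linear map. -/
noncomputable def upElin {Ω : Type} [Fintype Ω] (F : Filt Ω D) (d : ℕ) :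
    (Ω → ℝ) →ₗ[ℝ] (Ω → ℝ) where
  toFun := F.E d
  map_add' f g := funext fun ω => F.E_add d f g ω
  map_smul' c f := funext fun ω => F.E_const_mul d c f ω

lemma UpCP.E {Y : (Fin 3 → A) → ℝ} (hY : UpCP Y) (G : Filt A D) (d : ℕ) :
    UpCP ((Filt.pi fun _ : Fin 3 => G).E d Y) := by
  classical
  refine hY.map (upElin (Filt.pi fun _ : Fin 3 => G) d) fun φ hφ => ?_
  have : upElin (Filt.pi fun _ : Fin 3 => G) d (upGen φ) = upGen (G.E d φ) := by
    funext a
    exact Filt.E_pi_prod (fun _ : Fin 3 => G) d (fun _ => φ) a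
  rw [this]
  exact upCP_gen (G.E_nonneg d hφ)

/-- The main positivity statement. -/
lemma upCP_Q {Ω : Type} [Fintype Ω] (S : Filt Ω D) (G : Filt A D) {γ : ℕ → ℝ} (hγ : Adm γ)
    {β : ℝ} (hβ0 : 0 ≤ β) (hβ1 : β < 1) (φ : Ω → A → ℝ) (h0 : ∀ ω a, 0 ≤ φ ω a)
    (h1 : ∀ ω a, φ ω a ≤ 1) :
    ∀ d, d ≤ D → ∀ ω, UpCP fun a => 1 - (S.prod (Filt.pi fun _ : Fin 3 => G)).Q γ D
      (fun y => 1 - β * ∏ j, φ y.1 (y.2 j)) d (ω, a) := by
  classical
  set P := S.prod (Filt.pi fun _ : Fin 3 => G) with hP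
  set V : Ω × (Fin 3 → A) → ℝ := fun y => 1 - β * ∏ j, φ y.1 (y.2 j) with hV
  have hpr0 : ∀ y : Ω × (Fin 3 → A), 0 ≤ ∏ j, φ y.1 (y.2 j) :=
    fun y => Finset.prod_nonneg fun j _ => h0 _ _
  have hpr1 : ∀ y : Ω × (Fin 3 → A), ∏ j, φ y.1 (y.2 j) ≤ 1 :=
    fun y => Finset.prod_le_one (fun j _ => h0 _ _) fun j _ => h1 _ _
  have hVlo : ∀ y, 1 - β ≤ V y := fun y => by
    have := mul_le_mul_of_nonneg_left (hpr1 y) hβ0
    simp only [hV]; linarith
  have hVhi : ∀ y, V y ≤ 1 := fun y => by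
    have := mul_nonneg hβ0 (hpr0 y)
    simp only [hV]; linarith
  have hVpos : ∀ y, 0 < V y := fun y => lt_of_lt_of_le (by linarith) (hVlo y)
  refine Filt.down_induction (fun ω => ?_) fun d hd ih ω => ?_
  · rw [Filt.Q_self]
    have : (fun a => 1 - V (ω, a)) = β • upGen (φ ω) := by
      funext a; simp [hV, upGen]
    rw [this]
    exact (upCP_gen (h0 ω)).smul hβ0
  · simp only [Filt.Q_succ _ γ hd]
    have hE : ∀ a, P.E d (P.Q γ D V (d + 1)) (ω, a) =
        1 - P.E d (fun y => 1 - P.Q γ D V (d + 1) y) (ω, a) := by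
      intro a
      rw [Filt.E_sub, Filt.E_const]; ring
    simp only [hE]
    refine UpCP.phi ?_ (fun a => P.E_nonneg d (fun y => ?_) _) (fun a => ?_) (hγ d).1.le (hγ d).2
    · have : (fun a => P.E d (fun y => 1 - P.Q γ D V (d + 1) y) (ω, a)) =
          ∑ ω', S.ker d ω ω' • (Filt.pi fun _ : Fin 3 => G).E d
            (fun a => 1 - P.Q γ D V (d + 1) (ω', a)) := by
        funext a
        rw [hP, Filt.E_prod, Filt.E_eq_sum]
        simp
      rw [this]
      exact upCP_sum _ fun ω' _ => ((ih ω').E G d).smul (S.ker_nonneg _ _ _)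
    · have := P.Q_le hγ D le_rfl (fun y => (hVpos y).le) hVhi (d + 1) y
      linarith
    · have h2 := hE a
      have h3 := P.E_pos d (P.Q_pos γ D hVpos (d + 1)) (ω, a)
      linarith

end cone

/-! ### Morphisms -/

namespace Filt

variable {D : ℕ}

lemma up_mor_pi_map {ι : Type} [Fintype ι] [DecidableEq ι] {A B : ι → Type}
    [∀ i, Fintype (A i)] [∀ i, Fintype (B i)] {F' : ∀ i, Filt (A i) D} {F : ∀ i, Filt (B i) D}
    {φ : ∀ i, A i → B i} (h : ∀ i, (F' i).Mor (F i) (φ i)) :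
    (pi F').Mor (pi F) fun x i => φ i (x i) := by
  classical
  intro d f x
  have hf : ∀ y : ∀ i, B i, f y = ∑ z : ∀ i, B i, f z * ∏ i, ind (y i = z i) := by
    intro y
    rw [Finset.sum_eq_single y]
    · rw [Finset.prod_eq_one fun i _ => ind_pos rfl, mul_one]
    · intro z _ hz
      rw [← ind_forall, ind_neg, mul_zero]
      exact fun h => hz (funext h).symm
    · simp
  rw [E_congr _ d hf, E_congr (pi F') d (f := fun y => f fun i => φ i (y i))
    (fun y => hf fun i => φ i (y i)), E_sum, E_sum]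
  refine Finset.sum_congr rfl fun z _ => ?_
  rw [E_const_mul, E_const_mul, E_pi_prod F d (fun i y => ind (y = z i)),
    E_pi_prod F' d (fun i y => ind (φ i y = z i))]
  congr 1
  exact Finset.prod_congr rfl fun i _ => h i d (fun y => ind (y = z i)) (x i)

lemma up_mor_point {Ω Ω' : Type} [Fintype Ω] [Fintype Ω'] (F : Filt Ω D) (G : Filt Ω' D) (a : Ω')
    (ha : ∀ d y, G.rel d a y → y = a) : F.Mor (F.prod G) fun ω => (ω, a) := by
  intro d f ω
  rw [E_prod]
  refine F.E_congr d (fun ω' => ?_) ω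
  rw [G.E_congr_rel d a (g := fun _ => f (ω', a)) fun y hy => by rw [ha d y hy]]
  simp

/-- Disjoint union of a discrete space and a filtered space. -/
def upSum (L : Type) {Ξ : Type} (X : Filt Ξ D) : Filt (L ⊕ Ξ) D where
  p := Sum.elim (fun _ => 1) X.p
  p_pos x := by
    cases x with
    | inl _ => exact one_pos
    | inr x => exact X.p_pos x
  rel d x y := match x, y with
    | .inl l, .inl l' => l = l'
    | .inr x, .inr x' => X.rel d x x'
    | _, _ => False
  refl d x := by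
    cases x with
    | inl _ => rfl
    | inr x => exact X.refl d x
  symm {d x y} h := by
    cases x <;> cases y
    · exact Eq.symm h
    · exact h
    · exact h
    · exact X.symm h
  trans {d x y z} h h' := by
    cases x <;> cases y <;> cases z
    · exact Eq.trans h h'
    · exact h'
    · exact h.elim
    · exact h.elim
    · exact h.elim
    · exact h.elim
    · exact h'
    · exact X.trans h h'
  mono {d x y} h := by
    cases x <;> cases y
    · exact h
    · exact h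
    · exact h
    · exact X.mono h
  sep {x y} h := by
    cases x <;> cases y
    · exact congrArg _ h
    · exact h.elim
    · exact h.elim
    · exact congrArg _ (X.sep h)

lemma upSum_inl {L Ξ : Type} (X : Filt Ξ D) (l : L) (d : ℕ) (y : L ⊕ Ξ)
    (h : (upSum L X).rel d (.inl l) y) : y = .inl l := by
  cases y with
  | inl l' => exact congrArg _ (Eq.symm h)
  | inr x => exact h.elim

lemma up_mor_inr {L Ξ : Type} [Fintype L] [Fintype Ξ] (X : Filt Ξ D) :
    X.Mor (upSum L X) Sum.inr := by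
  intro d f x
  have h0 : ∀ l : L, ind ((upSum L X).rel d (.inr x) (.inl l)) = 0 := fun l => ind_neg id
  unfold E
  simp only [Fintype.sum_sum_type, h0, zero_mul, Finset.sum_const_zero, zero_add]
  rfl

end Filt

/-- The one-step interpolation inequality. -/
theorem up_step {Ω L Ξ : Type} [Fintype Ω] [Nonempty Ω] [Fintype L] [Nonempty L] [Fintype Ξ]
    [Nonempty Ξ] {D : ℕ} (S : Filt Ω D) (X : Filt Ξ D) {γ : ℕ → ℝ} (hγ : Adm γ)
    {β : ℝ} (hβ0 : 0 ≤ β) (hβ1 : β < 1) (φ : Ω → L → ℝ) (h0 : ∀ ω a, 0 ≤ φ ω a)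
    (h1 : ∀ ω a, φ ω a ≤ 1) (ψ : Ξ → ℝ) (hψ0 : ∀ a, 0 ≤ ψ a) (hψ1 : ∀ a, ψ a ≤ 1) :
    1 / 3 * (av fun c : Fin 3 → L => S.pm γ fun ω => 1 - β * ∏ j, φ ω (c j)) +
      2 / 3 * (Filt.pi fun _ : Fin 3 => X).pm γ (fun x => 1 - β * ∏ j, ψ (x j)) ≤
      av fun l : L => (S.prod (Filt.pi fun _ : Fin 2 => X)).pm γ
        fun y => 1 - β * φ y.1 l * ∏ j, ψ (y.2 j) := by
  classical
  set G := Filt.upSum L X with hG
  set P := S.prod (Filt.pi fun _ : Fin 3 => G) with hP
  set Φ : Ω → L ⊕ Ξ → ℝ := fun ω => Sum.elim (φ ω) ψ with hΦ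
  set V : Ω × (Fin 3 → L ⊕ Ξ) → ℝ := fun y => 1 - β * ∏ j, Φ y.1 (y.2 j) with hV
  have hcp := upCP_Q S G hγ hβ0 hβ1 Φ (fun ω a => by cases a <;> simp [hΦ, h0, hψ0])
    (fun ω a => by cases a <;> simp [hΦ, h1, hψ1]) 0 (Nat.zero_le D)
  set X2 := Filt.pi fun _ : Fin 2 => X with hX2
  set X3 := Filt.pi fun _ : Fin 3 => X with hX3
  let Λ : ((Fin 3 → L ⊕ Ξ) → ℝ) →ₗ[ℝ] ℝ :=
    { toFun := fun Y => 1 / 3 * (av fun c : Fin 3 → L => Y fun j => .inl (c j)) +
        2 / 3 * X3.Ex (fun x => Y fun j => .inr (x j)) -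
        av fun l : L => X2.Ex fun x => Y (Fin.cons (.inl l) fun j => .inr (x j))
      map_add' := fun Y Z => by
        simp only [Pi.add_apply, av_add, Filt.Ex_add]; ring
      map_smul' := fun c Y => by
        simp only [Pi.smul_apply, smul_eq_mul, av_const_mul, Filt.Ex_const_mul, RingHom.id_apply]
        ring }
  have hΛ : ∀ θ : L ⊕ Ξ → ℝ, (∀ a, 0 ≤ θ a) → 0 ≤ Λ (upGen θ) := by
    intro θ hθ
    have e1 : (av fun c : Fin 3 → L => upGen θ fun j => .inl (c j)) =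
        (av fun l => θ (.inl l)) ^ 3 := by
      have := av_pi_prod (ι := Fin 3) (A := fun _ => L) fun _ l => θ (.inl l)
      simpa [upGen] using this
    have e2 : X3.Ex (fun x => upGen θ fun j => .inr (x j)) = (X.Ex fun x => θ (.inr x)) ^ 3 := by
      have := Filt.Ex_pi_prod (fun _ : Fin 3 => X) fun _ x => θ (.inr x)
      simpa [upGen] using this
    have e3 : (av fun l : L => X2.Ex fun x => upGen θ (Fin.cons (.inl l) fun j => .inr (x j))) =
        (av fun l => θ (.inl l)) * (X.Ex fun x => θ (.inr x)) ^ 2 := by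
      have h2 : X2.Ex (fun x => ∏ j, θ (.inr (x j))) = (X.Ex fun x => θ (.inr x)) ^ 2 := by
        have := Filt.Ex_pi_prod (fun _ : Fin 2 => X) fun _ x => θ (.inr x)
        simpa using this
      rw [← av_mul_const]
      refine av_congr fun l => ?_
      rw [← h2, ← Filt.Ex_const_mul]
      refine X2.Ex_congr fun x => ?_
      rw [upGen, Fin.prod_univ_succ]
      simp
    change (0 : ℝ) ≤ 1 / 3 * (av fun c : Fin 3 → L => upGen θ fun j => .inl (c j)) +
      2 / 3 * X3.Ex (fun x => upGen θ fun j => .inr (x j)) -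
      (av fun l : L => X2.Ex fun x => upGen θ (Fin.cons (.inl l) fun j => .inr (x j)))
    rw [e1, e2, e3]
    have ha : 0 ≤ av fun l => θ (.inl l) := av_nonneg fun l => hθ _
    have hb : 0 ≤ X.Ex fun x => θ (.inr x) := X.Ex_nonneg fun x => hθ _
    set A := av fun l => θ (.inl l)
    set B := X.Ex fun x => θ (.inr x)
    nlinarith [mul_nonneg (sq_nonneg (A - B)) (add_nonneg ha (add_nonneg hb hb))]
  have key : ∀ ω, 1 / 3 * (av fun c : Fin 3 → L => P.Q γ D V 0 (ω, fun j => .inl (c j))) +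
      2 / 3 * X3.Ex (fun x => P.Q γ D V 0 (ω, fun j => .inr (x j))) ≤
      av fun l : L => X2.Ex fun x => P.Q γ D V 0 (ω, Fin.cons (.inl l) fun j => .inr (x j)) := by
    intro ω
    have := hcp ω Λ hΛ
    change 0 ≤ 1 / 3 * (av fun c : Fin 3 → L => 1 - P.Q γ D V 0 (ω, fun j => .inl (c j))) +
      2 / 3 * X3.Ex (fun x => 1 - P.Q γ D V 0 (ω, fun j => .inr (x j))) -
      (av fun l : L => X2.Ex fun x =>
        1 - P.Q γ D V 0 (ω, Fin.cons (.inl l) fun j => .inr (x j))) at this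
    simp only [av_sub, Filt.Ex_sub, av_const, Filt.Ex_const] at this
    linarith
  have hsum := S.Ex_mono key
  rw [Filt.Ex_add, Filt.Ex_const_mul, Filt.Ex_const_mul, Filt.Ex_av, Filt.Ex_av] at hsum
  have m1 : ∀ c : Fin 3 → L, S.Mor P fun ω => (ω, fun j => .inl (c j)) := fun c =>
    Filt.up_mor_point S _ _ fun d y hy => funext fun j => Filt.upSum_inl X _ d _ (hy j)
  have m2 : (S.prod X3).Mor P fun y => (y.1, fun j => .inr (y.2 j)) :=
    Filt.Mor.prod_map (Filt.morEx_id S).1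
      (Filt.up_mor_pi_map (φ := fun _ => Sum.inr) fun _ => Filt.up_mor_inr X)
  have m3 : ∀ l : L, (S.prod X2).Mor P
      fun y => (y.1, Fin.cons (.inl l) fun j => .inr (y.2 j)) := fun l =>
    Filt.Mor.prod_map (Filt.morEx_id S).1
      (((Filt.up_mor_pi_map (φ := fun _ => Sum.inr) fun _ => Filt.up_mor_inr X).comp
        (Filt.up_mor_point _ G (.inl l) (Filt.upSum_inl X l))).comp (Filt.morEx_pi_cons G 2).1)
  refine le_of_eq_of_le ?_ (hsum.trans_eq ?_)
  · congr 2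
    · refine av_congr fun c => ?_
      unfold Filt.pm
      refine S.Ex_congr fun ω => ?_
      rw [← (m1 c).Q]
      simp [hV, hΦ]
    · rw [← Filt.Ex_prod S X3 fun y => P.Q γ D V 0 (y.1, fun j => .inr (y.2 j)),
        ← (Filt.morEx_snd S X3).pm]
      unfold Filt.pm
      refine Filt.Ex_congr _ fun y => ?_
      rw [← m2.Q]
      simp [hV, hΦ]
  · refine av_congr fun l => ?_
    rw [← Filt.Ex_prod S X2 fun y => P.Q γ D V 0 (y.1, Fin.cons (.inl l) fun j => .inr (y.2 j))]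
    unfold Filt.pm
    refine Filt.Ex_congr _ fun y => ?_
    rw [← (m3 l).Q]
    congr 1
    funext z
    simp only [hV, hΦ]
    rw [Fin.prod_univ_succ]
    simp [mul_assoc]

end Crest.Agent.R153
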