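import Mathlib
import Crest.Agent.R153.DecT
import Crest.Agent.R153.UpperAux1

/-!
Row 153, decoupling, part F (auxiliary): truncated recursion and tensor representations.
-/

set_option autoImplicit false

namespace Crest.Agent.R153

open Finset

/-! ### Truncation of `Phi` -/

lemma upPi_le_one {g : ℝ} (h0 : 0 ≤ g) (h1 : g ≤ 1) (n : ℕ) : upPi g n ≤ 1 := by
  induction n with
  | zero => simp [upPi, h1]
  | succ n ih =>
    have : upPi g (n + 1) = upPi g n * (((n + 1 : ℕ) : ℝ) - g) / (((n + 1 : ℕ) : ℝ) + 1) := by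
      unfold upPi
      rw [up_choose_succ g (n + 1)]
      ring
    rw [this, div_le_one (by positivity)]
    have h2 : (1 : ℝ) ≤ ((n + 1 : ℕ) : ℝ) := by exact_mod_cast Nat.le_add_left 1 n
    have h3 := upPi_nonneg h0 h1 n
    nlinarith

/-- Truncation of `Phi` at degree `J`. -/
noncomputable def dfPhiJ (g : ℝ) (J : ℕ) (y : ℝ) : ℝ := ∑ n ∈ range J, upPi g n * y ^ (n + 1)

lemma dfPhiJ_nonneg {g : ℝ} (h0 : 0 ≤ g) (h1 : g ≤ 1) (J : ℕ) {y : ℝ} (hy : 0 ≤ y) :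
    0 ≤ dfPhiJ g J y :=
  Finset.sum_nonneg fun n _ => mul_nonneg (upPi_nonneg h0 h1 n) (pow_nonneg hy _)

lemma dfPhiJ_le {g : ℝ} (h0 : 0 ≤ g) (h1 : g ≤ 1) (J : ℕ) {y : ℝ} (hy : 0 ≤ y) (hy1 : y < 1) :
    dfPhiJ g J y ≤ 1 - (1 - y) ^ g :=
  sum_le_hasSum _ (fun n _ => mul_nonneg (upPi_nonneg h0 h1 n) (pow_nonneg hy _))
    (hasSum_upPi g hy hy1)

lemma df_tail {g : ℝ} (h0 : 0 ≤ g) (h1 : g ≤ 1) (J : ℕ) {y b : ℝ} (hb0 : 0 < b) (hy : 0 ≤ y)
    (hyb : y ≤ 1 - b) : 1 - (1 - y) ^ g ≤ dfPhiJ g J y + (1 - b) ^ J / b := by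
  have hy1 : y < 1 := by linarith
  have h2 := (hasSum_nat_add_iff' J).2 (hasSum_upPi g hy hy1)
  have h3 := (hasSum_geometric_of_lt_one hy hy1).mul_left (y ^ J)
  have h4 := hasSum_le (fun n => ?_) h2 h3
  · have h5 : y ^ J * (1 - y)⁻¹ ≤ (1 - b) ^ J / b := by
      rw [div_eq_mul_inv]
      exact mul_le_mul (pow_le_pow_left₀ hy hyb J) (inv_anti₀ hb0 (by linarith))
        (inv_nonneg.2 (by linarith)) (pow_nonneg (by linarith) _)
    unfold dfPhiJ
    linarith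
  · have h6 : y ^ (n + J + 1) ≤ y ^ J * y ^ n := by
      rw [← pow_add]
      exact pow_le_pow_of_le_one hy hy1.le (by omega)
    have h7 := upPi_le_one h0 h1 (n + J)
    have h8 := upPi_nonneg h0 h1 (n + J)
    have h9 : 0 ≤ y ^ (n + J + 1) := pow_nonneg hy _
    nlinarith

lemma df_lip {g : ℝ} (h0 : 0 ≤ g) (h1 : g ≤ 1) {u u' b : ℝ} (hb0 : 0 < b) (hu : b ≤ u)
    (huu : u ≤ u') (hu1 : u ≤ 1) : u' ^ g - u ^ g ≤ (u' - u) / b := by
  have hu0 : 0 < u := hb0.trans_le hu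
  have h2 : u' ^ g = u ^ g * (u' / u) ^ g := by
    rw [← Real.mul_rpow hu0.le (div_nonneg (by linarith) hu0.le), mul_div_cancel₀ _ hu0.ne']
  have h3 : (u' / u) ^ g ≤ u' / u :=
    Real.rpow_le_self_of_one_le ((one_le_div hu0).2 huu) h1
  have h4 : u ^ g ≤ 1 := Real.rpow_le_one hu0.le hu1 h0
  have h5 : 0 ≤ u ^ g := Real.rpow_nonneg hu0.le _
  have h6 : 1 ≤ u' / u := (one_le_div hu0).2 huu
  have h7 : u' / u - 1 ≤ (u' - u) / b := by
    rw [div_sub_one hu0.ne']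
    exact div_le_div_of_nonneg_left (by linarith) hb0 hu
  rw [h2]
  nlinarith

/-! ### The recursion along coarse levels -/

section coarse
variable {Ω : Type} [Fintype Ω] {D : ℕ} (G : Filt Ω D) {γ : ℕ → ℝ}

lemma df_Q_flat {a e : ℕ} (he : e ≤ D) (h1 : ∀ d, a ≤ d → d < e → γ d = 1) (V : Ω → ℝ) :
    ∀ d, d ≤ e → a ≤ d → ∀ ω, G.Q γ D V d ω = G.E d (G.Q γ D V e) ω := by
  refine Filt.down_induction (fun _ ω => ?_) fun d hd ih ha ω => ?_
  · rw [G.E_of_meas (G.meas_Q_top γ V e)]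
  · rw [G.Q_succ γ (hd.trans_le he), h1 d ha hd, Real.rpow_one,
      G.E_congr d (ih (by omega)), G.E_E_of_le (Nat.le_succ d)]

lemma df_lev_anti {r : ℕ} {lev : ℕ → ℕ} (h : ∀ k, k < r → lev (k + 1) < lev k) {j k : ℕ}
    (hjk : j ≤ k) (hk : k ≤ r) : lev k ≤ lev j := by
  induction k, hjk using Nat.le_induction with
  | base => exact le_rfl
  | succ k _ ih => exact (h k hk).le.trans (ih (by omega))

/-- The truncated recursion. -/
noncomputable def dfYt (lev : ℕ → ℕ) (γ : ℕ → ℝ) (J : ℕ) (V : Ω → ℝ) : ℕ → Ω → ℝ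
  | 0 => fun ω => 1 - V ω
  | k + 1 => fun ω => dfPhiJ (γ (lev (k + 1))) J (G.E (lev (k + 1)) (dfYt lev γ J V k) ω)

variable {r : ℕ} {lev : ℕ → ℕ}

lemma df_Q_lev (h0 : lev 0 = D) (hl : ∀ k, k < r → lev (k + 1) < lev k)
    (h1 : ∀ d, (∀ k, 1 ≤ k → k ≤ r → d ≠ lev k) → γ d = 1) (V : Ω → ℝ) {k : ℕ} (hk : k < r)
    (ω : Ω) : G.Q γ D V (lev (k + 1)) ω =
      G.E (lev (k + 1)) (G.Q γ D V (lev k)) ω ^ γ (lev (k + 1)) := by
  have hkD : lev k ≤ D := h0 ▸ df_lev_anti hl (Nat.zero_le k) hk.le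
  have hlt := hl k hk
  rw [G.Q_succ γ (hlt.trans_le hkD), G.E_congr _ (df_Q_flat G (a := lev (k + 1) + 1) hkD
    (fun d hd hd' => h1 d fun j _ hj => ?_) V _ hlt le_rfl), G.E_E_of_le (Nat.le_succ _)]
  rcases le_or_gt j k with h | h
  · have := df_lev_anti hl h hk.le
    omega
  · have := df_lev_anti hl (show k + 1 ≤ j from h) hj
    omega

lemma df_pm_lev (h0 : lev 0 = D) (hl : ∀ k, k < r → lev (k + 1) < lev k)
    (h1 : ∀ d, (∀ k, 1 ≤ k → k ≤ r → d ≠ lev k) → γ d = 1) (V : Ω → ℝ) :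
    G.pm γ V = G.Ex (G.Q γ D V (lev r)) := by
  have hkD : lev r ≤ D := h0 ▸ df_lev_anti hl (Nat.zero_le r) le_rfl
  unfold Filt.pm
  rw [G.Ex_congr (df_Q_flat G (a := 0) hkD (fun d _ hd' => h1 d fun j _ hj => ?_) V 0
    (Nat.zero_le _) le_rfl), G.Ex_E]
  have := df_lev_anti hl hj le_rfl
  omega

lemma dfYt_close (hγ : Adm γ) (h0 : lev 0 = D) (hl : ∀ k, k < r → lev (k + 1) < lev k)
    (h1 : ∀ d, (∀ k, 1 ≤ k → k ≤ r → d ≠ lev k) → γ d = 1) {b : ℝ} (hb0 : 0 < b) (hb1 : b ≤ 1)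
    {V : Ω → ℝ} (hV : ∀ ω, b ≤ V ω ∧ V ω ≤ 1) (J : ℕ) :
    ∀ k, k ≤ r → ∀ ω, 0 ≤ dfYt G lev γ J V k ω ∧
      dfYt G lev γ J V k ω ≤ 1 - G.Q γ D V (lev k) ω ∧
      1 - G.Q γ D V (lev k) ω ≤ dfYt G lev γ J V k ω + k / b ^ k * (1 - b) ^ J := by
  intro k
  induction k with
  | zero =>
    intro _ ω
    rw [h0, Filt.Q_self]
    have := (hV ω).2
    simp only [dfYt]
    refine ⟨by linarith, le_rfl, by simp⟩
  | succ k ih =>
    intro hk ω
    have ih' := ih (by omega)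
    rw [df_Q_lev G h0 hl h1 V hk]
    simp only [dfYt]
    set d := lev (k + 1)
    set u := G.E d (G.Q γ D V (lev k)) ω with hu
    set y := G.E d (dfYt G lev γ J V k) ω with hy
    have hbu : b ≤ u := G.le_E_of_le d (G.le_Q hγ D hb0 hb1 (fun ω => (hV ω).1) _) ω
    have hu1 : u ≤ 1 :=
      G.E_le_of_le d (G.Q_le hγ D le_rfl (fun ω => hb0.le.trans (hV ω).1) (fun ω => (hV ω).2) _) ω
    have hy0 : 0 ≤ y := G.E_nonneg d (fun ω => (ih' ω).1) ω
    have hyu : y ≤ 1 - u := by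
      have := G.E_mono d (fun ω => (ih' ω).2.1) ω
      rwa [G.E_sub, G.E_const] at this
    have huy : 1 - u ≤ y + k / b ^ k * (1 - b) ^ J := by
      have := G.E_mono d (fun ω => (ih' ω).2.2) ω
      rwa [G.E_sub, G.E_const, G.E_add, G.E_const] at this
    have hg0 := (hγ d).1.le
    have hg1 := (hγ d).2
    refine ⟨dfPhiJ_nonneg hg0 hg1 J hy0, (dfPhiJ_le hg0 hg1 J hy0 (by linarith)).trans ?_, ?_⟩
    · have := Real.rpow_le_rpow (by linarith) (show u ≤ 1 - y by linarith) hg0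
      linarith
    · have e1 := df_tail hg0 hg1 J hb0 hy0 (show y ≤ 1 - b by linarith)
      have e2 := df_lip hg0 hg1 hb0 hbu (show u ≤ 1 - y by linarith) hu1
      have e3 : (1 - y - u) / b ≤ k / b ^ k * (1 - b) ^ J / b :=
        div_le_div_of_nonneg_right (by linarith) hb0.le
      have hτ : 0 ≤ (1 - b) ^ J := pow_nonneg (by linarith) _
      have e4 : (1 - b) ^ J / b ≤ 1 / b ^ (k + 1) * (1 - b) ^ J := by
        rw [div_eq_inv_mul, one_div]
        refine mul_le_mul_of_nonneg_right (inv_anti₀ (by positivity) ?_) hτ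
        exact pow_le_of_le_one hb0.le hb1 (by omega)
      have e5 : ((k + 1 : ℕ) : ℝ) / b ^ (k + 1) * (1 - b) ^ J =
          k / b ^ k * (1 - b) ^ J / b + 1 / b ^ (k + 1) * (1 - b) ^ J := by
        push_cast
        rw [pow_succ]
        field_simp
      rw [e5]
      linarith

end coarse

/-! ### Tensor representations -/

section rep
variable {Ω I Λ : Type} [Fintype Ω] [Fintype I] [Fintype Λ] [DecidableEq Λ] {D : ℕ}

/-- A common tensor representation of a coupled and a decoupled observable. -/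
def DfRep (F : Filt Ω D) (S : Set (Ω → I → ℝ)) (K e : ℝ) (f : Ω → (Λ → I) → ℝ)
    (g : (Λ → Ω × I) → ℝ) : Prop :=
  ∃ (T : Type) (_ : Fintype T) (c : T → ℝ) (A : T → Λ → Ω → I → ℝ), (∀ t l, A t l ∈ S) ∧
    ∑ t, |c t| ≤ K ∧ (∀ x, g x = ∑ t, c t * ∏ l, A t l (x l).1 (x l).2) ∧
    F.Ex (fun ω => av fun i : Λ → I => |f ω i - ∑ t, c t * ∏ l, A t l ω (i l)|) ≤ e

/-- All members take values in `[0, 1]`. -/
def DfUnit (S : Set (Ω → I → ℝ)) : Prop := ∀ A ∈ S, ∀ ω i, 0 ≤ A ω i ∧ A ω i ≤ 1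

variable {F : Filt Ω D} {S S' S'' : Set (Ω → I → ℝ)} {K K' e e' : ℝ}
  {f f' : Ω → (Λ → I) → ℝ} {g g' : (Λ → Ω × I) → ℝ}

lemma DfRep.mono (h : DfRep F S K e f g) (hS : S ⊆ S') (hK : K ≤ K') (he : e ≤ e') :
    DfRep F S' K' e' f g := by
  obtain ⟨T, _, c, A, h1, h2, h3, h4⟩ := h
  exact ⟨T, inferInstance, c, A, fun t l => hS (h1 t l), h2.trans hK, h3, h4.trans he⟩

lemma dfRep_zero (F : Filt Ω D) (S : Set (Ω → I → ℝ)) :
    DfRep F S 0 0 (fun _ (_ : Λ → I) => 0) fun _ => 0 :=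
  ⟨Empty, inferInstance, fun t => t.elim, fun t => t.elim, fun t => t.elim, by simp, by simp,
    by simp⟩

lemma DfRep.add (h : DfRep F S K e f g) (h' : DfRep F S K' e' f' g') :
    DfRep F S (K + K') (e + e') (fun ω i => f ω i + f' ω i) fun x => g x + g' x := by
  obtain ⟨T, _, c, A, h1, h2, h3, h4⟩ := h
  obtain ⟨T', _, c', A', h1', h2', h3', h4'⟩ := h'
  refine ⟨T ⊕ T', inferInstance, Sum.elim c c', Sum.elim A A', ?_, ?_, fun x => ?_, ?_⟩
  · rintro (t | t) l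
    · exact h1 t l
    · exact h1' t l
  · simpa [Fintype.sum_sum_type] using add_le_add h2 h2'
  · simp [Fintype.sum_sum_type, h3, h3']
  · refine le_trans ?_ (add_le_add h4 h4')
    rw [← Filt.Ex_add]
    refine F.Ex_mono fun ω => ?_
    rw [← av_add]
    refine av_mono fun i => le_trans (le_of_eq ?_) (abs_add_le _ _)
    simp only [Fintype.sum_sum_type, Sum.elim_inl, Sum.elim_inr]
    congr 1; ring

lemma DfRep.smul (h : DfRep F S K e f g) {a : ℝ} (ha : |a| ≤ 1) :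
    DfRep F S K e (fun ω i => a * f ω i) fun x => a * g x := by
  obtain ⟨T, _, c, A, h1, h2, h3, h4⟩ := h
  refine ⟨T, inferInstance, fun t => a * c t, A, h1, le_trans ?_ h2, fun x => ?_, le_trans ?_ h4⟩
  · refine Finset.sum_le_sum fun t _ => ?_
    rw [abs_mul]
    exact mul_le_of_le_one_left (abs_nonneg _) ha
  · simp only [h3, Finset.mul_sum, mul_assoc]
  · refine F.Ex_mono fun ω => av_mono fun i => ?_
    simp only [mul_assoc]
    rw [← Finset.mul_sum, ← mul_sub, abs_mul]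
    exact mul_le_of_le_one_left (abs_nonneg _) ha

lemma dfRep_sum (n : ℕ) {f : ℕ → Ω → (Λ → I) → ℝ} {g : ℕ → (Λ → Ω × I) → ℝ}
    (h : ∀ j, j < n → DfRep F S K e (f j) (g j)) :
    DfRep F S (n * K) (n * e) (fun ω i => ∑ j ∈ range n, f j ω i)
      fun x => ∑ j ∈ range n, g j x := by
  induction n with
  | zero => simpa using dfRep_zero F S
  | succ n ih =>
    have := (ih fun j hj => h j (by omega)).add (h n (by omega))
    simp only [Finset.sum_range_succ]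
    refine this.mono subset_rfl (le_of_eq ?_) (le_of_eq ?_) <;> push_cast <;> ring

omit [Fintype Ω] [Fintype I] [DecidableEq Λ] in
lemma df_abs_comb_le {T : Type} [Fintype T] (hS : DfUnit S) (c : T → ℝ)
    {A : T → Λ → Ω → I → ℝ} (hA : ∀ t l, A t l ∈ S) (ω : Ω) (i : Λ → I) :
    |∑ t, c t * ∏ l, A t l ω (i l)| ≤ ∑ t, |c t| := by
  refine (Finset.abs_sum_le_sum_abs _ _).trans (Finset.sum_le_sum fun t _ => ?_)
  rw [abs_mul, abs_of_nonneg (Finset.prod_nonneg fun l _ => (hS _ (hA t l) _ _).1)]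
  exact mul_le_of_le_one_right (abs_nonneg _)
    (Finset.prod_le_one (fun l _ => (hS _ (hA t l) _ _).1) fun l _ => (hS _ (hA t l) _ _).2)

lemma DfRep.mul (h : DfRep F S K e f g) (h' : DfRep F S' K' e' f' g') (hS : DfUnit S)
    (hm : ∀ A ∈ S, ∀ B ∈ S', (fun ω i => A ω i * B ω i) ∈ S'') (hf' : ∀ ω i, |f' ω i| ≤ 1) :
    DfRep F S'' (K * K') (e + K * e') (fun ω i => f ω i * f' ω i) fun x => g x * g' x := by
  obtain ⟨T, _, c, A, h1, h2, h3, h4⟩ := h
  obtain ⟨T', _, c', A', h1', h2', h3', h4'⟩ := h'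
  have hK : 0 ≤ K := le_trans (Finset.sum_nonneg fun t _ => abs_nonneg _) h2
  have hprod : ∀ (a : T → Λ → ℝ) (a' : T' → Λ → ℝ),
      ∑ t : T × T', c t.1 * c' t.2 * ∏ l, (a t.1 l * a' t.2 l) =
      (∑ t, c t * ∏ l, a t l) * ∑ t, c' t * ∏ l, a' t l := by
    intro a a'
    rw [Finset.sum_mul_sum, Fintype.sum_prod_type]
    refine Finset.sum_congr rfl fun t _ => Finset.sum_congr rfl fun t' _ => ?_
    rw [Finset.prod_mul_distrib]; ring
  refine ⟨T × T', inferInstance, fun t => c t.1 * c' t.2,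
    fun t l ω i => A t.1 l ω i * A' t.2 l ω i, fun t l => hm _ (h1 _ _) _ (h1' _ _), ?_,
    fun x => ?_, ?_⟩
  · simp only [abs_mul, Fintype.sum_prod_type]
    rw [← Finset.sum_mul_sum]
    exact mul_le_mul h2 h2' (Finset.sum_nonneg fun t _ => abs_nonneg _) hK
  · rw [hprod (fun t l => A t l (x l).1 (x l).2) fun t l => A' t l (x l).1 (x l).2, ← h3, ← h3']
  · refine le_trans ?_ (add_le_add h4 (mul_le_mul_of_nonneg_left h4' hK))
    rw [← Filt.Ex_const_mul, ← Filt.Ex_add]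
    refine F.Ex_mono fun ω => ?_
    rw [← av_const_mul, ← av_add]
    refine av_mono fun i => ?_
    rw [hprod (fun t l => A t l ω (i l)) fun t l => A' t l ω (i l)]
    have hb := (df_abs_comb_le hS c h1 ω i).trans h2
    set p := ∑ t, c t * ∏ l, A t l ω (i l)
    set p' := ∑ t, c' t * ∏ l, A' t l ω (i l)
    calc |f ω i * f' ω i - p * p'| = |(f ω i - p) * f' ω i + p * (f' ω i - p')| := by
          congr 1; ring
      _ ≤ |f ω i - p| * |f' ω i| + |p| * |f' ω i - p'| := by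
          rw [← abs_mul, ← abs_mul]; exact abs_add_le _ _
      _ ≤ _ := add_le_add (mul_le_of_le_one_right (abs_nonneg _) (hf' ω i))
          (mul_le_mul_of_nonneg_right hb (abs_nonneg _))

lemma DfRep.pow {B : ℕ → Set (Ω → I → ℝ)} (h : DfRep F (B 1) K e f g) (hB : ∀ n, DfUnit (B n))
    (hm : ∀ n, ∀ A ∈ B n, ∀ A' ∈ B 1, (fun ω i => A ω i * A' ω i) ∈ B (n + 1))
    (hf : ∀ ω i, |f ω i| ≤ 1) (hK : 1 ≤ K) (he : 0 ≤ e) (n : ℕ) :
    DfRep F (B (n + 1)) (K ^ (n + 1)) ((n + 1) * K ^ n * e) (fun ω i => f ω i ^ (n + 1))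
      fun x => g x ^ (n + 1) := by
  induction n with
  | zero => simpa using h
  | succ n ih =>
    have := ih.mul h (hB _) (hm _) hf
    simp only [← pow_succ] at this
    refine this.mono subset_rfl le_rfl ?_
    have h1 : K ^ n ≤ K ^ (n + 1) := pow_le_pow_right₀ hK (Nat.le_succ n)
    have h2 : ((n : ℝ) + 1) * K ^ n * e ≤ (n + 1) * K ^ (n + 1) * e :=
      mul_le_mul_of_nonneg_right (mul_le_mul_of_nonneg_left h1 (by positivity)) he
    push_cast
    linarith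

lemma DfRep.phiJ {B : ℕ → Set (Ω → I → ℝ)} (h : DfRep F (B 1) K e f g) (hB : ∀ n, DfUnit (B n))
    (hm : ∀ n, ∀ A ∈ B n, ∀ A' ∈ B 1, (fun ω i => A ω i * A' ω i) ∈ B (n + 1))
    (hmono : ∀ n m, n ≤ m → B n ⊆ B m)
    (hf : ∀ ω i, |f ω i| ≤ 1) (hK : 1 ≤ K) (he : 0 ≤ e) {a : ℝ} (ha0 : 0 ≤ a) (ha1 : a ≤ 1)
    (J : ℕ) : DfRep F (B J) (J * K ^ J) (J * (J * K ^ J * e)) (fun ω i => dfPhiJ a J (f ω i))
      fun x => dfPhiJ a J (g x) := by
  refine dfRep_sum J (f := fun n ω i => upPi a n * f ω i ^ (n + 1))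
    (g := fun n x => upPi a n * g x ^ (n + 1)) fun n hn => ?_
  refine ((h.pow hB hm hf hK he n).smul ?_).mono (hmono _ _ hn) (pow_le_pow_right₀ hK hn) ?_
  · rw [abs_of_nonneg (upPi_nonneg ha0 ha1 n)]
    exact upPi_le_one ha0 ha1 n
  · refine mul_le_mul_of_nonneg_right (mul_le_mul ?_ (pow_le_pow_right₀ hK hn.le)
      (by positivity) (by positivity)) he
    exact_mod_cast hn

lemma df_tele [Nonempty Ω] [Nonempty I] (F : Filt Ω D) (d : ℕ) (A : Λ → Ω → I → ℝ)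
    (hA : ∀ l ω i, 0 ≤ A l ω i ∧ A l ω i ≤ 1) {ε : ℝ} (hε : 0 ≤ ε)
    (hhs : ∀ l, hs F d (A l) ≤ ε ^ 4) (U : Finset Λ) :
    F.Ex (fun ω => av fun i : Λ → I =>
      |F.E d (fun x => ∏ l ∈ U, A l x (i l)) ω - ∏ l ∈ U, cE F d (A l) ω (i l)|) ≤ U.card * ε := by
  induction U using Finset.induction_on with
  | empty => simp
  | insert l₀ U hl ih =>
    have hN : ∀ (i : Λ → I) x, |∏ l ∈ U, A l x (i l)| ≤ 1 := fun i x => by
      rw [abs_of_nonneg (Finset.prod_nonneg fun l _ => (hA _ _ _).1)]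
      exact Finset.prod_le_one (fun l _ => (hA _ _ _).1) fun l _ => (hA _ _ _).2
    have h1 : F.Ex (fun ω => av fun i : Λ → I =>
        |F.E d (fun x => (∏ l ∈ U, A l x (i l)) * A l₀ x (i l₀)) ω -
          F.E d (fun x => ∏ l ∈ U, A l x (i l)) ω * cE F d (A l₀) ω (i l₀)|) ≤ ε := by
      have h2 : ∀ ω, (av fun i : Λ → I =>
          |F.E d (fun x => (∏ l ∈ U, A l x (i l)) * A l₀ x (i l₀)) ω -
            F.E d (fun x => ∏ l ∈ U, A l x (i l)) ω * cE F d (A l₀) ω (i l₀)|) ≤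
          √(√(av fun i => av fun i' => cov F d (A l₀) ω i i' ^ 2)) := by
        intro ω
        rw [← av_update l₀]
        refine av_le_of_le fun i => ?_
        have h3 : ∀ (c : I) x, ∏ l ∈ U, A l x (Function.update i l₀ c l) = ∏ l ∈ U, A l x (i l) :=
          fun c x => Finset.prod_congr rfl fun l hl' => by
            rw [Function.update_of_ne (ne_of_mem_of_not_mem hl' hl)]
        simp only [h3, Function.update_self]
        refine Real.le_sqrt_of_sq_le ((sq_av_le _).trans ?_)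
        simp only [sq_abs]
        simpa using av_cov_sq_le F d (A l₀) _ 1 (hN i) ω
      refine (F.Ex_mono h2).trans ?_
      refine le_trans (Real.le_sqrt_of_sq_le ((F.sq_Ex_le _).trans ?_))
        (show √(ε ^ 2) ≤ ε from (Real.sqrt_sq hε).le)
      simp only [Real.sq_sqrt (Real.sqrt_nonneg _)]
      refine (Ex_sqrt_le_sqrt_hs F d (A l₀)).trans ?_
      rw [Real.sqrt_le_left (sq_nonneg _), ← pow_mul]
      exact hhs l₀
    rw [Finset.card_insert_of_notMem hl]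
    push_cast
    rw [add_mul, one_mul]
    refine le_trans ?_ (add_le_add ih h1)
    rw [← Filt.Ex_add]
    refine F.Ex_mono fun ω => ?_
    rw [← av_add]
    refine av_mono fun i => ?_
    simp only [Finset.prod_insert hl, mul_comm (A l₀ _ _)]
    have hc0 : 0 ≤ cE F d (A l₀) ω (i l₀) := F.E_nonneg d (fun x => (hA _ _ _).1) ω
    have hc1 : cE F d (A l₀) ω (i l₀) ≤ 1 := F.E_le_of_le d (fun x => (hA _ _ _).2) ω
    set u := F.E d (fun x => (∏ l ∈ U, A l x (i l)) * A l₀ x (i l₀)) ω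
    set w := F.E d (fun x => ∏ l ∈ U, A l x (i l)) ω
    set p := ∏ l ∈ U, cE F d (A l) ω (i l)
    set c := cE F d (A l₀) ω (i l₀)
    calc |u - c * p| = |c * (w - p) + (u - w * c)| := by congr 1; ring
      _ ≤ |c * (w - p)| + |u - w * c| := abs_add_le _ _
      _ ≤ _ := by
        rw [abs_mul, abs_of_nonneg hc0]
        exact add_le_add (mul_le_of_le_one_left (abs_nonneg _) hc1) le_rfl

lemma DfRep.E [Nonempty Ω] [Nonempty I] (h : DfRep F S K e f g) (hS : DfUnit S) (d : ℕ)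
    {ε : ℝ} (hε : 0 ≤ ε) (hhs : ∀ A ∈ S, hs F d A ≤ ε ^ 4) (hS' : ∀ A ∈ S, cE F d A ∈ S') :
    DfRep F S' K (e + K * (Fintype.card Λ * ε)) (fun ω i => F.E d (fun x => f x i) ω)
      ((Filt.pi fun _ : Λ => F.prod (Filt.coin I D 0)).E d g) := by
  obtain ⟨T, _, c, A, h1, h2, h3, h4⟩ := h
  refine ⟨T, inferInstance, c, fun t l => cE F d (A t l), fun t l => hS' _ (h1 t l), h2,
    fun x => ?_, ?_⟩
  · rw [Filt.E_congr _ d h3, Filt.E_sum]
    refine Finset.sum_congr rfl fun t _ => ?_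
    rw [Filt.E_const_mul, Filt.E_pi_prod _ d fun l (y : Ω × I) => A t l y.1 y.2]
    congr 1
    refine Finset.prod_congr rfl fun l _ => ?_
    exact (Filt.mor_fiber F (x l).2 d (fun y : Ω × I => A t l y.1 y.2) (x l).1).symm
  · have h5 : F.Ex (fun ω => av fun i : Λ → I =>
        F.E d (fun x => |f x i - ∑ t, c t * ∏ l, A t l x (i l)|) ω) ≤ e := by
      simp only [← Filt.E_av]
      rwa [F.Ex_E]
    have h6 : F.Ex (fun ω => av fun i : Λ → I => ∑ t, |c t| *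
        |F.E d (fun x => ∏ l, A t l x (i l)) ω - ∏ l, cE F d (A t l) ω (i l)|) ≤
        K * (Fintype.card Λ * ε) := by
      simp only [av_sum, Filt.Ex_sum, av_const_mul, Filt.Ex_const_mul]
      refine le_trans (Finset.sum_le_sum fun t _ => mul_le_mul_of_nonneg_left
        (df_tele F d (A t) (fun l => hS _ (h1 t l)) hε (fun l => hhs _ (h1 t l)) univ)
        (abs_nonneg _)) ?_
      rw [← Finset.sum_mul, Finset.card_univ]
      exact mul_le_mul_of_nonneg_right h2 (by positivity)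
    refine le_trans ?_ (add_le_add h5 h6)
    rw [← Filt.Ex_add]
    refine F.Ex_mono fun ω => ?_
    rw [← av_add]
    refine av_mono fun i => ?_
    have h7 : F.E d (fun x => f x i) ω - ∑ t, c t * ∏ l, cE F d (A t l) ω (i l) =
        F.E d (fun x => f x i - ∑ t, c t * ∏ l, A t l x (i l)) ω +
        ∑ t, c t * (F.E d (fun x => ∏ l, A t l x (i l)) ω - ∏ l, cE F d (A t l) ω (i l)) := by
      rw [Filt.E_sub, Filt.E_sum]
      simp only [Filt.E_const_mul, mul_sub, Finset.sum_sub_distrib]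
      ring
    rw [h7]
    refine (abs_add_le _ _).trans (add_le_add (F.abs_E_le _ _ _) ?_)
    refine (Finset.abs_sum_le_sum_abs _ _).trans (le_of_eq ?_)
    simp only [abs_mul]

omit [Fintype I] [Fintype Λ] in
lemma df_tele_Ex [Nonempty Ω] (F : Filt Ω D) (Z : Λ → Ω → ℝ)
    (hZ : ∀ l ω, 0 ≤ Z l ω ∧ Z l ω ≤ 1) {ε : ℝ} (hε : 0 ≤ ε)
    (hv : ∀ l, F.Ex (fun ω => Z l ω ^ 2) - F.Ex (Z l) ^ 2 ≤ ε ^ 2) (U : Finset Λ) :
    |F.Ex (fun ω => ∏ l ∈ U, Z l ω) - ∏ l ∈ U, F.Ex (Z l)| ≤ U.card * ε := by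
  induction U using Finset.induction_on with
  | empty => simp
  | insert l₀ U hl ih =>
    have hN : ∀ x, |∏ l ∈ U, Z l x| ≤ 1 := fun x => by
      rw [abs_of_nonneg (Finset.prod_nonneg fun l _ => (hZ _ _).1)]
      exact Finset.prod_le_one (fun l _ => (hZ _ _).1) fun l _ => (hZ _ _).2
    set c := F.Ex (Z l₀) with hc
    have hc0 : 0 ≤ c := F.Ex_nonneg fun x => (hZ _ _).1
    have hc1 : c ≤ 1 := F.Ex_le_of_le fun x => (hZ _ _).2
    have h1 : |F.Ex (fun ω => (Z l₀ ω - c) * ∏ l ∈ U, Z l ω)| ≤ ε := by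
      refine (F.abs_Ex_le _).trans ((F.Ex_mono (g := fun ω => |Z l₀ ω - c|) fun ω => ?_).trans ?_)
      · rw [abs_mul]
        exact mul_le_of_le_one_right (abs_nonneg _) (hN ω)
      · refine le_trans (Real.le_sqrt_of_sq_le ((F.sq_Ex_le _).trans ?_))
          (show √(ε ^ 2) ≤ ε from (Real.sqrt_sq hε).le)
        refine le_of_eq_of_le ?_ (hv l₀)
        simp only [sq_abs, sub_sq]
        rw [Filt.Ex_add, Filt.Ex_sub, Filt.Ex_mul_const, Filt.Ex_const_mul, Filt.Ex_const, ← hc]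
        ring
    rw [Finset.card_insert_of_notMem hl]
    push_cast
    rw [add_mul, one_mul]
    refine le_trans ?_ (add_le_add ih h1)
    simp only [Finset.prod_insert hl, sub_mul]
    rw [Filt.Ex_sub, Filt.Ex_const_mul, ← hc]
    set u := F.Ex fun ω => Z l₀ ω * ∏ l ∈ U, Z l ω
    set w := F.Ex fun ω => ∏ l ∈ U, Z l ω
    set p := ∏ l ∈ U, F.Ex (Z l)
    calc |u - c * p| = |c * (w - p) + (u - c * w)| := by congr 1; ring
      _ ≤ |c * (w - p)| + |u - c * w| := abs_add_le _ _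
      _ ≤ _ := by
        rw [abs_mul, abs_of_nonneg hc0]
        exact add_le_add (mul_le_of_le_one_left (abs_nonneg _) hc1) le_rfl

lemma DfRep.final [Nonempty Ω] [Nonempty I] (h : DfRep F S K e f g) (hS : DfUnit S)
    {ε : ℝ} (hε : 0 ≤ ε) (hvr : ∀ A ∈ S, vr F A ≤ ε ^ 2) :
    |F.Ex (fun ω => av (f ω)) - (Filt.pi fun _ : Λ => F.prod (Filt.coin I D 0)).Ex g| ≤
      e + K * (Fintype.card Λ * ε) := by
  obtain ⟨T, _, c, A, h1, h2, h3, h4⟩ := h
  have e1 : (Filt.pi fun _ : Λ => F.prod (Filt.coin I D 0)).Ex g =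
      ∑ t, c t * ∏ l, F.Ex fun ω => av (A t l ω) := by
    rw [Filt.Ex_congr _ h3, Filt.Ex_sum]
    refine Finset.sum_congr rfl fun t _ => ?_
    rw [Filt.Ex_const_mul, Filt.Ex_pi_prod _ fun l (y : Ω × I) => A t l y.1 y.2]
    congr 1
    refine Finset.prod_congr rfl fun l _ => ?_
    rw [Filt.Ex_prod_coin, ← Filt.Ex_av]
  have e2 : F.Ex (fun ω => av (f ω)) =
      F.Ex (fun ω => av fun i : Λ → I => f ω i - ∑ t, c t * ∏ l, A t l ω (i l)) +
      ∑ t, c t * F.Ex fun ω => ∏ l, av (A t l ω) := by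
    simp only [av_sub, Filt.Ex_sub, av_sum, av_const_mul, Filt.Ex_sum, Filt.Ex_const_mul]
    have : ∀ t ω, (av fun i : Λ → I => ∏ l, A t l ω (i l)) = ∏ l, av (A t l ω) :=
      fun t ω => av_pi_prod fun l => A t l ω
    simp only [this]
    ring
  rw [e1, e2, add_sub_assoc, ← Finset.sum_sub_distrib]
  refine (abs_add_le _ _).trans (add_le_add ?_ ?_)
  · exact (F.abs_Ex_le _).trans ((F.Ex_mono fun ω => abs_av_le _).trans h4)
  · refine (Finset.abs_sum_le_sum_abs _ _).trans ?_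
    refine le_trans (Finset.sum_le_sum (g := fun t => |c t| * (Fintype.card Λ * ε))
      fun t _ => ?_) ?_
    · rw [← mul_sub, abs_mul]
      refine mul_le_mul_of_nonneg_left ?_ (abs_nonneg _)
      exact df_tele_Ex F (fun l ω => av (A t l ω))
        (fun l ω => ⟨av_nonneg fun i => (hS _ (h1 t l) _ _).1,
          av_le_of_le fun i => (hS _ (h1 t l) _ _).2⟩) hε (fun l => hvr _ (h1 t l)) univ
    · rw [← Finset.sum_mul]
      exact mul_le_mul_of_nonneg_right h2 (by positivity)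

lemma dfRep_base (F : Filt Ω D) (s : Ω → I → Bool) (hS : ∀ t : Bool, (fun ω i => ind (s ω i = t)) ∈ S)
    (w : (Λ → Bool) → ℝ) (hw : ∀ y, |w y| ≤ 1) :
    DfRep F S (2 ^ Fintype.card Λ) 0 (fun ω i => w fun l => s ω (i l))
      fun x => w fun l => s (x l).1 (x l).2 := by
  have key : ∀ z : Λ → Bool, w z = ∑ y, w y * ∏ l, ind (z l = y l) := by
    intro z
    rw [Finset.sum_eq_single z]
    · rw [Finset.prod_eq_one fun i _ => ind_pos rfl, mul_one]
    · intro y _ hy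
      rw [← ind_forall, ind_neg, mul_zero]
      exact fun h => hy (funext h).symm
    · simp
  refine ⟨Λ → Bool, inferInstance, w, fun y l ω i => ind (s ω i = y l), fun y l => hS _, ?_,
    fun x => key _, ?_⟩
  · refine (Finset.sum_le_sum fun y _ => hw y).trans ?_
    simp
  · simp only [← key (fun l => s _ _), sub_self, abs_zero, av_zero, Filt.Ex_zero, le_refl]

end rep

end Crest.Agent.R153
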