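import Mathlib
import Crest.Agent.R153.DecT
import Crest.Agent.R153.DecFAux

/-!
Row 153, decoupling, part F: comparison of exponents and the tensor recursion.
-/

set_option autoImplicit false

namespace Crest.Agent.R153

open Finset

/-- Lipschitz dependence of the power-mean functional on the exponents. -/
theorem pm_exponent_compare {Ω : Type} [Fintype Ω] [Nonempty Ω] {D : ℕ} (F : Filt Ω D)
    {γ γ' : ℕ → ℝ} (hγ : Adm γ) (hγ' : Adm γ') {θ : ℝ} (hθ0 : 0 < θ) (hθ1 : θ ≤ 1)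
    (hm : ∀ d, d ≤ D → θ * ∏ j ∈ Finset.Ico d D, γ j ≤ ∏ j ∈ Finset.Ico d D, γ' j)
    (h0 : ∏ j ∈ range D, γ j = ∏ j ∈ range D, γ' j) {b : ℝ} (hb0 : 0 < b) (hb1 : b ≤ 1)
    {V : Ω → ℝ} (hV : ∀ ω, b ≤ V ω ∧ V ω ≤ 1) :
    F.pm γ V * b ^ (1 / θ - 1) ≤ F.pm γ' V := by
  have hV0 : ∀ ω, 0 ≤ V ω := fun ω => hb0.le.trans (hV ω).1
  have hW0 : ∀ ω, 0 ≤ V ω ^ θ := fun ω => Real.rpow_nonneg (hV0 ω) _
  have key : ∀ d, d ≤ D → ∀ ω, F.Q γ D (fun x => V x ^ θ) d ω ^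
      ((∏ j ∈ Finset.Ico d D, γ' j) / (θ * ∏ j ∈ Finset.Ico d D, γ j)) ≤ F.Q γ' D V d ω := by
    refine Filt.down_induction (fun ω => ?_) fun d hd ih ω => ?_
    · simp only [Filt.Q_self, Finset.Ico_self, Finset.prod_empty, mul_one]
      rw [← Real.rpow_mul (hV0 ω), mul_one_div_cancel hθ0.ne', Real.rpow_one]
    · have hp : 0 < ∏ j ∈ Finset.Ico (d + 1) D, γ j := Filt.adm_prod_pos hγ _
      set κ := (∏ j ∈ Finset.Ico (d + 1) D, γ' j) / (θ * ∏ j ∈ Finset.Ico (d + 1) D, γ j) with hκ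
      have hκ1 : 1 ≤ κ := (one_le_div (mul_pos hθ0 hp)).2 (hm (d + 1) hd)
      have hA := F.Q_nonneg γ D hW0 (d + 1)
      have hE := F.E_nonneg d hA ω
      have he : γ d * ((∏ j ∈ Finset.Ico d D, γ' j) / (θ * ∏ j ∈ Finset.Ico d D, γ j)) =
          κ * γ' d := by
        rw [Finset.prod_eq_prod_Ico_succ_bot hd, Finset.prod_eq_prod_Ico_succ_bot hd, hκ]
        have := (hγ d).1.ne'
        field_simp
      rw [F.Q_succ γ hd, F.Q_succ γ' hd, ← Real.rpow_mul hE, he, Real.rpow_mul hE]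
      exact Real.rpow_le_rpow (Real.rpow_nonneg hE _)
        ((F.rpow_E_le d hκ1 hA ω).trans (F.E_mono d ih ω)) (hγ' d).1.le
  unfold Filt.pm
  rw [← Filt.Ex_mul_const]
  refine F.Ex_mono fun ω => le_trans ?_ (key 0 (Nat.zero_le D) ω)
  have hp : 0 < ∏ j ∈ range D, γ' j := Filt.adm_prod_pos hγ' _
  have he : (∏ j ∈ Finset.Ico 0 D, γ' j) / (θ * ∏ j ∈ Finset.Ico 0 D, γ j) = 1 / θ := by
    rw [← Finset.range_eq_Ico, h0]
    field_simp
  rw [he]
  have h1 : F.Q γ D V 0 ω ≤ F.Q γ D (fun x => V x ^ θ) 0 ω :=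
    F.Q_mono hγ D hV0 (fun x => Real.self_le_rpow_of_le_one (hV0 x) (hV x).2 hθ1) 0 ω
  have h2 : b ≤ F.Q γ D V 0 ω := F.le_Q hγ D hb0 hb1 (fun x => (hV x).1) 0 ω
  have h3 : 0 ≤ 1 / θ - 1 := sub_nonneg.2 ((one_le_div hθ0).2 hθ1)
  have h4 : 0 < F.Q γ D V 0 ω := hb0.trans_le h2
  calc F.Q γ D V 0 ω * b ^ (1 / θ - 1) ≤ F.Q γ D V 0 ω * F.Q γ D V 0 ω ^ (1 / θ - 1) :=
        mul_le_mul_of_nonneg_left (Real.rpow_le_rpow hb0.le h2 h3) h4.le
    _ = F.Q γ D V 0 ω ^ (1 / θ) := by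
        rw [Real.rpow_sub_one h4.ne']; field_simp
    _ ≤ _ := Real.rpow_le_rpow h4.le h1 (by positivity)

section
variable {Ω I : Type} [Fintype Ω] [Fintype I] {D : ℕ}

/-- Values of the bounded monomials of depth `k`. -/
def dfS (F : Filt Ω D) (s : Ω → I → Bool) (lev : ℕ → ℕ) (J k : ℕ) : Set (Ω → I → ℝ) :=
  {A | ∃ a : Mon k, Mon.Bdd J k a ∧ A = fmEval F s (Mon.toFm lev k a)}

/-- Values of the monomials of depth `k + 1` with at most `n` bounded factors. -/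
def dfB (F : Filt Ω D) (s : Ω → I → Bool) (lev : ℕ → ℕ) (J k n : ℕ) : Set (Ω → I → ℝ) :=
  {A | ∃ l : List (Mon k), l.length ≤ n ∧ (∀ a ∈ l, Mon.Bdd J k a) ∧
    A = fmEval F s (Mon.toFm lev (k + 1) l)}

omit [Fintype I] in
lemma df_fmEval_mem (F : Filt Ω D) (s : Ω → I → Bool) (P : Fm) (ω : Ω) (i : I) :
    0 ≤ fmEval F s P ω i ∧ fmEval F s P ω i ≤ 1 :=
  ⟨Fm.eval_nonneg F _ P ω, Fm.eval_le_one F _ P ω⟩

omit [Fintype I] in
lemma df_append (F : Filt Ω D) (s : Ω → I → Bool) (lev : ℕ → ℕ) (k : ℕ) (l l' : List (Mon k))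
    (ω : Ω) (i : I) : fmEval F s (Mon.toFm lev (k + 1) (l ++ l' : List (Mon k))) ω i =
      fmEval F s (Mon.toFm lev (k + 1) l) ω i * fmEval F s (Mon.toFm lev (k + 1) l') ω i := by
  induction l with
  | nil => exact (one_mul _).symm
  | cons a l ih =>
    change fmEval F s (.cond (lev (k + 1)) (Mon.toFm lev k a)) ω i *
        fmEval F s (Mon.toFm lev (k + 1) (l ++ l' : List (Mon k))) ω i =
      fmEval F s (.cond (lev (k + 1)) (Mon.toFm lev k a)) ω i *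
        fmEval F s (Mon.toFm lev (k + 1) l) ω i * fmEval F s (Mon.toFm lev (k + 1) l') ω i
    rw [ih, mul_assoc]

end

lemma df_rep (r L J : ℕ) (hJ : 1 ≤ J) (k : ℕ) : ∃ K C : ℝ, 1 ≤ K ∧ 0 ≤ C ∧
    ∀ (Ω I : Type) [Fintype Ω] [Nonempty Ω] [Fintype I] [Nonempty I]
      (D : ℕ) (F : Filt Ω D) (s : Ω → I → Bool) (lev : ℕ → ℕ) (γ' : ℕ → ℝ) (b ε : ℝ),
      0 < b → b ≤ 1 → 0 ≤ ε →
      Adm γ' → lev 0 = D → (∀ k, k < r → lev (k + 1) < lev k) →
      (∀ d, (∀ k, 1 ≤ k → k ≤ r → d ≠ lev k) → γ' d = 1) →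
      (∀ k, k < r → ∀ a : Mon k, Mon.Bdd J k a →
        hs F (lev (k + 1)) (fmEval F s (Mon.toFm lev k a)) ≤ ε ^ 4) →
      ∀ (Λ : Type) [Fintype Λ] [DecidableEq Λ], Fintype.card Λ ≤ L →
      ∀ v : (Λ → Bool) → ℝ, (∀ y, b ≤ v y ∧ v y ≤ 1) → k ≤ r →
        DfRep F (dfS F s lev J k) K (C * ε)
          (fun ω (i : Λ → I) => dfYt F lev γ' J (fun ω => v fun l => s ω (i l)) k ω)
          (dfYt (Filt.pi fun _ : Λ => F.prod (Filt.coin I D 0)) lev γ' J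
            (fun x => v fun l => s (x l).1 (x l).2) k) := by
  induction k with
  | zero =>
    refine ⟨2 ^ L, 0, one_le_pow₀ one_le_two, le_rfl, ?_⟩
    intro Ω I _ _ _ _ D F s lev γ' b ε hb0 hb1 hε hγ h0 hl h1 hhs Λ _ _ hΛ v hv _
    refine (dfRep_base (S := dfS F s lev J 0) F s (fun t => ⟨t, trivial, rfl⟩) (fun y => 1 - v y)
      fun y => ?_).mono subset_rfl (pow_le_pow_right₀ one_le_two hΛ) (by simp)
    have := hv y
    rw [abs_le]
    constructor <;> linarith [this.1, this.2]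
  | succ k ih =>
    obtain ⟨K, C, hK, hC, ih⟩ := ih
    have hJ' : (1 : ℝ) ≤ J := by exact_mod_cast hJ
    refine ⟨J * K ^ J, J * (J * K ^ J * (C + K * L)),
      one_le_mul_of_one_le_of_one_le hJ' (one_le_pow₀ hK), by positivity, ?_⟩
    intro Ω I _ _ _ _ D F s lev γ' b ε hb0 hb1 hε hγ h0 hl h1 hhs Λ _ _ hΛ v hv hk
    have h2 := ih Ω I D F s lev γ' b ε hb0 hb1 hε hγ h0 hl h1 hhs Λ hΛ v hv (by omega)
    have h3 := h2.E (S' := dfB F s lev J k 1)
      (by rintro _ ⟨a, _, rfl⟩; exact df_fmEval_mem F s _) (lev (k + 1)) hε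
      (by rintro _ ⟨a, ha, rfl⟩; exact hhs k hk a ha)
      (by
        rintro _ ⟨a, ha, rfl⟩
        refine ⟨[a], le_rfl, by simpa using ha, ?_⟩
        funext ω i
        exact (mul_one _).symm)
    have hΛ' : (Fintype.card Λ : ℝ) ≤ L := by exact_mod_cast hΛ
    have h4 := (h3.mono subset_rfl le_rfl (show _ ≤ (C + K * L) * ε by
      have := mul_le_mul_of_nonneg_left (mul_le_mul_of_nonneg_right hΛ' hε) (zero_le_one.trans hK)
      linarith)).phiJ (B := dfB F s lev J k)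
      (by rintro n _ ⟨l, _, _, rfl⟩; exact df_fmEval_mem F s _)
      (by
        rintro n _ ⟨l, hl1, hl2, rfl⟩ _ ⟨l', hl1', hl2', rfl⟩
        refine ⟨l ++ l', by simp; omega, fun a ha => ?_, ?_⟩
        · rcases List.mem_append.1 ha with ha | ha
          · exact hl2 a ha
          · exact hl2' a ha
        · funext ω i
          exact (df_append F s lev k l l' ω i).symm)
      (by
        rintro n m hnm _ ⟨l, hl1, hl2, rfl⟩
        exact ⟨l, hl1.trans hnm, hl2, rfl⟩)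
      (fun ω i => F.abs_E_le_of_le _ (fun x => by
        have h5 := dfYt_close F hγ h0 hl h1 hb0 hb1 (V := fun ω => v fun l => s ω (i l))
          (fun ω => hv _) J k (by omega) x
        have h6 := F.Q_nonneg γ' D (V := fun ω => v fun l => s ω (i l))
          (fun ω => hb0.le.trans (hv _).1) (lev k) x
        rw [abs_of_nonneg h5.1]
        linarith [h5.2.1]) ω)
      hK (by positivity) (hγ (lev (k + 1))).1.le (hγ (lev (k + 1))).2 J
    refine h4.mono ?_ le_rfl (le_of_eq (by ring))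
    rintro _ ⟨l, hl1, hl2, rfl⟩
    exact ⟨l, ⟨hl1, hl2⟩, rfl⟩

/-- If all bounded monomials have small conditional covariances at the next coarse level, and the
last ones have small variance, then the power-mean functional with exponents concentrated on the
coarse levels decouples over randomly chosen sites. -/
theorem tensor_decouple (r L : ℕ) (b η : ℝ) (hb0 : 0 < b) (hb1 : b ≤ 1) (hη : 0 < η) :
    ∃ (J : ℕ) (η' : ℝ), 0 < η' ∧ ∀ (Ω I : Type) [Fintype Ω] [Nonempty Ω] [Fintype I] [Nonempty I]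
      (D : ℕ) (F : Filt Ω D) (s : Ω → I → Bool) (lev : ℕ → ℕ) (γ' : ℕ → ℝ),
      Adm γ' → lev 0 = D → (∀ k, k < r → lev (k + 1) < lev k) →
      (∀ d, (∀ k, 1 ≤ k → k ≤ r → d ≠ lev k) → γ' d = 1) →
      (∀ k, k < r → ∀ a : Mon k, Mon.Bdd J k a →
        hs F (lev (k + 1)) (fmEval F s (Mon.toFm lev k a)) ≤ η') →
      (∀ a : Mon r, Mon.Bdd J r a → vr F (fmEval F s (Mon.toFm lev r a)) ≤ η') →
      ∀ (Λ : Type) [Fintype Λ] [DecidableEq Λ], Fintype.card Λ ≤ L →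
      ∀ v : (Λ → Bool) → ℝ, (∀ y, b ≤ v y ∧ v y ≤ 1) →
        |(av fun i : Λ → I => F.pm γ' fun ω => v fun l => s ω (i l)) -
          (Filt.pi fun _ : Λ => F.prod (Filt.coin I D 0)).pm γ'
            fun x => v fun l => s (x l).1 (x l).2| ≤ η := by
  have hM : (0 : ℝ) < r / b ^ r + 1 := by positivity
  obtain ⟨J₀, hJ₀⟩ := exists_pow_lt_of_lt_one (show 0 < η / 4 / (r / b ^ r + 1) by positivity)
    (show 1 - b < 1 by linarith)
  set J := J₀ + 1 with hJ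
  have hτ0 : 0 ≤ (1 - b) ^ J := pow_nonneg (by linarith) _
  have hδ : r / b ^ r * (1 - b) ^ J ≤ η / 4 := by
    have h1 : (1 - b) ^ J ≤ (1 - b) ^ J₀ :=
      pow_le_pow_of_le_one (by linarith) (by linarith) (Nat.le_succ _)
    have h2 := (lt_div_iff₀ hM).1 (h1.trans_lt hJ₀)
    nlinarith
  obtain ⟨K, C, hK, hC, hrep⟩ := df_rep r L J (Nat.le_add_left 1 J₀) r
  have hM2 : 0 < C + K * L + 1 := by positivity
  set ε := min 1 (η / 2 / (C + K * L + 1)) with hε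
  have hε0 : 0 < ε := lt_min one_pos (by positivity)
  have hε1 : ε ≤ 1 := min_le_left _ _
  have hε2 : (C + K * L) * ε ≤ η / 2 := by
    have := (le_div_iff₀ hM2).1 (min_le_right 1 (η / 2 / (C + K * L + 1)))
    rw [← hε] at this
    nlinarith
  refine ⟨J, ε ^ 4, by positivity, ?_⟩
  intro Ω I _ _ _ _ D F s lev γ' hγ h0 hl h1 hhs hvr Λ _ _ hΛ v hv
  have h2 := (hrep Ω I D F s lev γ' b ε hb0 hb1 hε0.le hγ h0 hl h1 hhs Λ hΛ v hv le_rfl).final
    (by rintro _ ⟨a, _, rfl⟩; exact df_fmEval_mem F s _) hε0.le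
    (by
      rintro _ ⟨a, ha, rfl⟩
      exact (hvr a ha).trans (pow_le_pow_of_le_one hε0.le hε1 (by norm_num)))
  have hΛ' : (Fintype.card Λ : ℝ) ≤ L := by exact_mod_cast hΛ
  have h3 := mul_le_mul_of_nonneg_left (mul_le_mul_of_nonneg_right hΛ' hε0.le)
    (zero_le_one.trans hK)
  set P := Filt.pi fun _ : Λ => F.prod (Filt.coin I D 0) with hP
  have gen : ∀ (Ω' : Type) [Fintype Ω'] [Nonempty Ω'] (G : Filt Ω' D) (V : Ω' → ℝ),
      (∀ ω, b ≤ V ω ∧ V ω ≤ 1) → |G.pm γ' V - (1 - G.Ex (dfYt G lev γ' J V r))| ≤ η / 4 := by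
    intro Ω' _ _ G V hV
    have h5 := dfYt_close G hγ h0 hl h1 hb0 hb1 hV J r le_rfl
    have h6 := G.Ex_mono fun ω => (h5 ω).2.1
    have h7 := G.Ex_mono fun ω => (h5 ω).2.2
    rw [G.Ex_sub, G.Ex_const] at h6
    rw [G.Ex_sub, G.Ex_const, G.Ex_add, G.Ex_const] at h7
    rw [df_pm_lev G h0 hl h1, abs_le]
    constructor <;> linarith
  have h4 := gen _ P (fun x => v fun l => s (x l).1 (x l).2) fun _ => hv _
  have h5 : |(av fun i : Λ → I => F.pm γ' fun ω => v fun l => s ω (i l)) -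
      (1 - F.Ex fun ω => av fun i : Λ → I =>
        dfYt F lev γ' J (fun ω => v fun l => s ω (i l)) r ω)| ≤ η / 4 := by
    rw [Filt.Ex_av, ← av_const (α := Λ → I) 1, ← av_sub, ← av_sub]
    exact (abs_av_le _).trans (av_le_of_le fun i => gen _ F _ fun _ => hv _)
  rw [abs_le] at h2 h4 h5 ⊢
  constructor <;> linarith [h2.1, h2.2, h4.1, h4.2, h5.1, h5.2]

end Crest.Agent.R153
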