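import Mathlib
import Crest.Agent.R153.DecC
import Crest.Agent.R153.DecF

/-!
Row 153: the decoupling theorem, auxiliary part: monomials, rising-sun levels, exponents.
-/

set_option autoImplicit false
set_option linter.unusedSectionVars false

namespace Crest.Agent.R153

open Finset

lemma dec_finite_bdd (J : ℕ) : ∀ k, {a : Mon k | Mon.Bdd J k a}.Finite
  | 0 => by
    have : Finite (Mon 0) := inferInstanceAs (Finite Bool)
    exact Set.toFinite _
  | k + 1 => by
    have : Finite {a : Mon k // Mon.Bdd J k a} := (dec_finite_bdd J k).to_subtype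
    refine ((List.finite_length_le {a : Mon k // Mon.Bdd J k a} J).image
      (List.map Subtype.val)).subset ?_
    rintro (l : List (Mon k)) ⟨h1, h2⟩
    refine ⟨l.attachWith _ h2, ?_, List.attachWith_map_subtype_val _⟩
    simpa using h1

lemma dec_toFm_nil (lev : ℕ → ℕ) (k : ℕ) :
    Mon.toFm lev (k + 1) ([] : List (Mon k)) = .one := rfl

lemma dec_toFm_cons (lev : ℕ → ℕ) (k : ℕ) (a : Mon k) (l : List (Mon k)) :
    Mon.toFm lev (k + 1) (a :: l : List (Mon k)) =
      .mul (.cond (lev (k + 1)) (Mon.toFm lev k a)) (Mon.toFm lev (k + 1) l) := rfl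

lemma dec_toFm_congr {lev lev' : ℕ → ℕ} : ∀ k, (∀ j, j ≤ k → lev j = lev' j) →
    ∀ a : Mon k, Mon.toFm lev k a = Mon.toFm lev' k a
  | 0, _, _ => rfl
  | k + 1, h, l => by
    have ih := dec_toFm_congr k fun j hj => h j (by omega)
    change List (Mon k) at l
    induction l with
    | nil => rfl
    | cons a l ihl => rw [dec_toFm_cons, dec_toFm_cons, ih a, ihl, h (k + 1) le_rfl]

section
variable {Ω I : Type} [Fintype Ω] [Fintype I] {D : ℕ} (F : Filt Ω D)

lemma dec_abs_fmEval (s : Ω → I → Bool) (P : Fm) (ω : Ω) (i : I) : |fmEval F s P ω i| ≤ 1 := by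
  unfold fmEval
  rw [abs_of_nonneg (Fm.eval_nonneg F _ P ω)]
  exact Fm.eval_le_one F _ P ω

lemma dec_pyth {e e' : ℕ} (h : e ≤ e') (f : Ω → I → ℝ) :
    nrm2 F (fun ω i => cE F e' f ω i - cE F e f ω i) = nrm2 F (cE F e' f) - nrm2 F (cE F e f) := by
  unfold nrm2
  rw [F.Ex_av, F.Ex_av, F.Ex_av, ← av_sub]
  refine av_congr fun i => ?_
  have h1 := F.Ex_mul_E (d := e) (decA_meas_cE F e f i) (fun ω => cE F e' f ω i)
  have h2 : ∀ x, F.E e (fun ω => cE F e' f ω i) x = cE F e f x i := fun x =>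
    congrFun (congrFun (decA_cE_cE F h f) x) i
  simp only [h2] at h1
  have h3 : F.Ex (fun ω => (cE F e' f ω i - cE F e f ω i) ^ 2) =
      F.Ex (fun ω => cE F e' f ω i ^ 2) - 2 * F.Ex (fun ω => cE F e f ω i * cE F e' f ω i)
        + F.Ex (fun ω => cE F e f ω i * cE F e f ω i) := by
    rw [← F.Ex_const_mul, ← F.Ex_sub, ← F.Ex_add]
    exact F.Ex_congr fun ω => by ring
  have h4 : F.Ex (fun ω => cE F e f ω i ^ 2) = F.Ex (fun ω => cE F e f ω i * cE F e f ω i) :=
    F.Ex_congr fun ω => by ring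
  rw [h3, h4, ← h1]; ring

/-- product of conditional expectations over a list -/
noncomputable def lprodD {α : Type} (e : ℕ) (g : α → Ω → I → ℝ) (l : List α) (ω : Ω) (i : I) : ℝ :=
  (l.map fun a => cE F e (g a) ω i).prod

lemma lprodD_nil {α : Type} (e : ℕ) (g : α → Ω → I → ℝ) :
    lprodD F e g [] = fun _ _ => 1 := rfl

lemma lprodD_cons {α : Type} (e : ℕ) (g : α → Ω → I → ℝ) (a : α) (l : List α) :
    lprodD F e g (a :: l) = fun ω i => cE F e (g a) ω i * lprodD F e g l ω i := rfl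

lemma lprodD_abs {α : Type} (e : ℕ) {g : α → Ω → I → ℝ} (hg : ∀ a ω i, |g a ω i| ≤ 1)
    (l : List α) (ω : Ω) (i : I) : |lprodD F e g l ω i| ≤ 1 := by
  induction l with
  | nil => simp [lprodD_nil]
  | cons a l ih =>
    rw [lprodD_cons, abs_mul]
    exact mul_le_one₀ (decA_abs_cE_le F e (hg a) ω i) (abs_nonneg _) ih

lemma lprodD_meas {α : Type} (e : ℕ) (g : α → Ω → I → ℝ) (l : List α) (i : I) :
    F.Meas e fun ω => lprodD F e g l ω i := by
  induction l with
  | nil => exact F.meas_const e 1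
  | cons a l ih => exact (decA_meas_cE F e (g a) i).mul ih

lemma lprodD_sub {α : Type} (e e' : ℕ) {g : α → Ω → I → ℝ} (hg : ∀ a ω i, |g a ω i| ≤ 1)
    (l : List α) {ν : ℝ}
    (hν : ∀ a ∈ l, nrA F (fun ω i => cE F e' (g a) ω i - cE F e (g a) ω i) ≤ ν) :
    nrA F (fun ω i => lprodD F e' g l ω i - lprodD F e g l ω i) ≤ l.length * ν := by
  induction l with
  | nil => simp [lprodD_nil, nrA_zero]
  | cons a l ih =>
    have h1 := ih fun b hb => hν b (List.mem_cons_of_mem _ hb)
    have h2 := hν a List.mem_cons_self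
    have h3 := nrA_mul_le F (f := fun ω i => cE F e' (g a) ω i - cE F e (g a) ω i)
      (g := lprodD F e' g l) zero_le_one (lprodD_abs F e' hg l)
    have h4 := nrA_mul_le F (f := fun ω i => lprodD F e' g l ω i - lprodD F e g l ω i)
      (g := cE F e (g a)) zero_le_one (decA_abs_cE_le F e (hg a))
    have h5 := nrA_add_le F
      (fun ω i => (cE F e' (g a) ω i - cE F e (g a) ω i) * lprodD F e' g l ω i)
      (fun ω i => (lprodD F e' g l ω i - lprodD F e g l ω i) * cE F e (g a) ω i)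
    have h6 : nrA F (fun ω i => lprodD F e' g (a :: l) ω i - lprodD F e g (a :: l) ω i) =
        nrA F (fun ω i => (cE F e' (g a) ω i - cE F e (g a) ω i) * lprodD F e' g l ω i +
          (lprodD F e' g l ω i - lprodD F e g l ω i) * cE F e (g a) ω i) :=
      nrA_congr F fun ω i => by simp only [lprodD_cons]; ring
    rw [h6, List.length_cons]
    push_cast
    linarith

lemma dec_fmEval_succ (s : Ω → I → Bool) (lev : ℕ → ℕ) (k : ℕ) (l : List (Mon k)) :
    fmEval F s (Mon.toFm lev (k + 1) l) =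
      lprodD F (lev (k + 1)) (fun a => fmEval F s (Mon.toFm lev k a)) l := by
  induction l with
  | nil => rfl
  | cons a l ih =>
    rw [lprodD_cons, ← ih]
    rfl

/-- rising-sun lemma on an integer interval -/
lemma dec_rising_sun (φ : ℕ → ℝ) {B : ℝ} (hB : 0 < B) (h0 : ∀ x, 0 ≤ φ x) (h1 : ∀ x, φ x ≤ B)
    (lo l : ℕ) (hl : 1 ≤ l) :
    ∃ e, lo ≤ e ∧ e ≤ lo + l ∧ ∀ t, t ≤ l → φ (e + t) - φ e ≤ B * t / l := by
  obtain ⟨x, hx, hmax⟩ := Finset.exists_max_image (range (2 * l + 1))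
    (fun x => φ (lo + x) - B * x / l) ⟨0, by simp⟩
  have hl0 : (0 : ℝ) < l := by exact_mod_cast hl
  have hxl : x ≤ l := by
    have e1 := hmax 0 (by simp)
    simp only [Nat.cast_zero, mul_zero, zero_div, sub_zero] at e1
    have e2 : B * x / l ≤ B := by linarith [h0 (lo + 0), h1 (lo + x)]
    rw [div_le_iff₀ hl0] at e2
    exact_mod_cast le_of_mul_le_mul_left e2 hB
  refine ⟨lo + x, by omega, by omega, fun t ht => ?_⟩
  have e1 := hmax (x + t) (Finset.mem_range.2 (by omega))
  rw [← add_assoc] at e1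
  push_cast at e1
  have e2 : B * (x + t) / l = B * x / l + B * t / l := by ring
  linarith

/-- regularity of the levels -/
structure RegD (s : Ω → I → Bool) (r J l : ℕ) (B : ℕ → ℝ) (lev : ℕ → ℕ) : Prop where
  top : lev 0 = D
  gap : ∀ k, k < r → lev (k + 1) + l ≤ lev k
  gap' : ∀ k, k < r → lev k ≤ lev (k + 1) + 3 * l
  last : lev r ≤ l
  incr : ∀ k, k < r → ∀ a : Mon k, Mon.Bdd J k a → ∀ t, t ≤ l →
    nrm2 F (fun ω i => cE F (lev (k + 1) + t) (fmEval F s (Mon.toFm lev k a)) ω i -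
      cE F (lev (k + 1)) (fmEval F s (Mon.toFm lev k a)) ω i) ≤ B k * t / l

end

lemma dec_exists_levels (r J : ℕ) (hr : 1 ≤ r) : ∃ B : ℕ → ℝ, (∀ k, 0 < B k) ∧
    ∀ (Ω I : Type) [Fintype Ω] [Nonempty Ω] [Fintype I] (l : ℕ) (F : Filt Ω (2 * r * l))
      (s : Ω → I → Bool), 1 ≤ l → ∃ lev, RegD F s r J l B lev := by
  refine ⟨fun k => ((dec_finite_bdd J k).toFinset.card : ℝ) + 1, fun k => by positivity, ?_⟩
  intro Ω I _ _ _ l F s hl
  have key : ∀ n, n ≤ r → ∃ lev : ℕ → ℕ, lev 0 = 2 * r * l ∧ ∀ k, k < n →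
      (2 * (r - (k + 1)) * l ≤ lev (k + 1) ∧ lev (k + 1) ≤ 2 * (r - (k + 1)) * l + l) ∧
      ∀ a : Mon k, Mon.Bdd J k a → ∀ t, t ≤ l →
        nrm2 F (fun ω i => cE F (lev (k + 1) + t) (fmEval F s (Mon.toFm lev k a)) ω i -
          cE F (lev (k + 1)) (fmEval F s (Mon.toFm lev k a)) ω i) ≤
          (((dec_finite_bdd J k).toFinset.card : ℝ) + 1) * t / l := by
    intro n
    induction n with
    | zero => exact fun _ => ⟨fun _ => 2 * r * l, rfl, fun k hk => absurd hk (by omega)⟩
    | succ n ih =>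
      intro hn
      obtain ⟨lev, h0, hlev⟩ := ih (by omega)
      set T := (dec_finite_bdd J n).toFinset with hT
      obtain ⟨e, he1, he2, he3⟩ := dec_rising_sun
        (fun x => ∑ a ∈ T, nrm2 F (cE F x (fmEval F s (Mon.toFm lev n a))))
        (B := (T.card : ℝ) + 1) (by positivity)
        (fun x => Finset.sum_nonneg fun a _ => decA_nrm2_nonneg F _)
        (fun x => by
          have : ∑ a ∈ T, nrm2 F (cE F x (fmEval F s (Mon.toFm lev n a))) ≤ ∑ a ∈ T, (1 : ℝ) := by
            refine Finset.sum_le_sum fun a _ => ?_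
            have := (nrA_le_iff F zero_le_one).1 (nrA_le_of_abs_le F zero_le_one
              (decA_abs_cE_le F x (dec_abs_fmEval F s (Mon.toFm lev n a))))
            rwa [one_pow] at this
          rw [Finset.sum_const, nsmul_eq_mul, mul_one] at this
          linarith)
        (2 * (r - (n + 1)) * l) l hl
      have hup : ∀ j, j ≤ n → Function.update lev (n + 1) e j = lev j := fun j hj =>
        Function.update_of_ne (by omega) _ _
      refine ⟨Function.update lev (n + 1) e, by rw [hup 0 (by omega), h0], fun k hk => ?_⟩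
      have hfm : ∀ a, Mon.toFm (Function.update lev (n + 1) e) k a = Mon.toFm lev k a :=
        dec_toFm_congr k fun j hj => hup j (by omega)
      simp only [hfm]
      rcases Nat.lt_succ_iff_lt_or_eq.1 hk with hk' | rfl
      · rw [hup (k + 1) hk']
        exact hlev k hk'
      · rw [Function.update_self]
        refine ⟨⟨he1, he2⟩, fun a ha t ht => le_trans ?_ (he3 t ht)⟩
        rw [← Finset.sum_sub_distrib]
        simp only [← dec_pyth F (Nat.le_add_right e t)]
        exact Finset.single_le_sum (f := fun a => nrm2 F (fun ω i =>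
          cE F (e + t) (fmEval F s (Mon.toFm lev k a)) ω i -
            cE F e (fmEval F s (Mon.toFm lev k a)) ω i)) (fun a _ => decA_nrm2_nonneg F _)
          ((dec_finite_bdd J k).mem_toFinset.2 ha)
  obtain ⟨lev, h0, hlev⟩ := key r le_rfl
  have hw : ∀ k, k < r → 2 * (r - k) * l ≤ lev k ∧ lev k ≤ 2 * (r - k) * l + l := by
    intro k hk
    rcases k with _ | k
    · rw [h0, Nat.sub_zero]; omega
    · exact (hlev k (by omega)).1
  have hs : ∀ k, k < r → 2 * (r - k) * l = 2 * (r - (k + 1)) * l + 2 * l := by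
    intro k hk
    have : r - k = r - (k + 1) + 1 := by omega
    rw [this]; ring
  refine ⟨lev, h0, fun k hk => ?_, fun k hk => ?_, ?_, fun k hk => (hlev k hk).2⟩
  · have := hw k hk; have := (hlev k hk).1; have := hs k hk; omega
  · have := hw k hk; have := (hlev k hk).1; have := hs k hk; omega
  · have := (hlev (r - 1) (by omega)).1.2
    have e : r - 1 + 1 = r := by omega
    rw [e, Nat.sub_self] at this
    omega

/-- exponents concentrated on the coarse levels -/
lemma dec_exists_exponents {γ : ℝ} (h0 : 0 < γ) (h1 : γ ≤ 1) {D r l : ℕ} {lev : ℕ → ℕ}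
    (hr : 1 ≤ r) (hl : 1 ≤ l) (top : lev 0 = D) (gap : ∀ k, k < r → lev (k + 1) + l ≤ lev k)
    (gap' : ∀ k, k < r → lev k ≤ lev (k + 1) + 3 * l) (last : lev r ≤ l) :
    ∃ γ' : ℕ → ℝ, Adm γ' ∧ (∀ d, (∀ k, 1 ≤ k → k ≤ r → d ≠ lev k) → γ' d = 1) ∧
      ∏ d ∈ range D, γ' d = γ ^ D ∧
      ∀ d, d ≤ D → ∃ n, ∏ j ∈ Finset.Ico d D, γ' j = γ ^ n ∧ n ≤ D - d + 3 * l ∧
        D - d ≤ n + 3 * l := by
  have hle : ∀ k, k ≤ r → lev k ≤ D := by
    intro k
    induction k with
    | zero => exact fun _ => top.le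
    | succ k ih => intro hk; have := ih (by omega); have := gap k (by omega); omega
  have hlt : ∀ k, k < r → lev (k + 1) < D := by
    intro k hk; have := hle k hk.le; have := gap k hk; omega
  have hrD : lev r < D := by
    have := hlt (r - 1) (by omega)
    rwa [Nat.sub_add_cancel hr] at this
  let n : ℕ → ℕ := fun d => (∑ k ∈ range r, if d = lev (k + 1) then lev k - lev (k + 1) else 0)
    + if d = lev r then lev r else 0
  have hsum : ∀ d, ∑ j ∈ Finset.Ico d D, n j =
      (∑ k ∈ range r, if d ≤ lev (k + 1) then lev k - lev (k + 1) else 0)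
        + if d ≤ lev r then lev r else 0 := by
    intro d
    simp only [n]
    rw [Finset.sum_add_distrib, Finset.sum_comm]
    congr 1
    · refine Finset.sum_congr rfl fun k hk => ?_
      rw [Finset.sum_ite_eq']
      simp [hlt k (Finset.mem_range.1 hk)]
    · rw [Finset.sum_ite_eq']
      simp [hrD]
  have htel : ∀ d, d ≤ D → ∀ q, q ≤ r →
      (d ≤ lev q ∧ (∑ k ∈ range q, if d ≤ lev (k + 1) then lev k - lev (k + 1) else 0) =
        D - lev q) ∨
      (lev q < d ∧ (∑ k ∈ range q, if d ≤ lev (k + 1) then lev k - lev (k + 1) else 0) ≤ D - d ∧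
        D - d ≤ (∑ k ∈ range q, if d ≤ lev (k + 1) then lev k - lev (k + 1) else 0) + 3 * l) := by
    intro d hd q
    induction q with
    | zero => intro _; left; simp [top, hd]
    | succ q ih =>
      intro hq
      have g1 := gap q (by omega)
      have g2 := gap' q (by omega)
      have g3 := hle q (by omega)
      rw [Finset.sum_range_succ]
      rcases ih (by omega) with ⟨a1, a2⟩ | ⟨a1, a2, a3⟩
      · rw [a2]
        split_ifs with hc
        · left; omega
        · right; omega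
      · rw [if_neg (by omega)]
        right; omega
  refine ⟨fun d => γ ^ n d, fun d => ⟨by positivity, pow_le_one₀ h0.le h1⟩, fun d hd => ?_, ?_,
    fun d hd => ⟨∑ j ∈ Finset.Ico d D, n j, Finset.prod_pow_eq_pow_sum _ _ _, ?_⟩⟩
  · have : n d = 0 := by
      simp only [n]
      rw [if_neg (hd r hr le_rfl), add_zero]
      exact Finset.sum_eq_zero fun k hk =>
        if_neg (hd (k + 1) (by omega) (Finset.mem_range.1 hk))
    simp only [this, pow_zero]
  · rw [Finset.prod_pow_eq_pow_sum, Finset.range_eq_Ico, hsum]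
    rcases htel 0 (Nat.zero_le _) r le_rfl with ⟨a1, a2⟩ | ⟨a1, -⟩
    · rw [a2, if_pos a1, Nat.sub_add_cancel hrD.le]
    · omega
  · rw [hsum]
    rcases htel d hd r le_rfl with ⟨a1, a2⟩ | ⟨a1, a2, a3⟩
    · rw [a2, if_pos a1]; omega
    · rw [if_neg (by omega)]; omega

lemma dec_small (ξ : ℝ) (hξ : 0 < ξ) (p l₀ : ℕ) :
    ∃ (l : ℕ) (ε : ℝ), l₀ ≤ l ∧ 0 < ε ∧ 1 / (l : ℝ) + (l : ℝ) ^ p * (ε + √(ε ^ 2)) ≤ ξ := by
  set l := max l₀ (⌈2 / ξ⌉₊ + 1) with hl
  have h1 : 2 / ξ ≤ (l : ℝ) := by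
    have e1 := Nat.le_ceil (2 / ξ)
    have e2 : ((⌈2 / ξ⌉₊ + 1 : ℕ) : ℝ) ≤ l := by exact_mod_cast le_max_right _ _
    push_cast at e2
    linarith
  have hl0 : (0 : ℝ) < l := lt_of_lt_of_le (by positivity) h1
  refine ⟨l, ξ / (4 * (l : ℝ) ^ p), le_max_left _ _, by positivity, ?_⟩
  rw [Real.sqrt_sq (by positivity)]
  have h2 : 1 / (l : ℝ) ≤ ξ / 2 := by
    rw [div_le_iff₀ hξ] at h1
    rw [div_le_iff₀ hl0]; linarith
  have h3 : (l : ℝ) ^ p * (ξ / (4 * (l : ℝ) ^ p) + ξ / (4 * (l : ℝ) ^ p)) = ξ / 2 := by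
    field_simp; ring
  linarith

end Crest.Agent.R153
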