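import Mathlib
import Crest.Agent.R153.DecAux

/-!
Row 153: the decoupling theorem.
-/

set_option autoImplicit false

namespace Crest.Agent.R153

open Finset

/-- A system together with its levels. -/
structure DSys (r : ℕ) : Type 1 where
  l : ℕ
  R : ℕ
  Ω : Type
  I : Type
  fΩ : Fintype Ω
  nΩ : Nonempty Ω
  fI : Fintype I
  nI : Nonempty I
  F : Filt Ω (2 * r * l)
  s : Ω → I → Bool
  lev : ℕ → ℕ
  γ : ℝ

instance {r : ℕ} (X : DSys r) : Fintype X.Ω := X.fΩ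
instance {r : ℕ} (X : DSys r) : Nonempty X.Ω := X.nΩ
instance {r : ℕ} (X : DSys r) : Fintype X.I := X.fI
instance {r : ℕ} (X : DSys r) : Nonempty X.I := X.nI

/-- The observable of a monomial. -/
noncomputable def DSys.f {r : ℕ} (X : DSys r) (k : ℕ) (a : Mon k) : X.Ω → X.I → ℝ :=
  fmEval X.F X.s (Mon.toFm X.lev k a)

/-- What is used about the limiting filter. -/
structure DLim {r : ℕ} (𝓕 : Filter (DSys r)) (m ρ : ℝ) (J : ℕ) (B : ℕ → ℝ) : Prop where
  m_pos : 0 < m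
  ρ_pos : 0 < ρ
  B_pos : ∀ k, 0 < B k
  l : ∀ n, ∀ᶠ X in 𝓕, n ≤ X.l
  R : ∀ n, ∀ᶠ X in 𝓕, n ≤ X.R
  gg : ∀ ε, 0 < ε → ∀ᶠ X in 𝓕, GG X.F X.s X.γ X.R ε
  δ : ∀ δ, 0 < δ → ∀ᶠ X in 𝓕, 1 - X.γ ≤ δ
  γ : ∀ᶠ X in 𝓕, 0 < X.γ ∧ X.γ < 1 ∧ m ≤ X.γ ^ (2 * r * X.l) ∧ ρ ≤ X.l * (1 - X.γ)
  reg : ∀ᶠ X in 𝓕, RegD X.F X.s r J X.l B X.lev

namespace DLim
variable {r : ℕ} {𝓕 : Filter (DSys r)} {m ρ : ℝ} {J : ℕ} {B : ℕ → ℝ}

/-- approximability -/
def App (𝓕 : Filter (DSys r)) (k : ℕ) (a : Mon k) : Prop :=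
  ∀ η, 0 < η → ∃ K, ∀ᶠ X in 𝓕, Approx X.F X.s X.γ X.R (X.lev k) (X.f k a) η K

/-- insensitivity -/
def Tlt (𝓕 : Filter (DSys r)) (k : ℕ) (a : Mon k) : Prop :=
  ∀ τ, 0 < τ → ∀ᶠ X in 𝓕, TiltSmall X.F X.s X.γ X.R (Mon.toFm X.lev k a) τ

lemma lev_le {X : DSys r} (h : RegD X.F X.s r J X.l B X.lev) : ∀ k, k ≤ r →
    X.lev k ≤ 2 * r * X.l := by
  intro k
  induction k with
  | zero => exact fun _ => h.top.le
  | succ k ih => intro hk; have := ih (by omega); have := h.gap k (by omega); omega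

lemma meas_f {X : DSys r} (h : RegD X.F X.s r J X.l B X.lev) (k : ℕ) (a : Mon k) (i : X.I) :
    X.F.Meas (X.lev k) fun ω => X.f k a ω i := by
  rcases k with _ | k
  · exact X.F.meas_top h.top.ge _
  · unfold DSys.f
    rw [dec_fmEval_succ X.F X.s X.lev k a]
    exact lprodD_meas _ _ _ _ _

lemma cov_small (h : DLim 𝓕 m ρ J B) {k : ℕ} (hk : k < r) {a : Mon k} (h1 : App 𝓕 k a)
    (h2 : Tlt 𝓕 k a) (η : ℝ) (hη : 0 < η) :
    ∀ᶠ X in 𝓕, hs X.F (X.lev (k + 1)) (X.f k a) ≤ η := by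
  obtain ⟨C, l₀, hC, H⟩ := hs_small m h.m_pos
  obtain ⟨K, hK⟩ := h1 (min 1 (η / (2 * C))) (lt_min one_pos (by positivity))
  have hξ : 0 < η / (4 * C * (K ^ 2 + 1)) := by positivity
  obtain ⟨l, ε, hl, hε, hsm⟩ := dec_small _ hξ 3 l₀
  filter_upwards [hK, h2 (ε ^ 2) (by positivity), h.l 2, h.R (2 * l ^ 2), h.gg ε hε, h.δ _ hξ,
    h.γ, h.reg] with X a1 a2 a3 a4 a5 a6 a7 a8
  have b1 := a8.gap k hk
  refine (H X.Ω X.I _ X.F X.s X.γ X.R (X.lev (k + 1)) (X.lev k) l _ _ K ε (ε ^ 2) a7.1 a7.2.1.le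
    a7.2.2.1 hl (by omega) (by omega) (lev_le a8 k hk.le) (le_min zero_le_one (by positivity))
    (min_le_left _ _) hε.le (by positivity) (meas_f a8 k a) a1 a5 a2).trans ?_
  have b2 : min 1 (η / (2 * C)) ≤ η / (2 * C) := min_le_right _ _
  have b3 : K ^ 2 * ((1 - X.γ) + 1 / l + (l : ℝ) ^ 3 * (ε + √(ε ^ 2))) ≤
      (K ^ 2 + 1) * (2 * (η / (4 * C * (K ^ 2 + 1)))) :=
    le_trans (mul_le_mul_of_nonneg_left (by linarith) (sq_nonneg K))
      (mul_le_mul_of_nonneg_right (by linarith) (by positivity))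
  have b4 : (K ^ 2 + 1) * (2 * (η / (4 * C * (K ^ 2 + 1)))) = η / (2 * C) := by
    field_simp; ring
  calc C * _ ≤ C * (η / (2 * C) + η / (2 * C)) :=
        mul_le_mul_of_nonneg_left (by linarith) hC.le
    _ = η := by field_simp; ring

lemma var_small (h : DLim 𝓕 m ρ J B) {k : ℕ} (hk : k ≤ r) {a : Mon k} (h1 : App 𝓕 k a)
    (h2 : Tlt 𝓕 k a) (η : ℝ) (hη : 0 < η) : ∀ᶠ X in 𝓕, vr X.F (X.f k a) ≤ η := by
  obtain ⟨C, l₀, hC, H⟩ := vr_small m h.m_pos
  obtain ⟨K, hK⟩ := h1 (η / (2 * C)) (by positivity)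
  have hξ : 0 < η / (2 * C * (|K| + 1)) := by positivity
  obtain ⟨l, ε, hl, hε, hsm⟩ := dec_small _ hξ 1 l₀
  filter_upwards [hK, h2 (ε ^ 2) (by positivity), h.R (2 * l), h.gg ε hε,
    h.γ, h.reg] with X a1 a2 a4 a5 a7 a8
  refine (H X.Ω X.I _ X.F X.s X.γ X.R (X.lev k) l _ _ K ε (ε ^ 2) a7.1 a7.2.1.le
    a7.2.2.1 hl (by omega) (lev_le a8 k hk) (by positivity) hε.le (by positivity)
    (meas_f a8 k a) a1 a5 a2).trans ?_
  rw [pow_one] at hsm
  have b3 : K * (1 / l + (l : ℝ) * (ε + √(ε ^ 2))) ≤ (|K| + 1) * (η / (2 * C * (|K| + 1))) :=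
    mul_le_mul (by linarith [le_abs_self K]) hsm (by positivity) (by positivity)
  have b4 : (|K| + 1) * (η / (2 * C * (|K| + 1))) = η / (2 * C) := by field_simp
  calc C * _ ≤ C * (η / (2 * C) + η / (2 * C)) :=
        mul_le_mul_of_nonneg_left (by linarith) hC.le
    _ = η := by field_simp; ring

lemma tlt_succ (h : DLim 𝓕 m ρ J B) {k : ℕ} (hk : k < r) (l : List (Mon k))
    (hl : ∀ a ∈ l, App 𝓕 k a ∧ Tlt 𝓕 k a) : Tlt 𝓕 (k + 1) l := by
  induction l with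
  | nil =>
    intro τ hτ
    refine Filter.Eventually.of_forall fun X φ x _ _ => ?_
    rw [dec_toFm_nil, tiltErr_one]
    exact hτ.le
  | cons a l ih =>
    intro τ hτ
    obtain ⟨C, hC, H⟩ := tiltErr_cond m h.m_pos
    obtain ⟨h1, h2⟩ := hl a List.mem_cons_self
    have hξ : 0 < τ / (8 * C) := by positivity
    filter_upwards [ih (fun b hb => hl b (List.mem_cons_of_mem _ hb)) (τ / 4) (by positivity),
      h2 _ hξ, h.cov_small hk h1 h2 ((τ / (8 * C)) ^ 2) (by positivity), h.γ]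
      with X a1 a2 a3 a4 φ x hx0 hx1
    rw [dec_toFm_cons]
    refine (tiltErr_mul _ _ _ _ _ _ _).trans ?_
    have b1 := H X.Ω X.I _ X.F X.s X.γ X.R φ x (X.lev (k + 1)) (Mon.toFm X.lev k a) a4.1
      a4.2.1.le a4.2.2.1 hx0 hx1
    have b2 := a1 φ x hx0 hx1
    have b3 := a2 φ x hx0 hx1
    have b4 : √(hs X.F (X.lev (k + 1)) (fmEval X.F X.s (Mon.toFm X.lev k a))) ≤ τ / (8 * C) :=
      (Real.sqrt_le_left hξ.le).2 a3
    have b5 : C * (tiltErr X.F X.s X.γ φ x (Mon.toFm X.lev k a) +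
        √(hs X.F (X.lev (k + 1)) (fmEval X.F X.s (Mon.toFm X.lev k a)))) ≤
        C * (τ / (8 * C) + τ / (8 * C)) := mul_le_mul_of_nonneg_left (by linarith) hC.le
    have b6 : C * (τ / (8 * C) + τ / (8 * C)) = τ / 4 := by field_simp; ring
    linarith

lemma incr_le {X : DSys r} (h : RegD X.F X.s r J X.l B X.lev) {k : ℕ} (hk : k < r)
    (hB : 0 < B k) {a : Mon k} (ha : Mon.Bdd J k a) {e e' : ℕ} (h1 : X.lev (k + 1) ≤ e)
    (h2 : e ≤ e') {c ν : ℝ} (hc : c ≤ 1) (h3 : (e' : ℝ) ≤ X.lev (k + 1) + c * X.l)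
    (hl : 1 ≤ X.l) (hν : 0 ≤ ν) (hcν : B k * c ≤ ν ^ 2) :
    nrA X.F (fun ω i => cE X.F e' (X.f k a) ω i - cE X.F e (X.f k a) ω i) ≤ ν := by
  obtain ⟨t, rfl⟩ : ∃ t, e' = X.lev (k + 1) + t := ⟨e' - X.lev (k + 1), by omega⟩
  have hl0 : (0 : ℝ) < X.l := by exact_mod_cast hl
  push_cast at h3
  have h4 : (t : ℝ) ≤ c * X.l := by linarith
  have h5 : t ≤ X.l := by
    have : (t : ℝ) ≤ X.l := by nlinarith
    exact_mod_cast this
  have h6 := h.incr k hk a ha t h5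
  rw [dec_pyth X.F (Nat.le_add_right _ t)] at h6
  have h7 := decA_nrm2_nonneg X.F
    (fun ω i => cE X.F e (X.f k a) ω i - cE X.F (X.lev (k + 1)) (X.f k a) ω i)
  rw [dec_pyth X.F h1] at h7
  rw [nrA_le_iff X.F hν, dec_pyth X.F h2]
  have h8 : B k * t / X.l ≤ B k * c := by
    rw [div_le_iff₀ hl0, mul_assoc]
    exact mul_le_mul_of_nonneg_left h4 hB.le
  unfold DSys.f at h7 ⊢
  linarith

lemma app_list (h : DLim 𝓕 m ρ J B) {k : ℕ} (hk : k < r) (l : List (Mon k))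
    (hl : ∀ a ∈ l, Mon.Bdd J k a ∧ App 𝓕 k a) (η : ℝ) (hη : 0 < η) :
    ∃ c K : ℝ, 0 < c ∧ ∀ᶠ X in 𝓕, ∀ e : ℕ, X.lev (k + 1) ≤ e → (e : ℝ) ≤ X.lev (k + 1) + c * X.l →
      Approx X.F X.s X.γ X.R e (lprodD X.F e (X.f k) l) η K := by
  induction l generalizing η with
  | nil =>
    obtain ⟨K', R₀, H⟩ := approx_cond m h.m_pos 4 η hη
    refine ⟨1 / 2, K', by norm_num, ?_⟩
    filter_upwards [h.l 1, h.R R₀, h.γ, h.reg] with X a1 a2 a3 a4 e he1 he2
    have b1 := a4.gap k hk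
    have b2 := lev_le a4 k hk.le
    have b3 : e < 2 * r * X.l := by
      have c1 : (1 : ℝ) ≤ X.l := by exact_mod_cast a1
      have c2 : (e : ℝ) < X.lev (k + 1) + X.l := by linarith
      have c3 : e < X.lev (k + 1) + X.l := by exact_mod_cast c2
      omega
    have b4 := H X.Ω X.I _ X.F X.s X.γ X.R e _ (fun _ _ => 1) 0 a3.1 a3.2.1.le a3.2.2.1 a2 b3
      le_rfl le_rfl approx_one_top
    rwa [zero_add, decA_cE_of_meas X.F (fun _ => X.F.meas_const e 1)] at b4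
  | cons a l ih =>
    obtain ⟨hBa, hAa⟩ := hl a List.mem_cons_self
    obtain ⟨cb, Kb, hcb, Hb⟩ := ih (fun b hb => hl b (List.mem_cons_of_mem _ hb)) (η / 8)
      (by positivity)
    have hBk := h.B_pos k
    set n : ℝ := l.length + 1 with hn
    have hn1 : 1 ≤ n := by rw [hn]; have : (0 : ℝ) ≤ l.length := Nat.cast_nonneg _; linarith
    set ν := η / (16 * n) with hν
    have hν0 : 0 < ν := by positivity
    set c := min (min (cb / 3) (1 / 6)) (ν ^ 2 / (3 * B k)) with hc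
    have hc0 : 0 < c := lt_min (lt_min (by positivity) (by norm_num)) (by positivity)
    have hc1 : c ≤ cb / 3 := (min_le_left _ _).trans (min_le_left _ _)
    have hc2 : c ≤ 1 / 6 := (min_le_left _ _).trans (min_le_right _ _)
    have hc3 : B k * (3 * c) ≤ ν ^ 2 := by
      have : c ≤ ν ^ 2 / (3 * B k) := min_le_right _ _
      rw [le_div_iff₀ (by positivity)] at this
      linarith
    set η₁ := η / (16 * (|Kb| + 1)) with hη₁
    have hη₁0 : 0 < η₁ := by positivity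
    obtain ⟨K₁, H₁⟩ := hAa η₁ hη₁0
    obtain ⟨Ka, R₁, H₂⟩ := approx_cond m h.m_pos K₁ η₁ hη₁0
    obtain ⟨K', R₂, H₃⟩ := approx_mul m (c * ρ) h.m_pos (mul_pos hc0 h.ρ_pos) Ka Kb (η / 8)
      (by positivity)
    refine ⟨c, K', hc0, ?_⟩
    filter_upwards [Hb, H₁, h.l (⌈1 / c⌉₊ + 1), h.R R₁, h.R R₂, h.γ, h.reg]
      with X a1 a2 a3 a4 a5 a6 a7 e he1 he2
    have hl1 : 1 ≤ X.l := by omega
    have hl0 : (0 : ℝ) < X.l := by exact_mod_cast hl1
    have hcl : 1 ≤ c * X.l := by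
      have c1 := Nat.le_ceil (1 / c)
      have c2 : ((⌈1 / c⌉₊ + 1 : ℕ) : ℝ) ≤ X.l := by exact_mod_cast a3
      push_cast at c2
      have c3 : 1 / c ≤ X.l := by linarith
      rwa [div_le_iff₀' hc0] at c3
    set w := ⌈c * X.l⌉₊ with hw
    have hw1 : c * X.l ≤ w := Nat.le_ceil _
    have hw2 : (w : ℝ) < c * X.l + 1 := Nat.ceil_lt_add_one (by positivity)
    have hw0 : 0 < w := by
      have : (0 : ℝ) < w := by linarith
      exact_mod_cast this
    have he' : ((e + w : ℕ) : ℝ) ≤ X.lev (k + 1) + 3 * c * X.l := by push_cast; linarith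
    have b1 := a7.gap k hk
    have b2 := lev_le a7 k hk.le
    have b3 : e + w < X.lev k := by
      have c2 : ((e + w : ℕ) : ℝ) < X.lev (k + 1) + X.l := by nlinarith
      have c3 : e + w < X.lev (k + 1) + X.l := by exact_mod_cast c2
      omega
    have hf : ∀ a ω i, |X.f k a ω i| ≤ 1 := fun a => dec_abs_fmEval X.F X.s _
    have hinc : ∀ b, Mon.Bdd J k b →
        nrA X.F (fun ω i => cE X.F (e + w) (X.f k b) ω i - cE X.F e (X.f k b) ω i) ≤ ν :=
      fun b hb => incr_le a7 hk hBk hb he1 (Nat.le_add_right e w) (by linarith) he' hl1 hν0.le hc3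
    have pa := H₂ X.Ω X.I _ X.F X.s X.γ X.R (e + w) _ _ _ a6.1 a6.2.1.le a6.2.2.1 a4 b3 b2
      hη₁0.le a2
    have pb := a1 (e + w) (by omega) (he'.trans (by nlinarith))
    have hKb : 0 ≤ Kb := by
      obtain ⟨_, _, _, _, hh, _⟩ := pb
      exact (Finset.sum_nonneg fun _ _ => abs_nonneg _).trans hh
    have d1 := lprodD_sub X.F e (e + w) hf l
      (fun b hb => hinc b (hl b (List.mem_cons_of_mem _ hb)).1)
    have hlen : (l.length : ℝ) * ν ≤ n * ν := mul_le_mul_of_nonneg_right (by linarith) hν0.le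
    have hnν : n * ν = η / 16 := by rw [hν]; field_simp
    have hνn : ν ≤ n * ν := by nlinarith
    have d2 : nrA X.F (fun ω i => cE X.F e (lprodD X.F (e + w) (X.f k) l) ω i -
        lprodD X.F e (X.f k) l ω i) ≤ η / 16 := by
      refine le_trans (le_of_eq (nrA_congr X.F fun ω i => ?_))
        ((nrA_cE_le X.F e _).trans (d1.trans (hlen.trans hnν.le)))
      rw [decA_cE_sub X.F e (lprodD X.F (e + w) (X.f k) l) (lprodD X.F e (X.f k) l),
        decA_cE_of_meas X.F (lprodD_meas X.F e (X.f k) l)]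
    have d3 : nrA X.F (fun ω i => lprodD X.F (e + w) (X.f k) l ω i -
        cE X.F e (lprodD X.F (e + w) (X.f k) l) ω i) ≤ η / 8 := by
      have t := nrA_tri X.F (lprodD X.F (e + w) (X.f k) l) (lprodD X.F e (X.f k) l)
        (cE X.F e (lprodD X.F (e + w) (X.f k) l))
      rw [nrA_sub_comm] at d2
      linarith
    have d4 : nrA X.F (fun ω i => cE X.F (e + w) (X.f k a) ω i -
        cE X.F e (cE X.F (e + w) (X.f k a)) ω i) ≤ η / 8 := by
      rw [decA_cE_cE X.F (Nat.le_add_right e w)]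
      have := hinc a hBa
      linarith
    have hρ : c * ρ ≤ (((e + w : ℕ) : ℝ) - e) * (1 - X.γ) := by
      push_cast
      have c1 := mul_le_mul_of_nonneg_left a6.2.2.2 hc0.le
      have c2 := mul_le_mul_of_nonneg_right hw1 (show 0 ≤ 1 - X.γ by linarith [a6.2.1])
      linarith
    have pm := H₃ X.Ω X.I _ X.F X.s X.γ X.R e (e + w) _ _ _ _ (η / 8) a6.1 a6.2.1 a6.2.2.1 a5
      (by omega) (by omega) hρ (by positivity) (by positivity) (by positivity)
      (decA_abs_cE_le X.F _ (hf a)) (lprodD_abs X.F _ hf l) pa pb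
      ((nrA_le_iff X.F (by positivity)).1 d4) ((nrA_le_iff X.F (by positivity)).1 d3)
    rw [decA_cE_cE X.F (Nat.le_add_right e w)] at pm
    have d5 : nrA X.F (fun ω i => lprodD X.F e (X.f k) (a :: l) ω i -
        cE X.F e (X.f k a) ω i * cE X.F e (lprodD X.F (e + w) (X.f k) l) ω i) ≤ η / 16 := by
      have t := nrA_mul_le X.F (f := fun ω i => cE X.F e (lprodD X.F (e + w) (X.f k) l) ω i -
        lprodD X.F e (X.f k) l ω i) (g := cE X.F e (X.f k a)) zero_le_one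
        (decA_abs_cE_le X.F e (hf a))
      rw [nrA_sub_comm]
      refine le_trans (le_of_eq (nrA_congr X.F fun ω i => ?_)) (t.trans (by linarith))
      simp only [lprodD_cons]; ring
    have d6 : (η₁ + η₁) * Kb ≤ η / 8 := by
      have c1 : η₁ * (|Kb| + 1) = η / 16 := by rw [hη₁]; field_simp
      have c2 := mul_le_mul_of_nonneg_left (le_abs_self Kb) hη₁0.le
      linarith
    exact (pm.of_close (by positivity) (by positivity)
      ((nrA_le_iff X.F (by positivity)).1 d5)).mono (by positivity) (by linarith) le_rfl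

lemma app_tlt (h : DLim 𝓕 m ρ J B) : ∀ k, k ≤ r → ∀ a : Mon k, Mon.Bdd J k a →
    App 𝓕 k a ∧ Tlt 𝓕 k a := by
  intro k
  induction k with
  | zero =>
    intro _ t _
    refine ⟨fun η hη => ⟨2, ?_⟩, fun τ hτ => Filter.Eventually.of_forall fun X φ x _ _ => ?_⟩
    · filter_upwards [h.reg] with X a1
      rw [a1.top]
      exact (approx_spin t).mono le_rfl hη.le le_rfl
    · exact (tiltErr_spin X.F X.s X.γ φ x t).trans_le hτ.le
  | succ k ih =>
    intro hk l hl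
    refine ⟨fun η hη => ?_, h.tlt_succ hk l fun a ha => ih (by omega) a (hl.2 a ha)⟩
    obtain ⟨c, K, hc, H⟩ := h.app_list hk l
      (fun a ha => ⟨hl.2 a ha, (ih (by omega) a (hl.2 a ha)).1⟩) η hη
    refine ⟨K, ?_⟩
    filter_upwards [H] with X a1
    unfold DSys.f
    rw [dec_fmEval_succ X.F X.s X.lev k l]
    exact a1 _ le_rfl (by have : 0 ≤ c * X.l := by positivity
                          linarith)

lemma final (h : DLim 𝓕 m ρ J B) (η : ℝ) (hη : 0 < η) : ∀ᶠ X in 𝓕,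
    (∀ k, k < r → ∀ a : Mon k, Mon.Bdd J k a → hs X.F (X.lev (k + 1)) (X.f k a) ≤ η) ∧
      ∀ a : Mon r, Mon.Bdd J r a → vr X.F (X.f r a) ≤ η := by
  refine Filter.Eventually.and ?_ ?_
  · refine (Filter.eventually_all_finite (Set.finite_lt_nat r)).2 fun k hk => ?_
    refine (Filter.eventually_all_finite (dec_finite_bdd J k)).2 fun a ha => ?_
    obtain ⟨h1, h2⟩ := h.app_tlt k (le_of_lt hk) a ha
    exact h.cov_small hk h1 h2 η hη
  · refine (Filter.eventually_all_finite (dec_finite_bdd J r)).2 fun a ha => ?_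
    obtain ⟨h1, h2⟩ := h.app_tlt r le_rfl a ha
    exact h.var_small le_rfl h1 h2 η hη

end DLim

/-- The limiting filter. -/
def dFilter (r J : ℕ) (B : ℕ → ℝ) (g : ℕ → ℝ) : Filter (DSys r) where
  sets := {S | ∃ (l₀ R₀ : ℕ) (ε : ℝ), 0 < ε ∧ ∀ X : DSys r, l₀ ≤ X.l → R₀ ≤ X.R → X.γ = g X.l →
    GG X.F X.s X.γ X.R ε → RegD X.F X.s r J X.l B X.lev → X ∈ S}
  univ_sets := ⟨0, 0, 1, one_pos, fun _ _ _ _ _ _ => trivial⟩
  sets_of_superset := by
    rintro S T ⟨l₀, R₀, ε, hε, H⟩ hST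
    exact ⟨l₀, R₀, ε, hε, fun X a b c d e => hST (H X a b c d e)⟩
  inter_sets := by
    rintro S T ⟨l₀, R₀, ε, hε, H⟩ ⟨l₁, R₁, ε', hε', H'⟩
    refine ⟨max l₀ l₁, max R₀ R₁, min ε ε', lt_min hε hε', fun X a b c d e =>
      ⟨H X (le_of_max_le_left a) (le_of_max_le_left b) c (fun φ => ?_) e,
        H' X (le_of_max_le_right a) (le_of_max_le_right b) c (fun φ => ?_) e⟩⟩
    · obtain ⟨x, h0, h1, h2⟩ := d φ
      exact ⟨x, h0, h1, fun P => (h2 P).trans (min_le_left _ _)⟩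
    · obtain ⟨x, h0, h1, h2⟩ := d φ
      exact ⟨x, h0, h1, fun P => (h2 P).trans (min_le_right _ _)⟩

theorem dec (m b η : ℝ) (hm0 : 0 < m) (hm1 : m < 1) (hb0 : 0 < b) (hb1 : b ≤ 1) (hη : 0 < η)
    (L : ℕ) :
    ∃ (D R : ℕ) (γ ε : ℝ), 1 ≤ D ∧ 0 < γ ∧ γ < 1 ∧ γ ^ D = m ∧ 0 < ε ∧
      ∀ (Ω I : Type) [Fintype Ω] [Nonempty Ω] [Fintype I] [Nonempty I] (F : Filt Ω D)
        (s : Ω → I → Bool), GG F s γ R ε →
        ∃ γ' : ℕ → ℝ, Adm γ' ∧ ∏ d ∈ range D, γ' d = m ∧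
          ∀ (Λ : Type) [Fintype Λ] [DecidableEq Λ], Fintype.card Λ ≤ L →
          ∀ v : (Λ → Bool) → ℝ, (∀ y, b ≤ v y ∧ v y ≤ 1) →
            |(av fun i : Λ → I => F.pm (fun _ => γ) fun ω => v fun l => s ω (i l)) -
              (Filt.pi fun _ : Λ => F.prod (Filt.coin I D 0)).pm γ'
                fun x => v fun l => s (x l).1 (x l).2| ≤ η := by
  -- the number of coarse levels
  obtain ⟨r, hr, hrb⟩ : ∃ r : ℕ, 1 ≤ r ∧
      1 - η / 2 ≤ b ^ (1 / (m ^ (1 / (2 * (r : ℝ)))) ^ 3 - 1) := by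
    have hc : Continuous fun x : ℝ => b ^ (1 / (m ^ x) ^ 3 - 1) := by
      refine continuous_const.rpow (Continuous.sub (continuous_const.div
        ((continuous_const.rpow continuous_id fun _ => Or.inl hm0.ne').pow 3) fun x => ?_)
        continuous_const) fun _ => Or.inl hb0.ne'
      exact (pow_pos (Real.rpow_pos_of_pos hm0 x) 3).ne'
    have ht : Filter.Tendsto (fun r : ℕ => 1 / (2 * (r : ℝ))) Filter.atTop (nhds 0) :=
      tendsto_const_nhds.div_atTop (tendsto_natCast_atTop_atTop.const_mul_atTop (by norm_num))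
    have h1 := (hc.tendsto 0).comp ht
    simp only [Real.rpow_zero, one_pow, div_one, sub_self] at h1
    obtain ⟨r, h2, h3⟩ := ((h1.eventually_const_le (show 1 - η / 2 < 1 by linarith)).and
      (Filter.eventually_ge_atTop 1)).exists
    exact ⟨r, h3, h2⟩
  set μ := m ^ (1 / (2 * (r : ℝ))) with hμ
  have hr0 : (0 : ℝ) < r := by exact_mod_cast hr
  have hμ0 : 0 < μ := Real.rpow_pos_of_pos hm0 _
  have hμ1 : μ < 1 := Real.rpow_lt_one hm0.le hm1 (by positivity)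
  obtain ⟨J, η', hη', Hdec⟩ := tensor_decouple r L b (η / 2) hb0 hb1 (by positivity)
  obtain ⟨B, hB, Hlev⟩ := dec_exists_levels r J hr
  let g : ℕ → ℝ := fun l => μ ^ (1 / (l : ℝ))
  have hg0 : ∀ l, 0 < g l := fun l => Real.rpow_pos_of_pos hμ0 _
  have hg1 : ∀ l, 1 ≤ l → g l < 1 := fun l hl => by
    have : (0 : ℝ) < l := by exact_mod_cast hl
    exact Real.rpow_lt_one hμ0.le hμ1 (by positivity)
  have hgl : ∀ l, 1 ≤ l → g l ^ l = μ := fun l hl => by
    simp only [g, one_div]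
    exact Real.rpow_inv_natCast_pow hμ0.le (by omega)
  have hgD : ∀ l, 1 ≤ l → g l ^ (2 * r * l) = m := fun l hl => by
    rw [mul_comm (2 * r), pow_mul, hgl l hl, hμ]
    have : (1 / (2 * (r : ℝ))) = ((2 * r : ℕ) : ℝ)⁻¹ := by push_cast; rw [one_div]
    rw [this]
    exact Real.rpow_inv_natCast_pow hm0.le (by omega)
  have hlim : DLim (dFilter r J B g) m (1 - μ) J B := by
    refine ⟨hm0, by linarith, hB, fun n => ⟨n, 0, 1, one_pos, fun X a _ _ _ _ => a⟩,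
      fun n => ⟨0, n, 1, one_pos, fun X _ a _ _ _ => a⟩,
      fun ε hε => ⟨0, 0, ε, hε, fun X _ _ _ a _ => a⟩, fun δ hδ => ?_,
      ⟨1, 0, 1, one_pos, fun X a _ e _ _ => ?_⟩, ⟨0, 0, 1, one_pos, fun X _ _ _ _ a => a⟩⟩
    · have ht : Filter.Tendsto g Filter.atTop (nhds 1) := by
        have hc : Continuous fun x : ℝ => μ ^ x :=
          continuous_const.rpow continuous_id fun _ => Or.inl hμ0.ne'
        have h1 := (hc.tendsto 0).comp tendsto_one_div_atTop_nhds_zero_nat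
        rw [Real.rpow_zero] at h1
        exact h1
      obtain ⟨l₀, hl₀⟩ := Filter.eventually_atTop.1
        (ht.eventually_const_le (show 1 - δ < 1 by linarith))
      refine ⟨l₀, 0, 1, one_pos, fun X a _ e _ _ => ?_⟩
      have := hl₀ X.l a
      show 1 - X.γ ≤ δ
      rw [e]; linarith
    · show 0 < X.γ ∧ X.γ < 1 ∧ m ≤ X.γ ^ (2 * r * X.l) ∧ 1 - μ ≤ X.l * (1 - X.γ)
      rw [e]
      refine ⟨hg0 _, hg1 _ a, (hgD _ a).ge, ?_⟩
      have h1 := one_add_mul_le_pow (a := g X.l - 1) (by linarith [hg0 X.l]) X.l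
      rw [add_sub_cancel, hgl _ a] at h1
      linarith
  obtain ⟨l₀, R₀, ε, hε, H⟩ := hlim.final η' hη'
  set l := max l₀ 1 with hl
  have hl1 : 1 ≤ l := le_max_right _ _
  refine ⟨2 * r * l, R₀, g l, ε, Nat.mul_pos (by omega) hl1, hg0 l, hg1 l hl1, hgD l hl1, hε, ?_⟩
  intro Ω I _ _ _ _ F s hGG
  obtain ⟨lev, hreg⟩ := Hlev Ω I l F s hl1
  obtain ⟨hhs, hvr⟩ := H ⟨l, R₀, Ω, I, inferInstance, inferInstance, inferInstance, inferInstance,
    F, s, lev, g l⟩ (le_max_left _ _) le_rfl rfl hGG hreg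
  obtain ⟨γ', hadm, hone, hprod, hpart⟩ := dec_exists_exponents (hg0 l) (hg1 l hl1).le hr hl1
    hreg.top hreg.gap hreg.gap' hreg.last
  refine ⟨γ', hadm, hprod.trans (hgD l hl1), fun Λ _ _ hΛ v hv => ?_⟩
  have h1 := Hdec Ω I _ F s lev γ' hadm hreg.top
    (fun k hk => by have := hreg.gap k hk; omega) hone hhs hvr Λ hΛ v hv
  have hadm0 : Adm fun _ : ℕ => g l := fun _ => ⟨hg0 l, (hg1 l hl1).le⟩
  have hθ : μ ^ 3 = g l ^ (3 * l) := by rw [mul_comm, pow_mul, hgl l hl1]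
  have hcmp : ∀ V : Ω → ℝ, (∀ ω, b ≤ V ω ∧ V ω ≤ 1) →
      |F.pm (fun _ => g l) V - F.pm γ' V| ≤ η / 2 := by
    intro V hV
    have e0 : ∏ j ∈ range (2 * r * l), (fun _ : ℕ => g l) j = ∏ j ∈ range (2 * r * l), γ' j := by
      rw [hprod, Finset.prod_const, Finset.card_range]
    have e1 := pm_exponent_compare F hadm0 hadm (θ := μ ^ 3) (by positivity)
      (pow_le_one₀ hμ0.le hμ1.le) (fun d hd => by
        obtain ⟨n, a1, a2, a3⟩ := hpart d hd
        rw [a1, Finset.prod_const, Nat.card_Ico, hθ, ← pow_add]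
        exact pow_le_pow_of_le_one (hg0 l).le (hg1 l hl1).le (by omega)) e0 hb0 hb1 hV
    have e2 := pm_exponent_compare F hadm hadm0 (θ := μ ^ 3) (by positivity)
      (pow_le_one₀ hμ0.le hμ1.le) (fun d hd => by
        obtain ⟨n, a1, a2, a3⟩ := hpart d hd
        rw [a1, Finset.prod_const, Nat.card_Ico, hθ, ← pow_add]
        exact pow_le_pow_of_le_one (hg0 l).le (hg1 l hl1).le (by omega)) e0.symm hb0 hb1 hV
    have hV0 : ∀ ω, 0 ≤ V ω := fun ω => hb0.le.trans (hV ω).1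
    have e3 := F.pm_le hadm0 le_rfl hV0 fun ω => (hV ω).2
    have e4 := F.pm_le hadm le_rfl hV0 fun ω => (hV ω).2
    have e5 := F.pm_nonneg (fun _ => g l) hV0
    have e6 := F.pm_nonneg γ' hV0
    have e7 := mul_le_mul_of_nonneg_left hrb e5
    have e8 := mul_le_mul_of_nonneg_left hrb e6
    rw [abs_le]; constructor <;> nlinarith
  have h2 : |(av fun i : Λ → I => F.pm (fun _ => g l) fun ω => v fun l => s ω (i l)) -
      av fun i : Λ → I => F.pm γ' fun ω => v fun l => s ω (i l)| ≤ η / 2 := by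
    rw [← av_sub]
    exact (abs_av_le _).trans (av_le_of_le fun i => hcmp _ fun ω => hv _)
  have h3 := abs_sub_le (av fun i : Λ → I => F.pm (fun _ => g l) fun ω => v fun l => s ω (i l))
    (av fun i : Λ → I => F.pm γ' fun ω => v fun l => s ω (i l))
    ((Filt.pi fun _ : Λ => F.prod (Filt.coin I (2 * r * l) 0)).pm γ'
      fun x => v fun l => s (x l).1 (x l).2)
  linarith

end Crest.Agent.R153
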