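import Mathlib
import Crest.Agent.R153.Filt2

/-!
Row 153, concentration, part 1: convexity in the parameter makes the variance small for most
grid points.
-/

set_option autoImplicit false
set_option linter.unusedSectionVars false

namespace Crest.Agent.R153

open Finset Filt

variable {Ω : Type} [Fintype Ω] [Nonempty Ω] {D : ℕ}

/-- Variance in a filtered space. -/
noncomputable def concVar (F : Filt Ω D) (h : Ω → ℝ) : ℝ := F.Ex fun z => (h z - F.Ex h) ^ 2

omit [Nonempty Ω] in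
lemma concVar_nonneg (F : Filt Ω D) (h : Ω → ℝ) : 0 ≤ concVar F h :=
  F.Ex_nonneg fun _ => sq_nonneg _

lemma conc_cosh (z : ℝ) : 1 + z ^ 2 / 2 ≤ (Real.exp z + Real.exp (-z)) / 2 := by
  rw [← Real.cosh_eq, show z = 2 * (z / 2) by ring, Real.cosh_two_mul, Real.cosh_sq']
  have h1 : |z / 2| ≤ |Real.sinh (z / 2)| := by
    rw [Real.abs_sinh]; exact Real.self_le_sinh_iff.2 (abs_nonneg _)
  have h2 := sq_le_sq.2 h1
  nlinarith

lemma conc_mgf (F : Filt Ω D) (h : Ω → ℝ) (a : ℝ) :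
    1 + a ^ 2 * concVar F h ≤
      F.Ex (fun z => Real.exp (a * h z)) * F.Ex (fun z => Real.exp (-(a * h z))) := by
  set A := F.Ex (fun z => Real.exp (a * h z))
  set B := F.Ex (fun z => Real.exp (-(a * h z)))
  have e1 : (F.Ex fun x => F.Ex fun y =>
      (Real.exp (a * (h x - h y)) + Real.exp (-(a * (h x - h y)))) / 2) = A * B := by
    have : ∀ x y, (Real.exp (a * (h x - h y)) + Real.exp (-(a * (h x - h y)))) / 2 =
        (Real.exp (a * h x) * Real.exp (-(a * h y)) +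
          Real.exp (-(a * h x)) * Real.exp (a * h y)) / 2 := by
      intro x y
      rw [← Real.exp_add, ← Real.exp_add]
      congr 3 <;> ring
    simp only [this, Ex_div_const, Ex_add, Ex_const_mul, Ex_mul_const]
    ring
  have e2 : (F.Ex fun x => F.Ex fun y => 1 + (a * (h x - h y)) ^ 2 / 2) =
      1 + a ^ 2 * concVar F h := by
    have hz : F.Ex (fun z => h z - F.Ex h) = 0 := by rw [Ex_sub, Ex_const, sub_self]
    have : ∀ x y, 1 + (a * (h x - h y)) ^ 2 / 2 =
        1 + a ^ 2 / 2 * (h x - F.Ex h) ^ 2 + a ^ 2 / 2 * (h y - F.Ex h) ^ 2 -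
          a ^ 2 * (h x - F.Ex h) * (h y - F.Ex h) := fun x y => by ring
    simp only [this]
    have i1 : ∀ x, (F.Ex fun y => 1 + a ^ 2 / 2 * (h x - F.Ex h) ^ 2 +
        a ^ 2 / 2 * (h y - F.Ex h) ^ 2 - a ^ 2 * (h x - F.Ex h) * (h y - F.Ex h)) =
        1 + a ^ 2 / 2 * (h x - F.Ex h) ^ 2 + a ^ 2 / 2 * concVar F h := by
      intro x
      rw [Ex_sub, Ex_add, Ex_const, Ex_const_mul, Ex_const_mul, hz, mul_zero, sub_zero]
      rfl
    simp only [i1]
    rw [Ex_add, Ex_add, Ex_const, Ex_const, Ex_const_mul]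
    change 1 + a ^ 2 / 2 * concVar F h + _ = _
    ring
  rw [← e1, ← e2]
  exact F.Ex_mono fun x => F.Ex_mono fun y => conc_cosh _

lemma conc_cov_le (F : Filt Ω D) (h f : Ω → ℝ) (hf : ∀ z, 0 ≤ f z ∧ f z ≤ 1) {e : ℝ} (he : 0 ≤ e)
    (hv : concVar F h ≤ e ^ 2) : |F.Ex (fun z => h z * f z) - F.Ex h * F.Ex f| ≤ e := by
  have e1 : F.Ex (fun z => h z * f z) - F.Ex h * F.Ex f = F.Ex fun z => (h z - F.Ex h) * f z := by
    simp only [sub_mul, Ex_sub, Ex_const_mul]
  rw [e1]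
  refine abs_le_of_sq_le_sq ?_ he
  refine (F.Ex_mul_sq_le _ _).trans ?_
  have : F.Ex (fun z => f z ^ 2) ≤ 1 := F.Ex_le_of_le fun z => pow_le_one₀ (hf z).1 (hf z).2
  exact (mul_le_of_le_one_right (concVar_nonneg F h) this).trans hv

section grid
variable (B : Filt Ω D) {γ : ℕ → ℝ} (hγ : Adm γ) (Wf : ℝ → Ω → ℝ) (hW : ∀ y z, 0 < Wf y z)
  (h : Ω → ℝ) (hWh : ∀ y u z, Wf (y + u) z = Wf y z * Real.exp (u * h z))
include hγ hW hWh

lemma conc_ratio (y u : ℝ) :
    (B.tilt γ (Wf y) (hW y)).pm γ (fun z => Real.exp (u * h z)) = B.pm γ (Wf (y + u)) / B.pm γ (Wf y) := by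
  rw [pm_tilt _ _ _ fun z => (Real.exp_pos _).le]
  congr 1
  exact pm_congr _ _ fun z => (hWh y u z).symm

lemma conc_second (y t : ℝ) :
    Real.log (1 + ((∏ j ∈ range D, γ j) * t) ^ 2 * concVar (B.tilt γ (Wf y) (hW y)) h) ≤
      (Real.log (B.pm γ (Wf (y + t))) - Real.log (B.pm γ (Wf y))) -
        (Real.log (B.pm γ (Wf y)) - Real.log (B.pm γ (Wf (y - t)))) := by
  set m := ∏ j ∈ range D, γ j
  set T := B.tilt γ (Wf y) (hW y)
  have p0 := B.pm_pos γ (hW y)
  have p1 := B.pm_pos γ (hW (y + t))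
  have p2 := B.pm_pos γ (hW (y - t))
  have a1 : T.Ex (fun z => Real.exp (m * t * h z)) ≤ B.pm γ (Wf (y + t)) / B.pm γ (Wf y) := by
    rw [← conc_ratio B hγ Wf hW h hWh]
    refine le_trans (le_of_eq (T.Ex_congr fun z => ?_))
      (T.Ex_rpow_le_pm hγ fun z => (Real.exp_pos _).le)
    rw [← Real.exp_mul]; congr 1; ring
  have a2 : T.Ex (fun z => Real.exp (-(m * t * h z))) ≤ B.pm γ (Wf (y - t)) / B.pm γ (Wf y) := by
    rw [sub_eq_add_neg, ← conc_ratio B hγ Wf hW h hWh]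
    refine le_trans (le_of_eq (T.Ex_congr fun z => ?_))
      (T.Ex_rpow_le_pm hγ fun z => (Real.exp_pos _).le)
    rw [← Real.exp_mul]; congr 1; ring
  have a3 := (conc_mgf T h (m * t)).trans (mul_le_mul a1 a2
    (T.Ex_nonneg fun z => (Real.exp_pos _).le) (div_pos p1 p0).le)
  have a4 := Real.log_le_log (by have := concVar_nonneg T h; positivity) a3
  rw [Real.log_mul (div_pos p1 p0).ne' (div_pos p2 p0).ne', Real.log_div p1.ne' p0.ne',
    Real.log_div p2.ne' p0.ne'] at a4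
  linarith

lemma conc_incr {H : ℝ} (hh : ∀ z, 0 ≤ h z ∧ h z ≤ H) (y : ℝ) {t : ℝ} (ht : 0 ≤ t) :
    0 ≤ Real.log (B.pm γ (Wf (y + t))) - Real.log (B.pm γ (Wf y)) ∧
      Real.log (B.pm γ (Wf (y + t))) - Real.log (B.pm γ (Wf y)) ≤ H * t := by
  have p0 := B.pm_pos γ (hW y)
  have p1 := B.pm_pos γ (hW (y + t))
  obtain ⟨z0⟩ := ‹Nonempty Ω›
  have hH : 0 ≤ H := (hh z0).1.trans (hh z0).2
  rw [← Real.log_div p1.ne' p0.ne', ← conc_ratio B hγ Wf hW h hWh]
  constructor
  · exact Real.log_nonneg (le_pm _ hγ one_pos le_rfl fun z =>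
      Real.one_le_exp (mul_nonneg ht (hh z).1))
  · rw [Real.log_le_iff_le_exp (pm_pos _ _ fun z => Real.exp_pos _)]
    refine pm_le _ hγ (Real.one_le_exp (mul_nonneg hH ht)) (fun z => (Real.exp_pos _).le)
      fun z => Real.exp_le_exp.2 ?_
    rw [mul_comm H]
    exact mul_le_mul_of_nonneg_left (hh z).2 ht

lemma conc_grid {H : ℝ} (hh : ∀ z, 0 ≤ h z ∧ h z ≤ H) (G : ℕ) {t v : ℝ} (ht : 0 < t) (hv : 0 < v) :
    (av fun j : Fin (G + 1) => ind (v ≤ concVar (B.tilt γ (Wf (j * t)) (hW _)) h)) ≤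
      H * t / (G + 1) / Real.log (1 + ((∏ j ∈ range D, γ j) * t) ^ 2 * v) := by
  set m := ∏ j ∈ range D, γ j with hm
  have hm0 : 0 < m := adm_prod_pos hγ _
  set L := Real.log (1 + (m * t) ^ 2 * v) with hL
  have hL0 : 0 < L := Real.log_pos (by have : 0 < (m * t) ^ 2 * v := by positivity
                                       linarith)
  set d : ℕ → ℝ := fun j => Real.log (B.pm γ (Wf (j * t))) - Real.log (B.pm γ (Wf (j * t - t)))
    with hd
  have h1 : ∀ j : ℕ, L * ind (v ≤ concVar (B.tilt γ (Wf (j * t)) (hW _)) h) ≤ d (j + 1) - d j := by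
    intro j
    have h2 := conc_second B hγ Wf hW h hWh (j * t) t
    have e : d (j + 1) = Real.log (B.pm γ (Wf (j * t + t))) - Real.log (B.pm γ (Wf (j * t))) := by
      simp only [hd]
      rw [show ((j + 1 : ℕ) : ℝ) * t = j * t + t by push_cast; ring, add_sub_cancel_right]
    rw [e]
    refine le_trans ?_ h2
    have hV := concVar_nonneg (B.tilt γ (Wf (j * t)) (hW _)) h
    by_cases hc : v ≤ concVar (B.tilt γ (Wf (j * t)) (hW _)) h
    · rw [ind_pos hc, mul_one]
      refine Real.log_le_log (by positivity) ?_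
      have := mul_le_mul_of_nonneg_left hc (sq_nonneg (m * t))
      linarith
    · rw [ind_neg hc, mul_zero]
      refine Real.log_nonneg ?_
      have := mul_nonneg (sq_nonneg (m * t)) hV
      linarith
  have h2 : ∑ j ∈ range (G + 1), (d (j + 1) - d j) ≤ H * t := by
    rw [Finset.sum_range_sub]
    have a := (conc_incr B hγ Wf hW h hWh hh (((G + 1 : ℕ) : ℝ) * t - t) ht.le).2
    have b := (conc_incr B hγ Wf hW h hWh hh (((0 : ℕ) : ℝ) * t - t) ht.le).1
    rw [sub_add_cancel] at a b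
    simp only [hd]
    linarith
  have h3 := (Finset.sum_le_sum fun j (_ : j ∈ range (G + 1)) => h1 j).trans h2
  rw [← Finset.mul_sum, Finset.sum_range] at h3
  unfold av
  rw [Fintype.card_fin, div_right_comm]
  push_cast
  refine div_le_div_of_nonneg_right ?_ (by positivity)
  rw [le_div_iff₀' hL0]
  exact h3

end grid

end Crest.Agent.R153
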