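import Mathlib
import Crest.Agent.R153.ConcAux1

/-!
Row 153, concentration, part 2: from small variance to the identities.
-/

set_option autoImplicit false
set_option linter.unusedSectionVars false

namespace Crest.Agent.R153

open Finset Filt

section
variable {Ω I : Type} [Fintype Ω] [Nonempty Ω] [Fintype I] [Nonempty I] {D R n S : ℕ}

/-- The observable of a slot. -/
noncomputable def concPsi (φ : Fam D R) (l : SlotLab I D R n) : ℝ :=
  if l.1 = 0 then famObs φ l.2.2 else 0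

lemma concPsi_mem (φ : Fam D R) (l : SlotLab I D R n) : 0 ≤ concPsi φ l ∧ concPsi φ l ≤ 1 := by
  unfold concPsi famObs
  split_ifs
  · exact ⟨ind_nonneg _, ind_le_one _⟩
  · exact ⟨le_rfl, zero_le_one⟩

lemma conc_slot_add (φ : Fam D R) (y u : ℝ) (l : SlotLab I D R n) (σ : I → Bool) :
    slotTermW φ (y + u) l σ = slotTermW φ y l σ * Real.exp (u * concPsi φ l) := by
  unfold slotTermW concPsi termW
  split_ifs <;> simp [add_mul, Real.exp_add, mul_assoc]

/-- The weight of the enriched system with one more slot of the family `φ`. -/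
noncomputable def concW (s : Ω → I → Bool) (W : Ω → ℝ) (x : Fam D R → ℝ) (φ : Fam D R)
    (z : (Ω × PertLab I D R n S) × SlotLab I D R n) : ℝ :=
  W z.1.1 * pertW x z.1.2 (s z.1.1) * slotTermW φ (x φ) z.2 (s z.1.1)

lemma concW_pos (s : Ω → I → Bool) {W : Ω → ℝ} (hW : ∀ ω, 0 < W ω) (x : Fam D R → ℝ)
    (φ : Fam D R) (z : (Ω × PertLab I D R n S) × SlotLab I D R n) : 0 < concW s W x φ z :=
  mul_pos (mul_pos (hW _) (pertW_pos _ _ _)) (slotTermW_pos _ _ _ _)

/-- The derivative of the log-weight in the parameter of `φ`. -/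
noncomputable def concH (φ : Fam D R) (z : (Ω × PertLab I D R n S) × SlotLab I D R n) : ℝ :=
  ∑ k : Fin S, concPsi φ (z.1.2 (φ, k)) + concPsi φ z.2

lemma concH_mem (φ : Fam D R) (z : (Ω × PertLab I D R n S) × SlotLab I D R n) :
    0 ≤ concH φ z ∧ concH φ z ≤ S + 1 := by
  unfold concH
  refine ⟨add_nonneg (Finset.sum_nonneg fun k _ => (concPsi_mem _ _).1) (concPsi_mem _ _).1,
    add_le_add ?_ (concPsi_mem _ _).2⟩
  simpa using Finset.sum_le_card_nsmul Finset.univ (fun k : Fin S => concPsi φ (z.1.2 (φ, k))) 1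
    fun k _ => (concPsi_mem _ _).2

lemma concW_add (s : Ω → I → Bool) (W : Ω → ℝ) (x : Fam D R → ℝ) (φ : Fam D R) (y u : ℝ)
    (z : (Ω × PertLab I D R n S) × SlotLab I D R n) :
    concW s W (Function.update x φ (y + u)) φ z =
      concW s W (Function.update x φ y) φ z * Real.exp (u * concH φ z) := by
  have h1 : pertW (Function.update x φ (y + u)) z.1.2 (s z.1.1) =
      pertW (Function.update x φ y) z.1.2 (s z.1.1) *
        Real.exp (u * ∑ k : Fin S, concPsi φ (z.1.2 (φ, k))) := by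
    have e : ∑ k : Fin S, concPsi φ (z.1.2 (φ, k)) =
        ∑ j : Fam D R × Fin S, if j.1 = φ then concPsi φ (z.1.2 j) else 0 := by
      rw [Fintype.sum_prod_type, Finset.sum_eq_single φ]
      · simp
      · intro ψ _ hψ; simp [hψ]
      · simp
    rw [e, Finset.mul_sum, Real.exp_sum]
    unfold pertW
    rw [← Finset.prod_mul_distrib]
    refine Finset.prod_congr rfl fun j _ => ?_
    by_cases hj : j.1 = φ
    · rw [hj, if_pos rfl, Function.update_self, Function.update_self, conc_slot_add]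
    · rw [if_neg hj, Function.update_of_ne hj, Function.update_of_ne hj]; simp
  unfold concW concH
  rw [h1, Function.update_self, Function.update_self, conc_slot_add, mul_add, Real.exp_add]
  ring

/-- The enriched system with one more slot. -/
noncomputable def concB (F : Filt Ω D) (s : Ω → I → Bool) {W : Ω → ℝ} (hW : ∀ ω, 0 < W ω) (γ : ℝ)
    (R n S : ℕ) (x : Fam D R → ℝ) (φ : Fam D R) :
    Filt ((Ω × PertLab I D R n S) × SlotLab I D R n) D :=
  ((F.prod (PertF I D R n S)).prod (SlotF I D R n)).tilt (fun _ => γ) (concW s W x φ)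
    (concW_pos s hW x φ)

/-- Exchange of the slot `j` with the extra slot. -/
noncomputable def concSwap (j : Fam D R × Fin S) :
    (Ω × PertLab I D R n S) × SlotLab I D R n ≃ (Ω × PertLab I D R n S) × SlotLab I D R n where
  toFun z := ((z.1.1, Function.update z.1.2 j z.2), z.1.2 j)
  invFun z := ((z.1.1, Function.update z.1.2 j z.2), z.1.2 j)
  left_inv z := by simp
  right_inv z := by simp

lemma conc_swap_mor (F : Filt Ω D) (j : Fam D R × Fin S) :
    ((F.prod (PertF I D R n S)).prod (SlotF I D R n)).MorEx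
      ((F.prod (PertF I D R n S)).prod (SlotF I D R n)) (concSwap j) := by
  refine morEx_of_equiv _ _ (concSwap j) one_ne_zero (fun z => ?_) fun d z z' => ?_
  · simp [concSwap, prod, PertF, SlotF, LabF, UF, Filt.pi, coin]
  · change ((F.rel d z.1.1 z'.1.1 ∧ ∀ i, (SlotF I D R n).rel d (z.1.2 i) (z'.1.2 i)) ∧
      (SlotF I D R n).rel d z.2 z'.2) ↔
      ((F.rel d z.1.1 z'.1.1 ∧ ∀ i, (SlotF I D R n).rel d (Function.update z.1.2 j z.2 i)
        (Function.update z'.1.2 j z'.2 i)) ∧ (SlotF I D R n).rel d (z.1.2 j) (z'.1.2 j))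
    constructor
    · rintro ⟨⟨a, b⟩, c⟩
      refine ⟨⟨a, fun i => ?_⟩, b j⟩
      by_cases hi : i = j
      · subst hi; simpa using c
      · simpa [Function.update_of_ne hi] using b i
    · rintro ⟨⟨a, b⟩, c⟩
      refine ⟨⟨a, fun i => ?_⟩, by simpa using b j⟩
      by_cases hi : i = j
      · subst hi; exact c
      · simpa [Function.update_of_ne hi] using b i

lemma concW_swap (s : Ω → I → Bool) (W : Ω → ℝ) (x : Fam D R → ℝ) (φ : Fam D R) (k : Fin S)
    (z : (Ω × PertLab I D R n S) × SlotLab I D R n) :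
    concW s W x φ z = concW s W x φ (concSwap (φ, k) z) := by
  unfold concW pertW
  simp only [concSwap, Equiv.coe_fn_mk]
  rw [← Finset.mul_prod_erase _ _ (Finset.mem_univ (φ, k)),
    ← Finset.mul_prod_erase _ (fun j : Fam D R × Fin S =>
      slotTermW j.1 (x j.1) (Function.update z.1.2 (φ, k) z.2 j) (s z.1.1)) (Finset.mem_univ (φ, k)),
    Function.update_self]
  rw [Finset.prod_congr rfl (g := fun j : Fam D R × Fin S => slotTermW j.1 (x j.1) (z.1.2 j) (s z.1.1))
    (f := fun j : Fam D R × Fin S =>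
      slotTermW j.1 (x j.1) (Function.update z.1.2 (φ, k) z.2 j) (s z.1.1))
    fun j hj => by rw [Function.update_of_ne (Finset.mem_erase.1 hj).1]]
  ring

omit [Nonempty Ω] [Nonempty I] in
lemma conc_siteAv_mor {Ω' : Type} [Fintype Ω'] {F' : Filt Ω' D} {F : Filt Ω D} {e : Ω' → Ω}
    (h : F'.Mor F e) (s : Ω → I → Bool) (P : Fm) (ω : Ω') :
    siteAv F' (fun x => s (e x)) P ω = siteAv F s P (e ω) :=
  av_congr fun i => h.eval (fun x => s x i) P ω

omit [Nonempty Ω] in
lemma conc_siteAv_mem (F : Filt Ω D) (s : Ω → I → Bool) (P : Fm) (ω : Ω) :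
    0 ≤ siteAv F s P ω ∧ siteAv F s P ω ≤ 1 :=
  ⟨av_nonneg fun _ => Fm.eval_nonneg _ _ _ _, av_le_of_le fun _ => Fm.eval_le_one _ _ _ _⟩

omit [Nonempty Ω] in
lemma conc_siteAv_one (F : Filt Ω D) (s : Ω → I → Bool) (ω : Ω) : siteAv F s .one ω = 1 := by
  simp [siteAv, Fm.eval]

lemma conc_sym (F : Filt Ω D) (s : Ω → I → Bool) {W : Ω → ℝ} (hW : ∀ ω, 0 < W ω) (γ : ℝ)
    (x : Fam D R → ℝ) (φ : Fam D R) (P : Fm) :
    (concB F s hW γ R n S x φ).Ex (fun z => concH φ z *
        siteAv (concB F s hW γ R n S x φ) (fun z => s z.1.1) P z) =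
      (S + 1) * (concB F s hW γ R n S x φ).Ex fun z => concPsi φ z.2 *
        siteAv (concB F s hW γ R n S x φ) (fun z => s z.1.1) P z := by
  have key : ∀ k : Fin S, (concB F s hW γ R n S x φ).Ex (fun z => concPsi φ (z.1.2 (φ, k)) *
      siteAv (concB F s hW γ R n S x φ) (fun z => s z.1.1) P z) =
      (concB F s hW γ R n S x φ).Ex fun z => concPsi φ z.2 *
        siteAv (concB F s hW γ R n S x φ) (fun z => s z.1.1) P z := by
    intro k
    have hm : (concB F s hW γ R n S x φ).MorEx (concB F s hW γ R n S x φ) (concSwap (φ, k)) :=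
      (conc_swap_mor F (φ, k)).tilt _ _ (concW_swap s W x φ k)
    rw [← hm.2 fun z => concPsi φ z.2 * siteAv (concB F s hW γ R n S x φ) (fun z => s z.1.1) P z]
    refine Ex_congr _ fun z => ?_
    rw [← conc_siteAv_mor hm.1]
    rfl
  simp only [concH, add_mul, Finset.sum_mul]
  rw [Ex_add, Ex_sum]
  simp only [key, Finset.sum_const, Finset.card_univ, Fintype.card_fin, nsmul_eq_mul, one_mul]

/-- Splitting a tilted expectation along a level-`0` coin. -/
lemma conc_split {A T : Type} [Fintype A] [Nonempty A] [Fintype T] [Nonempty T] (E : Filt Ω D)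
    (L : Filt A D) (γ : ℕ → ℝ) {V : Ω × (T × A) → ℝ} (hV : ∀ z, 0 < V z) (f : Ω × (T × A) → ℝ) :
    ((E.prod ((coin T D 0).prod L)).tilt γ V hV).Ex f =
      (av fun c : T => (E.prod L).pm γ (fun y => V (y.1, (c, y.2))) *
        ((E.prod L).tilt γ (fun y => V (y.1, (c, y.2))) fun _ => hV _).Ex
          fun y => f (y.1, (c, y.2))) /
      av fun c : T => (E.prod L).pm γ fun y => V (y.1, (c, y.2)) := by
  have hm : ∀ c : T, (E.prod L).Mor (E.prod ((coin T D 0).prod L)) fun y => (y.1, (c, y.2)) :=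
    fun c => (morEx_id E).1.prod_map (mor_fiber' L c)
  have hx : ∀ g : Ω × (T × A) → ℝ, (E.prod ((coin T D 0).prod L)).Ex g =
      av fun c : T => (E.prod L).Ex fun y => g (y.1, (c, y.2)) := by
    intro g
    simp only [Ex_prod, Ex_coin, Ex_av]
  rw [Ex_tilt]
  congr 1
  · rw [hx]
    refine av_congr fun c => ?_
    rw [Ex_tilt, mul_div_cancel₀ _ (pm_pos _ _ fun _ => hV _).ne']
    exact Ex_congr _ fun y => by rw [(hm c).Q, (hm c).Mde]
  · unfold pm
    rw [hx]
    exact av_congr fun c => Ex_congr _ fun y => ((hm c).Q γ D V 0 y).symm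

omit [Nonempty Ω] in
lemma conc_tilt_one (F : Filt Ω D) (γ : ℕ → ℝ) {V : Ω → ℝ} (hV : ∀ z, 0 < V z)
    (h1 : ∀ z, V z = 1) : (F.tilt γ V hV).MorEx F fun z => z := by
  obtain rfl : V = fun _ => 1 := funext h1
  have hQ : ∀ d z, F.Q γ D (fun _ => (1 : ℝ)) d z = 1 := by
    intro d z
    rcases le_total D d with h | h
    · rw [Q_of_le _ _ h]
    · rw [Q_const _ _ h one_pos, Real.one_rpow]
  refine morEx_of_equiv _ _ (Equiv.refl _) one_ne_zero (fun z => ?_) fun _ _ _ => Iff.rfl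
  change F.p z * (F.Q γ D (fun _ => 1) 0 z * F.Mde γ (fun _ => 1) 0 D z) = 1 * F.p z
  have : F.Mde γ (fun _ => 1) 0 D z = 1 := by
    refine Finset.prod_eq_one fun j _ => ?_
    rw [hQ, F.E_congr j (hQ (j + 1))]
    simp
  rw [hQ, this]; ring

lemma conc_av_coin (f : Fin (n + 1) → ℝ) {a c : ℝ} (h0 : f 0 = a) (h1 : ∀ i, i ≠ 0 → f i = c) :
    av f = (a + n * c) / (n + 1) := by
  unfold av
  rw [Fin.sum_univ_succ, h0, Finset.sum_congr rfl fun i _ => h1 _ (Fin.succ_ne_zero i)]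
  simp

lemma conc_termW_mem (φ : Fam D R) {t : ℝ} (h0 : 0 ≤ t) (h1 : t ≤ 1) (u : U D R) (s : Bool) :
    1 / 2 ≤ termW φ t u s ∧ termW φ t u s ≤ 3 := by
  unfold termW famObs
  have a0 := ind_nonneg (u φ.c ∈ φ.A)
  have a1 := ind_le_one (u φ.c ∈ φ.A)
  have e1 : 1 ≤ Real.exp (t * ind (u φ.c ∈ φ.A)) := Real.one_le_exp (mul_nonneg h0 a0)
  have e2 : Real.exp (t * ind (u φ.c ∈ φ.A)) ≤ 3 :=
    (Real.exp_le_exp.2 (mul_le_one₀ h1 a0 a1)).trans Real.exp_one_lt_three.le
  split_ifs <;> constructor <;> nlinarith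

lemma conc_arith {Z A B C C' N e : ℝ} (hN : 0 ≤ N) (hZ : 1 / 2 ≤ Z ∧ Z ≤ 3) (hB : 0 ≤ B ∧ B ≤ 1)
    (hC : 0 ≤ C ∧ C ≤ 1) (hC' : 0 ≤ C' ∧ C' ≤ 1)
    (h : |Z * A / (Z + N) - Z * B / (Z + N) * ((Z * C' + N * C) / (Z + N))| ≤ e) :
    |A - B * C| ≤ 6 * (N + 1) * e + 6 / (N + 1) := by
  have hZ0 : 0 < Z := by linarith [hZ.1]
  have hZN : 0 < Z + N := by linarith
  have he : 0 ≤ e := (abs_nonneg _).trans h
  have e1 : A - B * C = (Z + N) / Z * (Z * A / (Z + N) - Z * B / (Z + N) *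
      ((Z * C' + N * C) / (Z + N))) + B * (Z / (Z + N)) * (C' - C) := by
    field_simp
    ring
  rw [e1]
  refine (abs_add_le _ _).trans (add_le_add ?_ ?_)
  · rw [abs_mul, abs_of_pos (div_pos hZN hZ0)]
    refine mul_le_mul ?_ h (abs_nonneg _) (by positivity)
    rw [div_le_iff₀ hZ0]
    nlinarith [hZ.1, hZ.2]
  · rw [abs_mul, abs_mul, abs_of_nonneg hB.1, abs_of_pos (div_pos hZ0 hZN)]
    have h1 : |C' - C| ≤ 1 := abs_le.2 ⟨by linarith [hC.2, hC'.1], by linarith [hC.1, hC'.2]⟩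
    have h2 : Z / (Z + N) ≤ 6 / (N + 1) := by
      rw [div_le_div_iff₀ hZN (by linarith)]
      nlinarith [hZ.1, hZ.2]
    calc B * (Z / (Z + N)) * |C' - C| ≤ 1 * (6 / (N + 1)) * 1 :=
          mul_le_mul (mul_le_mul hB.2 h2 (div_pos hZ0 hZN).le zero_le_one) h1 (abs_nonneg _)
            (by positivity)
      _ = _ := by ring

/-- From the slot with a presence coin to the identity. -/
lemma conc_slot_gg (E : Filt Ω D) (s : Ω → I → Bool) {γ : ℝ} (h0 : 0 < γ) (h1 : γ ≤ 1)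
    (φ : Fam D R) {x : ℝ} (hx0 : 0 ≤ x) (hx1 : x ≤ 1) (P : Fm) {e : ℝ}
    (T : Filt (Ω × SlotLab I D R n) D)
    (hT : T = (E.prod (SlotF I D R n)).tilt (fun _ => γ) (fun z => slotTermW φ x z.2 (s z.1))
      fun _ => slotTermW_pos _ _ _ _)
    (h : |T.Ex (fun z => concPsi φ z.2 * siteAv T (fun z => s z.1) P z) -
      T.Ex (fun z => concPsi φ z.2) * T.Ex (siteAv T (fun z => s z.1) P)| ≤ e) :
    GGerr E s γ φ x P ≤ 6 * (n + 1) * e + 6 / (n + 1) := by
  have hγ : Adm fun _ => γ := fun _ => ⟨h0, h1⟩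
  set Z := (E.prod (LabF I D R)).pm (fun _ => γ) fun y => termW φ x y.2.2 (s y.1 y.2.1) with hZ
  have hZm : 1 / 2 ≤ Z ∧ Z ≤ 3 :=
    ⟨le_pm _ hγ (by norm_num) (by norm_num) fun y => (conc_termW_mem φ hx0 hx1 _ _).1,
      pm_le _ hγ (by norm_num) (fun y => (termW_pos _ _ _ _).le)
        fun y => (conc_termW_mem φ hx0 hx1 _ _).2⟩
  have hn : (0 : ℝ) < n + 1 := by positivity
  -- fibres
  have hfib : ∀ c : Fin (n + 1), ((E.prod (LabF I D R)).tilt (fun _ => γ)
      (fun y => slotTermW φ x (c, y.2) (s y.1)) fun _ => slotTermW_pos _ _ _ _).Mor T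
      fun y => (y.1, (c, y.2)) := by
    intro c
    rw [hT]
    exact ((morEx_id E).1.prod_map (mor_fiber' (LabF I D R) c)).tilt _ _ fun _ => rfl
  have hplus : ((E.prod (LabF I D R)).tilt (fun _ => γ)
      (fun y => slotTermW φ x ((0 : Fin (n + 1)), y.2) (s y.1)) fun _ => slotTermW_pos _ _ _ _) =
      plus E s γ φ x := rfl
  have habs : ∀ c : Fin (n + 1), c ≠ 0 → ((E.prod (LabF I D R)).tilt (fun _ => γ)
      (fun y => slotTermW φ x (c, y.2) (s y.1)) fun _ => slotTermW_pos _ _ _ _).MorEx E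
      fun y => y.1 := fun c hc =>
    (conc_tilt_one _ _ _ fun y => by simp [slotTermW, hc]).comp (morEx_fst E (LabF I D R))
  have hZc : ∀ c : Fin (n + 1), c ≠ 0 → (E.prod (LabF I D R)).pm (fun _ => γ)
      (fun y => slotTermW φ x (c, y.2) (s y.1)) = 1 := by
    intro c hc
    rw [pm_congr _ _ (W := fun _ => 1) fun y => by simp [slotTermW, hc], pm_const _ _ one_pos,
      Real.one_rpow]
  have split : ∀ (f : Ω × SlotLab I D R n → ℝ) (c : ℝ),
      (∀ i : Fin (n + 1), i ≠ 0 → ((E.prod (LabF I D R)).tilt (fun _ => γ)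
        (fun y => slotTermW φ x (i, y.2) (s y.1)) fun _ => slotTermW_pos _ _ _ _).Ex
          (fun y => f (y.1, (i, y.2))) = c) →
      T.Ex f = (Z * (plus E s γ φ x).Ex (fun y => f (y.1, (0, y.2))) + n * c) / (Z + n) := by
    intro f c hc
    have := conc_split E (LabF I D R) (fun _ => γ) (T := Fin (n + 1))
      (V := fun z => slotTermW φ x z.2 (s z.1)) (fun _ => slotTermW_pos _ _ _ _) f
    rw [conc_av_coin _ (a := Z * (plus E s γ φ x).Ex fun y => f (y.1, (0, y.2))) (c := c) rfl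
      (fun i hi => by rw [hZc i hi, one_mul]; exact hc i hi),
      conc_av_coin _ (a := Z) (c := 1) rfl hZc, div_div_div_cancel_right₀ hn.ne', mul_one] at this
    rw [hT]
    exact this
  have hP0 : ∀ y : Ω × (I × U D R), siteAv T (fun z => s z.1) P (y.1, (0, y.2)) =
      siteAv (plus E s γ φ x) (fun y' => s y'.1) P y := fun y => by
    rw [← conc_siteAv_mor (hfib 0) (fun z => s z.1) P y, hplus]
  have hpsi0 : ∀ y : I × U D R, concPsi φ ((0 : Fin (n + 1)), y) = famObs φ y.2 := fun y => by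
    simp [concPsi]
  have hpsi : ∀ i : Fin (n + 1), i ≠ 0 → ∀ y : I × U D R, concPsi φ (i, y) = 0 := fun i hi y => by
    simp [concPsi, hi]
  rw [split _ 0 fun i hi => by simp [hpsi i hi], split _ 0 fun i hi => by simp [hpsi i hi],
    split _ (E.Ex (siteAv E s P)) fun i hi => by
      rw [← (habs i hi).2]
      refine Ex_congr _ fun y => ?_
      rw [← conc_siteAv_mor (hfib i) (fun z => s z.1) P y, ← conc_siteAv_mor (habs i hi).1 s P y]]
    at h
  simp only [hP0, hpsi0, mul_zero, add_zero] at h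
  exact conc_arith (Nat.cast_nonneg n) hZm
    ⟨Ex_nonneg _ fun y => ind_nonneg _, Ex_le_of_le _ fun y => ind_le_one _⟩
    ⟨Ex_nonneg _ fun y => (conc_siteAv_mem _ _ _ _).1,
      Ex_le_of_le _ fun y => (conc_siteAv_mem _ _ _ _).2⟩
    ⟨Ex_nonneg _ fun y => (conc_siteAv_mem _ _ _ _).1,
      Ex_le_of_le _ fun y => (conc_siteAv_mem _ _ _ _).2⟩ h

lemma conc_gg_of_var (F : Filt Ω D) (s : Ω → I → Bool) {W : Ω → ℝ} (hW : ∀ ω, 0 < W ω) {γ : ℝ}
    (h0 : 0 < γ) (h1 : γ ≤ 1) (x : Fam D R → ℝ) (φ : Fam D R) (hx0 : 0 ≤ x φ) (hx1 : x φ ≤ 1)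
    {e : ℝ} (he : 0 ≤ e) (hv : concVar (concB F s hW γ R n S x φ) (concH φ) ≤ e ^ 2) (P : Fm) :
    GGerr (enrich F s W hW γ R n S x) (fun y => s y.1) γ φ (x φ) P ≤
      6 * (n + 1) * (e / (S + 1)) + 6 / (n + 1) := by
  have hS : (0 : ℝ) < S + 1 := by positivity
  have hc := conc_cov_le (concB F s hW γ R n S x φ) (concH φ)
    (siteAv (concB F s hW γ R n S x φ) (fun z => s z.1.1) P) (conc_siteAv_mem _ _ P) he hv
  have s1 := conc_sym (n := n) (S := S) F s hW γ x φ .one
  simp only [conc_siteAv_one, mul_one] at s1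
  rw [conc_sym, show (concB F s hW γ R n S x φ).Ex (concH φ) = _ from s1, mul_assoc, ← mul_sub,
    abs_mul, abs_of_pos hS, ← le_div_iff₀' hS] at hc
  refine conc_slot_gg _ _ h0 h1 φ hx0 hx1 P _ rfl ?_
  have hm := (morEx_tilt_prod_tilt (F.prod (PertF I D R n S)) (SlotF I D R n) (fun _ => γ)
    (V := fun y => W y.1 * pertW x y.2 (s y.1)) (fun y => mul_pos (hW y.1) (pertW_pos _ _ _))
    (W := fun z => slotTermW φ (x φ) z.2 (s z.1.1)) (fun _ => slotTermW_pos _ _ _ _)
    (concW_pos s hW x φ) fun _ => rfl).2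
  have hs := conc_siteAv_mor hm.1 (fun z => s z.1.1) P
  unfold enrich
  rw [← hm.2, ← hm.2, ← hm.2 (siteAv _ _ P)]
  simp only [← hs]
  exact hc

end

end Crest.Agent.R153
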