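import Mathlib
import Crest.Agent.R153.Filt2
import Crest.Agent.R153.ConcAux2

/-!
Row 153: for most parameters the enriched system satisfies the identities.
-/

set_option autoImplicit false

namespace Crest.Agent.R153

open Finset Filter Topology

lemma conc_gridPt_update {D R G : ℕ} (g : Fam D R → Fin (G + 1)) (φ : Fam D R) (j : Fin (G + 1)) :
    gridPt (Function.update g φ j) = Function.update (gridPt g) φ (j * (1 / (G : ℝ))) := by
  funext ψ
  by_cases h : ψ = φ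
  · subst h; simp [gridPt, div_eq_mul_inv]
  · simp [gridPt, Function.update_of_ne h]

lemma conc_gridPt_mem {D R G : ℕ} (g : Fam D R → Fin (G + 1)) (φ : Fam D R) :
    0 ≤ gridPt g φ ∧ gridPt g φ ≤ 1 := by
  unfold gridPt
  refine ⟨by positivity, div_le_one_of_le₀ ?_ (by positivity)⟩
  exact_mod_cast Nat.lt_succ_iff.1 (g φ).2

theorem gg_grid (D R : ℕ) (γ ε β : ℝ) (h0 : 0 < γ) (h1 : γ ≤ 1) (hε : 0 < ε) (hβ : 0 < β) :
    ∃ n₀ : ℕ, ∀ n : ℕ, n₀ ≤ n → ∀ (Ω I : Type) [Fintype Ω] [Nonempty Ω] [Fintype I] [Nonempty I]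
      (F : Filt Ω D) (s : Ω → I → Bool) (W : Ω → ℝ) (hW : ∀ ω, 0 < W ω),
      (av fun g : Fam D R → Fin (n ^ 2 + 1) =>
        ind (¬ GG (enrich F s W hW γ R n (n ^ 4) (gridPt g)) (fun y => s y.1) γ R ε)) ≤ β := by
  have hγ : Adm fun _ => γ := fun _ => ⟨h0, h1⟩
  set m : ℝ := ∏ _j ∈ range D, γ with hm
  have hm0 : 0 < m := Filt.adm_prod_pos hγ _
  set c : ℝ := (Fintype.card (Fam D R) : ℝ) with hc
  have hc0 : 0 < c := by simp only [hc]; exact_mod_cast Fintype.card_pos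
  set e1 : ℝ := ε / 24 with he1
  have he10 : 0 < e1 := by positivity
  have ev1 : ∀ᶠ n : ℕ in atTop, c / β ≤ Real.log (1 + (m * e1) ^ 2 * (n : ℝ) ^ 2) := by
    refine (Real.tendsto_log_atTop.comp ?_).eventually (eventually_ge_atTop _)
    refine tendsto_atTop_add_const_left _ _ (Tendsto.const_mul_atTop (by positivity) ?_)
    exact (tendsto_pow_atTop two_ne_zero).comp tendsto_natCast_atTop_atTop
  have ev2 : ∀ᶠ n : ℕ in atTop, 12 / ε ≤ (n : ℝ) :=
    tendsto_natCast_atTop_atTop.eventually (eventually_ge_atTop _)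
  obtain ⟨n₀, hn₀⟩ := eventually_atTop.1 ((ev1.and ev2).and (eventually_ge_atTop 1))
  refine ⟨n₀, fun n hn Ω I _ _ _ _ F s W hW => ?_⟩
  obtain ⟨⟨hl, hn2⟩, hn1⟩ := hn₀ n hn
  have hn1' : (1 : ℝ) ≤ n := by exact_mod_cast hn1
  have hn0 : (0 : ℝ) < n := by linarith
  set Bad : Fam D R → (Fam D R → Fin (n ^ 2 + 1)) → Prop := fun φ g =>
    (e1 * n ^ 3) ^ 2 ≤ concVar (concB F s hW γ R n (n ^ 4) (gridPt g) φ) (concH φ) with hBad
  have himp : ∀ g : Fam D R → Fin (n ^ 2 + 1),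
      ¬ GG (enrich F s W hW γ R n (n ^ 4) (gridPt g)) (fun y => s y.1) γ R ε →
        ∃ φ ∈ (Finset.univ : Finset (Fam D R)), Bad φ g := by
    intro g hg
    by_contra hcon
    refine hg fun φ => ⟨gridPt g φ, (conc_gridPt_mem g φ).1, (conc_gridPt_mem g φ).2, fun P => ?_⟩
    have hv : concVar (concB F s hW γ R n (n ^ 4) (gridPt g) φ) (concH φ) ≤ (e1 * n ^ 3) ^ 2 :=
      (not_le.1 fun h => hcon ⟨φ, Finset.mem_univ _, h⟩).le
    refine (conc_gg_of_var F s hW h0 h1 (gridPt g) φ (conc_gridPt_mem g φ).1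
      (conc_gridPt_mem g φ).2 (by positivity) hv P).trans ?_
    have a1 : 6 * ((n : ℝ) + 1) * (e1 * n ^ 3 / (((n ^ 4 : ℕ) : ℝ) + 1)) ≤ ε / 2 := by
      rw [← mul_div_assoc, div_le_iff₀ (by positivity), he1]
      push_cast
      have : (n : ℝ) ^ 3 ≤ n ^ 4 := pow_le_pow_right₀ hn1' (by norm_num)
      nlinarith
    have a2 : 6 / ((n : ℝ) + 1) ≤ ε / 2 := by
      rw [div_le_iff₀ hε] at hn2
      rw [div_le_iff₀ (by positivity)]
      nlinarith
    linarith
  have hL0 : 0 < Real.log (1 + (m * e1) ^ 2 * (n : ℝ) ^ 2) := lt_of_lt_of_le (by positivity) hl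
  have hone : ∀ φ, (av fun g => ind (Bad φ g)) ≤ β / c := by
    intro φ
    rw [← av_update φ]
    refine av_le_of_le fun g => ?_
    have h := conc_grid ((F.prod (PertF I D R n (n ^ 4))).prod (SlotF I D R n)) hγ
      (fun y => concW s W (Function.update (gridPt g) φ y) φ) (fun y => concW_pos s hW _ φ)
      (concH φ) (concW_add s W (gridPt g) φ) (concH_mem φ) (n ^ 2)
      (t := 1 / ((n ^ 2 : ℕ) : ℝ)) (v := (e1 * n ^ 3) ^ 2) (by positivity) (by positivity)
    refine le_trans (le_of_eq (av_congr fun j => ?_)) (h.trans ?_)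
    · simp only [hBad, conc_gridPt_update]
      rfl
    · have e : (m * (1 / ((n ^ 2 : ℕ) : ℝ))) ^ 2 * (e1 * n ^ 3) ^ 2 = (m * e1) ^ 2 * (n : ℝ) ^ 2 := by
        push_cast
        field_simp
      rw [← hm, e, div_le_div_iff₀ hL0 hc0]
      have a1 : (((n ^ 4 : ℕ) : ℝ) + 1) * (1 / ((n ^ 2 : ℕ) : ℝ)) / (((n ^ 2 : ℕ) : ℝ) + 1) ≤ 1 := by
        push_cast
        rw [div_le_one (by positivity), mul_one_div, div_le_iff₀ (by positivity)]
        have : (1 : ℝ) ≤ n ^ 2 := one_le_pow₀ hn1'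
        nlinarith
      rw [div_le_iff₀' hβ] at hl
      nlinarith
  calc _ ≤ av fun g => ∑ φ, ind (Bad φ g) :=
        av_mono fun g => (ind_mono (himp g)).trans (ind_exists_le _ _)
    _ = ∑ φ, av fun g => ind (Bad φ g) := av_sum _ _
    _ ≤ ∑ _φ : Fam D R, β / c := Finset.sum_le_sum fun φ _ => hone φ
    _ = β := by
      rw [Finset.sum_const, Finset.card_univ, nsmul_eq_mul, ← hc, mul_div_cancel₀ _ hc0.ne']

end Crest.Agent.R153
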