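import Mathlib
import Crest.Agent.R153.UpperAux1
import Crest.Agent.R153.SatDefs

/-!
Row 153, interpolation upper bound: iteration of the one-step inequality, factorisation over the
sites and the counting of occupation numbers.
-/

set_option autoImplicit false

namespace Crest.Agent.R153

open Finset

lemma up_w_mem {b t s : ℝ} (hb0 : 0 ≤ b) (ht0 : 0 ≤ t) (ht1 : t ≤ 1) (hs0 : 0 ≤ s) (hs1 : s ≤ 1) :
    1 - b ≤ 1 - b * t * s ∧ 1 - b * t * s ≤ 1 := by
  have h1 : t * s ≤ 1 := mul_le_one₀ ht1 hs0 hs1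
  have h2 : 0 ≤ t * s := mul_nonneg ht0 hs0
  constructor <;> nlinarith

lemma up_prod_ind_nonneg {κ : Type*} [Fintype κ] (P : κ → Prop) : 0 ≤ ∏ j, ind (P j) :=
  Finset.prod_nonneg fun _ _ => ind_nonneg _

lemma up_prod_ind_le_one {κ : Type*} [Fintype κ] (P : κ → Prop) : ∏ j, ind (P j) ≤ 1 :=
  Finset.prod_le_one (fun _ _ => ind_nonneg _) fun _ _ => ind_le_one _

section
variable {Ξ : Type} [Fintype Ξ] [Nonempty Ξ] {D : ℕ} (p q : ℕ) (b : ℝ) (γ : ℕ → ℝ)

/-- Weight of one site term. -/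
noncomputable def upWs {N : ℕ} (f : Ξ → Bool) (c : Fin (q + 1) × Lit N) (σ : Asg N)
    (x : Fin 2 → Ξ) : ℝ :=
  1 - b * ind ((c.1 : ℕ) < p) * ind (σ c.2.1 ≠ c.2.2) * ∏ j, ind (f (x j) = true)

/-- The interpolating space with `J` site terms. -/
noncomputable def upSp (N J : ℕ) (X : Filt Ξ D) : Filt (Asg N × (Fin J → Fin 2 → Ξ)) D :=
  (Filt.coin (Asg N) D D).prod (Filt.pi fun _ : Fin J => Filt.pi fun _ : Fin 2 => X)

/-- The interpolating functional. -/
noncomputable def upU {N : ℕ} (X : Filt Ξ D) (f : Ξ → Bool) (w : Asg N → ℝ) (J : ℕ) : ℝ :=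
  av fun τ : Fin J → Fin (q + 1) × Lit N => (upSp N J X).pm γ
    fun y => w y.1 * ∏ k, upWs p q b f (τ k) y.1 (y.2 k)

variable {b γ}

omit [Fintype Ξ] [Nonempty Ξ] in
lemma upWs_pos (hb0 : 0 < b) (hb1 : b < 1) {N : ℕ} (f : Ξ → Bool) (c : Fin (q + 1) × Lit N)
    (σ : Asg N) (x : Fin 2 → Ξ) : 0 < upWs p q b f c σ x := by
  unfold upWs
  have := (up_w_mem (t := ind ((c.1 : ℕ) < p) * ind (σ c.2.1 ≠ c.2.2))
    (s := ∏ j, ind (f (x j) = true)) hb0.le (mul_nonneg (ind_nonneg _) (ind_nonneg _))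
    (mul_le_one₀ (ind_le_one _) (ind_nonneg _) (ind_le_one _)) (up_prod_ind_nonneg _)
    (up_prod_ind_le_one _)).1
  rw [← mul_assoc] at this
  linarith

lemma slotW_pos_up (hb0 : 0 < b) (hb1 : b < 1) {N : ℕ} (c : Slot q N) (σ : Asg N) :
    0 < slotW p b c σ := by
  unfold slotW
  have := (up_w_mem (t := ind ((c.1 : ℕ) < p))
    (s := ∏ j, ind (σ (c.2 j).1 ≠ (c.2 j).2)) hb0.le (ind_nonneg _) (ind_le_one _)
    (up_prod_ind_nonneg _) (up_prod_ind_le_one _)).1
  linarith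

lemma upU_succ (hb0 : 0 < b) (hb1 : b < 1) (hγ : Adm γ) {N : ℕ} (hN : 1 ≤ N) (X : Filt Ξ D)
    (f : Ξ → Bool) {w : Asg N → ℝ} (hw : ∀ σ, 0 < w σ) (J : ℕ) :
    1 / 3 * (av fun c : Slot q N => upU p q b γ X f (fun σ => w σ * slotW p b c σ) J) +
      2 / 3 * edgeE p q b γ X f * upU p q b γ X f w J ≤ upU p q b γ X f w (J + 1) := by
  haveI : Nonempty (Fin N) := ⟨⟨0, hN⟩⟩
  set X2 := Filt.pi fun _ : Fin 2 => X with hX2
  have hm : ((upSp N J X).prod X2).MorEx (upSp N (J + 1) X)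
      fun y => (y.1.1, Fin.cons y.2 y.1.2) :=
    (Filt.morEx_assoc _ _ _).comp
      ((Filt.morEx_id _).prod_map (Filt.morEx_pi_cons X2 J))
  let V : (Fin J → Fin (q + 1) × Lit N) → Asg N × (Fin J → Fin 2 → Ξ) → ℝ :=
    fun τ y => w y.1 * ∏ k, upWs p q b f (τ k) y.1 (y.2 k)
  have hV : ∀ τ y, 0 < V τ y := fun τ y =>
    mul_pos (hw _) (Finset.prod_pos fun k _ => upWs_pos p q hb0 hb1 f _ _ _)
  have h1 : upU p q b γ X f w (J + 1) = av fun τ : Fin J → Fin (q + 1) × Lit N =>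
      av fun u : Fin (q + 1) => av fun l : Lit N => ((upSp N J X).prod X2).pm γ
        fun y => V τ y.1 * upWs p q b f (u, l) y.1.1 y.2 := by
    unfold upU
    rw [av_fin_cons, av_comm]
    refine av_congr fun τ => ?_
    rw [av_prod]
    refine av_congr fun u => av_congr fun l => ?_
    rw [← hm.pm]
    refine Filt.pm_congr _ γ fun y => ?_
    simp only [Fin.prod_univ_succ, Fin.cons_zero, Fin.cons_succ, V]
    ring
  have h2 : (av fun c : Slot q N => upU p q b γ X f (fun σ => w σ * slotW p b c σ) J) =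
      av fun τ : Fin J → Fin (q + 1) × Lit N => av fun u : Fin (q + 1) => av fun c : RCl N =>
        (upSp N J X).pm γ fun y => V τ y * slotW p b (u, c) y.1 := by
    unfold upU
    rw [av_comm]
    refine av_congr fun τ => ?_
    rw [av_prod]
    refine av_congr fun u => av_congr fun c => ?_
    refine Filt.pm_congr _ γ fun y => ?_
    simp only [V]; ring
  rw [h1, h2]
  unfold upU
  rw [← av_const_mul, ← av_const_mul, ← av_add]
  refine av_mono fun τ => ?_
  unfold edgeE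
  rw [mul_assoc, ← av_mul_const, ← av_const_mul, ← av_const_mul, ← av_add]
  refine av_mono fun u => ?_
  have hβ0 : 0 ≤ b * ind ((u : ℕ) < p) := mul_nonneg hb0.le (ind_nonneg _)
  have hβ1 : b * ind ((u : ℕ) < p) < 1 :=
    lt_of_le_of_lt (mul_le_of_le_one_right hb0.le (ind_le_one _)) hb1
  have hstep := up_step ((upSp N J X).tilt γ (V τ) (hV τ)) X hγ hβ0 hβ1
    (fun y (l : Lit N) => ind (y.1 l.1 ≠ l.2)) (fun _ _ => ind_nonneg _) (fun _ _ => ind_le_one _)
    (fun x => ind (f x = true)) (fun _ => ind_nonneg _) (fun _ => ind_le_one _)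
  have hZ : 0 < (upSp N J X).pm γ (V τ) := Filt.pm_pos _ γ (hV τ)
  have e1 : ∀ c : RCl N, ((upSp N J X).tilt γ (V τ) (hV τ)).pm γ
      (fun ω => 1 - b * ind ((u : ℕ) < p) * ∏ j, ind (ω.1 (c j).1 ≠ (c j).2)) =
      (upSp N J X).pm γ (fun y => V τ y * slotW p b (u, c) y.1) / (upSp N J X).pm γ (V τ) :=
    fun c => Filt.pm_tilt _ γ (hV τ) fun y => (slotW_pos_up p q hb0 hb1 (u, c) y.1).le
  have e2 : ∀ l : Lit N, (((upSp N J X).tilt γ (V τ) (hV τ)).prod X2).pm γ
      (fun y => 1 - b * ind ((u : ℕ) < p) * ind (y.1.1 l.1 ≠ l.2) * ∏ j, ind (f (y.2 j) = true)) =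
      ((upSp N J X).prod X2).pm γ (fun y => V τ y.1 * upWs p q b f (u, l) y.1.1 y.2) /
        (upSp N J X).pm γ (V τ) :=
    fun l => Filt.pm_tilt_prod _ _ γ (hV τ) fun y => (upWs_pos p q hb0 hb1 f (u, l) y.1.1 y.2).le
  simp only [e1] at hstep
  rw [← hX2] at hstep
  simp only [e2, av_div_const] at hstep
  rw [le_div_iff₀ hZ, add_mul, mul_assoc, div_mul_cancel₀ _ hZ.ne', mul_assoc] at hstep
  exact hstep

lemma upU_zero (hD : 1 ≤ D) {N : ℕ} (X : Filt Ξ D) (f : Ξ → Bool) {w : Asg N → ℝ}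
    (hw : ∀ σ, 0 < w σ) : upU p q b γ X f w 0 = av w ^ (∏ d ∈ range D, γ d) := by
  unfold upU upSp
  simp only [Finset.univ_eq_empty, Finset.prod_empty, mul_one, av_const]
  rw [(Filt.morEx_fst _ _).pm, Filt.pm_coin_top γ hD hw]

/-- Interpolation with `M` clauses and `J` site terms. -/
noncomputable def upUU (b : ℝ) (γ : ℕ → ℝ) (N : ℕ) (X : Filt Ξ D) (f : Ξ → Bool) (M J : ℕ) : ℝ :=
  av fun F : Fin M → Slot q N => upU p q b γ X f (fun σ => ∏ s, slotW p b (F s) σ) J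

lemma upUU_succ (hb0 : 0 < b) (hb1 : b < 1) (hγ : Adm γ) {N : ℕ} (hN : 1 ≤ N) (X : Filt Ξ D)
    (f : Ξ → Bool) (M J : ℕ) :
    1 / 3 * upUU p q b γ N X f (M + 1) J + 2 / 3 * edgeE p q b γ X f * upUU p q b γ N X f M J ≤
      upUU p q b γ N X f M (J + 1) := by
  unfold upUU
  rw [av_fin_cons, av_comm, ← av_const_mul, ← av_const_mul, ← av_add]
  refine av_mono fun F => ?_
  have := upU_succ p q hb0 hb1 hγ hN X f (w := fun σ => ∏ s, slotW p b (F s) σ)
    (fun σ => Finset.prod_pos fun s _ => slotW_pos_up p q hb0 hb1 _ _) J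
  refine le_of_eq_of_le ?_ this
  congr 2
  refine av_congr fun c => ?_
  congr 1
  funext σ
  simp only [Fin.prod_univ_succ, Fin.cons_zero, Fin.cons_succ]
  ring

omit [Nonempty Ξ] in
lemma upUU_nonneg (hb0 : 0 < b) (hb1 : b < 1) (N : ℕ) (X : Filt Ξ D) (f : Ξ → Bool) (M J : ℕ) :
    0 ≤ upUU p q b γ N X f M J :=
  av_nonneg fun _ => av_nonneg fun _ => Filt.pm_nonneg _ γ fun _ =>
    (mul_pos (Finset.prod_pos fun _ _ => slotW_pos_up p q hb0 hb1 _ _)
      (Finset.prod_pos fun _ _ => upWs_pos p q hb0 hb1 f _ _ _)).le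

lemma upUU_zero (hb0 : 0 < b) (hb1 : b < 1) (hD : 1 ≤ D) (N : ℕ) (X : Filt Ξ D) (f : Ξ → Bool)
    (M : ℕ) : upUU p q b γ N X f M 0 = Psi p q b (∏ d ∈ range D, γ d) N M :=
  av_congr fun _ => upU_zero p q hD X f fun _ =>
    Finset.prod_pos fun _ _ => slotW_pos_up p q hb0 hb1 _ _

end

/-- Pascal iteration. -/
lemma up_pascal (U : ℕ → ℕ → ℝ) {a c : ℝ} (ha : 0 ≤ a) (hc : 0 ≤ c) (hU : ∀ M J, 0 ≤ U M J)
    (h : ∀ M J, a * U (M + 1) J + c * U M J ≤ U M (J + 1)) (J : ℕ) :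
    ∀ i M, (J.choose i : ℝ) * a ^ i * c ^ (J - i) * U (M + i) 0 ≤ U M J := by
  induction J with
  | zero =>
    intro i M
    cases i with
    | zero => simp
    | succ i => simpa using hU M 0
  | succ J ih =>
    intro i M
    refine le_trans ?_ (h M J)
    cases i with
    | zero =>
      have h1 := mul_le_mul_of_nonneg_left (ih 0 M) hc
      have h2 := mul_nonneg ha (hU (M + 1) J)
      simp only [Nat.choose_zero_right, Nat.cast_one, pow_zero, mul_one, one_mul, Nat.sub_zero,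
        add_zero] at h1 ⊢
      rw [pow_succ]
      linarith
    | succ i =>
      have h1 := mul_le_mul_of_nonneg_left (ih i (M + 1)) ha
      have h2 := mul_le_mul_of_nonneg_left (ih (i + 1) M) hc
      rw [Nat.choose_succ_succ', Nat.cast_add, Nat.add_sub_add_right]
      rw [show M + 1 + i = M + (i + 1) by ring] at h1
      rcases lt_or_ge J (i + 1) with hJ | hJ
      · rw [Nat.choose_eq_zero_of_lt hJ] at h2 ⊢
        simp only [Nat.cast_zero, zero_mul, mul_zero, add_zero] at h2 ⊢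
        rw [pow_succ]
        linarith
      · rw [show J - i = J - (i + 1) + 1 by omega] at h1 ⊢
        rw [pow_succ a, pow_succ c] at *
        linarith

/-! ### Factorisation over the sites -/

section
variable {Ξ : Type} [Fintype Ξ] [Nonempty Ξ] {D : ℕ} (p q : ℕ) {b : ℝ} {γ : ℕ → ℝ}

/-- The site functional for a general index type. -/
noncomputable def upSite (b : ℝ) (γ : ℕ → ℝ) (X : Filt Ξ D) (f : Ξ → Bool) (κ : Type)
    [Fintype κ] [DecidableEq κ] (τ : κ → Fin (q + 1) × Bool) : ℝ :=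
  (Filt.pi fun _ : κ × Fin 2 => X).pm γ
    fun x => av fun ε : Bool => ∏ k, (1 - b * ind (((τ k).1 : ℕ) < p) * ind (ε ≠ (τ k).2) *
      ∏ j, ind (f (x (k, j)) = true))

omit [Nonempty Ξ] in
lemma av_upSite (X : Filt Ξ D) (f : Ξ → Bool) (κ : Type) [Fintype κ] [DecidableEq κ] :
    av (upSite p q b γ X f κ) = siteS p q b γ X f (Fintype.card κ) := by
  let e := Fintype.equivFin κ
  unfold siteS
  rw [← av_equiv (Equiv.arrowCongr e.symm (Equiv.refl (Fin (q + 1) × Bool)))]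
  refine av_congr fun τ => ?_
  unfold upSite
  rw [← (Filt.morEx_pi_reindex X (e.prodCongr (Equiv.refl (Fin 2)))).pm]
  refine Filt.pm_congr _ γ fun x => av_congr fun ε => ?_
  rw [← e.prod_comp]
  simp [Equiv.arrowCongr]

lemma up_factor (hb0 : 0 < b) (hb1 : b < 1) (hD : 1 ≤ D) {N J : ℕ} (X : Filt Ξ D) (f : Ξ → Bool)
    (φ : Fin J → Fin N) (τ : Fin J → Fin (q + 1) × Bool) :
    (upSp N J X).pm γ (fun y => ∏ k, upWs p q b f ((τ k).1, (φ k, (τ k).2)) y.1 (y.2 k)) =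
      ∏ i, upSite p q b γ X f {k // φ k = i} fun k => τ k.1 := by
  let e : Asg N × (Fin J → Fin 2 → Ξ) ≃ (∀ i : Fin N, (({k // φ k = i} × Fin 2) → Ξ) × Bool) :=
    { toFun := fun z i => (fun kj => z.2 kj.1.1 kj.2, z.1 i)
      invFun := fun y => (fun i => (y i).2, fun k j => (y (φ k)).1 (⟨k, rfl⟩, j))
      left_inv := fun z => rfl
      right_inv := fun y => by
        funext i
        refine Prod.ext ?_ rfl
        funext ⟨⟨k, hk⟩, j⟩
        subst hk
        rfl }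
  have hm : (upSp N J X).MorEx (Filt.pi fun i : Fin N =>
      (Filt.pi fun _ : {k // φ k = i} × Fin 2 => X).prod (Filt.coin Bool D D)) e := by
    refine Filt.morEx_of_equiv _ _ e one_ne_zero (fun z => ?_) fun d z z' => ?_
    · change 1 * ∏ k, ∏ j, X.p (z.2 k j) =
        1 * ∏ i, (∏ kj : {k // φ k = i} × Fin 2, X.p (z.2 kj.1.1 kj.2)) * 1
      rw [← Fintype.prod_fiberwise φ]
      simp only [Fintype.prod_prod_type, mul_one]
    · change ((D ≤ d ∨ D ≤ d) → z.1 = z'.1) ∧ (∀ k j, X.rel d (z.2 k j) (z'.2 k j)) ↔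
        ∀ i, (∀ kj : {k // φ k = i} × Fin 2, X.rel d (z.2 kj.1.1 kj.2) (z'.2 kj.1.1 kj.2)) ∧
          ((D ≤ d ∨ D ≤ d) → z.1 i = z'.1 i)
      exact ⟨fun h i => ⟨fun kj => h.2 _ _, fun hd => by rw [h.1 hd]⟩,
        fun h => ⟨fun hd => funext fun i => (h i).2 hd, fun k j => (h (φ k)).1 (⟨k, rfl⟩, j)⟩⟩
  let W : ∀ i : Fin N, (({k // φ k = i} × Fin 2) → Ξ) × Bool → ℝ := fun i y =>
    ∏ k : {k // φ k = i}, (1 - b * ind (((τ k.1).1 : ℕ) < p) * ind (y.2 ≠ (τ k.1).2) *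
      ∏ j, ind (f (y.1 (k, j)) = true))
  have hW : ∀ i y, 0 ≤ W i y := fun i y => Finset.prod_nonneg fun k _ => by
    have := (up_w_mem (t := ind (((τ k.1).1 : ℕ) < p) * ind (y.2 ≠ (τ k.1).2))
      (s := ∏ j, ind (f (y.1 (k, j)) = true)) hb0.le (mul_nonneg (ind_nonneg _) (ind_nonneg _))
      (mul_le_one₀ (ind_le_one _) (ind_nonneg _) (ind_le_one _)) (up_prod_ind_nonneg _)
      (up_prod_ind_le_one _)).1
    rw [← mul_assoc] at this
    linarith
  have h1 : (fun y : Asg N × (Fin J → Fin 2 → Ξ) =>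
      ∏ k, upWs p q b f ((τ k).1, (φ k, (τ k).2)) y.1 (y.2 k)) = fun y => ∏ i, W i (e y i) := by
    funext y
    rw [← Fintype.prod_fiberwise φ]
    refine Finset.prod_congr rfl fun i _ => Finset.prod_congr rfl fun k _ => ?_
    obtain ⟨k, hk⟩ := k
    subst hk
    rfl
  rw [h1, hm.pm γ fun y => ∏ i, W i (y i), Filt.pm_pi_prod _ γ hW]
  refine Finset.prod_congr rfl fun i _ => ?_
  rw [Filt.pm_prod_coin_top _ γ hD]
  rfl

lemma upU_one (hb0 : 0 < b) (hb1 : b < 1) (hD : 1 ≤ D) {N : ℕ} (X : Filt Ξ D) (f : Ξ → Bool)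
    (J : ℕ) : upU p q b γ X f (fun _ : Asg N => 1) J =
      av fun φ : Fin J → Fin N => ∏ i, siteS p q b γ X f (Fintype.card {k // φ k = i}) := by
  let e : (Fin J → Fin N) × (Fin J → Fin (q + 1) × Bool) ≃ (Fin J → Fin (q + 1) × Lit N) :=
    { toFun := fun z k => ((z.2 k).1, (z.1 k, (z.2 k).2))
      invFun := fun τ => (fun k => (τ k).2.1, fun k => ((τ k).1, (τ k).2.2))
      left_inv := fun z => rfl
      right_inv := fun y => rfl }
  unfold upU
  rw [← av_equiv e, av_prod]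
  refine av_congr fun φ => ?_
  simp only [one_mul]
  have h1 : ∀ τ : Fin J → Fin (q + 1) × Bool, (upSp N J X).pm γ
      (fun y => ∏ k, upWs p q b f (e (φ, τ) k) y.1 (y.2 k)) =
      ∏ i, upSite p q b γ X f {k // φ k = i} fun k => τ k.1 :=
    fun τ => up_factor p q hb0 hb1 hD X f φ τ
  simp only [h1]
  let e2 : (Fin J → Fin (q + 1) × Bool) ≃ (∀ i : Fin N, {k // φ k = i} → Fin (q + 1) × Bool) :=
    { toFun := fun τ i k => τ k.1
      invFun := fun y k => y (φ k) ⟨k, rfl⟩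
      left_inv := fun z => rfl
      right_inv := fun y => by
        funext i ⟨k, hk⟩
        subst hk
        rfl }
  have h2 := av_equiv e2 fun y => ∏ i, upSite p q b γ X f {k // φ k = i} (y i)
  refine Eq.trans h2 ?_
  rw [av_pi_prod fun i => upSite p q b γ X f {k // φ k = i}]
  exact Finset.prod_congr rfl fun i _ => av_upSite p q X f _

end

/-! ### Occupation numbers -/

lemma up_sum_fibres (N J : ℕ) (s : ℕ → ℝ) :
    ∑ φ : Fin J → Fin N, ∏ i, s (Fintype.card {k // φ k = i}) =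
      ∑ n ∈ piAntidiag (univ : Finset (Fin N)) J, (Nat.multinomial univ n : ℝ) * ∏ i, s (n i) := by
  let L : MvPolynomial (Fin N) ℝ →ₗ[ℝ] ℝ :=
    (MvPolynomial.basisMonomials (Fin N) ℝ).constr ℝ fun n => ∏ i, s (n i)
  have hL : ∀ n : Fin N → ℕ, L (∏ i, MvPolynomial.X i ^ n i) = ∏ i, s (n i) := by
    intro n
    have : (∏ i, MvPolynomial.X i ^ n i : MvPolynomial (Fin N) ℝ) =
        MvPolynomial.basisMonomials (Fin N) ℝ (Finsupp.equivFunOnFinite.symm n) := by
      rw [MvPolynomial.coe_basisMonomials]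
      simp only
      rw [MvPolynomial.monomial_eq, Finsupp.prod_fintype _ _ (by simp)]
      simp
    rw [this, Module.Basis.constr_basis]
    simp
  have h1 := Fintype.sum_pow (fun i : Fin N => (MvPolynomial.X i : MvPolynomial (Fin N) ℝ)) J
  have h2 := Finset.sum_pow_eq_sum_piAntidiag (univ : Finset (Fin N))
    (fun i : Fin N => (MvPolynomial.X i : MvPolynomial (Fin N) ℝ)) J
  have h3 := congrArg L (h1.symm.trans h2)
  rw [map_sum, map_sum] at h3
  convert h3 using 2 with φ _ n _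
  · rw [← hL, ← Fintype.prod_fiberwise' φ]
    simp
  · rw [← hL, ← nsmul_eq_mul, ← nsmul_eq_mul, map_nsmul]

lemma up_count (N J : ℕ) {s : ℕ → ℝ} (hs : ∀ K, 0 ≤ s K) {z : ℝ} (hz : 0 < z)
    (hsum : Summable fun K : ℕ => z ^ K / K.factorial * s K) :
    ∑ φ : Fin J → Fin N, ∏ i, s (Fintype.card {k // φ k = i}) ≤
      J.factorial / z ^ J * (∑' K : ℕ, z ^ K / K.factorial * s K) ^ N := by
  rw [up_sum_fibres]
  set t : ℕ → ℝ := fun K => z ^ K / K.factorial * s K with ht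
  have ht0 : ∀ K, 0 ≤ t K := fun K => mul_nonneg (by positivity) (hs K)
  have h1 : ∀ n ∈ piAntidiag (univ : Finset (Fin N)) J,
      (Nat.multinomial univ n : ℝ) * ∏ i, s (n i) = J.factorial / z ^ J * ∏ i, t (n i) := by
    intro n hn
    have hn' := (mem_piAntidiag.1 hn).1
    have h2 := Nat.multinomial_spec univ n
    rw [hn'] at h2
    have h3 : (J.factorial : ℝ) = (∏ i, ((n i).factorial : ℝ)) * Nat.multinomial univ n := by
      exact_mod_cast h2.symm
    have h4 : (∏ i, ((n i).factorial : ℝ)) ≠ 0 :=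
      Finset.prod_ne_zero_iff.2 fun i _ => by exact_mod_cast (n i).factorial_ne_zero
    simp only [ht, Finset.prod_mul_distrib, Finset.prod_div_distrib, Finset.prod_pow_eq_pow_sum,
      hn', h3]
    field_simp
  rw [Finset.sum_congr rfl h1, ← Finset.mul_sum]
  refine mul_le_mul_of_nonneg_left ?_ (by positivity)
  calc ∑ n ∈ piAntidiag (univ : Finset (Fin N)) J, ∏ i, t (n i)
      ≤ ∑ n ∈ Fintype.piFinset fun _ : Fin N => range (J + 1), ∏ i, t (n i) := by
        refine Finset.sum_le_sum_of_subset_of_nonneg (fun n hn => ?_)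
          fun n _ _ => Finset.prod_nonneg fun i _ => ht0 _
        rw [Fintype.mem_piFinset]
        intro i
        rw [Finset.mem_range, Nat.lt_succ_iff, ← (mem_piAntidiag.1 hn).1]
        exact Finset.single_le_sum (f := n) (fun _ _ => Nat.zero_le _) (Finset.mem_univ i)
    _ = (∑ K ∈ range (J + 1), t K) ^ N := by
        rw [← Finset.prod_univ_sum]; simp
    _ ≤ _ := pow_le_pow_left₀ (Finset.sum_nonneg fun K _ => ht0 K)
        (hsum.sum_le_tsum _ fun K _ => ht0 K) N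

lemma up_factorial_le {n : ℕ} (hn : 1 ≤ n) :
    (n.factorial : ℝ) ≤ Real.exp 1 * n * (n / Real.exp 1) ^ n := by
  obtain ⟨m, rfl⟩ : ∃ m, n = m + 1 := ⟨n - 1, by omega⟩
  have h := Stirling.stirlingSeq'_antitone (Nat.zero_le m)
  simp only [Function.comp, Nat.succ_eq_add_one, zero_add, Stirling.stirlingSeq_one] at h
  unfold Stirling.stirlingSeq at h
  have hm : (1 : ℝ) ≤ ((m + 1 : ℕ) : ℝ) := by exact_mod_cast hn
  rw [div_le_iff₀ (by positivity)] at h
  refine h.trans ?_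
  rw [← mul_assoc]
  refine mul_le_mul_of_nonneg_right ?_ (by positivity)
  rw [Real.sqrt_mul (by norm_num), ← mul_assoc, div_mul_cancel₀ _ (by positivity)]
  refine mul_le_mul_of_nonneg_left ?_ (by positivity)
  rw [Real.sqrt_le_left (by positivity)]
  nlinarith

end Crest.Agent.R153
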