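import Mathlib
import Crest.Agent.R153.Filt2
import Crest.Agent.R153.SatDefs
import Crest.Agent.R153.UpperAux2

/-!
Row 153: the interpolation upper bound.
-/

set_option autoImplicit false

namespace Crest.Agent.R153

open Finset

section
variable {Ξ : Type} [Fintype Ξ] [Nonempty Ξ] {D : ℕ} (p q : ℕ) {b : ℝ} {γ : ℕ → ℝ}

theorem edgeE_mem (hb0 : 0 < b) (hb1 : b < 1) (hγ : Adm γ) (X : Filt Ξ D) (f : Ξ → Bool) :
    1 - b ≤ edgeE p q b γ X f ∧ edgeE p q b γ X f ≤ 1 := by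
  have h : ∀ (u : Fin (q + 1)) (x : Fin 3 → Ξ),
      1 - b ≤ 1 - b * ind ((u : ℕ) < p) * ∏ j, ind (f (x j) = true) ∧
      1 - b * ind ((u : ℕ) < p) * ∏ j, ind (f (x j) = true) ≤ 1 := fun u x =>
    up_w_mem hb0.le (ind_nonneg _) (ind_le_one _) (up_prod_ind_nonneg _) (up_prod_ind_le_one _)
  exact ⟨le_av_of_le fun u => Filt.le_pm _ hγ (by linarith) (by linarith) fun x => (h u x).1,
    av_le_of_le fun u => Filt.pm_le _ hγ le_rfl (fun x => le_trans (by linarith) (h u x).1)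
      fun x => (h u x).2⟩

theorem siteS_mem (hb0 : 0 < b) (hb1 : b < 1) (hγ : Adm γ) (X : Filt Ξ D) (f : Ξ → Bool) (K : ℕ) :
    (1 - b) ^ K ≤ siteS p q b γ X f K ∧ siteS p q b γ X f K ≤ 1 := by
  have h : ∀ (τ : Fin K → Fin (q + 1) × Bool) (x : Fin K × Fin 2 → Ξ) (ε : Bool) (k : Fin K),
      1 - b ≤ 1 - b * ind (((τ k).1 : ℕ) < p) * ind (ε ≠ (τ k).2) *
        ∏ j, ind (f (x (k, j)) = true) ∧
      1 - b * ind (((τ k).1 : ℕ) < p) * ind (ε ≠ (τ k).2) *
        ∏ j, ind (f (x (k, j)) = true) ≤ 1 := fun τ x ε k => by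
    have := up_w_mem (t := ind (((τ k).1 : ℕ) < p) * ind (ε ≠ (τ k).2))
      (s := ∏ j, ind (f (x (k, j)) = true)) hb0.le (mul_nonneg (ind_nonneg _) (ind_nonneg _))
      (mul_le_one₀ (ind_le_one _) (ind_nonneg _) (ind_le_one _)) (up_prod_ind_nonneg _)
      (up_prod_ind_le_one _)
    rwa [← mul_assoc] at this
  have hb : 0 < 1 - b := by linarith
  have hlo : ∀ (τ : Fin K → Fin (q + 1) × Bool) (x : Fin K × Fin 2 → Ξ),
      (1 - b) ^ K ≤ av fun ε : Bool => ∏ k, (1 - b * ind (((τ k).1 : ℕ) < p) *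
        ind (ε ≠ (τ k).2) * ∏ j, ind (f (x (k, j)) = true)) := fun τ x =>
    le_av_of_le fun ε => by
      have := Finset.prod_le_prod (s := (univ : Finset (Fin K))) (f := fun _ => 1 - b)
        (fun _ _ => hb.le) fun k _ => (h τ x ε k).1
      simpa using this
  refine ⟨le_av_of_le fun τ => Filt.le_pm _ hγ (pow_pos hb K)
      (pow_le_one₀ hb.le (by linarith)) (hlo τ),
    av_le_of_le fun τ => Filt.pm_le _ hγ le_rfl (fun x => (pow_pos hb K).le.trans (hlo τ x))
      fun x => av_le_of_le fun ε => ?_⟩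
  exact Finset.prod_le_one (fun k _ => hb.le.trans (h τ x ε k).1) fun k _ => (h τ x ε k).2

theorem rho_summable (a : ℕ) (hb0 : 0 < b) (hb1 : b < 1) (hγ : Adm γ) (X : Filt Ξ D)
    (f : Ξ → Bool) : Summable fun K : ℕ => (3 * a : ℝ) ^ K / K.factorial * siteS p q b γ X f K *
      (edgeE p q b γ X f ^ a / edgeE p q b γ X f ^ K) := by
  have hb : 0 < 1 - b := by linarith
  have he : 0 < edgeE p q b γ X f := hb.trans_le (edgeE_mem p q hb0 hb1 hγ X f).1
  have hs0 : ∀ K, 0 ≤ siteS p q b γ X f K :=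
    fun K => (pow_pos hb K).le.trans (siteS_mem p q hb0 hb1 hγ X f K).1
  refine Summable.of_nonneg_of_le (fun K => ?_) (fun K => ?_)
    ((Real.summable_pow_div_factorial (3 * a / edgeE p q b γ X f)).mul_left
      (edgeE p q b γ X f ^ a))
  · have := hs0 K
    positivity
  · have h1 := (siteS_mem p q hb0 hb1 hγ X f K).2
    calc _ = (edgeE p q b γ X f ^ a * ((3 * a / edgeE p q b γ X f) ^ K / K.factorial)) *
          siteS p q b γ X f K := by rw [div_pow]; ring
      _ ≤ _ := mul_le_of_le_one_right (by positivity) h1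

theorem psi_le_rho (a : ℕ) (ha : 1 ≤ a) (hb0 : 0 < b) (hb1 : b < 1) (hD : 1 ≤ D) (hγ : Adm γ)
    (X : Filt Ξ D) (f : Ξ → Bool) (N : ℕ) (hN : 1 ≤ N) :
    Psi p q b (∏ d ∈ range D, γ d) N (a * N) ≤
      15 * ((a : ℝ) * N) ^ 2 * rho a p q b γ X f ^ N := by
  have hb : 0 < 1 - b := by linarith
  have he : 0 < edgeE p q b γ X f := hb.trans_le (edgeE_mem p q hb0 hb1 hγ X f).1
  have hs0 : ∀ K, 0 ≤ siteS p q b γ X f K :=
    fun K => (pow_pos hb K).le.trans (siteS_mem p q hb0 hb1 hγ X f K).1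
  have hsum0 := rho_summable p q a hb0 hb1 hγ X f
  set ε := edgeE p q b γ X f with hε
  set s := siteS p q b γ X f with hs
  set M := a * N with hM
  have ha' : (0 : ℝ) < a := by exact_mod_cast ha
  have hN' : (0 : ℝ) < N := by exact_mod_cast hN
  have hM1 : 1 ≤ M := Nat.mul_pos ha hN
  have hMR : (M : ℝ) = a * N := by rw [hM]; push_cast; ring
  have hM' : (0 : ℝ) < M := by exact_mod_cast hM1
  set z : ℝ := 3 * a / ε with hz
  have hz0 : 0 < z := by positivity
  have hterm : ∀ K : ℕ, (3 * a : ℝ) ^ K / K.factorial * s K * (ε ^ a / ε ^ K) =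
      ε ^ a * (z ^ K / K.factorial * s K) := fun K => by rw [hz, div_pow]; ring
  have hsum : Summable fun K : ℕ => z ^ K / K.factorial * s K := by
    simp only [hterm] at hsum0
    exact (summable_mul_left_iff (pow_pos he a).ne').1 hsum0
  set T := ∑' K : ℕ, z ^ K / K.factorial * s K with hT
  have hT0 : 0 ≤ T := tsum_nonneg fun K => mul_nonneg (by positivity) (hs0 K)
  have hrho : rho a p q b γ X f = Real.exp (-3 * a) * (ε ^ a * T) := by
    unfold rho
    rw [← hε, ← hs]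
    simp only [hterm]
    rw [tsum_mul_left]
  have h1 := up_pascal (upUU p q b γ N X f) (a := 1 / 3) (c := 2 / 3 * ε) (by norm_num)
    (by positivity) (upUU_nonneg p q hb0 hb1 N X f) (upUU_succ p q hb0 hb1 hγ hN X f) (3 * M) M 0
  rw [zero_add, upUU_zero p q hb0 hb1 hD, show 3 * M - M = 2 * M by omega] at h1
  have h2 : upUU p q b γ N X f 0 (3 * M) ≤
      (3 * M).factorial / z ^ (3 * M) * T ^ N / (N : ℝ) ^ (3 * M) := by
    unfold upUU
    simp only [Finset.univ_eq_empty, Finset.prod_empty, av_const]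
    rw [upU_one p q hb0 hb1 hD]
    unfold av
    simp only [Fintype.card_pi, Fintype.card_fin, Finset.prod_const, Finset.card_univ,
      Nat.cast_pow]
    exact div_le_div_of_nonneg_right (up_count N (3 * M) hs0 hz0 hsum) (by positivity)
  have h3 : ((3 * M).choose M : ℝ) * M.factorial * (2 * M).factorial = (3 * M).factorial := by
    have := Nat.choose_mul_factorial_mul_factorial (show M ≤ 3 * M by omega)
    rw [show 3 * M - M = 2 * M by omega] at this
    exact_mod_cast this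
  have hch : (0 : ℝ) < (3 * M).choose M := by exact_mod_cast Nat.choose_pos (by omega)
  set Ψ := Psi p q b (∏ d ∈ range D, γ d) N M with hΨ
  have h4 : Ψ ≤ M.factorial * (2 * M).factorial *
      (T ^ N / (z ^ (3 * M) * (N : ℝ) ^ (3 * M) * ((1 / 3) ^ M * (2 / 3 * ε) ^ (2 * M)))) := by
    have h5 := h1.trans h2
    rw [← h3] at h5
    have hpos : (0 : ℝ) < ((3 * M).choose M : ℝ) * (1 / 3) ^ M * (2 / 3 * ε) ^ (2 * M) := by
      positivity
    rw [← le_div_iff₀' hpos] at h5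
    refine h5.trans_eq ?_
    field_simp
  have hf1 := up_factorial_le hM1
  have hf2 := up_factorial_le (n := 2 * M) (by omega)
  refine h4.trans ((mul_le_mul_of_nonneg_right (mul_le_mul hf1 hf2 (by positivity)
    (by positivity)) (by positivity)).trans ?_)
  have he1 : 0 < Real.exp 1 := Real.exp_pos 1
  have hexp : Real.exp (-3 * a) ^ N = (Real.exp 1 ^ (3 * M))⁻¹ := by
    rw [← Real.exp_nat_mul, ← Real.exp_nat_mul, ← Real.exp_neg]
    congr 1
    push_cast
    rw [hMR]; ring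
  have hzN : z ^ (3 * M) * (N : ℝ) ^ (3 * M) = (3 * M / ε) ^ (3 * M) := by
    rw [← mul_pow, hz, hMR]; congr 1; ring
  have hεN : (ε ^ a) ^ N = ε ^ M := by rw [← pow_mul]
  rw [hrho, mul_pow (Real.exp (-3 * a)), mul_pow (ε ^ a), hexp, hzN, hεN, ← hMR]
  have key : Real.exp 1 * M * (M / Real.exp 1) ^ M *
      (Real.exp 1 * ((2 * M : ℕ) : ℝ) * (((2 * M : ℕ) : ℝ) / Real.exp 1) ^ (2 * M)) *
      (T ^ N / ((3 * M / ε) ^ (3 * M) * ((1 / 3) ^ M * (2 / 3 * ε) ^ (2 * M)))) =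
      2 * Real.exp 1 ^ 2 * (M : ℝ) ^ 2 * ((Real.exp 1 ^ (3 * M))⁻¹ * (ε ^ M * T ^ N)) := by
    push_cast
    have e3 : ∀ x : ℝ, x ^ (3 * M) = (x ^ M) ^ 3 := fun x => pow_mul' x 3 M
    have e2 : ∀ x : ℝ, x ^ (2 * M) = (x ^ M) ^ 2 := fun x => pow_mul' x 2 M
    simp only [e3, e2, div_pow, mul_pow, one_pow]
    field_simp
  rw [key]
  refine mul_le_mul_of_nonneg_right (mul_le_mul_of_nonneg_right ?_ (by positivity))
    (by positivity)
  have := Real.exp_one_lt_d9
  nlinarith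

end

end Crest.Agent.R153
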