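import Mathlib
import Crest.Agent.R153.ASSAux2

/-!
Row 153, cavity bound, part 3: decoupling of the cavity slots and the one-step estimate.
-/

set_option autoImplicit false

namespace Crest.Agent.R153

open Finset Filt

/-- The weight of `j` old slots and `K` site slots, the new spin being averaged. -/
noncomputable def assMix (p : ℕ) {q N j K : ℕ} (b : ℝ) (G : Fin K → AssSite q N)
    (F : Fin j → Slot q N) (σ : Asg N) : ℝ :=
  (∏ s, slotW p b (F s) σ) * av fun ε : Bool => ∏ k, assSiteW p b (G k) σ ε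

/-- The same weight as a function of the literal spins. -/
noncomputable def assV (p : ℕ) {q j K : ℕ} (b : ℝ) (τ : Fin K → Fin (q + 1) × Bool)
    (u : Fin j → Fin (q + 1)) (y : (Fin j × Fin 3) ⊕ (Fin K × Fin 2) → Bool) : ℝ :=
  (∏ s, (1 - b * ind ((u s : ℕ) < p) * ∏ i, ind (y (Sum.inl (s, i)) = true))) *
    av fun ε : Bool => ∏ k, (1 - b * ind (((τ k).1 : ℕ) < p) * ind (ε ≠ (τ k).2) *
      ∏ i, ind (y (Sum.inr (k, i)) = true))

lemma ass_mul_mem {lo A B : ℝ} (h0 : 0 ≤ lo) {j K : ℕ} (hA : lo ^ j ≤ A ∧ A ≤ 1)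
    (hB : lo ^ K ≤ B ∧ B ≤ 1) : lo ^ (j + K) ≤ A * B ∧ A * B ≤ 1 := by
  have a := pow_nonneg h0 j
  have c := pow_nonneg h0 K
  rw [pow_add]
  exact ⟨mul_le_mul hA.1 hB.1 c (a.trans hA.1), mul_le_one₀ hA.2 (c.trans hB.1) hB.2⟩

lemma assV_mem (p : ℕ) {q j K : ℕ} {b : ℝ} (hb0 : 0 ≤ b) (hb1 : b ≤ 1)
    (τ : Fin K → Fin (q + 1) × Bool) (u : Fin j → Fin (q + 1))
    (y : (Fin j × Fin 3) ⊕ (Fin K × Fin 2) → Bool) :
    (1 - b) ^ (j + K) ≤ assV p b τ u y ∧ assV p b τ u y ≤ 1 := by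
  have h : 0 ≤ 1 - b := by linarith
  refine ass_mul_mem h ?_ ⟨le_av_of_le fun ε => ?_, av_le_of_le fun ε => ?_⟩
  · simpa using ass_prod_mem h fun s : Fin j =>
      ass_edge_mem hb0 ((u s : ℕ) < p) fun i => y (Sum.inl (s, i)) = true
  · simpa using (ass_prod_mem h fun k : Fin K => ass_site_mem hb0 (((τ k).1 : ℕ) < p)
      (ε ≠ (τ k).2) fun i => y (Sum.inr (k, i)) = true).1
  · exact (ass_prod_mem h fun k : Fin K => ass_site_mem hb0 (((τ k).1 : ℕ) < p)
      (ε ≠ (τ k).2) fun i => y (Sum.inr (k, i)) = true).2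

lemma assMix_mem (p : ℕ) {q N j K : ℕ} {b : ℝ} (hb0 : 0 ≤ b) (hb1 : b ≤ 1)
    (G : Fin K → AssSite q N) (F : Fin j → Slot q N) (σ : Asg N) :
    (1 - b) ^ (j + K) ≤ assMix p b G F σ ∧ assMix p b G F σ ≤ 1 := by
  have h : 0 ≤ 1 - b := by linarith
  refine ass_mul_mem h ?_ ⟨le_av_of_le fun ε => ?_, av_le_of_le fun ε => ?_⟩
  · simpa using ass_prod_mem h fun s : Fin j => ass_slotW_mem p hb0 (F s) σ
  · simpa using (ass_prod_mem h fun k : Fin K => ass_siteW_mem p hb0 (G k) σ ε).1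
  · exact (ass_prod_mem h fun k : Fin K => ass_siteW_mem p hb0 (G k) σ ε).2

/-- The decoupled value. -/
lemma ass_decoupled (p q j K : ℕ) {b : ℝ} (hb0 : 0 ≤ b) (hb1 : b ≤ 1) {Ξ : Type} [Fintype Ξ]
    {D : ℕ} (γ : ℕ → ℝ) (X : Filt Ξ D) (f : Ξ → Bool) :
    (av fun τ : Fin K → Fin (q + 1) × Bool => av fun u : Fin j → Fin (q + 1) =>
      (Filt.pi fun _ : (Fin j × Fin 3) ⊕ (Fin K × Fin 2) => X).pm γ
        fun x => assV p b τ u fun l => f (x l)) =
      edgeE p q b γ X f ^ j * siteS p q b γ X f K := by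
  have h : 0 ≤ 1 - b := by linarith
  have e : ∀ (τ : Fin K → Fin (q + 1) × Bool) (u : Fin j → Fin (q + 1)),
      ((Filt.pi fun _ : (Fin j × Fin 3) ⊕ (Fin K × Fin 2) => X).pm γ
        fun x => assV p b τ u fun l => f (x l)) =
      (∏ s, (Filt.pi fun _ : Fin 3 => X).pm γ
        fun x => 1 - b * ind ((u s : ℕ) < p) * ∏ i, ind (f (x i) = true)) *
      (Filt.pi fun _ : Fin K × Fin 2 => X).pm γ
        fun x => av fun ε : Bool => ∏ k, (1 - b * ind (((τ k).1 : ℕ) < p) * ind (ε ≠ (τ k).2) *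
          ∏ i, ind (f (x (k, i)) = true)) := by
    intro τ u
    rw [← pm_pi_prod (fun _ : Fin j => Filt.pi fun _ : Fin 3 => X) γ
      (V := fun s x => 1 - b * ind ((u s : ℕ) < p) * ∏ i, ind (f (x i) = true))
      fun s x => h.trans (ass_edge_mem hb0 _ _).1]
    have e1 := (morEx_pi_curry (ι := Fin j) (κ := Fin 3) X).pm γ
      fun x => ∏ s, (1 - b * ind ((u s : ℕ) < p) * ∏ i, ind (f (x (s, i)) = true))
    rw [e1, ← pm_prod_mul _ _ γ
      (fun x => Finset.prod_nonneg fun s _ => h.trans (ass_edge_mem hb0 _ _).1)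
      (fun x => av_nonneg fun ε => Finset.prod_nonneg fun k _ =>
        h.trans (ass_site_mem hb0 _ _ _).1), ← (morEx_pi_sum X).pm]
    rfl
  simp only [e, av_mul_const, av_const_mul]
  rw [av_pi_prod (A := fun _ : Fin j => Fin (q + 1)) fun _ u => (Filt.pi fun _ : Fin 3 => X).pm γ
    fun x => 1 - b * ind ((u : ℕ) < p) * ∏ i, ind (f (x i) = true)]
  simp only [Finset.prod_const, Finset.card_univ, Fintype.card_fin]
  rfl

/-- The coupled value. -/
lemma ass_coupled (p q j K : ℕ) (b : ℝ) {Ω : Type} [Fintype Ω] {D N : ℕ} (γ : ℕ → ℝ)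
    (F : Filt Ω D) (sp : Ω → Asg N) :
    (av fun G : Fin K → AssSite q N => av fun H : Fin j → Slot q N =>
      F.pm γ fun ω => assMix p b G H (sp ω)) =
    av fun τ : Fin K → Fin (q + 1) × Bool => av fun u : Fin j → Fin (q + 1) =>
      av fun i : (Fin j × Fin 3) ⊕ (Fin K × Fin 2) → Lit N =>
        F.pm γ fun ω => assV p b τ u fun l => assLs (sp ω) (i l) := by
  rw [ass_av_pi_pair]
  refine av_congr fun τ => ?_
  rw [av_comm, ass_av_pi_pair]
  refine av_congr fun u => ?_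
  rw [ass_av_sum_arrow]
  refine av_congr fun i1 => av_congr fun i2 => pm_congr _ _ fun ω => ?_
  simp only [assMix, assV, slotW, assSiteW, ind_assLs, Sum.elim_inl, Sum.elim_inr]

lemma ass_mix_close (p q j K : ℕ) {b : ℝ} (hb0 : 0 ≤ b) (hb1 : b ≤ 1) {Ω : Type} [Fintype Ω]
    {D N : ℕ} (γ γ' : ℕ → ℝ) (F : Filt Ω D) (sp : Ω → Asg N) {η : ℝ} {J : ℕ} (hJ : j + K ≤ J)
    (hdec : ∀ (Λ : Type) [Fintype Λ] [DecidableEq Λ], Fintype.card Λ ≤ 3 * J →
      ∀ v : (Λ → Bool) → ℝ, (∀ y, (1 - b) ^ J ≤ v y ∧ v y ≤ 1) →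
        |(av fun i : Λ → Lit N => F.pm γ fun ω => v fun l => assLs (sp ω) (i l)) -
          (Filt.pi fun _ : Λ => F.prod (Filt.coin (Lit N) D 0)).pm γ'
            fun x => v fun l => assLs (sp (x l).1) (x l).2| ≤ η) :
    |(av fun G : Fin K → AssSite q N => av fun H : Fin j → Slot q N =>
        F.pm γ fun ω => assMix p b G H (sp ω)) -
      edgeE p q b γ' (F.prod (Filt.coin (Lit N) D 0)) (fun x => assLs (sp x.1) x.2) ^ j *
        siteS p q b γ' (F.prod (Filt.coin (Lit N) D 0)) (fun x => assLs (sp x.1) x.2) K| ≤ η := by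
  rw [ass_coupled, ← ass_decoupled p q j K hb0 hb1, ← av_sub]
  refine (abs_av_le _).trans (av_le_of_le fun τ => ?_)
  rw [← av_sub]
  refine (abs_av_le _).trans (av_le_of_le fun u => ?_)
  refine hdec _ ?_ (assV p b τ u) fun y => ⟨le_trans ?_ (assV_mem p hb0 hb1 τ u y).1,
    (assV_mem p hb0 hb1 τ u y).2⟩
  · simp only [Fintype.card_sum, Fintype.card_prod, Fintype.card_fin]
    omega
  · exact pow_le_pow_of_le_one (by linarith) (by linarith) hJ

/-- The perturbed moment with `M` slots. -/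
noncomputable def assPsi (p q : ℕ) (b : ℝ) (D R n S : ℕ) (γ : ℝ) (x : Fam D R → ℝ) (N M : ℕ) : ℝ :=
  av fun F : Fin M → Slot q N => assPhi D R n S γ x N fun σ => ∏ s, slotW p b (F s) σ

/-- The cavity averages in the base system. -/
noncomputable def assC (p q : ℕ) {b : ℝ} (hb0 : 0 < b) (hb1 : b < 1) (D R n S : ℕ) (γ : ℝ)
    (x : Fam D R → ℝ) (N M j K : ℕ) : ℝ :=
  av fun G : Fin K → AssSite q N => av fun H : Fin j → Slot q N =>
    (assSys p q hb0 hb1 D R n S γ x N M).pm (fun _ => γ) fun y => assMix p b G H y.1.2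

section
variable (p q : ℕ) {b : ℝ} (hb0 : 0 < b) (hb1 : b < 1) {D R n S : ℕ} {γ : ℝ} {x : Fam D R → ℝ}
  {N : ℕ}
include hb0 hb1

lemma ass_slotW_pos (c : Slot q N) (σ : Asg N) : 0 < slotW p b c σ := by
  have := (ass_slotW_mem p hb0.le c σ).1
  linarith

lemma ass_siteW_pos (c : AssSite q N) (σ : Asg N) (ε : Bool) : 0 < assSiteW p b c σ ε := by
  have := (ass_siteW_mem p hb0.le c σ ε).1
  linarith

lemma assPsi_pos (hN : 1 ≤ N) (M : ℕ) : 0 < assPsi p q b D R n S γ x N M := by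
  have := ass_lit_nonempty hN
  exact av_pos fun F => assPhi_pos hN fun σ =>
    Finset.prod_pos fun s _ => ass_slotW_pos p q hb0 hb1 _ _

lemma assC_mem (hN : 1 ≤ N) (h0 : 0 < γ) (h1 : γ ≤ 1) (M j K : ℕ) :
    (1 - b) ^ (j + K) ≤ assC p q hb0 hb1 D R n S γ x N M j K ∧
      assC p q hb0 hb1 D R n S γ x N M j K ≤ 1 := by
  have := ass_lit_nonempty hN
  have h : 0 < 1 - b := by linarith
  refine ⟨le_av_of_le fun G => le_av_of_le fun H => ?_,
    av_le_of_le fun G => av_le_of_le fun H => ?_⟩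
  · exact le_pm _ (ass_adm h0 h1) (pow_pos h _) (pow_le_one₀ h.le (by linarith))
      fun y => (assMix_mem p hb0.le hb1.le G H _).1
  · exact pm_le _ (ass_adm h0 h1) le_rfl
      (fun y => (pow_pos h _).le.trans (assMix_mem p hb0.le hb1.le G H _).1)
      fun y => (assMix_mem p hb0.le hb1.le G H _).2

lemma ass_mix_base (hN : 1 ≤ N) (M j K : ℕ) :
    (av fun G : Fin K → AssSite q N => av fun H : Fin j → Slot q N =>
      av fun F : Fin M → Slot q N =>
        assPhi D R n S γ x N fun σ => assMix p b G H σ * ∏ s, slotW p b (F s) σ) =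
      assPsi p q b D R n S γ x N M * assC p q hb0 hb1 D R n S γ x N M j K := by
  have h : 0 < 1 - b := by linarith
  unfold assC
  rw [← av_const_mul]
  refine av_congr fun G => ?_
  rw [← av_const_mul]
  refine av_congr fun H => ?_
  exact ass_base p q hb0 hb1 hN M
    fun σ => (pow_pos h _).le.trans (assMix_mem p hb0.le hb1.le G H σ).1

lemma ass_den (hN : 1 ≤ N) (M j : ℕ) :
    assPsi p q b D R n S γ x N (j + M) =
      assPsi p q b D R n S γ x N M * assC p q hb0 hb1 D R n S γ x N M j 0 := by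
  rw [← ass_mix_base p q hb0 hb1 hN, av_fin_zero]
  have h1 := assT_pow (X := Asg N → ℝ) (fun c : Slot q N => slotW p b c) (j + M)
    (assPhi D R n S γ x N) 1
  rw [pow_add, Module.End.mul_apply, assT_pow] at h1
  simp only [assT_pow, one_mul] at h1
  unfold assPsi
  refine Eq.trans ?_ (h1.symm.trans ?_)
  · refine av_congr fun F => ?_
    congr 1
    funext σ
    simp
  · refine av_congr fun H => av_congr fun F => ?_
    congr 1
    funext σ
    simp [assMix]

lemma ass_num (hN : 1 ≤ N) (hD : 1 ≤ D) (M J Kc : ℕ) (hK : Kc ≤ J) :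
    ((N : ℝ) / (N + 1)) ^ Fintype.card (Fam D R × Fin S) * assPsi p q b D R n S γ x N M *
      ∑ K ∈ range (Kc + 1), ((J + M).choose K : ℝ) *
        (3 * ((N : ℝ) / (N + 1)) ^ 2 * (1 / (N + 1))) ^ K * (((N : ℝ) / (N + 1)) ^ 3) ^ (J + M - K) *
        assC p q hb0 hb1 D R n S γ x N M (J - K) K ≤
      assPsi p q b D R n S γ x (N + 1) (J + M) := by
  set P : (Asg (N + 1) → ℝ) → Prop := fun w => ∀ σ, 0 < w σ with hP
  have hmul : ∀ x y, P x → P y → P (x * y) := fun x y hx hy σ => mul_pos (hx σ) (hy σ)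
  set α : Slot q N → Asg (N + 1) → ℝ := fun c σ => slotW p b c (Fin.init σ) with hα
  set β : AssSite q N → Asg (N + 1) → ℝ :=
    fun c σ => assSiteW p b c (Fin.init σ) (σ (Fin.last N)) with hβ
  have hαP : ∀ a, P (α a) := fun c σ => ass_slotW_pos p q hb0 hb1 _ _
  have hβP : ∀ a, P (β a) := fun c σ => ass_siteW_pos p q hb0 hb1 _ _ _
  have hΦ : ∀ w, P w → 0 ≤ assPhi D R n S γ x (N + 1) w := fun w hw =>
    assPhi_nonneg fun σ => (hw σ).le
  have h1 : P 1 := fun _ => one_pos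
  have pas := ass_pascal hmul (α := α) (β := β) (χ := fun c : Slot q (N + 1) => slotW p b c)
    hαP hβP (fun c σ => ass_slotW_pos p q hb0 hb1 _ _)
    (p0 := ((N : ℝ) / (N + 1)) ^ 3) (p1 := 3 * ((N : ℝ) / (N + 1)) ^ 2 * (1 / (N + 1)))
    (by positivity) (by positivity) (fun Θ hΘ => ass_slot_split p hN hb0.le hb1 Θ hΘ) hΦ
    (J + M) 1 h1
  have e1 : (assT (fun c : Slot q (N + 1) => slotW p b c) ^ (J + M))
      (assPhi D R n S γ x (N + 1)) 1 = assPsi p q b D R n S γ x (N + 1) (J + M) := by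
    rw [assT_pow]
    refine av_congr fun F => ?_
    congr 1
    funext σ
    simp
  rw [e1] at pas
  refine le_trans ?_ (le_trans (Finset.sum_le_sum_of_subset_of_nonneg
    (Finset.range_subset_range.2 (by omega : Kc + 1 ≤ J + M + 1)) fun K _ _ => ?_) pas)
  · rw [Finset.mul_sum]
    refine Finset.sum_le_sum fun K hKm => ?_
    have hK' : K ≤ J := by have := Finset.mem_range.1 hKm; omega
    rw [mul_left_comm]
    refine mul_le_mul_of_nonneg_left ?_ (by positivity)
    rw [mul_assoc, ← ass_mix_base p q hb0 hb1 hN, show J + M - K = (J - K) + M by omega, pow_add,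
      assT_pow, ← av_const_mul]
    refine av_mono fun G => ?_
    rw [Module.End.mul_apply, assT_pow, ← av_const_mul]
    refine av_mono fun H => ?_
    rw [assT_pow, ← av_const_mul]
    refine av_mono fun F => ?_
    refine le_trans (le_of_eq ?_) (assPhi_succ hD fun σ => ?_)
    · congr 2
      funext σ
      simp only [assMix, hα, hβ, one_mul, Pi.mul_apply, Finset.prod_apply, Fin.init_snoc,
        Fin.snoc_last, av_mul_const]
      ring
    · simp only [one_mul, Pi.mul_apply, Finset.prod_apply]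
      exact mul_nonneg (mul_nonneg (Finset.prod_nonneg fun k _ => (hβP _ σ).le)
        (Finset.prod_nonneg fun k _ => (hαP _ σ).le)) (Finset.prod_nonneg fun k _ => (hαP _ σ).le)
  · exact mul_nonneg (by positivity)
      (assT_pow_nonneg hmul hβP (assT_pow_nonneg hmul hαP hΦ _) K 1 h1)

end

end Crest.Agent.R153
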