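import Mathlib
import Crest.Agent.R153.Dec
import Crest.Agent.R153.Conc
import Crest.Agent.R153.Upper
import Crest.Agent.R153.ASSAux3

/-!
Row 153: the cavity (Aizenman-Sims-Starr) lower bound.
-/

set_option autoImplicit false

namespace Crest.Agent.R153

open Finset Filter Topology

lemma ass_tendsto_ratio : Tendsto (fun N : ℕ => (N : ℝ) / (N + 1)) atTop (𝓝 1) :=
  tendsto_natCast_div_add_atTop (1 : ℝ)

lemma ass_poisson (a K : ℕ) (ha : 1 ≤ a) :
    Tendsto (fun N : ℕ => ((a * (N + 1)).choose K : ℝ) *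
      (3 * ((N : ℝ) / (N + 1)) ^ 2 * (1 / (N + 1))) ^ K * (((N : ℝ) / (N + 1)) ^ 3) ^ (a * (N + 1)))
      atTop (𝓝 ((3 * a : ℝ) ^ K / K.factorial * Real.exp (-3 * a))) := by
  have hM : Tendsto (fun N : ℕ => a * (N + 1)) atTop atTop :=
    tendsto_atTop_mono (fun N => by simp only [id]; nlinarith) tendsto_id
  refine Tendsto.mul ?_ ?_
  · have h1 := ((isEquivalent_choose K).comp_tendsto hM).mul
      (Asymptotics.IsEquivalent.refl (l := atTop)
        (u := fun N : ℕ => (3 * ((N : ℝ) / (N + 1)) ^ 2 * (1 / (N + 1))) ^ K))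
    refine h1.symm.tendsto_nhds ?_
    have h2 : Tendsto (fun N : ℕ => (3 * a * ((N : ℝ) / (N + 1)) ^ 2) ^ K / K.factorial) atTop
        (𝓝 ((3 * a * 1 ^ 2 : ℝ) ^ K / K.factorial)) :=
      (((ass_tendsto_ratio.pow 2).const_mul _).pow K).div_const _
    rw [one_pow, mul_one] at h2
    refine h2.congr fun N => ?_
    simp only [Function.comp, Pi.mul_apply]
    rw [div_mul_eq_mul_div, ← mul_pow]
    congr 2
    push_cast
    field_simp
  · have h1 : Tendsto (fun N : ℕ => (1 + (-1 : ℝ) / ((N + 1 : ℕ) : ℝ)) ^ (N + 1)) atTop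
        (𝓝 (Real.exp (-1))) :=
      (Real.tendsto_one_add_div_pow_exp (-1)).comp (tendsto_add_atTop_nat 1)
    have h2 := h1.pow (3 * a)
    rw [← Real.exp_nat_mul] at h2
    have e : ((3 * a : ℕ) : ℝ) * -1 = -3 * a := by push_cast; ring
    rw [e] at h2
    refine h2.congr fun N => ?_
    rw [← pow_mul, ← pow_mul]
    congr 1
    · push_cast
      field_simp
      ring
    · ring

lemma ass_tail_aux {u v : ℕ → ℝ} (hu : Summable u) (hv : Summable v) (h : ∀ K, v K ≤ u K)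
    {c t : ℝ} (hc0 : 0 ≤ c) (hc1 : c ≤ 1) (ht : 0 ≤ t) {n : ℕ} (hn : ∑' K, u (K + n) < t) :
    c * ∑' K, v K - t ≤ ∑ K ∈ range n, c * v K := by
  have htail := Summable.tsum_le_tsum (fun K => h (K + n))
    ((summable_nat_add_iff n).2 hv) ((summable_nat_add_iff n).2 hu)
  rw [← hv.sum_add_tsum_nat_add n, mul_add, Finset.mul_sum]
  have := mul_le_mul_of_nonneg_left (htail.trans hn.le) hc0
  have := mul_le_mul_of_nonneg_right hc1 ht
  linarith

lemma ass_tail (a p q : ℕ) {b : ℝ} (hb0 : 0 < b) (hb1 : b < 1) {t : ℝ} (ht : 0 < t) :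
    ∃ Dc : ℕ, ∀ (D : ℕ) (Ξ : Type) [Fintype Ξ] [Nonempty Ξ] (X : Filt Ξ D) (f : Ξ → Bool)
      (γ : ℕ → ℝ), Adm γ → rho a p q b γ X f - t ≤
        ∑ K ∈ range (Dc + 1), (3 * a : ℝ) ^ K / K.factorial * Real.exp (-3 * a) *
          (siteS p q b γ X f K * (edgeE p q b γ X f ^ a / edgeE p q b γ X f ^ K)) := by
  have h : 0 < 1 - b := by linarith
  obtain ⟨u, hu⟩ : ∃ u : ℕ → ℝ, u = fun K => (3 * a / (1 - b) : ℝ) ^ K / K.factorial := ⟨_, rfl⟩
  have hus : Summable u := hu ▸ Real.summable_pow_div_factorial _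
  obtain ⟨Dc, hDc'⟩ : ∃ Dc : ℕ, ∑' K, u (K + (Dc + 1)) < t := by
    obtain ⟨n, hn⟩ := eventually_atTop.1 ((tendsto_sum_nat_add u).eventually_lt_const ht)
    exact ⟨n, hn (n + 1) (Nat.le_succ n)⟩
  refine ⟨Dc, fun D Ξ _ _ X f γ hγ => ?_⟩
  have hs := rho_summable p q a hb0 hb1 hγ X f
  have he := edgeE_mem p q hb0 hb1 hγ X f
  have hS := siteS_mem p q hb0 hb1 hγ X f
  unfold rho
  generalize edgeE p q b γ X f = e at *
  generalize siteS p q b γ X f = S at *
  have hterm : ∀ K : ℕ, (3 * a : ℝ) ^ K / K.factorial * S K * (e ^ a / e ^ K) ≤ u K := by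
    intro K
    have e0 : 0 < e := h.trans_le he.1
    have h1 : e ^ a / e ^ K ≤ 1 / (1 - b) ^ K :=
      div_le_div₀ zero_le_one (pow_le_one₀ e0.le he.2) (pow_pos h _) (pow_le_pow_left₀ h.le he.1 _)
    calc _ ≤ (3 * a : ℝ) ^ K / K.factorial * 1 * (1 / (1 - b) ^ K) :=
          mul_le_mul (mul_le_mul_of_nonneg_left (hS K).2 (by positivity)) h1 (by positivity)
            (by positivity)
      _ = u K := by simp only [hu, div_pow]; ring
  have hexp : Real.exp (-3 * a) ≤ 1 := Real.exp_le_one_iff.2 (by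
    have : (0 : ℝ) ≤ a := Nat.cast_nonneg a
    linarith)
  refine (ass_tail_aux hus hs hterm (Real.exp_pos _).le hexp ht.le hDc').trans (le_of_eq ?_)
  exact Finset.sum_congr rfl fun K _ => by ring

/-- The purely numerical part of the good step. -/
lemma ass_good_num {a Dc : ℕ} {b δ Z r e ρ : ℝ} (hb1 : b < 1) (hb0 : 0 < b) (hδ0 : 0 < δ)
    (hδ1 : δ < 1) (hZ : 0 < Z) (hr : 1 - δ ≤ r) (he : 1 - b ≤ e) {π π' S : ℕ → ℝ}
    {C : ℕ → ℕ → ℝ} (hπ0 : ∀ K, 0 ≤ π K) (hπ : ∀ K ≤ Dc, (1 - δ) * π K ≤ π' K)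
    (hS : ∀ K, (1 - b) ^ K ≤ S K ∧ S K ≤ 1)
    (hC : ∀ j K, j + K ≤ Dc + a → |C j K - e ^ j * S K| ≤ δ * (1 - b) ^ (Dc + a))
    (hρ0 : 0 ≤ ρ) (hρ : (1 - δ) * ρ ≤ ∑ K ∈ range (Dc + 1), π K * (S K * (e ^ a / e ^ K))) :
    (1 - δ) ^ 5 * ρ * (Z * C Dc 0) ≤ r * Z * ∑ K ∈ range (Dc + 1), π' K * C (Dc + a - K) K := by
  have h : 0 < 1 - b := by linarith
  have h' : 0 < 1 - δ := by linarith
  have e0 : 0 < e := h.trans_le he
  have hlow : ∀ j K, j + K ≤ Dc + a → (1 - b) ^ (Dc + a) ≤ e ^ j * S K := by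
    intro j K hjK
    calc (1 - b) ^ (Dc + a) ≤ (1 - b) ^ (j + K) := pow_le_pow_of_le_one h.le (by linarith) hjK
      _ ≤ e ^ j * S K := by
        rw [pow_add]
        exact mul_le_mul (pow_le_pow_left₀ h.le he _) (hS K).1 (pow_pos h _).le (pow_pos e0 _).le
  have hS0 : S 0 = 1 := le_antisymm (hS 0).2 (by simpa using (hS 0).1)
  have hden : C Dc 0 ≤ (1 + δ) * e ^ Dc := by
    have h1 := (abs_le.1 (hC Dc 0 (by omega))).2
    have h2 := hlow Dc 0 (by omega)
    rw [hS0, mul_one] at h1 h2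
    nlinarith
  have hnum : (1 - δ) ^ 3 * ρ * e ^ Dc ≤ ∑ K ∈ range (Dc + 1), π' K * C (Dc + a - K) K := by
    calc (1 - δ) ^ 3 * ρ * e ^ Dc = (1 - δ) ^ 2 * e ^ Dc * ((1 - δ) * ρ) := by ring
      _ ≤ (1 - δ) ^ 2 * e ^ Dc * ∑ K ∈ range (Dc + 1), π K * (S K * (e ^ a / e ^ K)) :=
        mul_le_mul_of_nonneg_left hρ (by positivity)
      _ ≤ _ := by
        rw [Finset.mul_sum]
        refine Finset.sum_le_sum fun K hK => ?_
        have hK' : K ≤ Dc := by have := Finset.mem_range.1 hK; omega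
        have h1 := (abs_le.1 (hC (Dc + a - K) K (by omega))).1
        have h2 := hlow (Dc + a - K) K (by omega)
        have h3 : (1 - δ) * (e ^ (Dc + a - K) * S K) ≤ C (Dc + a - K) K := by nlinarith
        have h4 : e ^ (Dc + a - K) = e ^ Dc * (e ^ a / e ^ K) := by
          rw [pow_sub₀ _ e0.ne' (by omega), pow_add]; ring
        have h5 : 0 ≤ (1 - δ) * (e ^ (Dc + a - K) * S K) :=
          mul_nonneg h'.le ((pow_pos h _).le.trans h2)
        calc _ = ((1 - δ) * π K) * ((1 - δ) * (e ^ (Dc + a - K) * S K)) := by rw [h4]; ring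
          _ ≤ _ := mul_le_mul (hπ K hK') h3 h5 ((mul_nonneg h'.le (hπ0 K)).trans (hπ K hK'))
  have hE : 0 < e ^ Dc := pow_pos e0 _
  calc (1 - δ) ^ 5 * ρ * (Z * C Dc 0) ≤ (1 - δ) ^ 5 * ρ * (Z * ((1 + δ) * e ^ Dc)) :=
        mul_le_mul_of_nonneg_left (mul_le_mul_of_nonneg_left hden hZ.le) (by positivity)
    _ = ((1 - δ) * (1 + δ)) * ((1 - δ) * Z * ((1 - δ) ^ 3 * ρ * e ^ Dc)) := by ring
    _ ≤ 1 * ((1 - δ) * Z * ((1 - δ) ^ 3 * ρ * e ^ Dc)) :=
        mul_le_mul_of_nonneg_right (by nlinarith) (by positivity)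
    _ ≤ _ := by
        rw [one_mul]
        exact mul_le_mul (mul_le_mul_of_nonneg_right hr hZ.le) hnum (by positivity)
          (mul_nonneg (h'.le.trans hr) hZ.le)

theorem low_bound (a p q : ℕ) (ha : 1 ≤ a) (b m : ℝ) (hb0 : 0 < b) (hb1 : b < 1) (hm0 : 0 < m)
    (hm1 : m < 1)
    (hall : ∀ (D : ℕ) (Ξ : Type) [Fintype Ξ] [Nonempty Ξ] (X : Filt Ξ D) (f : Ξ → Bool)
      (γ : ℕ → ℝ), 1 ≤ D → Adm γ → ∏ d ∈ range D, γ d = m → 1 ≤ (2 : ℝ) ^ m * rho a p q b γ X f)
    (κ : ℝ) (hκ : 0 < κ) :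
    ∀ᶠ N : ℕ in Filter.atTop, Real.exp (-κ * N) ≤ (2 : ℝ) ^ (m * N) * Psi p q b m N (a * N) := by
  have h : 0 < 1 - b := by linarith
  obtain ⟨δ, hδ0, hδ1, hδ⟩ : ∃ δ : ℝ, 0 < δ ∧ δ < 1 ∧ (1 - δ) ^ 5 = Real.exp (-(κ / 4)) := by
    refine ⟨1 - Real.exp (-(κ / 20)), ?_, ?_, ?_⟩
    · have : Real.exp (-(κ / 20)) < 1 := Real.exp_lt_one_iff.2 (by linarith)
      linarith
    · have := Real.exp_pos (-(κ / 20))
      linarith
    · rw [sub_sub_cancel, ← Real.exp_nat_mul]
      congr 1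
      push_cast
      ring
  have h' : 0 < 1 - δ := by linarith
  set ρ : ℝ := (2 : ℝ) ^ (-m) with hρ
  have hρ0 : 0 < ρ := Real.rpow_pos_of_pos two_pos _
  obtain ⟨Dc, hDc⟩ := ass_tail a p q hb0 hb1 (mul_pos hδ0 hρ0)
  obtain ⟨D, R, γ, ε, hD, hγ0, hγ1, hγm, hε, hdec⟩ := dec m ((1 - b) ^ (Dc + a))
    (δ * (1 - b) ^ (Dc + a)) hm0 hm1 (pow_pos h _) (pow_le_one₀ h.le (by linarith))
    (mul_pos hδ0 (pow_pos h _)) (3 * (Dc + a))
  set π : ℕ → ℝ := fun K => (3 * a : ℝ) ^ K / K.factorial * Real.exp (-3 * a) with hπ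
  have hπ0 : ∀ K, 0 < π K := fun K => by
    have : (0 : ℝ) < a := by exact_mod_cast ha
    simp only [hπ]; positivity
  set c0 : ℝ := (1 - δ) * ((1 - δ) * π 0) * (1 - b) ^ (Dc + a) with hc0
  have hc0pos : 0 < c0 := mul_pos (mul_pos h' (mul_pos h' (hπ0 0))) (pow_pos h _)
  set lc : ℝ := |Real.log c0| + 1 with hlc
  have hlc0 : 0 < lc := by positivity
  obtain ⟨n, hn⟩ := gg_grid D R γ ε (κ / 4 / lc) hγ0 hγ1.le hε (by positivity)
  have hn := hn n le_rfl
  set H : ℕ := Fintype.card (Fam D R × Fin (n ^ 4)) with hH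
  -- the threshold
  have ev1 : ∀ᶠ N : ℕ in atTop, 1 - δ ≤ ((N : ℝ) / (N + 1)) ^ H := by
    have := ass_tendsto_ratio.pow H
    rw [one_pow] at this
    exact this.eventually_const_le (by linarith)
  have ev2 : ∀ᶠ N : ℕ in atTop, ∀ K ∈ range (Dc + 1), (1 - δ) * π K ≤
      ((a * (N + 1)).choose K : ℝ) * (3 * ((N : ℝ) / (N + 1)) ^ 2 * (1 / (N + 1))) ^ K *
        (((N : ℝ) / (N + 1)) ^ 3) ^ (a * (N + 1)) := by
    rw [Filter.eventually_all_finset]
    intro K _
    exact (ass_poisson a K ha).eventually_const_le (by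
      have := mul_pos hδ0 (hπ0 K)
      change (1 - δ) * π K < π K
      linarith)
  obtain ⟨N0, hN0⟩ := eventually_atTop.1
    ((ev1.and ev2).and ((eventually_ge_atTop 1).and (eventually_ge_atTop Dc)))
  set ψ : (Fam D R → Fin (n ^ 2 + 1)) → ℕ → ℝ := fun g N =>
    assPsi p q b D R n (n ^ 4) γ (gridPt g) N (a * N) with hψ
  have hψ0 : ∀ g N, N0 ≤ N → 0 < ψ g N := fun g N hN =>
    assPsi_pos p q hb0 hb1 (hN0 N hN).2.1 _
  -- one step
  have step : ∀ N, N0 ≤ N → (av fun g => Real.log (ψ g N)) - (m * Real.log 2 + κ / 2) ≤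
      av fun g => Real.log (ψ g (N + 1)) := by
    intro N hN
    obtain ⟨⟨hr, hp⟩, hN1, hNc⟩ := hN0 N hN
    have := ass_lit_nonempty hN1
    obtain ⟨M, hM⟩ : ∃ M, a * N = Dc + M := ⟨a * N - Dc, by
      have : N ≤ a * N := Nat.le_mul_of_pos_left _ ha
      omega⟩
    have hM' : a * (N + 1) = Dc + a + M := by rw [mul_add, hM]; ring
    set π' : ℕ → ℝ := fun K => ((Dc + a + M).choose K : ℝ) *
      (3 * ((N : ℝ) / (N + 1)) ^ 2 * (1 / (N + 1))) ^ K *
        (((N : ℝ) / (N + 1)) ^ 3) ^ (Dc + a + M - K) with hπ'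
    have hp' : ∀ K ≤ Dc, (1 - δ) * π K ≤ π' K := by
      intro K hK
      refine (hp K (Finset.mem_range.2 (by omega))).trans ?_
      rw [hM']
      refine mul_le_mul_of_nonneg_left (pow_le_pow_of_le_one (by positivity) ?_ (by omega))
        (by positivity)
      exact pow_le_one₀ (by positivity) (div_le_one_of_le₀ (by linarith) (by positivity))
    set Bad : (Fam D R → Fin (n ^ 2 + 1)) → Prop := fun g =>
      ¬ GG (assSys p q hb0 hb1 D R n (n ^ 4) γ (gridPt g) N M) (fun y => assLs y.1.2) γ R ε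
      with hBad
    have hbad : (av fun g => ind (Bad g)) ≤ κ / 4 / lc := hn _ _ _ _ _ _
    have pt : ∀ g, Real.log (ψ g N) - (m * Real.log 2 + κ / 4) - lc * ind (Bad g) ≤
        Real.log (ψ g (N + 1)) := by
      intro g
      have hden := ass_den p q hb0 hb1 (D := D) (R := R) (n := n) (S := n ^ 4) (γ := γ)
        (x := gridPt g) hN1 M Dc
      have hnum := ass_num p q hb0 hb1 (D := D) (R := R) (n := n) (S := n ^ 4) (γ := γ)
        (x := gridPt g) hN1 hD M (Dc + a) Dc (by omega)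
      have hZ := assPsi_pos p q hb0 hb1 (D := D) (R := R) (n := n) (S := n ^ 4) (γ := γ)
        (x := gridPt g) hN1 M
      have hCm := assC_mem p q hb0 hb1 (D := D) (R := R) (n := n) (S := n ^ 4) (γ := γ)
        (x := gridPt g) hN1 hγ0 hγ1.le M
      rw [← hM] at hden
      have hnum' : ((N : ℝ) / (N + 1)) ^ H * assPsi p q b D R n (n ^ 4) γ (gridPt g) N M *
          ∑ K ∈ range (Dc + 1), π' K *
            assC p q hb0 hb1 D R n (n ^ 4) γ (gridPt g) N M (Dc + a - K) K ≤ ψ g (N + 1) := by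
        simp only [hψ]
        rw [hM']
        exact hnum
      have hden' : ψ g N = _ := hden
      have hψN := hψ0 g N hN
      have hml : 0 < m * Real.log 2 := mul_pos hm0 (Real.log_pos one_lt_two)
      by_cases hg : Bad g
      · have h1 : c0 * ψ g N ≤ ψ g (N + 1) := by
          refine le_trans ?_ hnum'
          have s1 : (1 - δ) * π 0 * (1 - b) ^ (Dc + a) ≤ ∑ K ∈ range (Dc + 1), π' K *
              assC p q hb0 hb1 D R n (n ^ 4) γ (gridPt g) N M (Dc + a - K) K := by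
            refine le_trans ?_ (Finset.single_le_sum (f := fun K => π' K *
              assC p q hb0 hb1 D R n (n ^ 4) γ (gridPt g) N M (Dc + a - K) K)
              (fun K _ => mul_nonneg (by simp only [hπ']; positivity)
                ((pow_pos h _).le.trans (hCm _ _).1)) (Finset.mem_range.2 (Nat.succ_pos Dc)))
            exact mul_le_mul (hp' 0 (Nat.zero_le _)) (by simpa using (hCm (Dc + a - 0) 0).1)
              (pow_pos h _).le ((mul_pos h' (hπ0 0)).le.trans (hp' 0 (Nat.zero_le _)))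
          have s2 : ψ g N ≤ assPsi p q b D R n (n ^ 4) γ (gridPt g) N M := by
            rw [hden']
            exact mul_le_of_le_one_right hZ.le (hCm _ _).2
          calc c0 * ψ g N = (1 - δ) * ψ g N * ((1 - δ) * π 0 * (1 - b) ^ (Dc + a)) := by
                simp only [hc0]; ring
            _ ≤ _ := mul_le_mul (mul_le_mul hr s2 hψN.le (h'.le.trans hr)) s1
                (mul_pos (mul_pos h' (hπ0 0)) (pow_pos h _)).le
                (mul_nonneg (h'.le.trans hr) hZ.le)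
        have h2 := Real.log_le_log (mul_pos hc0pos hψN) h1
        rw [Real.log_mul hc0pos.ne' hψN.ne'] at h2
        have h3 := neg_abs_le (Real.log c0)
        rw [ind_pos hg]
        linarith
      · obtain ⟨γ', hγ', hm', hd⟩ := hdec _ _ _ _ (not_not.1 hg)
        set X := (assSys p q hb0 hb1 D R n (n ^ 4) γ (gridPt g) N M).prod
          (Filt.coin (Lit N) D 0) with hX
        have hall' := hall D _ X (fun x => assLs x.1.1.2 x.2) γ' hD hγ' hm'
        have htail := hDc D _ X (fun x => assLs x.1.1.2 x.2) γ' hγ'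
        have hρle : ρ ≤ rho a p q b γ' X fun x => assLs x.1.1.2 x.2 := by
          have h2 : (0 : ℝ) < 2 ^ m := Real.rpow_pos_of_pos two_pos _
          rw [hρ, Real.rpow_neg two_pos.le, inv_eq_one_div, div_le_iff₀' h2]
          exact hall'
        have hC : ∀ j K, j + K ≤ Dc + a →
            |assC p q hb0 hb1 D R n (n ^ 4) γ (gridPt g) N M j K -
              edgeE p q b γ' X (fun x => assLs x.1.1.2 x.2) ^ j *
                siteS p q b γ' X (fun x => assLs x.1.1.2 x.2) K| ≤ δ * (1 - b) ^ (Dc + a) :=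
          fun j K hjK => ass_mix_close p q j K hb0.le hb1.le (fun _ => γ) γ'
            (assSys p q hb0 hb1 D R n (n ^ 4) γ (gridPt g) N M) (fun y => y.1.2) hjK hd
        have hρ' : (1 - δ) * ρ ≤ rho a p q b γ' X (fun x => assLs x.1.1.2 x.2) - δ * ρ := by
          rw [sub_mul, one_mul]
          exact sub_le_sub_right hρle _
        have h1 := ass_good_num (a := a) (Dc := Dc) hb1 hb0 hδ0 hδ1 hZ hr
          (edgeE_mem p q hb0 hb1 hγ' X fun x => assLs x.1.1.2 x.2).1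
          (π := π) (π' := π') (fun K => (hπ0 K).le) hp'
          (siteS_mem p q hb0 hb1 hγ' X fun x => assLs x.1.1.2 x.2) hC hρ0.le (hρ'.trans htail)
        rw [← hden', hδ] at h1
        have h2 := Real.log_le_log (by positivity) (h1.trans hnum')
        rw [Real.log_mul (by positivity) hψN.ne', Real.log_mul (by positivity) hρ0.ne',
          Real.log_exp, hρ, Real.log_rpow two_pos] at h2
        rw [ind_neg hg]
        linarith
    have h1 := av_mono pt
    rw [av_sub, av_sub, av_const, av_const_mul] at h1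
    have h2 := mul_le_mul_of_nonneg_left hbad hlc0.le
    rw [mul_div_cancel₀ _ hlc0.ne'] at h2
    linarith
  have iter : ∀ N, N0 ≤ N → (av fun g => Real.log (ψ g N0)) - (N - N0 : ℝ) *
      (m * Real.log 2 + κ / 2) ≤ av fun g => Real.log (ψ g N) := by
    intro N hN
    induction N, hN using Nat.le_induction with
    | base => simp
    | succ N hN ih =>
      have := step N hN
      push_cast
      linarith
  set A : ℝ := av fun g => Real.log (ψ g N0) with hA
  have ev3 : ∀ᶠ N : ℕ in atTop, (H * Real.log 3 - A) / (κ / 2) ≤ (N : ℝ) :=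
    tendsto_natCast_atTop_atTop.eventually (eventually_ge_atTop _)
  filter_upwards [ev3, eventually_ge_atTop N0] with N h3 hN
  have hN1 := (hN0 N hN).2.1
  have := ass_lit_nonempty hN1
  have hP : 0 < Psi p q b m N (a * N) :=
    av_pos fun F => Real.rpow_pos_of_pos (av_pos fun σ =>
      Finset.prod_pos fun s _ => ass_slotW_pos p q hb0 hb1 _ _) _
  have hup : ∀ g, Real.log (ψ g N) ≤ H * Real.log 3 + Real.log (Psi p q b m N (a * N)) := by
    intro g
    have h1 : ψ g N ≤ 3 ^ H * Psi p q b m N (a * N) := by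
      unfold Psi
      rw [← av_const_mul, ← hγm]
      refine av_mono fun F => (assPhi_cmp hN1 hD hγ0 hγ1.le (fun φ => ⟨?_, ?_⟩) fun σ =>
        Finset.prod_pos fun s _ => ass_slotW_pos p q hb0 hb1 _ _).2
      · unfold gridPt; positivity
      · unfold gridPt
        refine div_le_one_of_le₀ ?_ (by positivity)
        exact_mod_cast Nat.lt_succ_iff.1 (g φ).2
    have h2 := Real.log_le_log (hψ0 g N hN) h1
    rwa [Real.log_mul (by positivity) hP.ne', Real.log_pow] at h2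
  have h4 := (iter N hN).trans (av_le_of_le hup)
  rw [div_le_iff₀ (by positivity)] at h3
  have hml : 0 < m * Real.log 2 := mul_pos hm0 (Real.log_pos one_lt_two)
  have h5 : 0 ≤ (N0 : ℝ) * (m * Real.log 2 + κ / 2) := by positivity
  rw [← Real.exp_log hP, Real.rpow_def_of_pos two_pos, ← Real.exp_add, Real.exp_le_exp]
  nlinarith

end Crest.Agent.R153
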