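import Mathlib
import Crest.Agent.R153.Av

/-!
Row 153, cavity step: abstract resampling lemmas and elementary inequalities.
-/

set_option autoImplicit false

namespace Crest.Agent.R153

open Finset

/-- Marginal of a uniform element of a dependent product. -/
lemma cav_av_eval {ι : Type*} [Fintype ι] [DecidableEq ι] {A : ι → Type*} [∀ i, Fintype (A i)]
    [∀ i, Nonempty (A i)] (i : ι) (g : A i → ℝ) :
    (av fun y : ∀ i, A i => g (y i)) = av g := by
  rw [← av_equiv (Equiv.piSplitAt i A).symm, av_prod]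
  simp [Equiv.piSplitAt]

/-- Resampling a point inside its class does not change the uniform law. -/
lemma cav_slot {α ι : Type*} [Fintype α] [Fintype ι] [DecidableEq ι] (ty : α → Option ι)
    [∀ i, Nonempty {c // ty c = some i}] (f : α → ℝ) :
    (av fun c : α => av fun y : ∀ i, {c // ty c = some i} =>
      f ((ty c).elim c fun i => (y i).1)) = av f := by
  classical
  have h1 : ∀ c : α, (av fun y : ∀ i, {c // ty c = some i} =>
      f ((ty c).elim c fun i => (y i).1)) =
      (ty c).elim (f c) fun i => av fun x : {c // ty c = some i} => f x.1 := by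
    intro c
    cases h : ty c with
    | none => simp
    | some i =>
      simp only [Option.elim]
      exact cav_av_eval (A := fun i => {c // ty c = some i}) i (fun x => f x.1)
  simp only [h1]
  unfold av
  congr 1
  rw [← Finset.sum_fiberwise (s := univ) (g := ty), ← Finset.sum_fiberwise (s := univ) (g := ty)
    (f := f)]
  refine Finset.sum_congr rfl fun o _ => ?_
  cases o with
  | none =>
    refine Finset.sum_congr rfl fun c hc => ?_
    rw [(Finset.mem_filter.1 hc).2]; rfl
  | some i =>
    have : ∀ c ∈ univ.filter (fun c => ty c = some i),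
        ((ty c).elim (f c) fun i => (∑ x : {c // ty c = some i}, f x.1) /
          (Fintype.card {c // ty c = some i} : ℝ)) =
        (∑ x : {c // ty c = some i}, f x.1) / (Fintype.card {c // ty c = some i} : ℝ) := by
      intro c hc
      rw [(Finset.mem_filter.1 hc).2]; rfl
    rw [Finset.sum_congr rfl this, Finset.sum_const, nsmul_eq_mul, ← Fintype.card_subtype]
    have hc : (Fintype.card {c // ty c = some i} : ℝ) ≠ 0 := by
      exact_mod_cast Fintype.card_ne_zero
    rw [mul_div_cancel₀ _ hc]
    exact (Finset.sum_subtype _ (by simp) f).symm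

/-- A measure preserving map acts coordinatewise as a measure preserving map. -/
lemma cav_pi_push {α β : Type*} [Fintype α] [Fintype β] (m : β → α)
    (hm : ∀ f : α → ℝ, (av fun b => f (m b)) = av f) :
    ∀ (T : ℕ) (f : (Fin T → α) → ℝ), (av fun x : Fin T → β => f fun s => m (x s)) = av f := by
  intro T
  induction T with
  | zero =>
    intro f
    rw [av_fin_zero, av_fin_zero]
    congr 1
    funext s; exact s.elim0
  | succ T ih =>
    intro f
    rw [av_fin_cons, av_fin_cons f]
    have : ∀ (b : β) (x : Fin T → β), (fun s => m ((Fin.cons b x : Fin (T + 1) → β) s)) =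
        Fin.cons (m b) (fun s => m (x s)) := by
      intro b x
      funext s
      refine Fin.cases ?_ (fun s => ?_) s <;> simp
    simp only [this]
    have h2 : ∀ b : β, (av fun x : Fin T → β => f (Fin.cons (m b) fun s => m (x s))) =
        av fun G : Fin T → α => f (Fin.cons (m b) G) := fun b =>
      ih (fun G => f (Fin.cons (m b) G))
    simp only [h2]
    exact hm (fun c => av fun G : Fin T → α => f (Fin.cons c G))

/-- Resampling all typed slots. -/
lemma cav_resample {α ι : Type*} [Fintype α] [Fintype ι] [DecidableEq ι] (ty : α → Option ι)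
    [∀ i, Nonempty {c // ty c = some i}] (T : ℕ) (f : (Fin T → α) → ℝ) :
    av f = av fun G : Fin T → α => av fun Z : ∀ i, Fin T → {c // ty c = some i} =>
      f fun s => (ty (G s)).elim (G s) fun i => (Z i s).1 := by
  classical
  have h := cav_pi_push (β := α × ∀ i, {c // ty c = some i})
    (fun b => (ty b.1).elim b.1 fun i => (b.2 i).1)
    (fun g => by rw [av_prod]; exact cav_slot ty g) T f
  rw [← h, ← av_equiv (Equiv.arrowProdEquivProdArrow _ _ _).symm, av_prod]
  refine av_congr fun G => ?_
  rw [← av_equiv (Equiv.piComm (fun (i : ι) (_ : Fin T) => {c // ty c = some i}))]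
  rfl

lemma cav_prod_le_sum_pow {q : ℕ} (hq : 1 ≤ q) (φ : Fin q → ℝ) (h : ∀ i, 0 ≤ φ i) :
    ∏ i, φ i ≤ ∑ i, φ i ^ q := by
  have : Nonempty (Fin q) := ⟨⟨0, hq⟩⟩
  obtain ⟨i, -, hi⟩ := Finset.exists_max_image univ φ Finset.univ_nonempty
  calc ∏ i, φ i ≤ ∏ _i : Fin q, φ i :=
        Finset.prod_le_prod (fun i _ => h i) (fun i' _ => hi i' (mem_univ _))
    _ = φ i ^ q := by simp
    _ ≤ _ := Finset.single_le_sum (f := fun i => φ i ^ q) (fun i _ => pow_nonneg (h i) _)
        (mem_univ i)

lemma cav_sum_pow_le {q : ℕ} (T : ℕ) (x : ℕ → ℝ) (h : ∀ r, 0 ≤ x r) (hq : 1 ≤ q) :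
    (∑ r ∈ range T, x r) ^ q ≤ ∑ r ∈ range T, (2 ^ (r + 1) * x r) ^ q := by
  rcases Nat.eq_zero_or_pos T with rfl | hT
  · simp [show q ≠ 0 by omega]
  obtain ⟨i, hiT, hi⟩ := Finset.exists_max_image (range T) (fun r => 2 ^ (r + 1) * x r)
    ⟨0, mem_range.2 hT⟩
  have h0 : 0 ≤ 2 ^ (i + 1) * x i := mul_nonneg (by positivity) (h i)
  have h1 : ∑ r ∈ range T, x r ≤ 2 ^ (i + 1) * x i := by
    calc ∑ r ∈ range T, x r ≤ ∑ r ∈ range T, (1 / 2 : ℝ) ^ (r + 1) * (2 ^ (i + 1) * x i) := by
          refine Finset.sum_le_sum fun r hr => ?_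
          calc x r = (1 / 2 : ℝ) ^ (r + 1) * (2 ^ (r + 1) * x r) := by
                rw [← mul_assoc, ← mul_pow]; norm_num
            _ ≤ _ := mul_le_mul_of_nonneg_left (hi r hr) (by positivity)
      _ = (∑ r ∈ range T, (1 / 2 : ℝ) ^ (r + 1)) * (2 ^ (i + 1) * x i) := by
          rw [Finset.sum_mul]
      _ ≤ 1 * (2 ^ (i + 1) * x i) := by
          refine mul_le_mul_of_nonneg_right ?_ h0
          have := sum_geometric_two_le T
          simp only [pow_succ, ← Finset.sum_mul]
          linarith
      _ = _ := one_mul _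
  calc (∑ r ∈ range T, x r) ^ q ≤ (2 ^ (i + 1) * x i) ^ q :=
        pow_le_pow_left₀ (Finset.sum_nonneg fun r _ => h r) h1 q
    _ ≤ _ := Finset.single_le_sum (f := fun r => (2 ^ (r + 1) * x r) ^ q)
        (fun r _ => pow_nonneg (mul_nonneg (by positivity) (h r)) _) hiT

lemma cav_sum_div_lt (t : ℕ) (ht : 1 ≤ t) (d : ℕ) : ∑ r ∈ range d, t / 2 ^ (r + 1) < t := by
  have h : 2 ^ d * (∑ r ∈ range d, t / 2 ^ (r + 1)) + t ≤ 2 ^ d * t := by
    induction d with
    | zero => simp
    | succ d ih =>
      rw [Finset.sum_range_succ, mul_add]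
      have h1 : 2 ^ (d + 1) * (t / 2 ^ (d + 1)) ≤ t := Nat.mul_div_le _ _
      have h2 : 2 ^ (d + 1) * (∑ r ∈ range d, t / 2 ^ (r + 1)) =
          2 * (2 ^ d * (∑ r ∈ range d, t / 2 ^ (r + 1))) := by ring
      have h3 : 2 ^ (d + 1) * t = 2 * (2 ^ d * t) := by ring
      omega
  by_contra hc
  push Not at hc
  have := Nat.mul_le_mul_left (2 ^ d) hc
  omega

/-- Telescoping: a total drop of `t` forces a drop of more than `t / 2 ^ (r + 1)` at some step. -/
lemma cav_telescope (t : ℕ) (ht : 1 ≤ t) (d : ℕ) (H : ℕ → ℕ) (h : H d + t ≤ H 0) :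
    ∃ r < d, H (r + 1) + (t / 2 ^ (r + 1) + 1) ≤ H r := by
  by_contra hc
  push Not at hc
  have key : ∀ d' ≤ d, H 0 ≤ H d' + ∑ r ∈ range d', t / 2 ^ (r + 1) := by
    intro d' hd'
    induction d' with
    | zero => simp
    | succ d' ih =>
      rw [Finset.sum_range_succ]
      have h1 := ih (by omega)
      have h2 := hc d' (by omega)
      omega
  have h1 := key d le_rfl
  have h2 := cav_sum_div_lt t ht d
  omega

end Crest.Agent.R153
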