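import Mathlib
import Crest.Agent.R153.SatDefs

/-!
Row 153: hitting times, the hazard bound and the level-zero moment bound.
-/

set_option autoImplicit false

namespace Crest.Agent.R153

open Finset Crest.ProbabilityR.RandomSAT

section
variable {k n T : ℕ} {j : ℕ} {e e' : Asg n → ℕ} {F : Fin T → Clause k n}

theorem clause_nonempty (h : k ≤ n) : Nonempty (Clause k n) :=
  ⟨(⟨Fin.castLE h, Fin.castLE_injective h⟩, fun _ => true)⟩

theorem violUpTo_mono (F : Fin T → Clause k n) {m m' : ℕ} (h : m ≤ m') (σ : Asg n) :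
    violUpTo F m σ ≤ violUpTo F m' σ := by
  classical
  unfold violUpTo
  refine card_le_card fun s hs => ?_
  simp only [mem_filter, mem_univ, true_and] at hs ⊢
  exact ⟨by omega, hs.2⟩

theorem Alive.anti {m m' : ℕ} {σ : Asg n} (h : Alive j e F m' σ) (hm : m ≤ m') :
    Alive j e F m σ := by
  unfold Alive at h ⊢
  have := violUpTo_mono F hm σ
  omega

theorem hit_le (j : ℕ) (e : Asg n → ℕ) (F : Fin T → Clause k n) : hit j e F ≤ T := by
  classical
  unfold hit
  exact (card_filter_le _ _).trans (card_range T).le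

theorem lt_hit_iff {m : ℕ} : m < hit j e F ↔ m < T ∧ ∃ σ, Alive j e F m σ := by
  classical
  unfold hit
  constructor
  · intro h
    by_contra hc
    refine absurd h (not_lt.2 ?_)
    refine (card_le_card (t := range m) fun m' hm' => ?_).trans (card_range m).le
    simp only [mem_filter, mem_range] at hm' ⊢
    obtain ⟨h1, σ, hσ⟩ := hm'
    by_contra h2
    exact hc ⟨by omega, σ, hσ.anti (by omega)⟩
  · rintro ⟨h1, σ, hσ⟩
    refine lt_of_lt_of_le (b := (range (m + 1)).card) (by simp) (card_le_card fun m' hm' => ?_)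
    simp only [mem_filter, mem_range] at hm' ⊢
    exact ⟨by omega, σ, hσ.anti (by omega)⟩

theorem hit_eq_sum (j : ℕ) (e : Asg n → ℕ) (F : Fin T → Clause k n) :
    (hit j e F : ℝ) = ∑ m ∈ range T, ind (∃ σ, Alive j e F m σ) := by
  classical
  unfold hit
  simp only [ind_eq_ite, Finset.sum_boole]

theorem hit_anti (j : ℕ) (F : Fin T → Clause k n) (h : ∀ σ, e σ ≤ e' σ) :
    hit j e' F ≤ hit j e F := by
  by_contra hc
  push Not at hc
  obtain ⟨h1, σ, hσ⟩ := lt_hit_iff.1 hc
  refine lt_irrefl _ (lt_hit_iff.2 ⟨h1, σ, ?_⟩)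
  unfold Alive at hσ ⊢
  have := h σ
  omega

lemma haz_mem_Frz {t : ℕ} {l : Lit n} (h : l ∈ Frz j e F t) : (1 ≤ t ∧ t ≤ hit j e F ∧
      ∀ σ, Alive j e F (hit j e F - t) σ → e σ + violUpTo F (hit j e F - t) σ = j) ∧
      ∀ σ, Alive j e F (hit j e F - t) σ → σ l.1 ≠ l.2 := by
  classical
  unfold Frz at h
  split_ifs at h with h1
  · exact ⟨h1, (mem_filter.1 h).2⟩
  · simp at h

lemma haz_lit_eq {σ : Asg n} {l l' : Lit n} (h1 : σ l.1 ≠ l.2) (h2 : σ l'.1 ≠ l'.2)
    (h : l.1 = l'.1) : l = l' := by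
  refine Prod.ext h ?_
  rw [← h] at h2
  revert h1 h2
  cases σ l.1 <;> cases l.2 <;> cases l'.2 <;> simp

/-- At most one literal per variable is frozen. -/
theorem Frz_inj {t : ℕ} {l l' : Lit n} (hl : l ∈ Frz j e F t) (hl' : l' ∈ Frz j e F t)
    (h : l.1 = l'.1) : l = l' := by
  obtain ⟨⟨h1, h2, -⟩, h3⟩ := haz_mem_Frz hl
  obtain ⟨-, σ, hσ⟩ := lt_hit_iff.1 (show hit j e F - t < hit j e F by omega)
  exact haz_lit_eq (h3 σ hσ) ((haz_mem_Frz hl').2 σ hσ) h

theorem card_Frz_le (j : ℕ) (e : Asg n → ℕ) (F : Fin T → Clause k n) (t : ℕ) :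
    (Frz j e F t).card ≤ n := by
  calc (Frz j e F t).card ≤ (univ : Finset (Fin n)).card :=
        card_le_card_of_injOn (fun l => l.1) (fun _ _ => mem_coe.2 (mem_univ _))
          fun l hl l' hl' h => Frz_inj hl hl' h
    _ = n := by simp

/-- If adding, at time `0`, a `{0,1}`-valued penalty that vanishes whenever the literal `l` is true
costs at least `t ≥ 1` steps, then `l` is frozen `t` steps before the hitting time. -/
theorem mem_Frz_of_cost {a : Asg n → ℕ} (ha : ∀ σ, a σ ≤ 1) {t : ℕ} (ht : 1 ≤ t)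
    (hc : hit j (fun σ => e σ + a σ) F + t ≤ hit j e F) {l : Lit n}
    (hl : ∀ σ : Asg n, σ l.1 = l.2 → a σ = 0) : l ∈ Frz j e F t := by
  classical
  have hT := hit_le j e F
  have hdead : ∀ σ, j < e σ + a σ + violUpTo F (hit j e F - t) σ := by
    intro σ
    by_contra h
    have : hit j e F - t < hit j (fun σ => e σ + a σ) F :=
      lt_hit_iff.2 ⟨by omega, σ, not_lt.1 h⟩
    omega
  unfold Frz
  rw [if_pos]
  · refine mem_filter.2 ⟨mem_univ _, fun σ hσ h => ?_⟩
    have h1 := hdead σ
    have h2 := hl σ h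
    unfold Alive at hσ
    omega
  · refine ⟨ht, by omega, fun σ hσ => ?_⟩
    have h1 := hdead σ
    have h2 := ha σ
    unfold Alive at hσ
    omega

lemma haz_av_viol (hn : k ≤ n) (σ : Asg n) :
    (av fun c : Clause k n => ind (¬ ClauseSat σ c)) = 1 / 2 ^ k := by
  classical
  have : Nonempty {v : Fin k → Fin n // Function.Injective v} :=
    ⟨⟨Fin.castLE hn, Fin.castLE_injective hn⟩⟩
  rw [av_prod]
  have h1 : ∀ v : {v : Fin k → Fin n // Function.Injective v},
      (av fun b : Fin k → Bool => ind (¬ ClauseSat σ (v, b))) = 1 / 2 ^ k := by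
    intro v
    have h2 : ∀ b : Fin k → Bool, ind (¬ ClauseSat σ (v, b)) = ∏ i, ind (σ (v.1 i) ≠ b i) := by
      intro b
      rw [← ind_forall]
      exact ind_congr (by simp [ClauseSat])
    simp only [h2]
    rw [av_pi_prod (fun (i : Fin k) (x : Bool) => ind (σ (v.1 i) ≠ x))]
    have h3 : ∀ i, (av fun x : Bool => ind (σ (v.1 i) ≠ x)) = 1 / 2 := by
      intro i
      rw [av_bool]
      cases σ (v.1 i) <;> simp [ind_eq_ite]
    simp [h3]
  simp only [h1, av_const]

lemma haz_av_half (hn : k ≤ n) (σ : Asg n) {m : ℕ} (hm : m ≤ T) :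
    (av fun F : Fin T → Clause k n => (1 / 2 : ℝ) ^ violUpTo F m σ) =
      (1 - 1 / 2 ^ (k + 1) : ℝ) ^ m := by
  classical
  have := clause_nonempty hn
  have h1 : ∀ F : Fin T → Clause k n, (1 / 2 : ℝ) ^ violUpTo F m σ =
      ∏ s : Fin T, (if (s : ℕ) < m then 1 - 1 / 2 * ind (¬ ClauseSat σ (F s)) else 1) := by
    intro F
    unfold violUpTo
    rw [← prod_const, prod_filter]
    refine prod_congr rfl fun s _ => ?_
    by_cases h1 : (s : ℕ) < m <;> by_cases h2 : ClauseSat σ (F s) <;>
      simp [h1, h2, ind_pos, ind_neg]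
    norm_num
  simp only [h1]
  rw [av_pi_prod (fun (s : Fin T) (c : Clause k n) =>
    if (s : ℕ) < m then 1 - 1 / 2 * ind (¬ ClauseSat σ c) else 1)]
  have h2 : ∀ s : Fin T, (av fun c : Clause k n =>
      if (s : ℕ) < m then 1 - 1 / 2 * ind (¬ ClauseSat σ c) else 1) =
      if (s : ℕ) < m then (1 - 1 / 2 ^ (k + 1) : ℝ) else 1 := by
    intro s
    split_ifs
    · rw [av_sub, av_const, av_const_mul, haz_av_viol hn, pow_succ]; ring
    · simp
  simp only [h2]
  rw [← prod_filter, prod_const, Fin.card_filter_val_lt, min_eq_right hm]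

/-- First-moment tail bound for the hitting time. -/
theorem hit_tail (hn : k ≤ n) (hj : j ≤ n) (e : Asg n → ℕ) (T m : ℕ) :
    (av fun F : Fin T → Clause k n => ind (m < hit j e F)) ≤
      4 ^ n * (1 - 1 / 2 ^ (k + 1) : ℝ) ^ m := by
  have hρ0 : (0 : ℝ) ≤ 1 - 1 / 2 ^ (k + 1) := by
    have : (1 : ℝ) / 2 ^ (k + 1) ≤ 1 := by
      rw [div_le_one (by positivity)]; exact one_le_pow₀ (by norm_num)
    linarith
  by_cases hm : m < T
  · calc _ ≤ av fun F : Fin T → Clause k n =>
          ∑ σ : Asg n, 2 ^ n * (1 / 2 : ℝ) ^ violUpTo F m σ := by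
          refine av_mono fun F => ?_
          by_cases h : m < hit j e F
          · rw [ind_pos h]
            obtain ⟨-, σ, hσ⟩ := lt_hit_iff.1 h
            refine le_trans ?_ (single_le_sum
              (f := fun σ : Asg n => 2 ^ n * (1 / 2 : ℝ) ^ violUpTo F m σ)
              (fun σ _ => by positivity) (mem_univ σ))
            unfold Alive at hσ
            calc (1 : ℝ) = 2 ^ n * (1 / 2) ^ n := by rw [← mul_pow]; norm_num
              _ ≤ _ := mul_le_mul_of_nonneg_left
                  (pow_le_pow_of_le_one (by norm_num) (by norm_num) (by omega)) (by positivity)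
          · rw [ind_neg h]; positivity
      _ = _ := by
          rw [av_sum]
          simp only [av_const_mul, haz_av_half hn _ hm.le, sum_const, card_univ, nsmul_eq_mul]
          rw [← mul_assoc]
          congr 1
          simp only [Fintype.card_pi, Fintype.card_bool, prod_const, card_univ, Fintype.card_fin]
          push_cast
          rw [← mul_pow]; norm_num
  · refine av_le_of_le' (by positivity) fun F => ?_
    rw [ind_neg]
    · positivity
    · have := hit_le j e F
      omega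

lemma haz_viol_zero (F : Fin T → Clause k n) (σ : Asg n) : violUpTo F 0 σ = 0 := by
  simp [violUpTo]

lemma haz_viol_cons (c : Clause k n) (G : Fin T → Clause k n) (m : ℕ) (σ : Asg n) :
    violUpTo (Fin.cons c G : Fin (T + 1) → Clause k n) (m + 1) σ = pen c σ + violUpTo G m σ := by
  classical
  unfold violUpTo pen
  rw [card_filter, card_filter, Fin.sum_univ_succ]
  congr 1
  · by_cases h : ClauseSat σ c <;> simp [h]
  · simp

lemma haz_hit_cons (c : Clause k n) (G : Fin T → Clause k n) {x : ℕ}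
    (h : x + 1 ≤ hit j e (Fin.cons c G : Fin (T + 1) → Clause k n)) :
    x ≤ hit j (fun σ => e σ + pen c σ) G := by
  cases x with
  | zero => exact Nat.zero_le _
  | succ m =>
    obtain ⟨h1, σ, hσ⟩ := lt_hit_iff.1 (show m + 1 < _ from h)
    refine lt_hit_iff.2 ⟨by omega, σ, ?_⟩
    unfold Alive at hσ ⊢
    rw [haz_viol_cons] at hσ
    beta_reduce
    omega

open Classical in
/-- The literals false under all assignments within the budget. -/
noncomputable def hazX (j : ℕ) (e : Asg n → ℕ) : Finset (Lit n) :=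
  univ.filter fun l : Lit n => ∀ σ, e σ ≤ j → σ l.1 ≠ l.2

/-- All assignments within the budget have exhausted it and `β` literals are frozen. -/
def hazHot (j β : ℕ) (e : Asg n → ℕ) : Prop :=
  (∀ σ, e σ ≤ j → e σ = j) ∧ β ≤ (hazX j e).card

lemma hazHot_add {β : ℕ} (h : hazHot j β e) (a : Asg n → ℕ) :
    hazHot j β fun σ => e σ + a σ := by
  classical
  refine ⟨fun σ hσ => ?_, h.2.trans (card_le_card fun l hl => ?_)⟩
  · beta_reduce at hσ ⊢
    have := h.1 σ (by omega)
    omega
  · unfold hazX at hl ⊢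
    simp only [mem_filter, mem_univ, true_and] at hl ⊢
    exact fun σ hσ => hl σ (by omega)

lemma haz_card_clause (k n : ℕ) : Fintype.card (Clause k n) = n.descFactorial k * 2 ^ k := by
  rw [Fintype.card_prod, Fintype.card_congr (Equiv.subtypeInjectiveEquivEmbedding _ _),
    Fintype.card_embedding_eq]
  simp

lemma haz_av_kill (hn : k ≤ n) (X : Finset (Lit n))
    (hX : ∀ l ∈ X, ∀ l' ∈ X, l.1 = l'.1 → l = l') {β : ℕ} (hβ : β ≤ X.card) :
    (av fun c : Clause k n => ind (¬ ∀ p, (c.1.1 p, c.2 p) ∈ X)) ≤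
      1 - (β.descFactorial k : ℝ) / (n.descFactorial k * 2 ^ k) := by
  classical
  have := clause_nonempty hn
  simp only [ind_not]
  rw [av_sub, av_const]
  refine sub_le_sub_left ?_ _
  unfold av
  simp only [ind_eq_ite, Finset.sum_boole]
  rw [haz_card_clause]
  push_cast
  refine div_le_div_of_nonneg_right ?_ (by positivity)
  have h1 : X.card.descFactorial k = (univ : Finset (Fin k ↪ X)).card := by
    rw [card_univ, Fintype.card_embedding_eq, Fintype.card_coe, Fintype.card_fin]
  have h2 : X.card.descFactorial k ≤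
      (univ.filter fun c : Clause k n => ∀ p, (c.1.1 p, c.2 p) ∈ X).card := by
    rw [h1]
    refine card_le_card_of_injOn (fun f => (⟨fun p => (f p).1.1, fun p p' h =>
      f.injective (Subtype.ext (hX _ (f p).2 _ (f p').2 h))⟩, fun p => (f p).1.2)) ?_ ?_
    · intro f _
      exact mem_coe.2 (mem_filter.2 ⟨mem_univ _, fun p => (f p).2⟩)
    · intro f _ f' _ h
      ext p : 1
      simp only [Prod.mk.injEq, Subtype.mk.injEq] at h
      exact Subtype.ext (Prod.ext (congrFun h.1 p) (congrFun h.2 p))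
  exact_mod_cast (Nat.descFactorial_le k hβ).trans h2

lemma haz_rate_nonneg (hn : k ≤ n) {β : ℕ} (hβn : β ≤ n) :
    0 ≤ 1 - (β.descFactorial k : ℝ) / (n.descFactorial k * 2 ^ k) := by
  have h1 : (0 : ℝ) < n.descFactorial k := by exact_mod_cast Nat.descFactorial_pos.2 hn
  have h2 : (β.descFactorial k : ℝ) ≤ n.descFactorial k := by
    exact_mod_cast Nat.descFactorial_le k hβn
  rw [sub_nonneg, div_le_one (by positivity)]
  exact h2.trans (le_mul_of_one_le_right h1.le (one_le_pow₀ (by norm_num)))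

lemma haz_A (hn : k ≤ n) (j : ℕ) {β : ℕ} (hβn : β ≤ n) : ∀ (T t : ℕ) (e : Asg n → ℕ),
    hazHot j β e → (av fun F : Fin T → Clause k n => ind (t ≤ hit j e F)) ≤
      (1 - (β.descFactorial k : ℝ) / (n.descFactorial k * 2 ^ k)) ^ (t - 1) := by
  classical
  have h0 := haz_rate_nonneg hn hβn
  intro T
  induction T with
  | zero =>
    intro t e _
    refine av_le_of_le' (pow_nonneg h0 _) fun F => ?_
    by_cases h : t ≤ hit j e F
    · have := hit_le j e F
      rw [ind_pos h, show t - 1 = 0 by omega, pow_zero]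
    · rw [ind_neg h]; exact pow_nonneg h0 _
  | succ T ih =>
    intro t e he
    rcases Nat.lt_or_ge t 2 with ht | ht
    · rw [show t - 1 = 0 by omega, pow_zero]
      exact av_le_of_le' zero_le_one fun F => ind_le_one _
    obtain ⟨t, rfl⟩ : ∃ t', t = t' + 2 := ⟨t - 2, by omega⟩
    by_cases hal : ∃ σ, e σ ≤ j
    · obtain ⟨σ₀, hσ₀⟩ := hal
      have hX : ∀ l ∈ hazX j e, ∀ σ, e σ ≤ j → σ l.1 ≠ l.2 := by
        intro l hl
        unfold hazX at hl
        exact (mem_filter.1 hl).2
      have hk := haz_av_kill hn (hazX j e)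
        (fun l hl l' hl' h => haz_lit_eq (hX l hl σ₀ hσ₀) (hX l' hl' σ₀ hσ₀) h) he.2
      rw [av_fin_cons, show t + 2 - 1 = t + 1 by omega, pow_succ']
      refine le_trans ?_ (mul_le_mul_of_nonneg_right hk (pow_nonneg h0 _))
      rw [← av_mul_const]
      refine av_mono fun c => ?_
      by_cases hc : ∀ p, (c.1.1 p, c.2 p) ∈ hazX j e
      · rw [ind_neg (not_not.2 hc), zero_mul]
        refine av_le_of_le' le_rfl fun G => le_of_eq (ind_neg fun h => ?_)
        obtain ⟨-, σ, hσ⟩ := lt_hit_iff.1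
          (lt_of_lt_of_le (Nat.succ_pos t) (haz_hit_cons c G (x := t + 1) h))
        unfold Alive at hσ
        beta_reduce at hσ
        have h1 : e σ ≤ j := by omega
        have h2 := he.1 σ h1
        have h3 : pen c σ = 1 := by
          unfold pen
          rw [if_neg]
          rintro ⟨p, hp⟩
          exact hX _ (hc p) σ h1 hp
        omega
      · rw [ind_pos hc, one_mul]
        refine le_trans (av_mono fun G => ind_mono fun h => haz_hit_cons c G (x := t + 1) h) ?_
        exact ih (t + 1) _ (hazHot_add he _)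
    · refine av_le_of_le' (pow_nonneg h0 _) fun F => ?_
      rw [ind_neg]
      · exact pow_nonneg h0 _
      · intro h
        obtain ⟨-, σ, hσ⟩ := lt_hit_iff.1 (lt_of_lt_of_le (Nat.succ_pos (t + 1)) h)
        unfold Alive at hσ
        exact hal ⟨σ, by omega⟩

lemma haz_B (hn : k ≤ n) (j t : ℕ) {β : ℕ} (hβn : β ≤ n) : ∀ (T : ℕ) (e : Asg n → ℕ),
    (av fun F : Fin T → Clause k n =>
      ind (∃ m, m + t ≤ hit j e F ∧ hazHot j β fun σ => e σ + violUpTo F m σ)) ≤
      (1 - (β.descFactorial k : ℝ) / (n.descFactorial k * 2 ^ k)) ^ (t - 1) := by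
  have h0 := haz_rate_nonneg hn hβn
  have hA : ∀ (T : ℕ) (e : Asg n → ℕ), hazHot j β e → (av fun F : Fin T → Clause k n =>
      ind (∃ m, m + t ≤ hit j e F ∧ hazHot j β fun σ => e σ + violUpTo F m σ)) ≤
      (1 - (β.descFactorial k : ℝ) / (n.descFactorial k * 2 ^ k)) ^ (t - 1) := by
    intro T e he
    refine le_trans (av_mono fun F => ind_mono ?_) (haz_A hn j hβn T t e he)
    rintro ⟨m, hm, -⟩
    omega
  intro T
  induction T with
  | zero =>
    intro e
    by_cases he : hazHot j β e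
    · exact hA _ e he
    · refine av_le_of_le' (pow_nonneg h0 _) fun F => ?_
      rw [ind_neg]
      · exact pow_nonneg h0 _
      · rintro ⟨m, hm, h⟩
        have := hit_le j e F
        obtain rfl : m = 0 := by omega
        simp only [haz_viol_zero, add_zero] at h
        exact he h
  | succ T ih =>
    intro e
    by_cases he : hazHot j β e
    · exact hA _ e he
    · rw [av_fin_cons]
      refine av_le_of_le' (pow_nonneg h0 _) fun c => ?_
      refine le_trans (av_mono fun G => ind_mono ?_) (ih fun σ => e σ + pen c σ)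
      rintro ⟨m, hm, h⟩
      cases m with
      | zero =>
        simp only [haz_viol_zero, add_zero] at h
        exact absurd h he
      | succ m =>
        refine ⟨m, haz_hit_cons c G (by omega), ?_⟩
        simpa only [haz_viol_cons, add_assoc] using h

/-- The hazard bound. -/
theorem hazard (hn : k ≤ n) (j : ℕ) (e : Asg n → ℕ) (T t β : ℕ) (hβ : 1 ≤ β)
    (hβn : β ≤ n) :
    (av fun F : Fin T → Clause k n => ind (β ≤ (Frz j e F t).card)) ≤
      (1 - (β.descFactorial k : ℝ) / (n.descFactorial k * 2 ^ k)) ^ (t - 1) := by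
  classical
  refine le_trans (av_mono fun F => ind_mono fun h => ?_) (haz_B hn j t hβn T e)
  obtain ⟨l, hl⟩ := card_pos.1 (lt_of_lt_of_le hβ h)
  obtain ⟨⟨h1, h2, h3⟩, -⟩ := haz_mem_Frz hl
  refine ⟨hit j e F - t, by omega, h3, h.trans (card_le_card fun l hl => ?_)⟩
  unfold hazX
  exact mem_filter.2 ⟨mem_univ _, (haz_mem_Frz hl).2⟩

/-- Tail of the frozen fraction. -/
lemma haz_frac_tail (hn : k ≤ n) (hn0 : 0 < n) (j : ℕ) (e : Asg n → ℕ) (T t : ℕ) {y : ℝ}
    (hy : 0 < y) :
    (av fun F : Fin T → Clause k n => ind (y ≤ (((Frz j e F t).card - k : ℕ) : ℝ) / n)) ≤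
      Real.exp (-((y / 2) ^ k * ((t - 1 : ℕ) : ℝ))) := by
  have hnpos : (0 : ℝ) < n := by exact_mod_cast hn0
  set b := ⌈y * n⌉₊ with hb
  have hb1 : 1 ≤ b := Nat.ceil_pos.2 (by positivity)
  have hev : ∀ F : Fin T → Clause k n, y ≤ (((Frz j e F t).card - k : ℕ) : ℝ) / n →
      k + b ≤ (Frz j e F t).card := by
    intro F h
    rw [le_div_iff₀ hnpos] at h
    have := Nat.ceil_le.2 h
    omega
  by_cases hβn : k + b ≤ n
  · refine le_trans (av_mono fun F => ind_mono (hev F)) ?_
    refine (hazard hn j e T t (k + b) (by omega) hβn).trans ?_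
    rw [neg_mul_eq_neg_mul, mul_comm (-(y / 2) ^ k), Real.exp_nat_mul]
    refine pow_le_pow_left₀ (haz_rate_nonneg hn hβn) ?_ _
    refine le_trans ?_ (Real.add_one_le_exp _)
    have h1 : (0 : ℝ) < n.descFactorial k := by exact_mod_cast Nat.descFactorial_pos.2 hn
    have h2 : (n.descFactorial k : ℝ) ≤ (n : ℝ) ^ k := by
      exact_mod_cast Nat.descFactorial_le_pow n k
    have h3 : (b : ℝ) ^ k ≤ ((k + b).descFactorial k : ℝ) := by
      have := (Nat.pow_le_pow_left (show b ≤ k + b + 1 - k by omega) k).trans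
        (Nat.pow_sub_le_descFactorial (k + b) k)
      exact_mod_cast this
    have h4 : (y * n) ^ k ≤ (b : ℝ) ^ k := pow_le_pow_left₀ (by positivity) (Nat.le_ceil _) k
    have h5 : (y / 2) ^ k ≤ ((k + b).descFactorial k : ℝ) / (n.descFactorial k * 2 ^ k) := by
      calc (y / 2) ^ k = (y * n) ^ k / ((n : ℝ) ^ k * 2 ^ k) := by
            rw [mul_pow, div_pow]; field_simp
        _ ≤ _ := div_le_div₀ (by positivity) (h4.trans h3) (by positivity) (by gcongr)
    linarith
  · refine av_le_of_le' (Real.exp_pos _).le fun F => ?_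
    rw [ind_neg]
    · exact (Real.exp_pos _).le
    · intro h
      have h1 := hev F h
      have h2 := card_Frz_le j e F t
      omega

end

lemma haz_dyadic {Y z : ℝ} (hY : 0 ≤ Y) (hz : 0 < z) (q I : ℕ) (h : Y ≤ 2 ^ I * z) :
    Y ^ q ≤ z ^ q + ∑ i ∈ range I, (2 ^ (i + 1) * z) ^ q * ind (2 ^ i * z ≤ Y) := by
  induction I with
  | zero => simpa using pow_le_pow_left₀ hY (by simpa using h) q
  | succ I ih =>
    rw [sum_range_succ]
    have h1 : 0 ≤ ∑ i ∈ range I, (2 ^ (i + 1) * z) ^ q * ind (2 ^ i * z ≤ Y) :=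
      sum_nonneg fun i _ => mul_nonneg (by positivity) (ind_nonneg _)
    by_cases h2 : 2 ^ I * z ≤ Y
    · rw [ind_pos h2, mul_one]
      have h3 := pow_le_pow_left₀ hY h q
      have h4 : 0 ≤ z ^ q := by positivity
      linarith
    · rw [ind_neg h2, mul_zero, add_zero]
      exact ih (le_of_not_ge h2)

theorem mom_zero (k : ℕ) (hk : 1 ≤ k) : Mom k 1 := by
  intro q hq
  set A : ℝ := 2 ^ q * ((q + 1).factorial * (2 ^ (k + 1)) ^ (q + 1)) with hA
  have hA0 : 0 < A := by positivity
  set K : ℝ := 2 ^ q * (k ^ q + (1 + A * 2)) with hK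
  have hK0 : 0 < K := by positivity
  refine ⟨K + 1, by positivity, ?_⟩
  intro n T j R t P e z hn hj _ _ ht hz hzt
  have hn0 : 0 < n := by omega
  have hnpos : (0 : ℝ) < n := by exact_mod_cast hn0
  rw [pow_one]
  set w : ℝ := z + ((R : ℝ) + 1) / n with hw
  have hy0 : 0 < ((R : ℝ) + 1) / n := by positivity
  have hzw : z ≤ w := by linarith
  have hw0 : 0 < w := by linarith
  have hfr : ∀ F : Fin T → Clause k n, ((Frz j e F t).card : ℝ) / n ≤ 1 := by
    intro F
    rw [div_le_one hnpos]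
    exact_mod_cast card_Frz_le j e F t
  by_cases hz1 : 1 ≤ z
  · refine av_le_of_le' (by positivity) fun F => pow_le_pow_left₀ (by positivity) ?_ q
    exact (hfr F).trans (one_le_mul_of_one_le_of_one_le (by linarith) (by linarith))
  push Not at hz1
  have hzk : z ^ k < 1 := pow_lt_one₀ hz.le hz1 (by omega)
  have hzk0 : 0 < z ^ k := by positivity
  have ht2 : 2 ≤ t := by
    by_contra h
    obtain rfl : t = 1 := by omega
    simp only [Nat.cast_one, mul_one] at hzt
    linarith
  have ht3 : 1 / 2 ≤ z ^ k * ((t - 1 : ℕ) : ℝ) := by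
    have h1 : t ≤ 2 * (t - 1) := by omega
    have h2 : (t : ℝ) ≤ 2 * ((t - 1 : ℕ) : ℝ) := by exact_mod_cast h1
    nlinarith
  obtain ⟨I, hI⟩ := pow_unbounded_of_one_lt (1 / z) (show (1 : ℝ) < 2 by norm_num)
  rw [div_lt_iff₀ hz] at hI
  have := clause_nonempty hn
  let Y : (Fin T → Clause k n) → ℝ := fun F => (((Frz j e F t).card - k : ℕ) : ℝ) / n
  have hY0 : ∀ F, 0 ≤ Y F := fun F => by positivity
  have hY1 : ∀ F, Y F ≤ 1 := fun F =>
    le_trans (div_le_div_of_nonneg_right (by exact_mod_cast Nat.sub_le _ _) hnpos.le) (hfr F)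
  have hterm : ∀ i : ℕ, (2 ^ (i + 1) * z) ^ q * (av fun F => ind (2 ^ i * z ≤ Y F)) ≤
      z ^ q * A * (1 / 2) ^ i := by
    intro i
    have h1 := haz_frac_tail hn hn0 j e T t (y := 2 ^ i * z) (by positivity)
    have h2 : (2 : ℝ) ^ i / 2 ^ (k + 1) ≤ (2 ^ i * z / 2) ^ k * ((t - 1 : ℕ) : ℝ) := by
      have h3 : (2 : ℝ) ^ i ≤ (2 ^ i) ^ k := le_self_pow₀ (one_le_pow₀ (by norm_num)) (by omega)
      calc (2 : ℝ) ^ i / 2 ^ (k + 1) = 2 ^ i / 2 ^ k * (1 / 2) := by rw [pow_succ]; field_simp
        _ ≤ (2 ^ i) ^ k / 2 ^ k * (z ^ k * ((t - 1 : ℕ) : ℝ)) := by gcongr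
        _ = _ := by rw [div_pow, mul_pow]; ring
    have h3 := Real.pow_div_factorial_le_exp (x := (2 : ℝ) ^ i / 2 ^ (k + 1)) (by positivity)
      (q + 1)
    have h4 : Real.exp (-((2 ^ i * z / 2) ^ k * ((t - 1 : ℕ) : ℝ))) ≤
        (((2 : ℝ) ^ i / 2 ^ (k + 1)) ^ (q + 1) / (q + 1).factorial)⁻¹ := by
      rw [Real.exp_neg]
      exact inv_anti₀ (by positivity) (h3.trans (Real.exp_le_exp.2 h2))
    refine (mul_le_mul_of_nonneg_left (h1.trans h4) (by positivity)).trans (le_of_eq ?_)
    rw [hA, div_pow, one_div, inv_pow]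
    simp only [mul_pow, pow_succ]
    field_simp
  have hmom : (av fun F => Y F ^ q) ≤ z ^ q * (1 + A * 2) := by
    calc _ ≤ av fun F => z ^ q + ∑ i ∈ range I, (2 ^ (i + 1) * z) ^ q * ind (2 ^ i * z ≤ Y F) :=
          av_mono fun F => haz_dyadic (hY0 F) hz q I ((hY1 F).trans hI.le)
      _ ≤ z ^ q + ∑ i ∈ range I, z ^ q * A * (1 / 2) ^ i := by
          rw [av_add, av_const, av_sum]
          simp only [av_const_mul]
          exact add_le_add_right (sum_le_sum fun i _ => hterm i) _
      _ ≤ z ^ q + z ^ q * A * 2 := by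
          rw [← mul_sum]
          exact add_le_add_right
            (mul_le_mul_of_nonneg_left (sum_geometric_two_le I) (by positivity)) _
      _ = _ := by ring
  have hpt : ∀ F : Fin T → Clause k n, (((Frz j e F t).card : ℝ) / n) ^ q ≤
      2 ^ q * ((k * w) ^ q + Y F ^ q) := by
    intro F
    have h1 : ((Frz j e F t).card : ℝ) / n ≤ k * w + Y F := by
      have h2 : (Frz j e F t).card ≤ k * (R + 1) + ((Frz j e F t).card - k) := by
        have : k ≤ k * (R + 1) := Nat.le_mul_of_pos_right _ (by omega)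
        omega
      have h3 : ((Frz j e F t).card : ℝ) ≤
          k * (R + 1) + (((Frz j e F t).card - k : ℕ) : ℝ) := by exact_mod_cast h2
      calc _ ≤ (k * (R + 1) + (((Frz j e F t).card - k : ℕ) : ℝ)) / n :=
            div_le_div_of_nonneg_right h3 hnpos.le
        _ = k * (((R : ℝ) + 1) / n) + Y F := by simp only [Y]; ring
        _ ≤ _ := by gcongr; linarith
    calc _ ≤ (k * w + Y F) ^ q := pow_le_pow_left₀ (by positivity) h1 q
      _ ≤ 2 ^ (q - 1) * ((k * w) ^ q + Y F ^ q) := add_pow_le (by positivity) (hY0 F) q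
      _ ≤ _ := mul_le_mul_of_nonneg_right (pow_le_pow_right₀ (by norm_num) (by omega))
          (by have := hY0 F; positivity)
  calc _ ≤ _ := av_mono hpt
    _ = 2 ^ q * ((k * w) ^ q + av fun F => Y F ^ q) := by
        rw [av_const_mul, av_add, av_const]
    _ ≤ 2 ^ q * ((k * w) ^ q + w ^ q * (1 + A * 2)) := by
        gcongr
        refine hmom.trans ?_
        gcongr
    _ = K * w ^ q := by rw [hK, mul_pow]; ring
    _ ≤ _ := by
        rw [mul_pow]
        refine mul_le_mul_of_nonneg_right ?_ (by positivity)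
        calc K ≤ K + 1 := by linarith
          _ ≤ _ := le_self_pow₀ (by linarith) (by omega)

end Crest.Agent.R153
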