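import Mathlib
import Crest.Agent.R153.Haz
import Crest.Agent.R153.CavAux1

/-!
Row 153, cavity step: typed clauses, penalties and the deterministic part of the argument.
-/

set_option autoImplicit false

namespace Crest.Agent.R153

open Finset Crest.ProbabilityR.RandomSAT

section
variable {k n q T : ℕ}

/-- The clause contains the negation of the literal `L i`. -/
def cavHas (L : Fin q → Lit n) (c : Clause k n) (i : Fin q) : Prop :=
  ∃ p, c.1.1 p = (L i).1 ∧ c.2 p = !(L i).2

open Classical in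
/-- The type of a clause: `i` if it contains the negation of `L i` and of no other `L i'`. -/
noncomputable def cavTy (L : Fin q → Lit n) (c : Clause k n) : Option (Fin q) :=
  if h : ∃ i, cavHas L c i ∧ ∀ i', cavHas L c i' → i' = i then some h.choose else none

lemma cavTy_eq_some {L : Fin q → Lit n} {c : Clause k n} {i : Fin q} :
    cavTy L c = some i ↔ cavHas L c i ∧ ∀ i', cavHas L c i' → i' = i := by
  unfold cavTy
  split_ifs with h
  · constructor
    · intro h1
      have h2 := h.choose_spec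
      rw [Option.some_inj.1 h1] at h2
      exact h2
    · rintro ⟨h1, -⟩
      rw [h.choose_spec.2 i h1]
  · simp only [false_iff]
    intro h1
    exact h ⟨i, h1⟩

open Classical in
/-- Penalty: all literals of `c` not on the variable `v` are false. -/
noncomputable def cavPen (v : Fin n) (c : Clause k n) (σ : Asg n) : ℕ :=
  if ∀ p, c.1.1 p ≠ v → σ (c.1.1 p) ≠ c.2 p then 1 else 0

lemma cavPen_le (v : Fin n) (c : Clause k n) (σ : Asg n) : cavPen v c σ ≤ 1 := by
  unfold cavPen; split_ifs <;> omega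

open Classical in
/-- The initial energy restricted to the assignments falsifying all the literals `L i`. -/
noncomputable def cavE (L : Fin q → Lit n) (j : ℕ) (e : Asg n → ℕ) (σ : Asg n) : ℕ :=
  e σ + if ∀ i, σ (L i).1 ≠ (L i).2 then 0 else j + 1

lemma cavE_le {L : Fin q → Lit n} {j : ℕ} {e : Asg n → ℕ} {σ : Asg n} (h : cavE L j e σ ≤ j) :
    ∀ i, σ (L i).1 ≠ (L i).2 := by
  unfold cavE at h
  split_ifs at h with h1
  · exact h1
  · omega

lemma cavE_of {L : Fin q → Lit n} (j : ℕ) (e : Asg n → ℕ) {σ : Asg n}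
    (h : ∀ i, σ (L i).1 ≠ (L i).2) : cavE L j e σ = e σ := by
  unfold cavE; rw [if_pos h]; rfl

open Classical in
/-- The type-`i` times before the hitting time of the restricted process. -/
noncomputable def cavS (L : Fin q → Lit n) (j : ℕ) (e : Asg n → ℕ) (G : Fin T → Clause k n)
    (i : Fin q) : Finset (Fin T) :=
  univ.filter fun s => (s : ℕ) < hit j (cavE L j e) G ∧ cavTy L (G s) = some i

lemma cav_mem_Frz {j t : ℕ} {e : Asg n → ℕ} {G : Fin T → Clause k n} {l : Lit n}
    (h : l ∈ Frz j e G t) : 1 ≤ t ∧ t ≤ hit j e G ∧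
      ∀ σ, Alive j e G (hit j e G - t) σ → σ l.1 ≠ l.2 := by
  classical
  unfold Frz at h
  split_ifs at h with h1
  · exact ⟨h1.1, h1.2.1, (mem_filter.1 h).2⟩
  · simp at h

lemma cav_hit_le_E {L : Fin q → Lit n} {j t : ℕ} {e : Asg n → ℕ} {G : Fin T → Clause k n}
    (i : Fin q) (hX : ∀ i, L i ∈ Frz j e G t) : hit j e G ≤ hit j (cavE L j e) G := by
  obtain ⟨h1, h2, -⟩ := cav_mem_Frz (hX i)
  have h3 : hit j e G - 1 < hit j e G := by omega
  obtain ⟨h4, σ, hσ⟩ := lt_hit_iff.1 h3
  have h5 : ∀ i, σ (L i).1 ≠ (L i).2 := fun i =>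
    (cav_mem_Frz (hX i)).2.2 σ (hσ.anti (by omega))
  have h6 : hit j e G - 1 < hit j (cavE L j e) G := by
    refine lt_hit_iff.2 ⟨h4, σ, ?_⟩
    unfold Alive at hσ ⊢
    rwa [cavE_of j e h5]
  omega

lemma cav_dead {L : Fin q → Lit n} (hL : Function.Injective fun i => (L i).1)
    {P : Finset (Fin n)} (hP : ∀ i, (L i).1 ∉ P) {j t : ℕ} {e : Asg n → ℕ} (he : Cyl P e)
    {G : Fin T → Clause k n} (hX : ∀ i, L i ∈ Frz j e G t) (i : Fin q) {e' : Asg n → ℕ}
    (he' : ∀ σ, cavE L j e σ + ∑ s ∈ cavS L j e G i, cavPen (L i).1 (G s) σ ≤ e' σ) :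
    hit j e' G + t ≤ hit j (cavE L j e) G := by
  classical
  obtain ⟨h1, h2, h3⟩ := cav_mem_Frz (hX i)
  have hE := cav_hit_le_E i hX
  suffices h : hit j e' G ≤ hit j e G - t by omega
  by_contra hc
  push Not at hc
  obtain ⟨-, σ, hσ⟩ := lt_hit_iff.1 hc
  set m := hit j e G - t with hm
  unfold Alive at hσ
  have h4 := he' σ
  have hρ : ∀ i, σ (L i).1 ≠ (L i).2 := cavE_le (j := j) (e := e) (by omega)
  rw [cavE_of j e hρ] at h4
  let σ' : Asg n := Function.update σ (L i).1 (L i).2
  have hσ'e : e σ' = e σ := by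
    refine he _ _ fun v hv => ?_
    have : v ≠ (L i).1 := fun h => hP i (h ▸ hv)
    simp [σ', this]
  have hviol : violUpTo G m σ' ≤
      violUpTo G m σ + ∑ s ∈ cavS L j e G i, cavPen (L i).1 (G s) σ := by
    have hsub : (univ.filter fun s : Fin T => (s : ℕ) < m ∧ ¬ ClauseSat σ' (G s)) ⊆
        (univ.filter fun s : Fin T => (s : ℕ) < m ∧ ¬ ClauseSat σ (G s)) ∪
        (cavS L j e G i).filter fun s => cavPen (L i).1 (G s) σ = 1 := by
      intro s hs
      obtain ⟨hs1, hs2⟩ := (mem_filter.1 hs).2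
      by_cases hsat : ClauseSat σ (G s)
      · refine mem_union_right _ (mem_filter.2 ⟨?_, ?_⟩)
        · refine mem_filter.2 ⟨mem_univ _, by omega, cavTy_eq_some.2 ⟨?_, ?_⟩⟩
          · obtain ⟨p, hp⟩ := hsat
            by_cases hv : (G s).1.1 p = (L i).1
            · refine ⟨p, hv, ?_⟩
              rw [← hp, hv]
              have := hρ i
              revert this
              cases σ (L i).1 <;> cases (L i).2 <;> simp
            · exact absurd ⟨p, by simpa [σ', hv] using hp⟩ hs2
          · rintro i' ⟨p, hp1, hp2⟩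
            by_contra hne
            refine hs2 ⟨p, ?_⟩
            have hv : (L i').1 ≠ (L i).1 := fun h => hne (hL h)
            rw [hp1, hp2]
            simp only [σ', Function.update_of_ne hv]
            have := hρ i'
            revert this
            cases σ (L i').1 <;> cases (L i').2 <;> simp
        · unfold cavPen
          rw [if_pos]
          intro p hp hp'
          exact hs2 ⟨p, by simpa [σ', hp] using hp'⟩
      · exact mem_union_left _ (mem_filter.2 ⟨mem_univ _, hs1, hsat⟩)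
    have hc1 := (card_le_card hsub).trans (card_union_le _ _)
    have hc2 : ((cavS L j e G i).filter fun s => cavPen (L i).1 (G s) σ = 1).card ≤
        ∑ s ∈ cavS L j e G i, cavPen (L i).1 (G s) σ := by
      rw [card_filter]
      refine sum_le_sum fun s _ => ?_
      split_ifs with h
      · omega
      · omega
    unfold violUpTo
    convert hc1.trans (Nat.add_le_add_left hc2 _)
  have hal : Alive j e G m σ' := by
    unfold Alive
    omega
  exact h3 σ' hal (by simp [σ'])

/-- The state after adding the penalties of the first `r` clauses of `W`. -/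
noncomputable def cavSt (L : Fin q → Lit n) (j : ℕ) (e : Asg n → ℕ) (i : Fin q) {r : ℕ}
    (W : Fin r → Clause k n) (σ : Asg n) : ℕ :=
  cavE L j e σ + ∑ r', cavPen (L i).1 (W r') σ

/-- All literals of `c` not on the variable `v` lie in `X`. -/
def cavOth (v : Fin n) (c : Clause k n) (X : Finset (Lit n)) : Prop :=
  ∀ p, c.1.1 p ≠ v → (c.1.1 p, c.2 p) ∈ X

/-- The deterministic step. -/
lemma cav_det {L : Fin q → Lit n} (hL : Function.Injective fun i => (L i).1)
    {P : Finset (Fin n)} (hP : ∀ i, (L i).1 ∉ P) {j t : ℕ} {e : Asg n → ℕ} (he : Cyl P e)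
    {G : Fin T → Clause k n} (hX : ∀ i, L i ∈ Frz j e G t) (i : Fin q) (d : ℕ)
    (W : ℕ → Clause k n)
    (hW : ∀ σ, ∑ s ∈ cavS L j e G i, cavPen (L i).1 (G s) σ ≤
      ∑ r ∈ range d, cavPen (L i).1 (W r) σ) :
    ∃ r < d, cavOth (L i).1 (W r)
      (Frz j (cavSt L j e i fun r' : Fin r => W r') G (t / 2 ^ (r + 1) + 1)) := by
  have ht := (cav_mem_Frz (hX i)).1
  have hst : ∀ r, (cavSt L j e i fun r' : Fin r => W r') =
      fun σ => cavE L j e σ + ∑ r' ∈ range r, cavPen (L i).1 (W r') σ := by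
    intro r
    funext σ
    unfold cavSt
    rw [Fin.sum_univ_eq_sum_range (fun r' => cavPen (L i).1 (W r') σ)]
  obtain ⟨r, hr, h⟩ := cav_telescope t ht d
    (fun r => hit j (cavSt L j e i fun r' : Fin r => W r') G) (by
      have h0 : (cavSt L j e i fun r' : Fin 0 => W r') = cavE L j e := by
        rw [hst]; simp
      simp only [h0]
      refine cav_dead hL hP he hX i fun σ => ?_
      rw [hst]
      exact Nat.add_le_add_left (hW σ) _)
  refine ⟨r, hr, fun p hp => ?_⟩
  refine mem_Frz_of_cost (a := cavPen (L i).1 (W r)) (cavPen_le _ _) (Nat.le_add_left _ _) ?_ ?_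
  · convert h using 3
    rw [hst, hst]
    funext σ
    rw [Finset.sum_range_succ, add_assoc]
  · intro σ hσ
    unfold cavPen
    rw [if_neg]
    intro h'
    exact h' p hp hσ

/-- Processes only see the clauses through the assignments within the budget. -/
lemma cav_alive_congr {j : ℕ} {e : Asg n → ℕ} {G G' : Fin T → Clause k n}
    (h : ∀ σ, e σ ≤ j → ∀ s, (ClauseSat σ (G' s) ↔ ClauseSat σ (G s))) :
    (∀ m σ, e σ ≤ j → violUpTo G' m σ = violUpTo G m σ) ∧ Alive j e G' = Alive j e G := by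
  have h1 : ∀ m σ, e σ ≤ j → violUpTo G' m σ = violUpTo G m σ := by
    intro m σ hσ
    have : (fun s : Fin T => (s : ℕ) < m ∧ ¬ ClauseSat σ (G' s)) =
        fun s : Fin T => (s : ℕ) < m ∧ ¬ ClauseSat σ (G s) := by
      funext s; rw [h σ hσ s]
    unfold violUpTo
    congr
  refine ⟨h1, ?_⟩
  funext m σ
  unfold Alive
  by_cases hσ : e σ ≤ j
  · rw [h1 m σ hσ]
  · apply propext
    constructor <;> intro h2 <;> omega

lemma cav_hit_congr {j : ℕ} {e : Asg n → ℕ} {G G' : Fin T → Clause k n}
    (h : ∀ σ, e σ ≤ j → ∀ s, (ClauseSat σ (G' s) ↔ ClauseSat σ (G s))) :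
    hit j e G' = hit j e G := by
  unfold hit
  rw [(cav_alive_congr h).2]

lemma cav_Frz_congr {j : ℕ} {e : Asg n → ℕ} {G G' : Fin T → Clause k n}
    (h : ∀ σ, e σ ≤ j → ∀ s, (ClauseSat σ (G' s) ↔ ClauseSat σ (G s))) (t : ℕ) :
    Frz j e G' t = Frz j e G t := by
  classical
  unfold Frz
  rw [cav_hit_congr h, (cav_alive_congr h).2]
  refine if_congr (and_congr_right fun _ => and_congr_right fun _ => ?_) rfl rfl
  refine forall_congr' fun σ => imp_congr_right fun hσ => ?_
  rw [(cav_alive_congr h).1 _ σ (by unfold Alive at hσ; omega)]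

/-- The resampled formula. -/
noncomputable def cavRes (L : Fin q → Lit n) (G : Fin T → Clause k n)
    (Z : ∀ i, Fin T → {c : Clause k n // cavTy L c = some i}) (s : Fin T) : Clause k n :=
  (cavTy L (G s)).elim (G s) fun i => (Z i s).1

lemma cavRes_of {L : Fin q → Lit n} {G : Fin T → Clause k n}
    (Z : ∀ i, Fin T → {c : Clause k n // cavTy L c = some i}) {s : Fin T} {i : Fin q}
    (h : cavTy L (G s) = some i) : cavRes L G Z s = (Z i s).1 := by
  unfold cavRes; rw [h]; rfl

lemma cavTy_res (L : Fin q → Lit n) (G : Fin T → Clause k n)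
    (Z : ∀ i, Fin T → {c : Clause k n // cavTy L c = some i}) (s : Fin T) :
    cavTy L (cavRes L G Z s) = cavTy L (G s) := by
  cases h : cavTy L (G s) with
  | none => unfold cavRes; rw [h]; exact h
  | some i => rw [cavRes_of Z h]; exact (Z i s).2

lemma cav_sat_of_ty {L : Fin q → Lit n} {c : Clause k n} {i : Fin q} (h : cavTy L c = some i)
    {σ : Asg n} (hσ : ∀ i, σ (L i).1 ≠ (L i).2) : ClauseSat σ c := by
  obtain ⟨p, h1, h2⟩ := (cavTy_eq_some.1 h).1
  refine ⟨p, ?_⟩
  rw [h1, h2]
  have := hσ i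
  revert this
  cases σ (L i).1 <;> cases (L i).2 <;> simp

lemma cav_sat_res {L : Fin q → Lit n} (G : Fin T → Clause k n)
    (Z : ∀ i, Fin T → {c : Clause k n // cavTy L c = some i}) {σ : Asg n}
    (hσ : ∀ i, σ (L i).1 ≠ (L i).2) (s : Fin T) :
    ClauseSat σ (cavRes L G Z s) ↔ ClauseSat σ (G s) := by
  cases h : cavTy L (G s) with
  | none => unfold cavRes; rw [h]; rfl
  | some i =>
    rw [cavRes_of Z h]
    exact iff_of_true (cav_sat_of_ty (Z i s).2 hσ) (cav_sat_of_ty h hσ)

lemma cavS_res (L : Fin q → Lit n) (j : ℕ) (e : Asg n → ℕ) (G : Fin T → Clause k n)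
    (Z : ∀ i, Fin T → {c : Clause k n // cavTy L c = some i}) (i : Fin q) :
    cavS L j e (cavRes L G Z) i = cavS L j e G i := by
  unfold cavS
  rw [cav_hit_congr (G := G) fun σ hσ s => cav_sat_res G Z (cavE_le hσ) s]
  simp only [cavTy_res]

lemma cav_Frz_res (L : Fin q → Lit n) (j : ℕ) (e : Asg n → ℕ) (G : Fin T → Clause k n)
    (Z : ∀ i, Fin T → {c : Clause k n // cavTy L c = some i}) (i : Fin q) {r : ℕ}
    (W : Fin r → Clause k n) (t : ℕ) :
    Frz j (cavSt L j e i W) (cavRes L G Z) t = Frz j (cavSt L j e i W) G t := by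
  refine cav_Frz_congr (fun σ hσ s => cav_sat_res G Z (cavE_le (j := j) (e := e) ?_) s) t
  unfold cavSt at hσ
  omega

lemma cav_cyl_st {L : Fin q → Lit n} {P : Finset (Fin n)} {e : Asg n → ℕ} (he : Cyl P e)
    (j : ℕ) (i : Fin q) {r : ℕ} (W : Fin r → Clause k n) :
    ∃ P' : Finset (Fin n), P'.card ≤ P.card + q + k * r ∧ Cyl P' (cavSt L j e i W) := by
  classical
  refine ⟨P ∪ univ.image (fun i => (L i).1) ∪
    univ.image (fun x : Fin k × Fin r => (W x.2).1.1 x.1), ?_, ?_⟩
  · refine (card_union_le _ _).trans (Nat.add_le_add ((card_union_le _ _).trans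
      (Nat.add_le_add_left ?_ _)) ?_)
    · exact card_image_le.trans (by simp)
    · exact card_image_le.trans (by simp)
  · intro σ σ' h
    have h1 : e σ = e σ' := he _ _ fun v hv => h v (mem_union_left _ (mem_union_left _ hv))
    have h2 : ∀ i, σ (L i).1 = σ' (L i).1 := fun i =>
      h _ (mem_union_left _ (mem_union_right _ (mem_image_of_mem _ (mem_univ i))))
    have h3 : ∀ r' p, σ ((W r').1.1 p) = σ' ((W r').1.1 p) := fun r' p =>
      h _ (mem_union_right _ (mem_image.2 ⟨(p, r'), mem_univ _, rfl⟩))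
    unfold cavSt cavE cavPen
    simp only [h1, h2, h3]

end

end Crest.Agent.R153
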