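import Mathlib
import Crest.Agent.R153.CavAux2

/-!
Row 153, cavity step: counting typed clauses and the tail of the number of typed times.
-/

set_option autoImplicit false

namespace Crest.Agent.R153

open Finset Crest.ProbabilityR.RandomSAT

section
variable {k n q T : ℕ}

lemma cav_card_ty_ge {L : Fin q → Lit n} (hL : Function.Injective fun i => (L i).1) (i : Fin q) :
    (n - q).descFactorial k ≤ Fintype.card {c : Clause (k + 1) n // cavTy L c = some i} := by
  classical
  let V : Finset (Fin n) := univ.image fun i => (L i).1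
  have hV : V.card = q := by
    rw [card_image_of_injective _ hL]; simp
  have hc : Fintype.card {v : Fin n // v ∉ V} = n - q := by
    rw [Fintype.card_subtype_compl, Fintype.card_fin, Fintype.card_coe, hV]
  have hmem : ∀ i, (L i).1 ∈ V := fun i => mem_image_of_mem _ (mem_univ i)
  have hinj : ∀ f : Fin k ↪ {v : Fin n // v ∉ V},
      Function.Injective (Fin.cons (L i).1 (fun p => (f p).1) : Fin (k + 1) → Fin n) := by
    intro f
    rw [Fin.cons_injective_iff]
    constructor
    · rintro ⟨p, hp⟩
      exact (f p).2 (by rw [show ((f p).1 : Fin n) = (L i).1 from hp]; exact hmem i)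
    · intro p p' h
      exact f.injective (Subtype.ext h)
  let g : (Fin k ↪ {v : Fin n // v ∉ V}) → {c : Clause (k + 1) n // cavTy L c = some i} :=
    fun f => ⟨(⟨Fin.cons (L i).1 (fun p => (f p).1), hinj f⟩, fun _ => !(L i).2), by
      refine cavTy_eq_some.2 ⟨⟨0, rfl, rfl⟩, ?_⟩
      rintro i' ⟨p, hp, -⟩
      revert hp
      refine Fin.cases (fun hp => ?_) (fun p hp => ?_) p
      · exact (hL hp).symm
      · exact absurd (by rw [show ((f p).1 : Fin n) = (L i').1 from hp]; exact hmem i') (f p).2⟩
  have hg : Function.Injective g := by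
    intro f f' h
    ext p
    have := congrArg (fun c => c.1.1.1 p.succ) h
    simp only [g, Fin.cons_succ] at this
    rw [this]
  have := Fintype.card_le_of_injective g hg
  rwa [Fintype.card_embedding_eq, hc, Fintype.card_fin] at this

lemma cav_card_oth_le (L : Fin q → Lit n) (i : Fin q) (X : Finset (Lit n))
    [DecidablePred fun c : {c : Clause (k + 1) n // cavTy L c = some i} => cavOth (L i).1 c.1 X] :
    (univ.filter fun c : {c : Clause (k + 1) n // cavTy L c = some i} =>
      cavOth (L i).1 c.1 X).card ≤ (k + 1) * X.card ^ k := by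
  classical
  have h1 : ∀ c : {c : Clause (k + 1) n // cavTy L c = some i},
      ∃ p, c.1.1.1 p = (L i).1 ∧ c.1.2 p = !(L i).2 := fun c => (cavTy_eq_some.1 c.2).1
  choose pos hpos using h1
  have : (k + 1) * X.card ^ k =
      ((univ : Finset (Fin (k + 1))) ×ˢ Fintype.piFinset fun _ : Fin k => X).card := by
    simp
  rw [this]
  refine card_le_card_of_injOn (fun c => (pos c, fun u =>
    (c.1.1.1 ((pos c).succAbove u), c.1.2 ((pos c).succAbove u)))) ?_ ?_
  · intro c hc
    have hc' : cavOth (L i).1 c.1 X := (mem_filter.1 hc).2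
    simp only [coe_product, Set.mem_prod, mem_coe, mem_univ, true_and, Fintype.mem_piFinset]
    intro u
    refine hc' _ fun h => ?_
    exact Fin.succAbove_ne (pos c) u (c.1.1.2 (h.trans (hpos c).1.symm))
  · intro c _ c' _ h
    simp only [Prod.mk.injEq] at h
    obtain ⟨hp, h⟩ := h
    have key : ∀ p, c.1.1.1 p = c'.1.1.1 p ∧ c.1.2 p = c'.1.2 p := by
      intro p
      refine Fin.succAboveCases (pos c) ?_ (fun u => ?_) p
      · rw [(hpos c).1, (hpos c).2, hp, (hpos c').1, (hpos c').2]; exact ⟨rfl, rfl⟩
      · have := congrFun h u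
        simp only [Prod.mk.injEq] at this
        rw [← hp] at this
        exact this
    refine Subtype.ext (Prod.ext (Subtype.ext (funext fun p => (key p).1))
      (funext fun p => (key p).2))

lemma cav_card_ty_ge' {L : Fin q → Lit n} (hL : Function.Injective fun i => (L i).1) (i : Fin q)
    (hn : 2 * (q + k) ≤ n) :
    ((n : ℝ) / 2) ^ k ≤ Fintype.card {c : Clause (k + 1) n // cavTy L c = some i} := by
  have h1 := (Nat.pow_sub_le_descFactorial (n - q) k).trans (cav_card_ty_ge hL i)
  have h2 : (n : ℝ) / 2 ≤ ((n - q + 1 - k : ℕ) : ℝ) := by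
    have : n ≤ 2 * (n - q + 1 - k) := by omega
    have : (n : ℝ) ≤ 2 * ((n - q + 1 - k : ℕ) : ℝ) := by exact_mod_cast this
    linarith
  calc ((n : ℝ) / 2) ^ k ≤ ((n - q + 1 - k : ℕ) : ℝ) ^ k :=
        pow_le_pow_left₀ (by positivity) h2 k
    _ ≤ _ := by exact_mod_cast h1

lemma cav_ty_nonempty {L : Fin q → Lit n} (hL : Function.Injective fun i => (L i).1) (i : Fin q)
    (hn : 2 * (q + k) ≤ n) : Nonempty {c : Clause (k + 1) n // cavTy L c = some i} := by
  have h1 := cav_card_ty_ge' hL i hn
  have hq : 0 < q := Fin.pos i
  have hn0 : (0 : ℝ) < n := by exact_mod_cast (by omega : 0 < n)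
  have h2 : (0 : ℝ) < ((n : ℝ) / 2) ^ k := by positivity
  have : 0 < Fintype.card {c : Clause (k + 1) n // cavTy L c = some i} := by
    exact_mod_cast h2.trans_le h1
  exact Fintype.card_pos_iff.1 this

lemma cav_av_oth {L : Fin q → Lit n} (hL : Function.Injective fun i => (L i).1) (i : Fin q)
    (hn : 2 * (q + k) ≤ n) (X : Finset (Lit n)) :
    (av fun c : {c : Clause (k + 1) n // cavTy L c = some i} => ind (cavOth (L i).1 c.1 X)) ≤
      (k + 1) * 2 ^ k * ((X.card : ℝ) / n) ^ k := by
  classical
  have h1 := cav_card_ty_ge' hL i hn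
  have hq : 0 < q := Fin.pos i
  have hn0 : (0 : ℝ) < n := by exact_mod_cast (by omega : 0 < n)
  have h2 : (0 : ℝ) < ((n : ℝ) / 2) ^ k := by positivity
  have h3 : (((univ.filter fun c : {c : Clause (k + 1) n // cavTy L c = some i} =>
      cavOth (L i).1 c.1 X).card : ℕ) : ℝ) ≤ (k + 1) * (X.card : ℝ) ^ k := by
    exact_mod_cast cav_card_oth_le L i X
  unfold av
  simp only [ind_eq_ite, Finset.sum_boole]
  calc _ ≤ ((k + 1) * (X.card : ℝ) ^ k) / ((n : ℝ) / 2) ^ k :=
        div_le_div₀ (by positivity) h3 h2 h1
    _ = _ := by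
        rw [div_pow, div_pow]; field_simp

lemma cav_av_var (hn : k ≤ n) (p : Fin k) (v : Fin n) :
    (av fun c : Clause k n => ind (c.1.1 p = v)) = 1 / n := by
  classical
  have := clause_nonempty hn
  have hsym : ∀ v' : Fin n, (av fun c : Clause k n => ind (c.1.1 p = v')) =
      av fun c : Clause k n => ind (c.1.1 p = v) := by
    intro v'
    let f : Clause k n → Clause k n := fun c =>
      (⟨fun p => Equiv.swap v v' (c.1.1 p), (Equiv.swap v v').injective.comp c.1.2⟩, c.2)
    have hf : Function.Involutive f := by
      intro c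
      refine Prod.ext (Subtype.ext (funext fun p => ?_)) rfl
      simp [f]
    rw [← av_equiv hf.toPerm]
    refine av_congr fun c => ind_congr ?_
    simp only [Function.Involutive.coe_toPerm, f]
    rw [← Equiv.eq_symm_apply]
    simp
  have hsum : ∑ v' : Fin n, (av fun c : Clause k n => ind (c.1.1 p = v')) = 1 := by
    rw [← av_sum]
    simp [ind_eq_ite]
  simp only [hsym, sum_const, card_univ, Fintype.card_fin, nsmul_eq_mul] at hsum
  have hn0 : (0 : ℝ) < n := by exact_mod_cast (Fin.pos v)
  field_simp
  linarith

lemma cav_av_has (hn : k ≤ n) (L : Fin q → Lit n) (i : Fin q) :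
    (av fun c : Clause k n => ind (cavTy L c = some i)) ≤ k / n := by
  calc (av fun c : Clause k n => ind (cavTy L c = some i))
      ≤ av fun c : Clause k n => ∑ p : Fin k, ind (c.1.1 p = (L i).1) := by
        refine av_mono fun c => le_trans (ind_mono fun h => ?_) (ind_exists_le _ _)
        obtain ⟨p, hp, -⟩ := (cavTy_eq_some.1 h).1
        exact ⟨p, mem_univ _, hp⟩
    _ = k / n := by
        rw [av_sum]
        simp only [cav_av_var hn, sum_const, card_univ, Fintype.card_fin, nsmul_eq_mul]
        ring

/-- Exponential moment bound for the number of typed clauses among the first `M`. -/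
lemma cav_count_tail (hn : k ≤ n) (L : Fin q → Lit n) (i : Fin q) (T M r : ℕ) {lam : ℝ}
    (hlam : 1 ≤ lam)
    [∀ G : Fin T → Clause k n,
      DecidablePred fun s : Fin T => (s : ℕ) < M ∧ cavTy L (G s) = some i] :
    (av fun G : Fin T → Clause k n =>
      ind (r ≤ (univ.filter fun s : Fin T => (s : ℕ) < M ∧ cavTy L (G s) = some i).card)) ≤
      Real.exp (lam * k / n * M) / lam ^ r := by
  classical
  have := clause_nonempty hn
  have hpos : (0 : ℝ) < lam ^ r := by positivity
  have h1 : ∀ G : Fin T → Clause k n,
      lam ^ (univ.filter fun s : Fin T => (s : ℕ) < M ∧ cavTy L (G s) = some i).card =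
      ∏ s : Fin T, (if (s : ℕ) < M then 1 + (lam - 1) * ind (cavTy L (G s) = some i) else 1) := by
    intro G
    rw [← prod_const, prod_filter]
    refine prod_congr rfl fun s _ => ?_
    by_cases h1 : (s : ℕ) < M <;> by_cases h2 : cavTy L (G s) = some i <;>
      simp [h1, h2, ind_pos, ind_neg]
  calc _ ≤ av fun G : Fin T → Clause k n => ind (lam ^ r ≤
          lam ^ (univ.filter fun s : Fin T => (s : ℕ) < M ∧ cavTy L (G s) = some i).card) :=
        av_mono fun G => ind_mono fun h => pow_le_pow_right₀ hlam h
    _ ≤ (av fun G : Fin T → Clause k n =>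
          lam ^ (univ.filter fun s : Fin T => (s : ℕ) < M ∧ cavTy L (G s) = some i).card) /
          lam ^ r := av_ind_le_div (fun G => by positivity) hpos
    _ ≤ _ := by
        refine div_le_div_of_nonneg_right ?_ hpos.le
        simp only [h1]
        rw [av_pi_prod (fun (s : Fin T) (c : Clause k n) =>
          if (s : ℕ) < M then 1 + (lam - 1) * ind (cavTy L c = some i) else 1)]
        have hx : 0 ≤ lam * k / n := by positivity
        calc _ ≤ ∏ s : Fin T, (if (s : ℕ) < M then Real.exp (lam * k / n) else 1) := by
              refine prod_le_prod (fun s _ => av_nonneg fun c => ?_) fun s _ => ?_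
              · split_ifs
                · have := ind_nonneg (cavTy L c = some i)
                  have : 0 ≤ lam - 1 := by linarith
                  positivity
                · exact zero_le_one
              · split_ifs
                · rw [av_add, av_const, av_const_mul]
                  have h2 := cav_av_has hn L i
                  have h3 : 0 ≤ av fun c : Clause k n => ind (cavTy L c = some i) :=
                    av_nonneg fun c => ind_nonneg _
                  have h4 := Real.add_one_le_exp (lam * k / n)
                  have h5 : (lam - 1) * (av fun c : Clause k n => ind (cavTy L c = some i)) ≤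
                      lam * (k / n) := mul_le_mul (by linarith) h2 h3 (by linarith)
                  rw [← mul_div_assoc] at h5
                  linarith
                · simp
          _ = Real.exp (lam * k / n) ^ (univ.filter fun s : Fin T => (s : ℕ) < M).card := by
              rw [← prod_filter, prod_const]
          _ ≤ Real.exp (lam * k / n) ^ M := by
              refine pow_le_pow_right₀ (Real.one_le_exp hx) ?_
              calc (univ.filter fun s : Fin T => (s : ℕ) < M).card
                  ≤ (range M).card := card_le_card_of_injOn (fun s => (s : ℕ))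
                    (fun s hs => by simpa using hs) (fun s _ s' _ h => Fin.ext h)
                _ = M := card_range M
          _ = _ := by rw [← Real.exp_nat_mul, mul_comm]

/-- Geometric tail, with arbitrarily small ratio, of the number of typed times. -/
lemma cav_S_tail (k : ℕ) {ε : ℝ} (hε : 0 < ε) (hε1 : ε ≤ 1) : ∃ (C : ℝ) (n₀ : ℕ), 0 < C ∧
    ∀ (n q T j r : ℕ) (L : Fin q → Lit n) (e : Asg n → ℕ) (i : Fin q), n₀ ≤ n → k ≤ n → j ≤ n →
      (av fun G : Fin T → Clause k n => ind (r < (cavS L j e G i).card)) ≤ C * ε ^ r := by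
  classical
  set ρ : ℝ := 1 - 1 / 2 ^ (k + 1) with hρ
  have hρ0 : 0 ≤ ρ := by
    have : (1 : ℝ) / 2 ^ (k + 1) ≤ 1 := by
      rw [div_le_one (by positivity)]; exact one_le_pow₀ (by norm_num)
    linarith
  have hρ1 : ρ < 1 := by
    have : (0 : ℝ) < 1 / 2 ^ (k + 1) := by positivity
    linarith
  obtain ⟨A, hA⟩ := exists_pow_lt_of_lt_one (show (0 : ℝ) < 1 / 4 by norm_num) hρ1
  obtain ⟨B, hB⟩ := exists_pow_lt_of_lt_one hε hρ1
  set lam : ℝ := 3 / ε with hlam
  have hlam1 : 1 ≤ lam := by
    rw [hlam, le_div_iff₀ hε]; linarith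
  refine ⟨1 + Real.exp (lam * k * A), ⌈lam * k * B⌉₊ + 1, by positivity, ?_⟩
  intro n q T j r L e i hn0 hn hj
  have hnpos : (0 : ℝ) < n := by exact_mod_cast (by omega : 0 < n)
  have hnB : lam * k * B ≤ n := by
    have h1 := Nat.le_ceil (lam * k * B)
    have h2 : ((⌈lam * k * B⌉₊ : ℕ) : ℝ) ≤ n := by exact_mod_cast (by omega)
    linarith
  set M := A * n + B * r with hM
  calc _ ≤ av fun G : Fin T → Clause k n => (ind (M < hit j (cavE L j e) G) + ind (r ≤
          (univ.filter fun s : Fin T => (s : ℕ) < M ∧ cavTy L (G s) = some i).card)) := by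
        refine av_mono fun G => le_trans (ind_mono fun h => ?_) (ind_or_le _ _)
        by_cases h1 : M < hit j (cavE L j e) G
        · exact Or.inl h1
        · refine Or.inr (h.le.trans (card_le_card fun s hs => ?_))
          unfold cavS at hs
          obtain ⟨h2, h3⟩ := (mem_filter.1 hs).2
          exact mem_filter.2 ⟨mem_univ _, by omega, h3⟩
    _ ≤ 4 ^ n * ρ ^ M + Real.exp (lam * k / n * M) / lam ^ r := by
        rw [av_add]
        exact add_le_add (hit_tail hn hj _ T M) (cav_count_tail hn L i T M r hlam1)
    _ ≤ ε ^ r + Real.exp (lam * k * A) * ε ^ r := by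
        refine add_le_add ?_ ?_
        · calc (4 : ℝ) ^ n * ρ ^ M = (4 * ρ ^ A) ^ n * (ρ ^ B) ^ r := by
                rw [hM, pow_add, pow_mul, pow_mul, mul_pow]; ring
            _ ≤ 1 * ε ^ r := by
                refine mul_le_mul (pow_le_one₀ (by positivity) (by linarith))
                  (pow_le_pow_left₀ (by positivity) hB.le r) (by positivity) zero_le_one
            _ = _ := one_mul _
        · have h1 : lam * k / n * M = lam * k * A + r * (lam * k * B / n) := by
            rw [hM]; push_cast; field_simp
          have h2 : Real.exp (lam * k * B / n) ≤ 3 := by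
            have : lam * k * B / n ≤ 1 := by rw [div_le_one hnpos]; exact hnB
            calc _ ≤ Real.exp 1 := Real.exp_le_exp.2 this
              _ ≤ 3 := by have := Real.exp_one_lt_d9; linarith
          rw [h1, Real.exp_add, Real.exp_nat_mul, mul_div_assoc, ← div_pow]
          refine mul_le_mul_of_nonneg_left (pow_le_pow_left₀ (by positivity) ?_ r)
            (Real.exp_pos _).le
          rw [div_le_iff₀ (by linarith), hlam]
          calc _ ≤ 3 := h2
            _ = _ := by field_simp
    _ = _ := by ring

end

end Crest.Agent.R153
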