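import Mathlib
import Crest.Agent.R153.Haz
import Crest.Agent.R153.CavAux3

/-!
Row 153: the cavity step improving the moment bound.
-/

set_option autoImplicit false

namespace Crest.Agent.R153

open Finset Crest.ProbabilityR.RandomSAT

section
variable {k n q T : ℕ}

/-- Conditional `k`-th moment of the frozen fraction after `r` independent typed penalties. -/
noncomputable def cavPsi (L : Fin q → Lit n) (j : ℕ) (e : Asg n → ℕ) (t : ℕ) (i : Fin q) (r : ℕ)
    (G : Fin T → Clause (k + 1) n) : ℝ :=
  av fun W : Fin r → {c : Clause (k + 1) n // cavTy L c = some i} =>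
    (((Frz j (cavSt L j e i fun r' => (W r').1) G (t / 2 ^ (r + 1) + 1)).card : ℝ) / n) ^ k

lemma cavPsi_nonneg (L : Fin q → Lit n) (j : ℕ) (e : Asg n → ℕ) (t : ℕ) (i : Fin q) (r : ℕ)
    (G : Fin T → Clause (k + 1) n) : 0 ≤ cavPsi L j e t i r G :=
  av_nonneg fun _ => by positivity

/-- Decoupling. -/
lemma cav_decouple {L : Fin q → Lit n} (hL : Function.Injective fun i => (L i).1)
    {P : Finset (Fin n)} (hP : ∀ i, (L i).1 ∉ P) {j t : ℕ} {e : Asg n → ℕ} (he : Cyl P e)
    (hn : 2 * (q + k) ≤ n) (hn' : k + 1 ≤ n) :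
    (av fun G : Fin T → Clause (k + 1) n => ind (∀ i, L i ∈ Frz j e G t)) ≤
      av fun G : Fin T → Clause (k + 1) n => ∏ i, ∑ r ∈ range T,
        ind (r < (cavS L j e G i).card) * ((k + 1) * 2 ^ k * cavPsi L j e t i r G) := by
  classical
  have hne : ∀ i, Nonempty {c : Clause (k + 1) n // cavTy L c = some i} := fun i =>
    cav_ty_nonempty hL i hn
  obtain ⟨c₀⟩ := clause_nonempty hn'
  rw [cav_resample (cavTy L)]
  refine av_mono fun G => ?_
  let W : ∀ i, (Fin T → {c : Clause (k + 1) n // cavTy L c = some i}) → ℕ → Clause (k + 1) n :=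
    fun i Y r => if h : r < (cavS L j e G i).card then
      (Y ((cavS L j e G i).orderEmbOfFin rfl ⟨r, h⟩)).1 else c₀
  let B : ∀ i, (Fin T → {c : Clause (k + 1) n // cavTy L c = some i}) → ℕ → Prop :=
    fun i Y r => cavOth (L i).1 (W i Y r)
      (Frz j (cavSt L j e i fun r' : Fin r => W i Y r') G (t / 2 ^ (r + 1) + 1))
  have h1 : ∀ Z : ∀ i, Fin T → {c : Clause (k + 1) n // cavTy L c = some i},
      ind (∀ i, L i ∈ Frz j e (cavRes L G Z) t) ≤
        ∏ i, ind (∃ r < (cavS L j e G i).card, B i (Z i) r) := by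
    intro Z
    rw [← ind_forall]
    refine ind_mono fun hX i => ?_
    have := cav_det hL hP he hX i (cavS L j e G i).card (W i (Z i)) (by
      intro σ
      rw [cavS_res, ← Fin.sum_univ_eq_sum_range (fun r => cavPen (L i).1 (W i (Z i) r) σ)]
      refine le_of_eq ?_
      symm
      refine Finset.sum_bij (fun r _ => (cavS L j e G i).orderEmbOfFin rfl r)
        (fun r _ => orderEmbOfFin_mem _ _ _)
        (fun r _ r' _ h => ((cavS L j e G i).orderEmbOfFin rfl).injective h) ?_ ?_
      · intro s hs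
        have : s ∈ Set.range ((cavS L j e G i).orderEmbOfFin rfl) := by
          rw [range_orderEmbOfFin]; exact hs
        obtain ⟨r, hr⟩ := this
        exact ⟨r, mem_univ _, hr⟩
      · intro r _
        have hs := orderEmbOfFin_mem (cavS L j e G i) rfl r
        have hty : cavTy L (G ((cavS L j e G i).orderEmbOfFin rfl r)) = some i := by
          unfold cavS at hs
          exact (mem_filter.1 hs).2.2
        rw [cavRes_of Z hty]
        simp only [W, dif_pos r.2])
    simp only [cav_Frz_res] at this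
    exact this
  refine le_trans (av_mono h1) ?_
  rw [av_pi_prod (fun i (Y : Fin T → {c : Clause (k + 1) n // cavTy L c = some i}) =>
    ind (∃ r < (cavS L j e G i).card, B i Y r))]
  refine prod_le_prod (fun i _ => av_nonneg fun _ => ind_nonneg _) fun i _ => ?_
  have hdT : (cavS L j e G i).card ≤ T := (card_le_univ _).trans (by simp)
  calc _ ≤ av fun Y : Fin T → {c : Clause (k + 1) n // cavTy L c = some i} =>
        ∑ r ∈ range T, ind (r < (cavS L j e G i).card) * ind (B i Y r) := by
        refine av_mono fun Y => ?_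
        simp only [← ind_and]
        refine le_trans (ind_mono ?_) (ind_exists_le _ _)
        rintro ⟨r, hr, h⟩
        exact ⟨r, mem_range.2 (by omega), hr, h⟩
    _ ≤ _ := by
        rw [av_sum]
        refine sum_le_sum fun r _ => ?_
        rw [av_const_mul]
        by_cases hr : r < (cavS L j e G i).card
        · refine mul_le_mul_of_nonneg_left ?_ (ind_nonneg _)
          let φ : Fin (r + 1) → Fin T := fun u =>
            (cavS L j e G i).orderEmbOfFin rfl ⟨u, by omega⟩
          have hφ : Function.Injective φ := by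
            intro u u' h
            have := ((cavS L j e G i).orderEmbOfFin rfl).injective h
            exact Fin.ext (by simpa using this)
          let f : (Fin (r + 1) → {c : Clause (k + 1) n // cavTy L c = some i}) → ℝ := fun U =>
            ind (cavOth (L i).1 (U (Fin.last r)).1
              (Frz j (cavSt L j e i fun r' : Fin r => (U r'.castSucc).1) G (t / 2 ^ (r + 1) + 1)))
          have h2 : ∀ Y, ind (B i Y r) = f fun u => Y (φ u) := by
            intro Y
            have h3 : (fun r' : Fin r => W i Y r') = fun r' : Fin r => (Y (φ r'.castSucc)).1 := by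
              funext r'
              have : (r' : ℕ) < (cavS L j e G i).card := by omega
              simp only [W, dif_pos this, φ, Fin.val_castSucc]
            have h4 : W i Y r = (Y (φ (Fin.last r))).1 := by
              simp only [W, dif_pos hr, φ, Fin.val_last]
            simp only [B, f, h3, h4]
          simp only [h2]
          rw [av_comp_injective φ hφ f, av_fin_snoc]
          unfold cavPsi
          rw [← av_const_mul]
          refine av_mono fun U => ?_
          simp only [f, Fin.snoc_last, Fin.snoc_castSucc]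
          exact cav_av_oth hL i hn _
        · rw [ind_neg hr]; simp

lemma cav_grow {a R r : ℕ} (ha : 1 ≤ a) {z : ℝ} (hz : 0 < z) :
    (2 ^ (r + 1) * z) ^ a + (((R + q + (k + 1) * r : ℕ) : ℝ) + 1) / n ≤
      (2 ^ a * (q + k + 2)) ^ (r + 1) * (z ^ a + ((R : ℝ) + 1) / n) := by
  have h1 : (1 : ℝ) ≤ (q : ℝ) + k + 2 := by
    have : (0 : ℝ) ≤ (q : ℝ) + k := by positivity
    linarith
  rw [mul_add]
  refine add_le_add ?_ ?_
  · rw [mul_pow]
    refine mul_le_mul_of_nonneg_right ?_ (by positivity)
    rw [← pow_mul, mul_comm (r + 1) a, pow_mul]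
    exact pow_le_pow_left₀ (by positivity) (le_mul_of_one_le_right (by positivity) h1) _
  · rw [← mul_div_assoc]
    refine div_le_div_of_nonneg_right ?_ (Nat.cast_nonneg _)
    have h2 : R + q + (k + 1) * r + 1 ≤ (2 ^ a * (q + k + 2)) ^ (r + 1) * (R + 1) := by
      have h3 : r + 1 ≤ 2 ^ (r + 1) := Nat.lt_two_pow_self.le
      have h4 : 2 ^ (r + 1) ≤ (2 ^ a) ^ (r + 1) :=
        Nat.pow_le_pow_left (by simpa using Nat.pow_le_pow_right (by norm_num : 0 < 2) ha) _
      have h5 : q + k + 2 ≤ (q + k + 2) ^ (r + 1) := Nat.le_self_pow (by omega) _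
      have h6 : (r + 1) * (q + k + 2) ≤ (2 ^ a * (q + k + 2)) ^ (r + 1) := by
        rw [mul_pow]; exact Nat.mul_le_mul (h3.trans h4) h5
      calc R + q + (k + 1) * r + 1 ≤ (r + 1) * (q + k + 2) * (R + 1) := by nlinarith [Nat.zero_le (r * q), Nat.zero_le (R * ((r + 1) * (q + k + 1) + r))]
        _ ≤ _ := Nat.mul_le_mul_right _ h6
    exact_mod_cast h2

lemma cav_add_pow {x y : ℝ} (hx : 0 ≤ x) (hy : 0 ≤ y) (hy1 : y ≤ 1) (hk : 1 ≤ k) :
    (x + y) ^ k ≤ 2 ^ k * (x ^ k + y) := by
  have h1 := add_pow_le hx hy k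
  have h2 : y ^ k ≤ y := pow_le_of_le_one hy hy1 (by omega)
  have h3 : (2 : ℝ) ^ (k - 1) ≤ 2 ^ k := pow_le_pow_right₀ (by norm_num) (by omega)
  calc _ ≤ _ := h1
    _ ≤ _ := mul_le_mul h3 (by linarith) (by positivity) (by positivity)

end

/-- Probability that `q` given literals are all frozen. -/
lemma cav_main (k a q : ℕ) (hk : 1 ≤ k) (ha : 1 ≤ a) (hq : 1 ≤ q) (h : Mom (k + 1) a) :
    ∃ (K : ℝ) (n₀ : ℕ), 0 < K ∧ ∀ (n T j R t : ℕ) (P : Finset (Fin n)) (e : Asg n → ℕ) (z : ℝ)
      (L : Fin q → Lit n), n₀ ≤ n → R + 1 ≤ n → k + 1 ≤ n → j ≤ n → P.card ≤ R → Cyl P e →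
      0 < z → 1 ≤ z ^ (k + 1) * t → (Function.Injective fun i => (L i).1) →
      (∀ i, (L i).1 ∉ P) →
      (av fun G : Fin T → Clause (k + 1) n => ind (∀ i, L i ∈ Frz j e G t)) ≤
        K * (z ^ (a * k) + ((R : ℝ) + 1) / n) ^ q := by
  classical
  obtain ⟨C', hC', hM⟩ := h (k * (q * 2)) (Nat.mul_pos hk (by omega))
  set D : ℝ := 2 ^ a * (q + k + 2) with hD
  have hD1 : 1 ≤ D := by
    have h1 : (1 : ℝ) ≤ (q : ℝ) + k + 2 := by
      have : (0 : ℝ) ≤ (q : ℝ) + k := by positivity
      linarith
    exact one_le_mul_of_one_le_of_one_le (one_le_pow₀ (by norm_num)) h1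
  set E : ℝ := 2 ^ q * D ^ (k * q) with hE
  have hE1 : 1 ≤ E := one_le_mul_of_one_le_of_one_le (one_le_pow₀ (by norm_num)) (one_le_pow₀ hD1)
  set δ : ℝ := 1 / (2 * E) with hδ
  have hδ0 : 0 < δ := by positivity
  have hδ1 : δ ≤ 1 := by rw [hδ, div_le_one (by positivity)]; linarith
  obtain ⟨C, n₁, hC, hS⟩ := cav_S_tail (k + 1) (ε := δ ^ 2) (by positivity)
    (pow_le_one₀ hδ0.le hδ1)
  set c : ℝ := (k + 1) * 2 ^ k with hc
  have hc0 : 0 < c := by positivity
  set K₀ : ℝ := c ^ q * √C * C' ^ (k * q) * (2 ^ k) ^ q * E with hK₀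
  have hK₀0 : 0 < K₀ := by
    have := Real.sqrt_pos.2 hC
    positivity
  refine ⟨q * (K₀ * 2), max n₁ (2 * (q + k)), by positivity, ?_⟩
  intro n T j R t P e z L hn0 hR hn hj hPR he hz hzt hL hP
  have hn1 : n₁ ≤ n := (le_max_left _ _).trans hn0
  have hn2 : 2 * (q + k) ≤ n := (le_max_right _ _).trans hn0
  have hnpos : (0 : ℝ) < n := by exact_mod_cast (by omega : 0 < n)
  have hne : ∀ i, Nonempty {c : Clause (k + 1) n // cavTy L c = some i} := fun i =>
    cav_ty_nonempty hL i hn2
  set y : ℝ := ((R : ℝ) + 1) / n with hy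
  have hy0 : 0 ≤ y := by positivity
  have hy1 : y ≤ 1 := by
    rw [hy, div_le_one hnpos]; exact_mod_cast hR
  set w : ℝ := z ^ (a * k) + y with hw
  have hw0 : 0 ≤ w := by positivity
  -- second moment of `cavPsi ^ q`
  have hpsi : ∀ i r, √(av fun G : Fin T → Clause (k + 1) n => (cavPsi L j e t i r G ^ q) ^ 2) ≤
      C' ^ (k * q) * (D ^ (k * q)) ^ (r + 1) * ((2 ^ k) ^ q * w ^ q) := by
    intro i r
    have h1 : (av fun G : Fin T → Clause (k + 1) n => (cavPsi L j e t i r G ^ q) ^ 2) ≤
        ((C' * (D ^ (r + 1) * (z ^ a + y))) ^ (k * q)) ^ 2 := by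
      calc _ ≤ av fun G : Fin T → Clause (k + 1) n =>
            av fun W : Fin r → {c : Clause (k + 1) n // cavTy L c = some i} =>
            (((Frz j (cavSt L j e i fun r' => (W r').1) G (t / 2 ^ (r + 1) + 1)).card : ℝ) / n)
              ^ (k * (q * 2)) := by
            refine av_mono fun G => ?_
            rw [← pow_mul]
            refine (pow_av_le (fun _ => by positivity) _ (by omega)).trans (le_of_eq ?_)
            simp only [← pow_mul]
        _ ≤ _ := by
            rw [av_comm]
            refine av_le_of_le fun W => ?_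
            obtain ⟨P', hP', hcyl⟩ := cav_cyl_st (L := L) he j i (fun r' => (W r').1)
            have h2 := hM n T j (R + q + (k + 1) * r) (t / 2 ^ (r + 1) + 1) P' _
              (2 ^ (r + 1) * z) hn hj (by omega) hcyl (Nat.le_add_left _ _) (by positivity) (by
                have h3 : t ≤ 2 ^ (r + 1) * (t / 2 ^ (r + 1) + 1) :=
                  (Nat.lt_mul_div_succ t (by positivity)).le
                have h4 : (t : ℝ) ≤ 2 ^ (r + 1) * ((t / 2 ^ (r + 1) + 1 : ℕ) : ℝ) := by
                  exact_mod_cast h3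
                have h5 : (2 : ℝ) ^ (r + 1) ≤ (2 ^ (r + 1)) ^ (k + 1) :=
                  le_self_pow₀ (one_le_pow₀ (by norm_num)) (by omega)
                calc (1 : ℝ) ≤ z ^ (k + 1) * t := hzt
                  _ ≤ z ^ (k + 1) * ((2 ^ (r + 1)) ^ (k + 1) *
                      ((t / 2 ^ (r + 1) + 1 : ℕ) : ℝ)) := by
                    refine mul_le_mul_of_nonneg_left (h4.trans ?_) (by positivity)
                    exact mul_le_mul_of_nonneg_right h5 (by positivity)
                  _ = _ := by rw [mul_pow]; ring)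
            refine h2.trans ?_
            rw [← pow_mul, mul_assoc k q 2]
            refine pow_le_pow_left₀ (by positivity) ?_ _
            exact mul_le_mul_of_nonneg_left (cav_grow ha hz) hC'.le
    refine (Real.sqrt_le_sqrt h1).trans ?_
    rw [Real.sqrt_sq (by positivity), mul_pow, mul_pow, ← mul_assoc, ← pow_mul, ← pow_mul,
      mul_comm (r + 1) (k * q)]
    refine mul_le_mul_of_nonneg_left ?_ (by positivity)
    rw [pow_mul, ← mul_pow]
    refine pow_le_pow_left₀ (by positivity) ?_ _
    rw [hw, pow_mul]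
    exact cav_add_pow (by positivity) hy0 hy1 hk
  have hind : ∀ i r, √(av fun G : Fin T → Clause (k + 1) n =>
      ind (r < (cavS L j e G i).card) ^ 2) ≤ √C * δ ^ r := by
    intro i r
    simp only [sq, ind_mul_self]
    refine (Real.sqrt_le_sqrt (hS n q T j r L e i hn1 hn hj)).trans (le_of_eq ?_)
    rw [Real.sqrt_mul hC.le, ← pow_mul, mul_comm 2 r, pow_mul, Real.sqrt_sq (by positivity)]
  have hterm : ∀ i r, (av fun G : Fin T → Clause (k + 1) n =>
      (2 ^ (r + 1) * (ind (r < (cavS L j e G i).card) * (c * cavPsi L j e t i r G))) ^ q) ≤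
      K₀ * w ^ q * (1 / 2) ^ r := by
    intro i r
    have h1 : ∀ G : Fin T → Clause (k + 1) n,
        (2 ^ (r + 1) * (ind (r < (cavS L j e G i).card) * (c * cavPsi L j e t i r G))) ^ q =
        (2 ^ q) ^ (r + 1) * c ^ q *
          (ind (r < (cavS L j e G i).card) * cavPsi L j e t i r G ^ q) := by
      intro G
      by_cases hr : r < (cavS L j e G i).card
      · rw [ind_pos hr, ← pow_mul, mul_comm q (r + 1), pow_mul]
        simp only [one_mul, mul_pow, mul_assoc]
      · rw [ind_neg hr]
        simp [show q ≠ 0 by omega]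
    simp only [h1]
    rw [av_const_mul]
    have h2 := (av_mul_le_sqrt (fun G : Fin T → Clause (k + 1) n =>
      ind (r < (cavS L j e G i).card)) fun G => cavPsi L j e t i r G ^ q).trans
      (mul_le_mul (hind i r) (hpsi i r) (Real.sqrt_nonneg _) (by positivity))
    refine (mul_le_mul_of_nonneg_left h2 (by positivity)).trans (le_of_eq ?_)
    have h3 : (1 / 2 : ℝ) = E * δ := by rw [hδ]; field_simp
    rw [h3, hK₀, hE]
    simp only [mul_pow, pow_succ]
    ring
  calc _ ≤ _ := cav_decouple (T := T) (j := j) (t := t) hL hP he hn2 hn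
    _ ≤ av fun G : Fin T → Clause (k + 1) n => ∑ i, ∑ r ∈ range T,
        (2 ^ (r + 1) * (ind (r < (cavS L j e G i).card) * (c * cavPsi L j e t i r G))) ^ q := by
        refine av_mono fun G => ?_
        have h0 : ∀ i r, 0 ≤ ind (r < (cavS L j e G i).card) * (c * cavPsi L j e t i r G) :=
          fun i r => mul_nonneg (ind_nonneg _) (mul_nonneg hc0.le (cavPsi_nonneg _ _ _ _ _ _ _))
        refine (cav_prod_le_sum_pow hq _ fun i => sum_nonneg fun r _ => h0 i r).trans ?_
        exact sum_le_sum fun i _ => cav_sum_pow_le T _ (h0 i) hq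
    _ ≤ ∑ _i : Fin q, ∑ r ∈ range T, K₀ * w ^ q * (1 / 2) ^ r := by
        rw [av_sum]
        refine sum_le_sum fun i _ => ?_
        rw [av_sum]
        exact sum_le_sum fun r _ => hterm i r
    _ ≤ ∑ _i : Fin q, K₀ * w ^ q * 2 := by
        refine sum_le_sum fun i _ => ?_
        rw [← mul_sum]
        exact mul_le_mul_of_nonneg_left (sum_geometric_two_le T) (by positivity)
    _ = _ := by
        simp only [sum_const, card_univ, Fintype.card_fin, nsmul_eq_mul]
        ring

open Classical in
/-- Counting good tuples in a set of literals with at most one literal per variable. -/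
lemma cav_tuples {n : ℕ} (q : ℕ) (X : Finset (Lit n)) (P : Finset (Fin n))
    (hX : ∀ l ∈ X, ∀ l' ∈ X, l.1 = l'.1 → l = l') :
    (X.card - (P.card + q)) ^ q ≤ (univ.filter fun L : Fin q → Lit n =>
      ((Function.Injective fun i => (L i).1) ∧ ∀ i, (L i).1 ∉ P) ∧ ∀ i, L i ∈ X).card := by
  let X' := X.filter fun l => l.1 ∉ P
  have h1 : X.card ≤ P.card + X'.card := by
    rw [← card_filter_add_card_filter_not (s := X) (fun l => l.1 ∈ P)]
    refine Nat.add_le_add_right ?_ _
    exact card_le_card_of_injOn (fun l => l.1) (fun l hl => (mem_filter.1 hl).2)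
      fun l hl l' hl' h => hX l (mem_filter.1 hl).1 l' (mem_filter.1 hl').1 h
  have h2 : (X.card - (P.card + q)) ^ q ≤ X'.card.descFactorial q :=
    (Nat.pow_le_pow_left (by omega) q).trans (Nat.pow_sub_le_descFactorial _ _)
  refine h2.trans ?_
  have h3 : X'.card.descFactorial q = (univ : Finset (Fin q ↪ X')).card := by
    rw [card_univ, Fintype.card_embedding_eq, Fintype.card_coe, Fintype.card_fin]
  rw [h3]
  refine card_le_card_of_injOn (fun f i => (f i).1) ?_ ?_
  · intro f _
    refine mem_coe.2 (mem_filter.2 ⟨mem_univ _, ⟨fun i i' h => ?_, fun i => ?_⟩, fun i => ?_⟩)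
    · exact f.injective (Subtype.ext
        (hX _ (mem_filter.1 (f i).2).1 _ (mem_filter.1 (f i').2).1 h))
    · exact (mem_filter.1 (f i).2).2
    · exact (mem_filter.1 (f i).2).1
  · intro f _ f' _ h
    ext i : 1
    exact Subtype.ext (congrFun h i)

theorem mom_step (k a : ℕ) (hk : 2 ≤ k) (ha : 1 ≤ a) (h : Mom k a) : Mom k (a * (k - 1)) := by
  classical
  obtain ⟨k, rfl⟩ : ∃ k', k = k' + 1 := ⟨k - 1, by omega⟩
  rw [Nat.add_sub_cancel]
  intro q hq
  obtain ⟨K, n₀, hK, hmain⟩ := cav_main k a q (by omega) ha hq h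
  set K₁ : ℝ := 2 ^ q * ((q + 1) ^ q + 2 ^ q * K) with hK₁
  have hK₁0 : 0 < K₁ := by positivity
  refine ⟨K₁ + 1 + n₀, by positivity, ?_⟩
  intro n T j R t P e z hn hj hP he ht hz hzt
  have hnpos : (0 : ℝ) < n := by exact_mod_cast (by omega : 0 < n)
  set y : ℝ := ((R : ℝ) + 1) / n with hy
  have hy0 : 0 < y := by positivity
  set w : ℝ := z ^ (a * k) + y with hw
  have hyw : y ≤ w := by
    have : 0 ≤ z ^ (a * k) := by positivity
    linarith
  have hw0 : 0 < w := hy0.trans_le hyw
  have hn₀ : (0 : ℝ) ≤ n₀ := Nat.cast_nonneg _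
  by_cases hcase : n₀ ≤ n ∧ R + 1 ≤ n
  · obtain ⟨h1, h2⟩ := hcase
    let good : Finset (Fin q → Lit n) := univ.filter fun L =>
      (Function.Injective fun i => (L i).1) ∧ ∀ i, (L i).1 ∉ P
    have hpt : ∀ G : Fin T → Clause (k + 1) n, (((Frz j e G t).card : ℝ) / n) ^ q ≤
        2 ^ q * (((q + 1) * w) ^ q +
          (∑ L ∈ good, ind (∀ i, L i ∈ Frz j e G t)) / (n : ℝ) ^ q) := by
      intro G
      have h3 := cav_tuples q (Frz j e G t) P fun l hl l' hl' h => Frz_inj hl hl' h
      have h4 : ((((Frz j e G t).card - (P.card + q) : ℕ) : ℝ)) ^ q ≤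
          ∑ L ∈ good, ind (∀ i, L i ∈ Frz j e G t) := by
        simp only [ind_eq_ite, Finset.sum_boole, good, filter_filter]
        exact_mod_cast h3
      set x : ℝ := (((Frz j e G t).card - (P.card + q) : ℕ) : ℝ) with hx
      have hx0 : 0 ≤ x := Nat.cast_nonneg _
      have h5 : ((Frz j e G t).card : ℝ) ≤ (q + 1) * (R + 1) + x := by
        have : (Frz j e G t).card ≤ (q + 1) * (R + 1) + ((Frz j e G t).card - (P.card + q)) := by
          have : P.card + q ≤ (q + 1) * (R + 1) := by nlinarith [Nat.zero_le (q * R)]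
          omega
        rw [hx]
        exact_mod_cast this
      have h6 : ((Frz j e G t).card : ℝ) / n ≤ (q + 1) * w + x / n := by
        calc _ ≤ ((q + 1) * (R + 1) + x) / n := div_le_div_of_nonneg_right h5 hnpos.le
          _ = (q + 1) * y + x / n := by rw [hy]; ring
          _ ≤ _ := by gcongr
      calc _ ≤ ((q + 1) * w + x / n) ^ q := pow_le_pow_left₀ (by positivity) h6 q
        _ ≤ 2 ^ (q - 1) * (((q + 1) * w) ^ q + (x / n) ^ q) :=
            add_pow_le (by positivity) (by positivity) q
        _ ≤ _ := by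
            refine mul_le_mul (pow_le_pow_right₀ (by norm_num) (by omega)) ?_ (by positivity)
              (by positivity)
            rw [div_pow]
            gcongr
    have := clause_nonempty hn
    have hgood : (good.card : ℝ) ≤ (2 * n) ^ q := by
      have : good.card ≤ (2 * n) ^ q := (card_le_univ _).trans (by simp [mul_comm])
      exact_mod_cast this
    calc _ ≤ _ := av_mono hpt
      _ = 2 ^ q * (((q + 1) * w) ^ q + (∑ L ∈ good, av fun G : Fin T → Clause (k + 1) n =>
            ind (∀ i, L i ∈ Frz j e G t)) / (n : ℝ) ^ q) := by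
          rw [av_const_mul, av_add, av_const, av_div_const, av_sum]
      _ ≤ 2 ^ q * (((q + 1) * w) ^ q + ((2 * n) ^ q * (K * w ^ q)) / (n : ℝ) ^ q) := by
          gcongr
          calc _ ≤ ∑ _L ∈ good, K * w ^ q := by
                refine sum_le_sum fun L hL => ?_
                obtain ⟨h3, h4⟩ := (mem_filter.1 hL).2
                exact hmain n T j R t P e z L h1 h2 hn hj hP he hz hzt h3 h4
            _ ≤ _ := by
                rw [sum_const, nsmul_eq_mul]
                exact mul_le_mul_of_nonneg_right hgood (by positivity)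
      _ = K₁ * w ^ q := by
          rw [hK₁, mul_pow, mul_pow]; field_simp
      _ ≤ _ := by
          rw [mul_pow]
          refine mul_le_mul_of_nonneg_right ?_ (by positivity)
          calc K₁ ≤ K₁ + 1 + n₀ := by linarith
            _ ≤ _ := le_self_pow₀ (by linarith) (by omega)
  · have h1 : 1 ≤ (K₁ + 1 + n₀) * w := by
      have h2 : 1 ≤ (1 + n₀) * y := by
        rw [hy, ← mul_div_assoc, le_div_iff₀ hnpos, one_mul]
        have : n ≤ (1 + n₀) * (R + 1) := by
          rcases not_and_or.1 hcase with h | h <;> nlinarith [Nat.zero_le (n₀ * R)]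
        exact_mod_cast this
      calc (1 : ℝ) ≤ (1 + n₀) * y := h2
        _ ≤ _ := mul_le_mul (by linarith) hyw hy0.le (by linarith)
    refine av_le_of_le' (by positivity) fun G => pow_le_pow_left₀ (by positivity) ?_ q
    refine le_trans ?_ h1
    rw [div_le_one hnpos]
    exact_mod_cast card_Frz_le j e G t

end Crest.Agent.R153
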