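import Mathlib
import Crest.Agent.Lib.Computability.FunProp

/-!
Row 153: a real whose two cuts are approximated by recursively enumerable sets is computable.
-/

set_option autoImplicit false

namespace Crest.Agent.R153

open Crest.Agent.Lib.Computability

theorem glue_re_normal {β : Type} [Primcodable β] {p : β → Prop} (hp : REPred p) :
    ∃ c : β → ℕ → Bool, Primrec (fun x : β × ℕ => c x.1 x.2) ∧ ∀ a, p a ↔ ∃ k, c a k = true := by
  obtain ⟨c, hc⟩ := Nat.Partrec.Code.exists_code.1 hp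
  refine ⟨fun a k => (Nat.Partrec.Code.evaln k c (Encodable.encode a)).isSome, ?_, fun a => ?_⟩
  · exact Primrec.option_isSome.comp (Nat.Partrec.Code.primrec_evaln.comp
      ((Primrec.snd.pair (Primrec.const c)).pair (Primrec.encode.comp Primrec.fst)))
  · have h1 : p a ↔ ∃ x, x ∈ c.eval (Encodable.encode a) := by
      rw [hc]; simp [Part.mem_assert_iff]
    rw [h1]
    constructor
    · rintro ⟨x, hx⟩
      obtain ⟨k, hk⟩ := Nat.Partrec.Code.evaln_complete.1 hx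
      exact ⟨k, Option.isSome_iff_exists.2 ⟨x, hk⟩⟩
    · rintro ⟨k, hk⟩
      obtain ⟨x, hx⟩ := Option.isSome_iff_exists.1 hk
      exact ⟨x, Nat.Partrec.Code.evaln_sound hx⟩

theorem computable_of_re_cuts (α : ℝ) (hα : 0 ≤ α) (Lo Up : ℚ → Prop) (hLo : REPred Lo)
    (hUp : REPred Up) (hLs : ∀ c, Lo c → (c : ℝ) ≤ α) (hLc : ∀ c : ℚ, (c : ℝ) < α → Lo c)
    (hUs : ∀ c, Up c → α ≤ (c : ℝ)) (hUc : ∀ c : ℚ, α < (c : ℝ) → Up c) :
    ∃ f : ℕ → ℕ, Computable f ∧ ∀ r : ℕ, |(f r : ℝ) / 2 ^ r - α| ≤ 1 / 2 ^ r := by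
  obtain ⟨L, hL, hL'⟩ := glue_re_normal hLo
  obtain ⟨U, hU, hU'⟩ := glue_re_normal hUp
  let T : ℕ → ℕ → Bool := fun r n =>
    L ((((Nat.unpair n).1 : ℚ) - 1) / 2 ^ r) (Nat.unpair (Nat.unpair n).2).1 &&
      U ((((Nat.unpair n).1 : ℚ) + 1) / 2 ^ r) (Nat.unpair (Nat.unpair n).2).2
  have hT : Primrec fun x : ℕ × ℕ => T x.1 x.2 := by
    have h1 : Primrec fun x : ℕ × ℕ =>
        (((((Nat.unpair x.2).1 : ℚ) - 1) / 2 ^ x.1, (Nat.unpair (Nat.unpair x.2).2).1) : ℚ × ℕ) := by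
      fun_prop
    have h2 : Primrec fun x : ℕ × ℕ =>
        (((((Nat.unpair x.2).1 : ℚ) + 1) / 2 ^ x.1, (Nat.unpair (Nat.unpair x.2).2).2) : ℚ × ℕ) := by
      fun_prop
    exact Primrec.and.comp (hL.comp h1) (hU.comp h2)
  have hex : ∀ r, ∃ n, T r n = true := by
    intro r
    have h2 : (0 : ℝ) < 2 ^ r := by positivity
    set j := ⌊α * 2 ^ r⌋₊ with hj
    have j1 : (j : ℝ) ≤ α * 2 ^ r := Nat.floor_le (by positivity)
    have j2 : α * 2 ^ r < j + 1 := Nat.lt_floor_add_one _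
    obtain ⟨w1, hw1⟩ := (hL' (((j : ℚ) - 1) / 2 ^ r)).1 (hLc _ (by
      push_cast; rw [div_lt_iff₀ h2]; linarith))
    obtain ⟨w2, hw2⟩ := (hU' (((j : ℚ) + 1) / 2 ^ r)).1 (hUc _ (by
      push_cast; rw [lt_div_iff₀ h2]; linarith))
    exact ⟨Nat.pair j (Nat.pair w1 w2), by simp [T, hw1, hw2]⟩
  have hfind : Computable fun r => Nat.find (hex r) :=
    Computable.find (P := fun r n => T r n = true)
      (ComputablePred.computable_iff.2 ⟨fun x => T x.1 x.2, hT.to_comp, rfl⟩) hex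
  refine ⟨fun r => (Nat.unpair (Nat.find (hex r))).1,
    (Primrec.fst.comp Primrec.unpair).to_comp.comp hfind, fun r => ?_⟩
  have h : T r (Nat.find (hex r)) = true := Nat.find_spec (hex r)
  beta_reduce
  generalize Nat.find (hex r) = n at h ⊢
  simp only [T, Bool.and_eq_true] at h
  have a1 := hLs _ ((hL' _).2 ⟨_, h.1⟩)
  have a2 := hUs _ ((hU' _).2 ⟨_, h.2⟩)
  push_cast at a1 a2
  rw [sub_div] at a1
  rw [add_div] at a2
  rw [abs_le]
  constructor <;> linarith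

end Crest.Agent.R153
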