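import Mathlib
import Crest.Agent.R153.SatDefs
import Crest.Agent.Lib.Computability.FunProp

/-!
Row 153: the lower certificates are recursively enumerable.
-/

set_option autoImplicit false

namespace Crest.Agent.R153

open Finset Crest.Agent.Lib.Computability

/-- Number of violated clauses, on list encodings. -/
def lowViol (M : ℕ) (F σ : List ℕ) : ℕ :=
  ((List.range M).map fun s => ((List.range 3).map fun j =>
    cond (eqB (σ.getD (F.getD (j + 3 * s) 0 / 2) 0) (F.getD (j + 3 * s) 0 % 2)) 0 1).prod).sum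

/-- Ground energy, on list encodings. -/
def lowEn (N M : ℕ) (F : List ℕ) : ℕ :=
  ((List.range M).map fun t => cond (eqB
    (((allLists 2 N).map fun σ => cond (leN (lowViol M F σ) t) 1 0).sum) 0) 1 0).sum

/-- Total ground energy. -/
def lowTot (N M : ℕ) : ℕ := ((allLists (N * 2) (M * 3)).map (lowEn N M)).sum

@[fun_prop] theorem lowViol_primrec {α : Type} [Primcodable α] {f : α → ℕ} {g h : α → List ℕ}
    (hf : Primrec f) (hg : Primrec g) (hh : Primrec h) :
    Primrec fun x => lowViol (f x) (g x) (h x) := by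
  unfold lowViol
  fun_prop

@[fun_prop] theorem lowEn_primrec {α : Type} [Primcodable α] {f g : α → ℕ} {h : α → List ℕ}
    (hf : Primrec f) (hg : Primrec g) (hh : Primrec h) :
    Primrec fun x => lowEn (f x) (g x) (h x) := by
  unfold lowEn
  refine fp_nat_sum (fp_map (by fun_prop) (fp_cond (fp_eqB (fp_nat_sum (fp_map (by fun_prop)
    (fp_cond (fp_leN (lowViol_primrec (by fun_prop) (by fun_prop) (by fun_prop)) (by fun_prop))
      (fp_const _) (fp_const _)))) (fp_const _)) (fp_const _) (fp_const _)))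

@[fun_prop] theorem lowTot_primrec {α : Type} [Primcodable α] {f g : α → ℕ}
    (hf : Primrec f) (hg : Primrec g) : Primrec fun x => lowTot (f x) (g x) := by
  unfold lowTot
  exact fp_nat_sum (fp_map (by fun_prop) (lowEn_primrec (by fun_prop) (by fun_prop) (by fun_prop)))

/-- Decoding of literals. -/
def lowLit (N : ℕ) : Fin (N * 2) ≃ Lit N :=
  finProdFinEquiv.symm.trans (Equiv.prodCongr (Equiv.refl _) finTwoEquiv)

/-- Decoding of formulas. -/
def lowFm (N M : ℕ) : (Fin (M * 3) → Fin (N * 2)) ≃ (Fin M → RCl N) :=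
  (Equiv.arrowCongr finProdFinEquiv.symm (lowLit N)).trans (Equiv.curry _ _ _)

lemma lowFm_apply {N M : ℕ} (x : Fin (M * 3) → Fin (N * 2)) (s : Fin M) (j : Fin 3) :
    lowFm N M x s j = lowLit N (x (finProdFinEquiv (s, j))) := rfl

lemma low_getD {L n : ℕ} (x : Fin L → Fin n) (i : Fin L) :
    (List.ofFn fun i => (x i : ℕ)).getD i 0 = x i := by
  simp [List.getD_eq_getElem?_getD]

lemma lowViol_eq {N M : ℕ} (x : Fin (M * 3) → Fin (N * 2)) (σ : Fin N → Fin 2) :
    lowViol M (List.ofFn fun i => (x i : ℕ)) (List.ofFn fun i => (σ i : ℕ)) =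
      rviol (lowFm N M x) fun v => finTwoEquiv (σ v) := by
  classical
  unfold lowViol rviol
  rw [sum_map_range, Finset.card_filter]
  refine Finset.sum_congr rfl fun s _ => ?_
  rw [prod_map_range]
  have key : ∀ j : Fin 3, (cond (eqB ((List.ofFn fun i => (σ i : ℕ)).getD
      ((List.ofFn fun i => (x i : ℕ)).getD (j + 3 * s) 0 / 2) 0)
      ((List.ofFn fun i => (x i : ℕ)).getD (j + 3 * s) 0 % 2)) 0 1 : ℕ) =
      if finTwoEquiv (σ (lowFm N M x s j).1) ≠ (lowFm N M x s j).2 then 1 else 0 := by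
    intro j
    have h1 : (j : ℕ) + 3 * s = (finProdFinEquiv (s, j) : Fin (M * 3)) := rfl
    rw [h1, low_getD, lowFm_apply]
    set l := x (finProdFinEquiv (s, j))
    have h2 : (l : ℕ) / 2 = ((lowLit N l).1 : ℕ) := rfl
    have h3 : (lowLit N l).2 = finTwoEquiv l.modNat := rfl
    have h4 : (l : ℕ) % 2 = (l.modNat : ℕ) := rfl
    rw [h2, low_getD, h3, h4]
    by_cases h : σ (lowLit N l).1 = l.modNat
    · simp [h, eqB]
    · have h' : ((σ (lowLit N l).1 : ℕ)) ≠ (l.modNat : ℕ) := fun hh => h (Fin.ext hh)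
      have h'' : eqB ((σ (lowLit N l).1 : ℕ)) (l.modNat : ℕ) = false := by
        simpa [eqB] using h'
      rw [h'', if_pos (finTwoEquiv.injective.ne h)]
      rfl
  rw [Finset.prod_congr rfl fun j _ => key j, Finset.prod_boole]
  simp only [RViol, Finset.mem_univ, true_imp_iff]
  congr

lemma lowEn_eq {N M : ℕ} (x : Fin (M * 3) → Fin (N * 2)) :
    lowEn N M (List.ofFn fun i => (x i : ℕ)) = renergy (lowFm N M x) := by
  classical
  unfold lowEn
  set F := lowFm N M x
  have hle : renergy F ≤ M := by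
    refine (ciInf_le (OrderBot.bddBelow _) fun _ => true).trans ?_
    unfold rviol
    exact (Finset.card_filter_le _ _).trans (by simp)
  have key : ∀ t : ℕ, (cond (eqB (((allLists 2 N).map fun σ =>
      cond (leN (lowViol M (List.ofFn fun i => (x i : ℕ)) σ) t) 1 0).sum) (0 : ℕ)) 1 0 : ℕ) =
      if t < renergy F then 1 else 0 := by
    intro t
    rw [sum_allLists]
    simp only [lowViol_eq]
    by_cases h : t < renergy F
    · rw [if_pos h, Finset.sum_eq_zero]
      · simp [eqB]
      · intro σ _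
        have : renergy F ≤ rviol F fun v => finTwoEquiv (σ v) :=
          ciInf_le (OrderBot.bddBelow _) _
        have h' : leN (rviol F fun v => finTwoEquiv (σ v)) t = false := by
          simp only [leN, decide_eq_false_iff_not]; omega
        rw [h']; rfl
    · rw [if_neg h]
      obtain ⟨σ, hσ⟩ : ∃ σ, rviol F σ = renergy F := ciInf_mem (rviol F)
      have h1 : (cond (leN (rviol F fun v => finTwoEquiv (finTwoEquiv.symm (σ v))) t) 1 0 : ℕ) =
          1 := by
        have h' : leN (rviol F fun v => finTwoEquiv (finTwoEquiv.symm (σ v))) t = true := by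
          simp only [Equiv.apply_symm_apply, leN_iff]
          change rviol F σ ≤ t
          omega
        rw [h']; rfl
      have h2 := Finset.single_le_sum (f := fun τ : Fin N → Fin 2 =>
        (cond (leN (rviol F fun v => finTwoEquiv (τ v)) t) 1 0 : ℕ)) (fun _ _ => Nat.zero_le _)
        (Finset.mem_univ fun v => finTwoEquiv.symm (σ v))
      rw [h1] at h2
      have h' : eqB (∑ τ : Fin N → Fin 2,
          (cond (leN (rviol F fun v => finTwoEquiv (τ v)) t) 1 0 : ℕ)) (0 : ℕ) = false := by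
        simp only [eqB, decide_eq_false_iff_not]; omega
      rw [h']; rfl
  simp only [key]
  rw [sum_map_range M fun t => if t < renergy F then 1 else 0,
    ← Finset.sum_range (fun t => if t < renergy F then 1 else 0), ← Finset.card_filter]
  have : (range M).filter (fun t => t < renergy F) = range (renergy F) := by
    ext t; simp only [Finset.mem_filter, Finset.mem_range]; omega
  rw [this, Finset.card_range]

lemma lowREn_eq (N M : ℕ) : REn N M = (lowTot N M : ℝ) / ((N * 2) ^ (M * 3) : ℕ) := by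
  unfold REn lowTot
  rw [← av_equiv (lowFm N M), sum_allLists]
  simp only [lowEn_eq]
  unfold av
  simp

theorem re_lowReal (C₀ : ℕ) : REPred (LowReal C₀) := by
  let T : ℚ → (ℕ × ℕ) × (ℚ × ℚ) → Bool := fun c w => leQ c 0 ||
    (leN 1 w.1.1 && (ltQ 0 w.2.1 && (leQ w.2.1 1 && (ltQ 0 w.2.2 && (leQ (w.1.2 : ℚ) (w.2.2 ^ 2) &&
      (leQ ((C₀ : ℚ) * ((lowTot w.1.1 w.1.2 : ℚ) / (((w.1.1 * 2) ^ (w.1.2 * 3) : ℕ) : ℚ) + w.2.2))
        (w.2.1 ^ 2 * (w.1.1 : ℚ)) && leQ c ((w.1.2 : ℚ) / (w.1.1 : ℚ) - w.2.1)))))))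
  have hT : Primrec fun p : ℚ × ((ℕ × ℕ) × (ℚ × ℚ)) => T p.1 p.2 := by
    simp only [T]
    fun_prop
  refine (re_exists hT).of_eq fun c => ?_
  have hc : ∀ (N M : ℕ) (η z : ℚ),
      ((C₀ : ℚ) * ((lowTot N M : ℚ) / (((N * 2) ^ (M * 3) : ℕ) : ℚ) + z) ≤ η ^ 2 * (N : ℚ)) ↔
      (C₀ : ℝ) * (REn N M + z) ≤ (η : ℝ) ^ 2 * N := by
    intro N M η z
    rw [lowREn_eq, ← Rat.cast_le (K := ℝ)]
    simp only [Rat.cast_mul, Rat.cast_add, Rat.cast_div, Rat.cast_natCast, Rat.cast_pow]
  unfold LowReal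
  simp only [T, Bool.or_eq_true, Bool.and_eq_true, leQ_iff, ltQ_iff, leN_iff, hc]
  constructor
  · rintro ⟨⟨⟨N, M⟩, η, z⟩, h | h⟩
    · exact Or.inl h
    · exact Or.inr ⟨N, M, η, z, h⟩
  · rintro (h | ⟨N, M, η, z, h⟩)
    · exact ⟨((0, 0), (0, 0)), Or.inl h⟩
    · exact ⟨((N, M), (η, z)), Or.inr h⟩

end Crest.Agent.R153
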