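import Mathlib
import Crest.Agent.R153.Upper

/-!
Row 153: rounded evaluation of the trial functionals (real side).
-/

set_option autoImplicit false
set_option linter.unusedSectionVars false

namespace Crest.Agent.R153

open Finset Filter Topology

/-- Rounding down (`δ = 0`) or up (`δ = 1`) to the grid of mesh `1 / s`. -/
noncomputable def cuRnd (δ s : ℕ) (y : ℝ) : ℝ := ((min (⌊(s : ℝ) * y⌋₊ + δ) s : ℕ) : ℝ) / s

lemma cuRnd_mem (δ s : ℕ) (y : ℝ) : 0 ≤ cuRnd δ s y ∧ cuRnd δ s y ≤ 1 := by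
  unfold cuRnd
  refine ⟨by positivity, div_le_one_of_le₀ ?_ (Nat.cast_nonneg _)⟩
  exact_mod_cast min_le_right _ _

lemma cuRnd_zero_le {s : ℕ} (hs : 0 < s) {y : ℝ} (hy : 0 ≤ y) : cuRnd 0 s y ≤ y := by
  have hs' : (0 : ℝ) < s := by exact_mod_cast hs
  unfold cuRnd
  rw [div_le_iff₀ hs']
  have h1 : ((min (⌊(s : ℝ) * y⌋₊ + 0) s : ℕ) : ℝ) ≤ ⌊(s : ℝ) * y⌋₊ := by
    exact_mod_cast min_le_left _ _
  have h2 := Nat.floor_le (show 0 ≤ (s : ℝ) * y by positivity)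
  linarith

lemma le_cuRnd_one {s : ℕ} (hs : 0 < s) {y : ℝ} (hy : y ≤ 1) : y ≤ cuRnd 1 s y := by
  have hs' : (0 : ℝ) < s := by exact_mod_cast hs
  unfold cuRnd
  rw [le_div_iff₀ hs']
  have h2 := Nat.lt_floor_add_one ((s : ℝ) * y)
  push_cast
  refine le_min (by linarith) (by nlinarith)

lemma abs_cuRnd_sub {δ s : ℕ} (hδ : δ ≤ 1) (hs : 0 < s) {y : ℝ} (h0 : 0 ≤ y) (h1 : y ≤ 1) :
    |cuRnd δ s y - y| ≤ 1 / s := by
  have hs' : (0 : ℝ) < s := by exact_mod_cast hs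
  have hδ' : (δ : ℝ) ≤ 1 := by exact_mod_cast hδ
  have hδ0 : (0 : ℝ) ≤ δ := Nat.cast_nonneg _
  have h2 := Nat.lt_floor_add_one ((s : ℝ) * y)
  have h3 := Nat.floor_le (show 0 ≤ (s : ℝ) * y by positivity)
  have e : cuRnd δ s y - y = (((min (⌊(s : ℝ) * y⌋₊ + δ) s : ℕ) : ℝ) - s * y) / s := by
    unfold cuRnd; field_simp
  rw [e, abs_div, abs_of_pos hs']
  refine div_le_div_of_nonneg_right ?_ hs'.le
  push_cast
  have h4 : (s : ℝ) * y ≤ s := by nlinarith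
  rw [abs_le]
  constructor
  · have : (s : ℝ) * y - 1 ≤ min ((⌊(s : ℝ) * y⌋₊ : ℝ) + δ) s := le_min (by linarith) (by linarith)
    linarith
  · have := min_le_left ((⌊(s : ℝ) * y⌋₊ : ℝ) + δ) s
    linarith

section pm
variable {Ω : Type} [Fintype Ω] {D : ℕ}

/-- Rounded nested powers. -/
noncomputable def cuQ (F : Filt Ω D) (γ : ℕ → ℝ) (δ s : ℕ) (V : Ω → ℝ) : ℕ → Ω → ℝ
  | 0 => V
  | k + 1 => fun ω => cuRnd δ s (F.E (D - (k + 1)) (cuQ F γ δ s V k) ω ^ γ (D - (k + 1)))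

lemma cuQ_zero (F : Filt Ω D) (γ : ℕ → ℝ) (δ s : ℕ) (V : Ω → ℝ) : cuQ F γ δ s V 0 = V := rfl

lemma cuQ_succ (F : Filt Ω D) (γ : ℕ → ℝ) (δ s : ℕ) (V : Ω → ℝ) (k : ℕ) (ω : Ω) :
    cuQ F γ δ s V (k + 1) ω =
      cuRnd δ s (F.E (D - (k + 1)) (cuQ F γ δ s V k) ω ^ γ (D - (k + 1))) := rfl

lemma cu_Qs_succ (F : Filt Ω D) (γ : ℕ → ℝ) (V : Ω → ℝ) (k : ℕ) (ω : Ω) :
    F.Qs γ D V (k + 1) ω = F.E (D - (k + 1)) (F.Qs γ D V k) ω ^ γ (D - (k + 1)) := rfl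

/-- Rounded power-mean functional. -/
noncomputable def cuPm (F : Filt Ω D) (γ : ℕ → ℝ) (δ s : ℕ) (V : Ω → ℝ) : ℝ :=
  F.Ex (cuQ F γ δ s V D)

lemma cuQ_mem (F : Filt Ω D) (γ : ℕ → ℝ) (δ s : ℕ) {V : Ω → ℝ} (hV : ∀ ω, 0 ≤ V ω ∧ V ω ≤ 1)
    (k : ℕ) (ω : Ω) : 0 ≤ cuQ F γ δ s V k ω ∧ cuQ F γ δ s V k ω ≤ 1 := by
  cases k with
  | zero => exact hV ω
  | succ k => exact cuRnd_mem _ _ _

lemma cu_E_mem (F : Filt Ω D) (d : ℕ) {V : Ω → ℝ} (hV : ∀ ω, 0 ≤ V ω ∧ V ω ≤ 1) (ω : Ω) :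
    0 ≤ F.E d V ω ∧ F.E d V ω ≤ 1 :=
  ⟨F.E_nonneg d (fun ω => (hV ω).1) ω, F.E_le_of_le d (fun ω => (hV ω).2) ω⟩

lemma cu_Qs_nonneg (F : Filt Ω D) (γ : ℕ → ℝ) {V : Ω → ℝ} (hV : ∀ ω, 0 ≤ V ω) (k : ℕ) (ω : Ω) :
    0 ≤ F.Qs γ D V k ω := by
  induction k generalizing ω with
  | zero => exact hV ω
  | succ k ih => exact Real.rpow_nonneg (F.E_nonneg _ ih ω) _

lemma cuPm_zero_le (F : Filt Ω D) {γ : ℕ → ℝ} (hγ : Adm γ) {s : ℕ} (hs : 0 < s) {V : Ω → ℝ}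
    (hV : ∀ ω, 0 ≤ V ω ∧ V ω ≤ 1) : cuPm F γ 0 s V ≤ F.pm γ V := by
  have h : ∀ k ω, cuQ F γ 0 s V k ω ≤ F.Qs γ D V k ω := by
    intro k
    induction k with
    | zero => exact fun ω => le_rfl
    | succ k ih =>
      intro ω
      have h1 := cu_E_mem F (D - (k + 1)) (cuQ_mem F γ 0 s hV k) ω
      rw [cuQ_succ, cu_Qs_succ]
      exact (cuRnd_zero_le hs (Real.rpow_nonneg h1.1 _)).trans
        (Real.rpow_le_rpow h1.1 (F.E_mono _ ih ω) (hγ _).1.le)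
  exact F.Ex_mono (h D)

lemma le_cuPm_one (F : Filt Ω D) {γ : ℕ → ℝ} (hγ : Adm γ) {s : ℕ} (hs : 0 < s) {V : Ω → ℝ}
    (hV : ∀ ω, 0 ≤ V ω ∧ V ω ≤ 1) : F.pm γ V ≤ cuPm F γ 1 s V := by
  have h : ∀ k ω, F.Qs γ D V k ω ≤ cuQ F γ 1 s V k ω := by
    intro k
    induction k with
    | zero => exact fun ω => le_rfl
    | succ k ih =>
      intro ω
      have h1 := cu_E_mem F (D - (k + 1)) (cuQ_mem F γ 1 s hV k) ω
      rw [cuQ_succ, cu_Qs_succ]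
      exact (Real.rpow_le_rpow (F.E_nonneg _ (cu_Qs_nonneg F γ (fun ω => (hV ω).1) k) ω)
        (F.E_mono _ ih ω) (hγ _).1.le).trans
        (le_cuRnd_one hs (Real.rpow_le_one h1.1 h1.2 (hγ _).1.le))
  exact F.Ex_mono (h D)

/-- Convergence of filtered spaces with the same relations. -/
def CuConv (F : ℕ → Filt Ω D) (G : Filt Ω D) : Prop :=
  (∀ J d x y, (F J).rel d x y ↔ G.rel d x y) ∧
    ∀ x, Tendsto (fun J => (F J).p x) atTop (𝓝 (G.p x))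

lemma CuConv.pi {ι : Type} [Fintype ι] {F : ℕ → Filt Ω D} {G : Filt Ω D} (h : CuConv F G) :
    CuConv (fun J => Filt.pi fun _ : ι => F J) (Filt.pi fun _ : ι => G) :=
  ⟨fun J d x y => forall_congr' fun i => h.1 J d (x i) (y i),
    fun x => tendsto_finsetProd _ fun i _ => h.2 (x i)⟩

lemma CuConv.E {F : ℕ → Filt Ω D} {G : Filt Ω D} (h : CuConv F G) (d : ℕ) {f : ℕ → Ω → ℝ}
    {g : Ω → ℝ} (hf : ∀ x, Tendsto (fun J => f J x) atTop (𝓝 (g x))) (ω : Ω) :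
    Tendsto (fun J => (F J).E d (f J) ω) atTop (𝓝 (G.E d g ω)) := by
  unfold Filt.E
  simp only [fun J y => ind_congr (h.1 J d ω y)]
  exact (tendsto_finsetSum _ fun y _ => ((h.2 y).const_mul _).mul (hf y)).div
    (tendsto_finsetSum _ fun y _ => (h.2 y).const_mul _) (G.mass_pos d ω).ne'

lemma CuConv.Ex [Nonempty Ω] {F : ℕ → Filt Ω D} {G : Filt Ω D} (h : CuConv F G) {f : ℕ → Ω → ℝ}
    {g : Ω → ℝ} (hf : ∀ x, Tendsto (fun J => f J x) atTop (𝓝 (g x))) :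
    Tendsto (fun J => (F J).Ex (f J)) atTop (𝓝 (G.Ex g)) := by
  unfold Filt.Ex
  exact (tendsto_finsetSum _ fun y _ => (h.2 y).mul (hf y)).div
    (tendsto_finsetSum _ fun y _ => h.2 y) G.sum_p_pos.ne'

lemma CuConv.pm [Nonempty Ω] {F : ℕ → Filt Ω D} {G : Filt Ω D} (h : CuConv F G)
    {γ : ℕ → ℕ → ℝ} {γ' : ℕ → ℝ} (hγ : ∀ J, Adm (γ J)) (hγ' : Adm γ')
    (hγt : ∀ d < D, Tendsto (fun J => γ J d) atTop (𝓝 (γ' d))) {δ : ℕ} (hδ : δ ≤ 1)
    {V : ℕ → Ω → ℝ} {W : Ω → ℝ} (hV : ∀ J ω, 0 ≤ V J ω ∧ V J ω ≤ 1)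
    (hVt : ∀ x, Tendsto (fun J => V J x) atTop (𝓝 (W x))) :
    Tendsto (fun J => cuPm (F J) (γ J) δ (J + 1) (V J)) atTop (𝓝 (G.pm γ' W)) := by
  have key : ∀ k ≤ D, ∀ ω, Tendsto (fun J => cuQ (F J) (γ J) δ (J + 1) (V J) k ω) atTop
      (𝓝 (G.Qs γ' D W k ω)) := by
    intro k
    induction k with
    | zero => exact fun _ => hVt
    | succ k ih =>
      intro hk ω
      have h1 := ((h.E (D - (k + 1)) (ih (by omega)) ω).rpow (hγt (D - (k + 1)) (by omega))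
        (Or.inr (hγ' _).1))
      simp only [cuQ_succ, cu_Qs_succ]
      refine h1.congr_dist ?_
      refine squeeze_zero (fun _ => dist_nonneg) (fun J => ?_)
        tendsto_one_div_add_atTop_nhds_zero_nat
      have h2 := cu_E_mem (F J) (D - (k + 1)) (cuQ_mem (F J) (γ J) δ (J + 1) (hV J) k) ω
      rw [dist_comm, Real.dist_eq]
      have := abs_cuRnd_sub hδ (Nat.succ_pos J) (Real.rpow_nonneg h2.1 (γ J (D - (k + 1))))
        (Real.rpow_le_one h2.1 h2.2 (hγ J _).1.le)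
      simpa using this
  exact h.Ex (key D le_rfl)

end pm

section trial
variable {Ξ : Type} [Fintype Ξ] {D : ℕ}

/-- Top weight of the edge functional. -/
noncomputable def cuVE (p q : ℕ) (b : ℝ) (f : Ξ → Bool) (u : Fin (q + 1)) (x : Fin 3 → Ξ) : ℝ :=
  1 - b * ind ((u : ℕ) < p) * ∏ j, ind (f (x j) = true)

/-- Top weight of the site functional. -/
noncomputable def cuVS (p q : ℕ) (b : ℝ) (f : Ξ → Bool) (K : ℕ)
    (τ : Fin K → Fin (q + 1) × Bool) (x : Fin K × Fin 2 → Ξ) : ℝ :=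
  av fun ε : Bool => ∏ k, (1 - b * ind (((τ k).1 : ℕ) < p) * ind (ε ≠ (τ k).2) *
      ∏ j, ind (f (x (k, j)) = true))

/-- Rounded edge functional. -/
noncomputable def cuEdge (p q : ℕ) (b : ℝ) (γ : ℕ → ℝ) (δ s : ℕ) (X : Filt Ξ D) (f : Ξ → Bool) :
    ℝ := av fun u : Fin (q + 1) => cuPm (Filt.pi fun _ : Fin 3 => X) γ δ s (cuVE p q b f u)

/-- Rounded site functional. -/
noncomputable def cuSite (p q : ℕ) (b : ℝ) (γ : ℕ → ℝ) (δ s : ℕ) (X : Filt Ξ D) (f : Ξ → Bool)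
    (K : ℕ) : ℝ := av fun τ : Fin K → Fin (q + 1) × Bool =>
  cuPm (Filt.pi fun _ : Fin K × Fin 2 => X) γ δ s (cuVS p q b f K τ)

omit [Fintype Ξ] in
lemma cuVE_mem (p q : ℕ) {b : ℝ} (hb0 : 0 < b) (hb1 : b < 1) (f : Ξ → Bool) (u : Fin (q + 1))
    (x : Fin 3 → Ξ) : 0 ≤ cuVE p q b f u x ∧ cuVE p q b f u x ≤ 1 := by
  have := up_w_mem (t := ind ((u : ℕ) < p)) (s := ∏ j, ind (f (x j) = true)) hb0.le
    (ind_nonneg _) (ind_le_one _) (up_prod_ind_nonneg _) (up_prod_ind_le_one _)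
  exact ⟨le_trans (by linarith) this.1, this.2⟩

omit [Fintype Ξ] in
lemma cuVS_mem (p q : ℕ) {b : ℝ} (hb0 : 0 < b) (hb1 : b < 1) (f : Ξ → Bool) (K : ℕ)
    (τ : Fin K → Fin (q + 1) × Bool) (x : Fin K × Fin 2 → Ξ) :
    0 ≤ cuVS p q b f K τ x ∧ cuVS p q b f K τ x ≤ 1 := by
  have h : ∀ (ε : Bool) (k : Fin K),
      0 ≤ 1 - b * ind (((τ k).1 : ℕ) < p) * ind (ε ≠ (τ k).2) *
        ∏ j, ind (f (x (k, j)) = true) ∧
      1 - b * ind (((τ k).1 : ℕ) < p) * ind (ε ≠ (τ k).2) *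
        ∏ j, ind (f (x (k, j)) = true) ≤ 1 := fun ε k => by
    have := up_w_mem (t := ind (((τ k).1 : ℕ) < p) * ind (ε ≠ (τ k).2))
      (s := ∏ j, ind (f (x (k, j)) = true)) hb0.le (mul_nonneg (ind_nonneg _) (ind_nonneg _))
      (mul_le_one₀ (ind_le_one _) (ind_nonneg _) (ind_le_one _)) (up_prod_ind_nonneg _)
      (up_prod_ind_le_one _)
    rw [← mul_assoc] at this
    exact ⟨le_trans (by linarith) this.1, this.2⟩
  exact ⟨av_nonneg fun ε => Finset.prod_nonneg fun k _ => (h ε k).1,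
    av_le_of_le fun ε => Finset.prod_le_one (fun k _ => (h ε k).1) fun k _ => (h ε k).2⟩

lemma cu_tendsto_av {α : Type} [Fintype α] {f : ℕ → α → ℝ} {g : α → ℝ}
    (h : ∀ a, Tendsto (fun J => f J a) atTop (𝓝 (g a))) :
    Tendsto (fun J => av (f J)) atTop (𝓝 (av g)) :=
  (tendsto_finsetSum _ fun a _ => h a).div_const _

lemma cuEdge_tendsto [Nonempty Ξ] (p q : ℕ) {X : ℕ → Filt Ξ D} {Y : Filt Ξ D} (h : CuConv X Y)
    {γ : ℕ → ℕ → ℝ} {γ' : ℕ → ℝ} (hγ : ∀ J, Adm (γ J)) (hγ' : Adm γ')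
    (hγt : ∀ d < D, Tendsto (fun J => γ J d) atTop (𝓝 (γ' d))) {δ : ℕ} (hδ : δ ≤ 1)
    {b : ℕ → ℝ} {b' : ℝ} (hb : ∀ J, 0 < b J ∧ b J < 1) (hbt : Tendsto b atTop (𝓝 b'))
    (f : Ξ → Bool) :
    Tendsto (fun J => cuEdge p q (b J) (γ J) δ (J + 1) (X J) f) atTop
      (𝓝 (edgeE p q b' γ' Y f)) :=
  cu_tendsto_av fun u => h.pi.pm hγ hγ' hγt hδ (fun J => cuVE_mem p q (hb J).1 (hb J).2 f u)
    fun _ => ((hbt.mul_const _).mul_const _).const_sub _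

lemma cuSite_tendsto [Nonempty Ξ] (p q : ℕ) {X : ℕ → Filt Ξ D} {Y : Filt Ξ D} (h : CuConv X Y)
    {γ : ℕ → ℕ → ℝ} {γ' : ℕ → ℝ} (hγ : ∀ J, Adm (γ J)) (hγ' : Adm γ')
    (hγt : ∀ d < D, Tendsto (fun J => γ J d) atTop (𝓝 (γ' d))) {δ : ℕ} (hδ : δ ≤ 1)
    {b : ℕ → ℝ} {b' : ℝ} (hb : ∀ J, 0 < b J ∧ b J < 1) (hbt : Tendsto b atTop (𝓝 b'))
    (f : Ξ → Bool) (K : ℕ) :
    Tendsto (fun J => cuSite p q (b J) (γ J) δ (J + 1) (X J) f K) atTop
      (𝓝 (siteS p q b' γ' Y f K)) :=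
  cu_tendsto_av fun τ => h.pi.pm hγ hγ' hγt hδ (fun J => cuVS_mem p q (hb J).1 (hb J).2 f K τ)
    fun _ => cu_tendsto_av fun _ => tendsto_finsetProd _ fun _ _ =>
      (((hbt.mul_const _).mul_const _).mul_const _).const_sub _

/-- Soundness of the rounded test. -/
lemma cu_sound [Nonempty Ξ] (a p q : ℕ) {b : ℝ} (hb0 : 0 < b) (hb1 : b < 1) {γ : ℕ → ℝ}
    (hγ : Adm γ) (X : Filt Ξ D) (f : Ξ → Bool) {s : ℕ} (hs : 0 < s) {t T : ℝ} (hT : T ≤ t)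
    (hT0 : 0 < T) (M N : ℕ) (hM : 6 * (a : ℝ) ≤ M * (1 - b)) (hlo : 0 < cuEdge p q b γ 0 s X f)
    (hmain : t * (∑ K ∈ range N, (3 * a : ℝ) ^ K / K.factorial * cuSite p q b γ 1 s X f K *
      (cuEdge p q b γ 1 s X f ^ a / cuEdge p q b γ 0 s X f ^ K) + 2 * 3 ^ M / 2 ^ N)
      < (1 + 3 * a / s) ^ s) : T * rho a p q b γ X f < 1 := by
  have hb : 0 < 1 - b := by linarith
  have hε := edgeE_mem p q hb0 hb1 hγ X f
  have hε0 : 0 < edgeE p q b γ X f := hb.trans_le hε.1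
  have hS := siteS_mem p q hb0 hb1 hγ X f
  have hS0 : ∀ K, 0 ≤ siteS p q b γ X f K := fun K => (pow_pos hb K).le.trans (hS K).1
  have e1 : cuEdge p q b γ 0 s X f ≤ edgeE p q b γ X f :=
    av_mono fun u => cuPm_zero_le _ hγ hs (cuVE_mem p q hb0 hb1 f u)
  have e2 : edgeE p q b γ X f ≤ cuEdge p q b γ 1 s X f :=
    av_mono fun u => le_cuPm_one _ hγ hs (cuVE_mem p q hb0 hb1 f u)
  have e3 : ∀ K, siteS p q b γ X f K ≤ cuSite p q b γ 1 s X f K :=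
    fun K => av_mono fun τ => le_cuPm_one _ hγ hs (cuVS_mem p q hb0 hb1 f K τ)
  have hsum := rho_summable p q a hb0 hb1 hγ X f
  have h1 : ∑ K ∈ range N, (3 * a : ℝ) ^ K / K.factorial * siteS p q b γ X f K *
      (edgeE p q b γ X f ^ a / edgeE p q b γ X f ^ K) ≤
      ∑ K ∈ range N, (3 * a : ℝ) ^ K / K.factorial * cuSite p q b γ 1 s X f K *
      (cuEdge p q b γ 1 s X f ^ a / cuEdge p q b γ 0 s X f ^ K) := by
    refine Finset.sum_le_sum fun K _ => ?_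
    have := hS0 K
    have h2 := e3 K
    have h3 : 0 ≤ cuSite p q b γ 1 s X f K := this.trans h2
    have h4 : 0 < cuEdge p q b γ 1 s X f := hε0.trans_le e2
    gcongr
  have h2 : ∀ K : ℕ, (3 * a : ℝ) ^ K / K.factorial * siteS p q b γ X f K *
      (edgeE p q b γ X f ^ a / edgeE p q b γ X f ^ K) ≤ 3 ^ M * (1 / 2) ^ K := by
    intro K
    have h3 : (M : ℝ) ^ K / K.factorial ≤ Real.exp M := Real.pow_div_factorial_le_exp _
      (Nat.cast_nonneg _) K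
    have h4 : Real.exp M ≤ 3 ^ M := by
      rw [← mul_one (M : ℝ), Real.exp_nat_mul]
      exact pow_le_pow_left₀ (Real.exp_pos _).le (by have := Real.exp_one_lt_d9; linarith) _
    have h5 : 3 * (a : ℝ) / edgeE p q b γ X f ≤ M * (1 / 2) := by
      rw [div_le_iff₀ hε0]
      have := mul_le_mul_of_nonneg_left hε.1 (Nat.cast_nonneg (α := ℝ) M)
      nlinarith
    have h6 : edgeE p q b γ X f ^ a ≤ 1 := pow_le_one₀ hε0.le hε.2
    calc _ = (3 * (a : ℝ) / edgeE p q b γ X f) ^ K / K.factorial *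
          (siteS p q b γ X f K * edgeE p q b γ X f ^ a) := by rw [div_pow]; ring
      _ ≤ (M * (1 / 2)) ^ K / K.factorial * 1 := by
          have := hS0 K
          gcongr
          exact mul_le_one₀ (hS K).2 (by positivity) h6
      _ = (M : ℝ) ^ K / K.factorial * (1 / 2) ^ K := by rw [mul_pow]; ring
      _ ≤ _ := by gcongr; exact h3.trans h4
  have h3 : ∑' K : ℕ, (3 * a : ℝ) ^ (K + N) / (K + N).factorial * siteS p q b γ X f (K + N) *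
      (edgeE p q b γ X f ^ a / edgeE p q b γ X f ^ (K + N)) ≤ 2 * 3 ^ M / 2 ^ N := by
    have hg : HasSum (fun K : ℕ => (3 : ℝ) ^ M * (1 / 2) ^ N * (1 / 2) ^ K)
        (3 ^ M * (1 / 2) ^ N * 2) := hasSum_geometric_two.mul_left _
    refine (((summable_nat_add_iff N).2 hsum).tsum_le_tsum (fun K => ?_) hg.summable).trans ?_
    · refine (h2 (K + N)).trans (le_of_eq ?_)
      rw [pow_add]; ring
    · rw [hg.tsum_eq, one_div, inv_pow]
      apply le_of_eq; field_simp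
  have h4 : (1 + 3 * (a : ℝ) / s) ^ s ≤ Real.exp (3 * a) := by
    have hs' : (0 : ℝ) < s := by exact_mod_cast hs
    have : Real.exp (3 * a) = Real.exp (3 * a / s) ^ s := by
      rw [← Real.exp_nat_mul]; congr 1; field_simp
    rw [this]
    exact pow_le_pow_left₀ (by positivity) (by linarith [Real.add_one_le_exp (3 * a / s)]) _
  unfold rho
  rw [← hsum.sum_add_tsum_nat_add N]
  have h5 : Real.exp (-3 * a) * Real.exp (3 * a) = 1 := by rw [← Real.exp_add]; simp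
  have h6 := Real.exp_pos (-3 * a)
  set A := ∑ K ∈ range N, (3 * a : ℝ) ^ K / K.factorial * siteS p q b γ X f K *
      (edgeE p q b γ X f ^ a / edgeE p q b γ X f ^ K)
  set B := ∑' K : ℕ, (3 * a : ℝ) ^ (K + N) / (K + N).factorial * siteS p q b γ X f (K + N) *
      (edgeE p q b γ X f ^ a / edgeE p q b γ X f ^ (K + N))
  set C := ∑ K ∈ range N, (3 * a : ℝ) ^ K / K.factorial * cuSite p q b γ 1 s X f K *
      (cuEdge p q b γ 1 s X f ^ a / cuEdge p q b γ 0 s X f ^ K) + 2 * 3 ^ M / 2 ^ N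
  have hA : 0 ≤ A := Finset.sum_nonneg fun K _ => by have := hS0 K; positivity
  have hC : 0 ≤ C := by
    have : (0 : ℝ) ≤ 2 * 3 ^ M / 2 ^ N := by positivity
    simp only [C]; linarith
  have h7 : A + B ≤ C := by simp only [C]; linarith
  have h8 : T * (A + B) < Real.exp (3 * a) :=
    lt_of_le_of_lt ((mul_le_mul_of_nonneg_left h7 hT0.le).trans
      (mul_le_mul_of_nonneg_right hT hC)) (hmain.trans_le h4)
  calc T * (Real.exp (-3 * a) * (A + B)) = Real.exp (-3 * a) * (T * (A + B)) := by ring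
    _ < Real.exp (-3 * a) * Real.exp (3 * a) := mul_lt_mul_of_pos_left h8 h6
    _ = 1 := h5

/-- Completeness of the rounded test. -/
lemma cu_complete [Nonempty Ξ] (a p q : ℕ) {X : ℕ → Filt Ξ D} {Y : Filt Ξ D} (h : CuConv X Y)
    {γ : ℕ → ℕ → ℝ} {γ' : ℕ → ℝ} (hγ : ∀ J, Adm (γ J)) (hγ' : Adm γ')
    (hγt : ∀ d < D, Tendsto (fun J => γ J d) atTop (𝓝 (γ' d)))
    {b : ℕ → ℝ} {b' : ℝ} (hb : ∀ J, 0 < b J ∧ b J < 1) (hb0 : 0 < b') (hb1 : b' < 1)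
    (hbt : Tendsto b atTop (𝓝 b')) (f : Ξ → Bool) {t : ℝ}
    (ht : t * rho a p q b' γ' Y f < 1) (M : ℕ) :
    ∃ N : ℕ, ∀ᶠ J in atTop, 0 < cuEdge p q (b J) (γ J) 0 (J + 1) (X J) f ∧
      t * (∑ K ∈ range N, (3 * a : ℝ) ^ K / K.factorial *
        cuSite p q (b J) (γ J) 1 (J + 1) (X J) f K *
        (cuEdge p q (b J) (γ J) 1 (J + 1) (X J) f ^ a /
          cuEdge p q (b J) (γ J) 0 (J + 1) (X J) f ^ K) + 2 * 3 ^ M / 2 ^ N)
      < (1 + 3 * a / (J + 1 : ℕ)) ^ (J + 1) := by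
  have hε := edgeE_mem p q hb0 hb1 hγ' Y f
  have hε0 : 0 < edgeE p q b' γ' Y f := lt_of_lt_of_le (by linarith) hε.1
  have hsum := rho_summable p q a hb0 hb1 hγ' Y f
  have h1 : t * (∑' K : ℕ, (3 * a : ℝ) ^ K / K.factorial * siteS p q b' γ' Y f K *
      (edgeE p q b' γ' Y f ^ a / edgeE p q b' γ' Y f ^ K) + 0) < Real.exp (3 * a) := by
    unfold rho at ht
    have h5 : Real.exp (3 * a) * Real.exp (-3 * a) = 1 := by rw [← Real.exp_add]; simp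
    have h6 := mul_lt_mul_of_pos_left ht (Real.exp_pos (3 * a))
    calc _ = (Real.exp (3 * a) * Real.exp (-3 * a)) * (t * ∑' K : ℕ, (3 * a : ℝ) ^ K /
          K.factorial * siteS p q b' γ' Y f K *
          (edgeE p q b' γ' Y f ^ a / edgeE p q b' γ' Y f ^ K)) := by rw [h5]; ring
      _ < _ := by linarith
  have h2 : Tendsto (fun N : ℕ => (2 * 3 ^ M / 2 ^ N : ℝ)) atTop (𝓝 0) :=
    tendsto_const_nhds.div_atTop (tendsto_pow_atTop_atTop_of_one_lt (by norm_num))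
  have h3 := ((hsum.hasSum.tendsto_sum_nat.add h2).const_mul t).eventually_lt_const h1
  obtain ⟨N, hN⟩ := h3.exists
  refine ⟨N, ?_⟩
  have e0 := cuEdge_tendsto p q h hγ hγ' hγt (Nat.zero_le 1) hb hbt f
  have e1 := cuEdge_tendsto p q h hγ hγ' hγt le_rfl hb hbt f
  have e2 := cuSite_tendsto p q h hγ hγ' hγt le_rfl hb hbt f
  have e3 := (Real.tendsto_one_add_div_pow_exp (3 * a)).comp (tendsto_add_atTop_nat 1)
  refine (e0.eventually_const_lt hε0).and ?_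
  refine Filter.Tendsto.eventually_lt (((tendsto_finsetSum _ fun K _ =>
    ((e2 K).const_mul _).mul ((e1.pow a).div (e0.pow K) (pow_pos hε0 K).ne')).add_const
      _).const_mul t) e3 hN

/-- Transport of a filtered space along a bijection. -/
def cuComap {Ξ' : Type} (X : Filt Ξ D) (e : Ξ' ≃ Ξ) : Filt Ξ' D where
  p x := X.p (e x)
  p_pos _ := X.p_pos _
  rel d x y := X.rel d (e x) (e y)
  refl d _ := X.refl d _
  symm h := X.symm h
  trans h h' := X.trans h h'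
  mono h := X.mono h
  sep h := e.injective (X.sep h)

lemma cuComap_pi {Ξ' : Type} [Fintype Ξ'] (X : Filt Ξ D) (e : Ξ' ≃ Ξ) (ι : Type) [Fintype ι]
    [DecidableEq ι] :
    (Filt.pi fun _ : ι => cuComap X e).MorEx (Filt.pi fun _ : ι => X) fun x i => e (x i) :=
  Filt.morEx_of_equiv _ _ (Equiv.arrowCongr (Equiv.refl ι) e) one_ne_zero
    (fun x => by simp [Filt.pi, cuComap]) fun d x y => by simp [Filt.pi, cuComap]

lemma rho_cuComap {Ξ' : Type} [Fintype Ξ'] (a p q : ℕ) (b : ℝ) (γ : ℕ → ℝ) (X : Filt Ξ D)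
    (e : Ξ' ≃ Ξ) (f : Ξ → Bool) :
    rho a p q b γ (cuComap X e) (fun x => f (e x)) = rho a p q b γ X f := by
  have h1 : edgeE p q b γ (cuComap X e) (fun x => f (e x)) = edgeE p q b γ X f :=
    av_congr fun u => (cuComap_pi X e (Fin 3)).pm γ (cuVE p q b f u)
  have h2 : ∀ K, siteS p q b γ (cuComap X e) (fun x => f (e x)) K = siteS p q b γ X f K :=
    fun K => av_congr fun τ => (cuComap_pi X e (Fin K × Fin 2)).pm γ (cuVS p q b f K τ)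
  unfold rho
  simp only [h1, h2]

end trial

end Crest.Agent.R153
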