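import Mathlib
import Crest.Agent.R153.CompUpAux1
import Crest.Agent.Lib.Computability.FunProp

/-!
Row 153: rounded evaluation of the trial functionals (rational, primitive recursive side).
-/

set_option autoImplicit false
set_option linter.unusedSectionVars false

namespace Crest.Agent.R153

open Finset Crest.Agent.Lib.Computability

/-- Trial data: depth, precision, exponent numerators, weights, labels. -/
abbrev CuT : Type := ℕ × ℕ × List ℕ × List ℚ × List (List ℕ)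

/-- Numerator of the exponent at level `d`. -/
def cuG (T : CuT) (d : ℕ) : ℕ := min (T.2.2.1.getD d 0) T.2.1 + 1

/-- Weight of the point `i`. -/
def cuW (T : CuT) (i : ℕ) : ℚ := cond (ltQ 0 (T.2.2.2.1.getD i 0)) (T.2.2.2.1.getD i 0) 1

/-- Label of the point `i` at level `d`. -/
def cuLab (T : CuT) (d i : ℕ) : ℕ := (T.2.2.2.2.getD d []).getD i 0

/-- Labels of the point `i` up to level `d`. -/
def cuKey (T : CuT) (d i : ℕ) : List ℕ := (List.range (d + 1)).map fun d' => cuLab T d' i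

/-- Weight of a tuple. -/
def cuWt (T : CuT) (y : List ℕ) : ℚ := (y.map fun i => cuW T i).prod

/-- Kernel of the conditional expectation. -/
def cuKer (T : CuT) (d : ℕ) (x y : List ℕ) : ℚ :=
  cond (eqB (x.map fun i => cuKey T d i) (y.map fun i => cuKey T d i)) (cuWt T y) 0

/-- Rounded rational power. -/
def cuRndQ (δ s r : ℕ) (x : ℚ) : ℚ :=
  ((min (((List.range s).map fun i =>
    cond (leQ ((((i + 1 : ℕ) : ℚ) / (s : ℚ)) ^ s) (x ^ r)) 1 0).sum + δ) s : ℕ) : ℚ) / (s : ℚ)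

/-- One level of the recursion. -/
def cuStep (T : CuT) (δ d : ℕ) (st : List (List ℕ × ℚ)) : List (List ℕ × ℚ) :=
  st.map fun x => (x.1, cuRndQ δ (T.2.1 + 1) (cuG T d)
    ((st.map fun y => cuKer T d x.1 y.1 * y.2).sum / (st.map fun y => cuKer T d x.1 y.1).sum))

/-- Final average. -/
def cuFin (T : CuT) (st : List (List ℕ × ℚ)) : ℚ :=
  (st.map fun y => cuWt T y.1 * y.2).sum / (st.map fun y => cuWt T y.1).sum

/-- Rounded power mean. -/
def cuPmQ (T : CuT) (δ : ℕ) (st : List (List ℕ × ℚ)) : ℚ :=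
  cuFin T (iter st (fun k st => cuStep T δ (T.1 - (k + 1)) st) T.1)

/-- Indicator of `f`. -/
def cuF (fl : List ℕ) (i : ℕ) : ℚ := cond (eqB (fl.getD i 0) 1) 1 0

/-- Indicator of an inequality. -/
def cuLt (u p : ℕ) : ℚ := cond (ltN u p) 1 0

/-- Rounded edge functional; `P = (p, q, n, b, fl)`. -/
def cuEdgeQ (T : CuT) (δ : ℕ) (P : ℕ × ℕ × ℕ × ℚ × List ℕ) : ℚ :=
  ((List.range (P.2.1 + 1)).map fun u => cuPmQ T δ ((allLists P.2.2.1 3).map fun x =>
    (x, 1 - P.2.2.2.1 * cuLt u P.1 * (x.map fun i => cuF P.2.2.2.2 i).prod))).sum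
    / ((P.2.1 + 1 : ℕ) : ℚ)

/-- One branch of the top weight of the site functional. -/
def cuA (P : ℕ × ℕ × ℕ × ℚ × List ℕ) (K e : ℕ) (τ x : List ℕ) : ℚ :=
  ((List.range K).map fun k => 1 - P.2.2.2.1 * cuLt (τ.getD k 0 / 2) P.1 *
    cond (eqB (τ.getD k 0 % 2) e) 1 0 *
    (cuF P.2.2.2.2 (x.getD (2 * k) 0) * cuF P.2.2.2.2 (x.getD (2 * k + 1) 0))).prod

/-- Rounded site functional. -/
def cuSiteQ (T : CuT) (δ : ℕ) (P : ℕ × ℕ × ℕ × ℚ × List ℕ) (K : ℕ) : ℚ :=
  ((allLists ((P.2.1 + 1) * 2) K).map fun τ => cuPmQ T δ ((allLists P.2.2.1 (K * 2)).map fun x =>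
    (x, (cuA P K 0 τ x + cuA P K 1 τ x) / 2))).sum / ((((P.2.1 + 1) * 2) ^ K : ℕ) : ℚ)

section prim
variable {α : Type} [Primcodable α]

@[fun_prop] lemma fp_cuG {T : α → CuT} {d : α → ℕ} (hT : Primrec T) (hd : Primrec d) :
    Primrec fun x => cuG (T x) (d x) := by unfold cuG; fun_prop
@[fun_prop] lemma fp_cuW {T : α → CuT} {d : α → ℕ} (hT : Primrec T) (hd : Primrec d) :
    Primrec fun x => cuW (T x) (d x) := by unfold cuW; fun_prop
@[fun_prop] lemma fp_cuLab {T : α → CuT} {d i : α → ℕ} (hT : Primrec T) (hd : Primrec d)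
    (hi : Primrec i) : Primrec fun x => cuLab (T x) (d x) (i x) := by unfold cuLab; fun_prop
@[fun_prop] lemma fp_cuKey {T : α → CuT} {d i : α → ℕ} (hT : Primrec T) (hd : Primrec d)
    (hi : Primrec i) : Primrec fun x => cuKey (T x) (d x) (i x) := by unfold cuKey; fun_prop
@[fun_prop] lemma fp_cuWt {T : α → CuT} {y : α → List ℕ} (hT : Primrec T) (hy : Primrec y) :
    Primrec fun x => cuWt (T x) (y x) := by unfold cuWt; fun_prop
@[fun_prop] lemma fp_cuKer {T : α → CuT} {d : α → ℕ} {y z : α → List ℕ} (hT : Primrec T)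
    (hd : Primrec d) (hy : Primrec y) (hz : Primrec z) :
    Primrec fun x => cuKer (T x) (d x) (y x) (z x) := by unfold cuKer; fun_prop
@[fun_prop] lemma fp_cuRndQ {δ s r : α → ℕ} {y : α → ℚ} (hδ : Primrec δ)
    (hs : Primrec s) (hr : Primrec r) (hy : Primrec y) :
    Primrec fun x => cuRndQ (δ x) (s x) (r x) (y x) := by unfold cuRndQ; fun_prop
@[fun_prop] lemma fp_cuStep {T : α → CuT} {δ d : α → ℕ} {st : α → List (List ℕ × ℚ)}
    (hT : Primrec T) (hδ : Primrec δ) (hd : Primrec d) (hst : Primrec st) :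
    Primrec fun x => cuStep (T x) (δ x) (d x) (st x) := by unfold cuStep; fun_prop
@[fun_prop] lemma fp_cuFin {T : α → CuT} {st : α → List (List ℕ × ℚ)}
    (hT : Primrec T) (hst : Primrec st) :
    Primrec fun x => cuFin (T x) (st x) := by unfold cuFin; fun_prop
@[fun_prop] lemma fp_cuPmQ {T : α → CuT} {δ : α → ℕ} {st : α → List (List ℕ × ℚ)}
    (hT : Primrec T) (hδ : Primrec δ) (hst : Primrec st) :
    Primrec fun x => cuPmQ (T x) (δ x) (st x) := by unfold cuPmQ; fun_prop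
@[fun_prop] lemma fp_cuF {l : α → List ℕ} {i : α → ℕ} (hl : Primrec l) (hi : Primrec i) :
    Primrec fun x => cuF (l x) (i x) := by unfold cuF; fun_prop
@[fun_prop] lemma fp_cuLt {l i : α → ℕ} (hl : Primrec l) (hi : Primrec i) :
    Primrec fun x => cuLt (l x) (i x) := by unfold cuLt; fun_prop
@[fun_prop] lemma fp_cuEdgeQ {T : α → CuT} {δ : α → ℕ} {P : α → ℕ × ℕ × ℕ × ℚ × List ℕ}
    (hT : Primrec T) (hδ : Primrec δ) (hP : Primrec P) :
    Primrec fun x => cuEdgeQ (T x) (δ x) (P x) := by unfold cuEdgeQ; fun_prop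
@[fun_prop] lemma fp_cuA {P : α → ℕ × ℕ × ℕ × ℚ × List ℕ} {K e : α → ℕ} {τ y : α → List ℕ}
    (hP : Primrec P) (hK : Primrec K) (he : Primrec e) (hτ : Primrec τ) (hy : Primrec y) :
    Primrec fun x => cuA (P x) (K x) (e x) (τ x) (y x) := by unfold cuA; fun_prop
@[fun_prop] lemma fp_cuSiteQ {T : α → CuT} {δ K : α → ℕ} {P : α → ℕ × ℕ × ℕ × ℚ × List ℕ}
    (hT : Primrec T) (hδ : Primrec δ) (hP : Primrec P) (hK : Primrec K) :
    Primrec fun x => cuSiteQ (T x) (δ x) (P x) (K x) := by unfold cuSiteQ; fun_prop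

end prim

lemma cu_getD_ofFn {α : Type} {n : ℕ} (f : Fin n → α) (i : Fin n) (d : α) :
    (List.ofFn f).getD i d = f i := by
  simp [List.getD_eq_getElem?_getD]

lemma cu_getD_range {α : Type} {n i : ℕ} (f : ℕ → α) (hi : i < n) (d : α) :
    ((List.range n).map f).getD i d = f i := by
  simp [List.getD_eq_getElem?_getD, hi]

lemma cuW_pos (T : CuT) (i : ℕ) : 0 < cuW T i := by
  unfold cuW
  cases h : ltQ 0 (T.2.2.2.1.getD i 0)
  · simp
  · simpa using h

/-- The filtered space described by the data. -/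
def cuFilt (T : CuT) (n : ℕ) : Filt (Fin n) T.1 where
  p i := cuW T i
  p_pos i := by exact_mod_cast cuW_pos T i
  rel d i j := (T.1 ≤ d → i = j) ∧ ∀ d' ≤ d, cuLab T d' i = cuLab T d' j
  refl _ _ := ⟨fun _ => rfl, fun _ _ => rfl⟩
  symm h := ⟨fun h1 => (h.1 h1).symm, fun d' h1 => (h.2 d' h1).symm⟩
  trans h h' := ⟨fun h1 => (h.1 h1).trans (h'.1 h1), fun d' h1 => (h.2 d' h1).trans (h'.2 d' h1)⟩
  mono h := ⟨fun h1 => h.1 (h1.trans (Nat.le_succ _)), fun d' h1 => h.2 d' (h1.trans (Nat.le_succ _))⟩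
  sep h := h.1 le_rfl

/-- The exponents described by the data. -/
noncomputable def cuGam (T : CuT) (d : ℕ) : ℝ := (cuG T d : ℝ) / (T.2.1 + 1 : ℕ)

lemma cuGam_adm (T : CuT) : Adm (cuGam T) := fun d => by
  unfold cuGam cuG
  refine ⟨by positivity, div_le_one_of_le₀ ?_ (by positivity)⟩
  exact_mod_cast Nat.succ_le_succ (min_le_right _ _)

lemma cuRndQ_cast (δ : ℕ) {s : ℕ} (hs : 0 < s) (r : ℕ) {x : ℚ} (h0 : 0 ≤ (x : ℝ))
    (h1 : (x : ℝ) ≤ 1) : (cuRndQ δ s r x : ℝ) = cuRnd δ s ((x : ℝ) ^ ((r : ℝ) / s)) := by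
  have hs' : (0 : ℝ) < s := by exact_mod_cast hs
  set y := (x : ℝ) ^ ((r : ℝ) / s) with hy
  have hy0 : 0 ≤ y := Real.rpow_nonneg h0 _
  have hy1 : y ≤ 1 := Real.rpow_le_one h0 h1 (by positivity)
  have hys : y ^ s = (x : ℝ) ^ r := by
    rw [hy, ← Real.rpow_natCast, ← Real.rpow_mul h0, div_mul_cancel₀ _ hs'.ne', Real.rpow_natCast]
  have hfl : ⌊(s : ℝ) * y⌋₊ ≤ s := Nat.floor_le_of_le (by nlinarith)
  have hc : ((List.range s).map fun i =>
      cond (leQ ((((i + 1 : ℕ) : ℚ) / (s : ℚ)) ^ s) (x ^ r)) 1 0).sum = ⌊(s : ℝ) * y⌋₊ := by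
    rw [sum_map_range, ← Finset.sum_range (fun i =>
      cond (leQ ((((i + 1 : ℕ) : ℚ) / (s : ℚ)) ^ s) (x ^ r)) 1 0)]
    have : ∀ i ∈ range s, cond (leQ ((((i + 1 : ℕ) : ℚ) / (s : ℚ)) ^ s) (x ^ r)) 1 0
        = if i < ⌊(s : ℝ) * y⌋₊ then 1 else 0 := by
      intro i _
      have h2 : (((i + 1 : ℕ) : ℚ) / (s : ℚ)) ^ s ≤ x ^ r ↔ i < ⌊(s : ℝ) * y⌋₊ := by
        rw [← Rat.cast_le (K := ℝ)]
        push_cast
        rw [← hys, pow_le_pow_iff_left₀ (by positivity) hy0 hs.ne', div_le_iff₀ hs',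
          ← Nat.succ_le_iff, Nat.le_floor_iff (by positivity)]
        push_cast
        rw [mul_comm]
      by_cases h3 : i < ⌊(s : ℝ) * y⌋₊
      · rw [if_pos h3, leQ_iff.2 (h2.2 h3)]; rfl
      · have : leQ ((((i + 1 : ℕ) : ℚ) / (s : ℚ)) ^ s) (x ^ r) = false := by
          rw [← Bool.not_eq_true, leQ_iff, h2]; exact h3
        rw [if_neg h3, this]; rfl
    rw [Finset.sum_congr rfl this, ← Finset.card_filter]
    have : (range s).filter (fun i => i < ⌊(s : ℝ) * y⌋₊) = range ⌊(s : ℝ) * y⌋₊ := by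
      ext i; simp only [Finset.mem_filter, Finset.mem_range]; omega
    rw [this, Finset.card_range]
  unfold cuRndQ cuRnd
  rw [hc]
  simp only [Rat.cast_div, Rat.cast_natCast]

section enc
variable {ι : Type} [Fintype ι] [DecidableEq ι] {L n : ℕ} (e : Fin L ≃ ι)

/-- Code of a tuple. -/
def cuEnc (x : ι → Fin n) : List ℕ := List.ofFn fun i : Fin L => (x (e i) : ℕ)

lemma sum_cuEnc (F : List ℕ → ℚ) :
    ((((allLists n L).map F).sum : ℚ) : ℝ) = ∑ x : ι → Fin n, (F (cuEnc e x) : ℝ) := by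
  rw [sum_allLists, Rat.cast_sum]
  exact Fintype.sum_equiv (Equiv.arrowCongr e (Equiv.refl _)) _ _ fun x => by
    simp [cuEnc]

lemma cuWt_enc (T : CuT) (x : ι → Fin n) :
    (cuWt T (cuEnc e x) : ℝ) = (Filt.pi fun _ : ι => cuFilt T n).p x := by
  unfold cuWt cuEnc
  rw [List.map_ofFn, List.prod_ofFn, Rat.cast_prod]
  exact Fintype.prod_equiv e _ _ fun i => rfl

lemma cuKer_enc (T : CuT) {d : ℕ} (hd : d < T.1) (x y : ι → Fin n) :
    (cuKer T d (cuEnc e x) (cuEnc e y) : ℝ) =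
      ind ((Filt.pi fun _ : ι => cuFilt T n).rel d x y) *
        (Filt.pi fun _ : ι => cuFilt T n).p y := by
  have h : ((cuEnc e x).map fun i => cuKey T d i) = ((cuEnc e y).map fun i => cuKey T d i) ↔
      (Filt.pi fun _ : ι => cuFilt T n).rel d x y := by
    unfold cuEnc
    rw [List.map_ofFn, List.map_ofFn, List.ofFn_inj, funext_iff]
    change _ ↔ ∀ i, (T.1 ≤ d → x i = y i) ∧ ∀ d' ≤ d, cuLab T d' (x i) = cuLab T d' (y i)
    rw [← e.forall_congr_right]
    refine forall_congr' fun i => ?_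
    simp only [Function.comp, cuKey, List.map_inj_left, List.mem_range, Nat.lt_succ_iff]
    exact ⟨fun h => ⟨fun h1 => absurd h1 (by omega), h⟩, fun h => h.2⟩
  unfold cuKer
  by_cases h1 : (Filt.pi fun _ : ι => cuFilt T n).rel d x y
  · rw [eqB_iff.2 (h.2 h1), ind_pos h1, one_mul, ← cuWt_enc e]; rfl
  · have : eqB ((cuEnc e x).map fun i => cuKey T d i) ((cuEnc e y).map fun i => cuKey T d i)
        = false := by rw [← Bool.not_eq_true, eqB_iff, h]; exact h1
    rw [this, ind_neg h1]; simp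

lemma cuPmQ_cast (T : CuT) (δ : ℕ) (Vq : List ℕ → ℚ) (V : (ι → Fin n) → ℝ)
    (hV : ∀ x, (Vq (cuEnc e x) : ℝ) = V x) (hV1 : ∀ x, 0 ≤ V x ∧ V x ≤ 1) :
    (cuPmQ T δ ((allLists n L).map fun y => (y, Vq y)) : ℝ) =
      cuPm (Filt.pi fun _ : ι => cuFilt T n) (cuGam T) δ (T.2.1 + 1) V := by
  have key : ∀ k ≤ T.1, ∃ g : List ℕ → ℚ,
      iter ((allLists n L).map fun y => (y, Vq y)) (fun k st => cuStep T δ (T.1 - (k + 1)) st) k
        = (allLists n L).map (fun y => (y, g y)) ∧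
      ∀ x, (g (cuEnc e x) : ℝ) =
        cuQ (Filt.pi fun _ : ι => cuFilt T n) (cuGam T) δ (T.2.1 + 1) V k x := by
    intro k
    induction k with
    | zero => exact fun _ => ⟨Vq, rfl, hV⟩
    | succ k ih =>
      intro hk
      obtain ⟨g, h1, h2⟩ := ih (by omega)
      refine ⟨fun x => cuRndQ δ (T.2.1 + 1) (cuG T (T.1 - (k + 1)))
        (((allLists n L).map fun y => cuKer T (T.1 - (k + 1)) x y * g y).sum /
          ((allLists n L).map fun y => cuKer T (T.1 - (k + 1)) x y).sum), ?_, fun x => ?_⟩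
      · rw [iter_succ, h1]
        simp only [cuStep, List.map_map, Function.comp_def]
      · have hd : T.1 - (k + 1) < T.1 := by omega
        have h3 : ((((allLists n L).map fun y =>
            cuKer T (T.1 - (k + 1)) (cuEnc e x) y * g y).sum /
          ((allLists n L).map fun y => cuKer T (T.1 - (k + 1)) (cuEnc e x) y).sum : ℚ) : ℝ)
            = (Filt.pi fun _ : ι => cuFilt T n).E (T.1 - (k + 1))
              (cuQ (Filt.pi fun _ : ι => cuFilt T n) (cuGam T) δ (T.2.1 + 1) V k) x := by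
          rw [Rat.cast_div, sum_cuEnc e, sum_cuEnc e]
          simp only [Rat.cast_mul, cuKer_enc e T hd, h2]
          rfl
        have h4 := cu_E_mem (Filt.pi fun _ : ι => cuFilt T n) (T.1 - (k + 1))
          (cuQ_mem (Filt.pi fun _ : ι => cuFilt T n) (cuGam T) δ (T.2.1 + 1) hV1 k) x
        rw [← h3] at h4
        rw [cuQ_succ, cuRndQ_cast δ (Nat.succ_pos _) _ h4.1 h4.2, h3]
        rfl
  obtain ⟨g, h1, h2⟩ := key T.1 le_rfl
  unfold cuPmQ
  rw [h1]
  simp only [cuFin, List.map_map, Function.comp_def]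
  rw [Rat.cast_div, sum_cuEnc e, sum_cuEnc e]
  simp only [Rat.cast_mul, cuWt_enc, h2]
  rfl

end enc

/-- The Boolean function described by the data. -/
def cuFn (fl : List ℕ) (n : ℕ) (i : Fin n) : Bool := eqB (fl.getD i 0) 1

lemma cuF_cast (fl : List ℕ) {n : ℕ} (i : Fin n) : (cuF fl i : ℝ) = ind (cuFn fl n i = true) := by
  unfold cuF cuFn
  cases eqB (fl.getD i 0) 1
  · rw [ind_neg (by simp)]; simp
  · rw [ind_pos rfl]; simp

lemma cuLt_cast (u p : ℕ) : (cuLt u p : ℝ) = ind (u < p) := by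
  unfold cuLt
  by_cases h : u < p
  · rw [ltN_iff.2 h, ind_pos h]; simp
  · have : ltN u p = false := by rw [← Bool.not_eq_true, ltN_iff]; exact h
    rw [this, ind_neg h]; simp

lemma cuEdgeQ_cast (T : CuT) (δ p q n : ℕ) (b : ℚ) (fl : List ℕ) (hb0 : 0 < (b : ℝ))
    (hb1 : (b : ℝ) < 1) :
    (cuEdgeQ T δ (p, q, n, b, fl) : ℝ) =
      cuEdge p q b (cuGam T) δ (T.2.1 + 1) (cuFilt T n) (cuFn fl n) := by
  unfold cuEdgeQ cuEdge av
  rw [sum_map_range, Rat.cast_div, Rat.cast_sum, Fintype.card_fin, Rat.cast_natCast]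
  congr 1
  refine Finset.sum_congr rfl fun u _ => ?_
  refine cuPmQ_cast (Equiv.refl (Fin 3)) T δ _ _ (fun x => ?_)
    (cuVE_mem p q hb0 hb1 (cuFn fl n) u)
  unfold cuVE cuEnc
  rw [List.map_ofFn, List.prod_ofFn]
  push_cast
  simp only [Function.comp, cuF_cast, cuLt_cast, Equiv.refl_apply]

lemma cuA_cast (p q n : ℕ) (b : ℚ) (fl : List ℕ) (K : ℕ) (ε : Bool)
    (τ : Fin K → Fin ((q + 1) * 2)) (x : Fin K × Fin 2 → Fin n) :
    (cuA (p, q, n, b, fl) K (cond ε 0 1) (List.ofFn fun k => (τ k : ℕ))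
      (cuEnc finProdFinEquiv.symm x) : ℝ) =
    ∏ k, (1 - (b : ℝ) * ind ((((finProdFinEquiv.symm.trans
        ((Equiv.refl _).prodCongr finTwoEquiv)) (τ k)).1 : ℕ) < p) *
      ind (ε ≠ ((finProdFinEquiv.symm.trans ((Equiv.refl _).prodCongr finTwoEquiv)) (τ k)).2) *
      ∏ j, ind (cuFn fl n (x (k, j)) = true)) := by
  unfold cuA
  rw [prod_map_range, Rat.cast_prod]
  refine Finset.prod_congr rfl fun k _ => ?_
  have h1 : (List.ofFn fun k => (τ k : ℕ)).getD k 0 = τ k := cu_getD_ofFn _ _ _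
  have h2 : ∀ j : Fin 2, (cuEnc finProdFinEquiv.symm x).getD (2 * k + j) 0 = x (k, j) := by
    intro j
    have h3 : 2 * (k : ℕ) + j = (finProdFinEquiv (k, j) : Fin (K * 2)) := by
      simp [finProdFinEquiv]; ring
    rw [h3, cuEnc, cu_getD_ofFn, Equiv.symm_apply_apply]
  have h3 := h2 0
  have h4 := h2 1
  simp only [Fin.val_zero, add_zero, Fin.val_one] at h3 h4
  simp only [h1, h3, h4, Fin.prod_univ_two]
  push_cast
  rw [cuF_cast, cuF_cast, cuLt_cast]
  have h5 : ((cond (eqB ((τ k : ℕ) % 2) (cond ε 0 1)) 1 0 : ℚ) : ℝ) =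
      ind (ε ≠ ((finProdFinEquiv.symm.trans ((Equiv.refl _).prodCongr finTwoEquiv)) (τ k)).2) := by
    have h6 : ((finProdFinEquiv.symm.trans ((Equiv.refl _).prodCongr finTwoEquiv)) (τ k)).2
        = decide ((τ k : ℕ) % 2 = 1) := by
      change ((τ k).modNat == 1) = _
      rw [Bool.eq_iff_iff]
      simp [Fin.ext_iff]
    rw [h6]
    rcases Nat.mod_two_eq_zero_or_one (τ k : ℕ) with h | h <;> cases ε <;> simp [h, ind, eqB]
  rw [h5]
  rfl

lemma cuSiteQ_cast (T : CuT) (δ p q n : ℕ) (b : ℚ) (fl : List ℕ) (hb0 : 0 < (b : ℝ))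
    (hb1 : (b : ℝ) < 1) (K : ℕ) :
    (cuSiteQ T δ (p, q, n, b, fl) K : ℝ) =
      cuSite p q b (cuGam T) δ (T.2.1 + 1) (cuFilt T n) (cuFn fl n) K := by
  unfold cuSiteQ cuSite
  rw [← av_equiv (Equiv.arrowCongr (Equiv.refl (Fin K))
    (finProdFinEquiv.symm.trans ((Equiv.refl (Fin (q + 1))).prodCongr finTwoEquiv)))]
  unfold av
  rw [sum_allLists, Rat.cast_div, Rat.cast_sum, Rat.cast_natCast]
  congr 1
  · refine Finset.sum_congr rfl fun τ _ => ?_
    refine cuPmQ_cast finProdFinEquiv.symm T δ _ _ (fun x => ?_)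
      (cuVS_mem p q hb0 hb1 (cuFn fl n) K _)
    unfold cuVS
    rw [av_bool]
    push_cast
    have h1 := cuA_cast p q n b fl K true τ x
    have h2 := cuA_cast p q n b fl K false τ x
    simp only [cond_true, cond_false] at h1 h2
    rw [h1, h2]
    rfl
  · simp

end Crest.Agent.R153
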