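import Mathlib
import Crest.Agent.R153.Upper
import Crest.Agent.R153.CompUpAux2

/-!
Row 153: the upper certificates are recursively enumerable.
-/

set_option autoImplicit false

namespace Crest.Agent.R153

open Finset Filter Topology Crest.Agent.Lib.Computability

/-- The main inequality of the test. -/
def cuMain (T : CuT) (P : ℕ × ℕ × ℕ × ℚ × List ℕ) (R : ℕ × ℕ × ℕ × ℚ) : Bool :=
  ltQ (R.2.2.2 * (((List.range R.2.2.1).map fun K => (3 * (R.1 : ℚ)) ^ K / (K.factorial : ℚ) *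
      cuSiteQ T 1 P K * (cuEdgeQ T 1 P ^ R.1 / cuEdgeQ T 0 P ^ K)).sum +
      2 * 3 ^ R.2.1 / 2 ^ R.2.2.1))
    ((1 + 3 * (R.1 : ℚ) / ((T.2.1 + 1 : ℕ) : ℚ)) ^ (T.2.1 + 1))

/-- The test; `P = (p, q, n, b, fl)`, `R = (a, M, N, t)`. -/
def cuCheck (c : ℚ) (T : CuT) (P : ℕ × ℕ × ℕ × ℚ × List ℕ) (R : ℕ × ℕ × ℕ × ℚ) : Bool :=
  leN 1 R.1 && (leN P.1 (P.2.1 + 1) && (leQ ((R.1 : ℚ) * (P.1 : ℚ) / ((P.2.1 : ℚ) + 1)) c &&
  (ltQ 0 P.2.2.2.1 && (ltQ P.2.2.2.1 1 && (leN 1 T.1 && (leN 1 P.2.2.1 && (leQ 0 R.2.2.2 &&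
  (leQ (2 ^ ((List.range T.1).map fun d => cuG T d).prod) (R.2.2.2 ^ ((T.2.1 + 1) ^ T.1)) &&
  (leQ (6 * (R.1 : ℚ)) ((R.2.1 : ℚ) * (1 - P.2.2.2.1)) && (ltQ 0 (cuEdgeQ T 0 P) &&
  cuMain T P R))))))))))

@[fun_prop] lemma fp_cuMain {α : Type} [Primcodable α] {T : α → CuT}
    {P : α → ℕ × ℕ × ℕ × ℚ × List ℕ} {R : α → ℕ × ℕ × ℕ × ℚ} (hT : Primrec T) (hP : Primrec P)
    (hR : Primrec R) : Primrec fun x => cuMain (T x) (P x) (R x) := by
  unfold cuMain; fun_prop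

lemma fp_cuCheck {α : Type} [Primcodable α] {c : α → ℚ} {T : α → CuT}
    {P : α → ℕ × ℕ × ℕ × ℚ × List ℕ} {R : α → ℕ × ℕ × ℕ × ℚ} (hc : Primrec c) (hT : Primrec T)
    (hP : Primrec P) (hR : Primrec R) : Primrec fun x => cuCheck (c x) (T x) (P x) (R x) := by
  unfold cuCheck; fun_prop

lemma cuCheck_prim : Primrec fun x : ℚ × (CuT × (ℕ × ℕ × ℕ × ℚ × List ℕ) × (ℕ × ℕ × ℕ × ℚ)) =>
    cuCheck x.1 x.2.1 x.2.2.1 x.2.2.2 :=
  fp_cuCheck Primrec.fst (Primrec.fst.comp Primrec.snd)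
    (Primrec.fst.comp (Primrec.snd.comp Primrec.snd))
    (Primrec.snd.comp (Primrec.snd.comp Primrec.snd))

lemma cuMain_iff (T : CuT) (p q n : ℕ) (b : ℚ) (fl : List ℕ) (a M N : ℕ) (t : ℚ)
    (hb0 : 0 < (b : ℝ)) (hb1 : (b : ℝ) < 1) :
    cuMain T (p, q, n, b, fl) (a, M, N, t) = true ↔
      (t : ℝ) * (∑ K ∈ range N, (3 * a : ℝ) ^ K / K.factorial *
        cuSite p q b (cuGam T) 1 (T.2.1 + 1) (cuFilt T n) (cuFn fl n) K *
        (cuEdge p q b (cuGam T) 1 (T.2.1 + 1) (cuFilt T n) (cuFn fl n) ^ a /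
          cuEdge p q b (cuGam T) 0 (T.2.1 + 1) (cuFilt T n) (cuFn fl n) ^ K) + 2 * 3 ^ M / 2 ^ N)
      < (1 + 3 * a / (T.2.1 + 1 : ℕ)) ^ (T.2.1 + 1) := by
  unfold cuMain
  rw [ltQ_iff, ← Rat.cast_lt (K := ℝ), sum_map_range, Finset.sum_range]
  simp only [Rat.cast_mul, Rat.cast_add, Rat.cast_sum, Rat.cast_div, Rat.cast_pow,
    Rat.cast_natCast, Rat.cast_ofNat, Rat.cast_one, cuEdgeQ_cast T _ p q n b fl hb0 hb1,
    cuSiteQ_cast T _ p q n b fl hb0 hb1]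

lemma cu_two_iff (T : CuT) {t : ℚ} (ht : 0 ≤ t) :
    (2 : ℚ) ^ ((List.range T.1).map fun d => cuG T d).prod ≤ t ^ ((T.2.1 + 1) ^ T.1) ↔
      (2 : ℝ) ^ (∏ d ∈ range T.1, cuGam T d) ≤ t := by
  have ht' : (0 : ℝ) ≤ t := by exact_mod_cast ht
  have hS : (T.2.1 + 1) ^ T.1 ≠ 0 := by positivity
  rw [← Rat.cast_le (K := ℝ), ← pow_le_pow_iff_left₀ (by positivity) ht' hS, prod_map_range,
    ← Finset.prod_range]
  have : ((2 : ℝ) ^ (∏ d ∈ range T.1, cuGam T d)) ^ ((T.2.1 + 1) ^ T.1)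
      = 2 ^ (∏ d ∈ range T.1, cuG T d) := by
    rw [← Real.rpow_natCast, ← Real.rpow_mul (by norm_num), ← Real.rpow_natCast]
    congr 1
    unfold cuGam
    rw [Finset.prod_div_distrib, Finset.prod_const, Finset.card_range]
    push_cast
    field_simp
  rw [this]
  push_cast
  rfl

lemma cu_rat_seq {x : ℝ} (hx : 0 < x) : ∃ r : ℕ → ℚ, (∀ J, 0 < (r J : ℝ) ∧ (r J : ℝ) < x) ∧
    Tendsto (fun J => (r J : ℝ)) atTop (𝓝 x) := by
  have h : ∀ J : ℕ, ∃ r : ℚ, x - x * (1 / ((J : ℝ) + 1)) < r ∧ (r : ℝ) < x := fun J =>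
    exists_rat_btwn (by have : 0 < x * (1 / ((J : ℝ) + 1)) := by positivity
                        linarith)
  choose r h1 h2 using h
  refine ⟨r, fun J => ⟨lt_of_le_of_lt ?_ (h1 J), h2 J⟩, ?_⟩
  · have : 1 / ((J : ℝ) + 1) ≤ 1 := by
      rw [div_le_one (by positivity)]; have := Nat.cast_nonneg (α := ℝ) J; linarith
    nlinarith
  · have h3 := (tendsto_one_div_add_atTop_nhds_zero_nat.const_mul x).const_sub x
    rw [mul_zero, sub_zero] at h3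
    exact tendsto_of_tendsto_of_tendsto_of_le_of_le h3 tendsto_const_nhds (fun J => (h1 J).le)
      fun J => (h2 J).le

lemma cu_check_sound (c : ℚ) (T : CuT) (P : ℕ × ℕ × ℕ × ℚ × List ℕ) (R : ℕ × ℕ × ℕ × ℚ)
    (h : cuCheck c T P R = true) : UpReal c := by
  obtain ⟨p, q, n, b, fl⟩ := P
  obtain ⟨a, M, N, t⟩ := R
  simp only [cuCheck, Bool.and_eq_true, leN_iff, leQ_iff, ltQ_iff] at h
  obtain ⟨h1, h2, h3, h4, h5, h6, h7, h8, h9, h10, h11, h12⟩ := h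
  have hb0 : 0 < (b : ℝ) := by exact_mod_cast h4
  have hb1 : (b : ℝ) < 1 := by exact_mod_cast h5
  have : Nonempty (Fin n) := ⟨⟨0, h7⟩⟩
  refine ⟨a, p, q, h1, h2, h3, b, T.1, Fin n, inferInstance, inferInstance, cuFilt T n,
    cuFn fl n, cuGam T, hb0, hb1, h6, cuGam_adm T, ?_⟩
  refine cu_sound a p q hb0 hb1 (cuGam_adm T) _ _ (Nat.succ_pos T.2.1) ((cu_two_iff T h8).1 h9)
    (by positivity) M N (by exact_mod_cast h10) ?_ ((cuMain_iff T p q n b fl a M N t hb0 hb1).1 h12)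
  rw [← cuEdgeQ_cast T 0 p q n b fl hb0 hb1]
  exact_mod_cast h11

lemma cu_check_complete (c : ℚ) (h : UpReal c) : ∃ T P R, cuCheck c T P R = true := by
  classical
  obtain ⟨a, p, q, h1, h2, h3, b, D, Ξ, _, _, X, f, γ, hb0, hb1, hD, hγ, hρ⟩ := h
  set n := Fintype.card Ξ with hn
  have hn1 : 1 ≤ n := Fintype.card_pos
  have : Nonempty (Fin n) := ⟨⟨0, hn1⟩⟩
  let e : Fin n ≃ Ξ := (Fintype.equivFin Ξ).symm
  rw [← rho_cuComap a p q b γ X e f] at hρ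
  set Y := cuComap X e with hY
  let fl : List ℕ := List.ofFn fun i : Fin n => if f (e i) = true then 1 else 0
  have hf : cuFn fl n = fun i => f (e i) := by
    funext i
    unfold cuFn
    rw [cu_getD_ofFn]
    cases f (e i) <;> simp [eqB]
  rw [← hf] at hρ
  obtain ⟨t, ht1, ht2⟩ : ∃ t : ℚ, (2 : ℝ) ^ (∏ d ∈ range D, γ d) < t ∧
      t * rho a p q b γ Y (cuFn fl n) < 1 := by
    by_cases h0 : rho a p q b γ Y (cuFn fl n) ≤ 0
    · obtain ⟨t, ht⟩ := exists_rat_gt ((2 : ℝ) ^ (∏ d ∈ range D, γ d))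
      have : (0 : ℝ) < t := lt_trans (by positivity) ht
      exact ⟨t, ht, by nlinarith⟩
    · push Not at h0
      obtain ⟨t, ht, ht'⟩ := exists_rat_btwn ((lt_div_iff₀ h0).2 hρ)
      exact ⟨t, ht, (lt_div_iff₀ h0).1 ht'⟩
  have ht0 : (0 : ℝ) < t := lt_trans (by positivity) ht1
  obtain ⟨bq, hbq, hbt⟩ := cu_rat_seq hb0
  choose wq hwq hwt using fun i : Fin n => cu_rat_seq (Y.p_pos i)
  let lab : List (List ℕ) := (List.range D).map fun d => List.ofFn fun i : Fin n =>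
    Encodable.encode (Finset.univ.filter fun j => Y.rel d i j)
  let T : ℕ → CuT := fun J => (D, J, (List.range D).map fun d => ⌈γ d * (J + 1 : ℕ)⌉₊ - 1,
    List.ofFn fun i => wq i J, lab)
  have hlab : ∀ J d, d < D → ∀ i j : Fin n, cuLab (T J) d i = cuLab (T J) d j ↔ Y.rel d i j := by
    intro J d hd i j
    simp only [cuLab, T, lab]
    rw [cu_getD_range _ hd, cu_getD_ofFn, cu_getD_ofFn, Encodable.encode_inj, Finset.ext_iff]
    simp only [Finset.mem_filter, Finset.mem_univ, true_and]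
    exact ⟨fun h => (h j).2 (Y.refl d j), fun h k => ⟨fun h' => Y.trans (Y.symm h) h',
      fun h' => Y.trans h h'⟩⟩
  have hconv : CuConv (D := D) (fun J => cuFilt (T J) n) Y := by
    refine ⟨fun J d i j => ?_, fun i => ?_⟩
    · change ((D ≤ d → i = j) ∧ ∀ d' ≤ d, cuLab (T J) d' i = cuLab (T J) d' j) ↔ _
      by_cases hd : D ≤ d
      · refine ⟨fun h => h.1 hd ▸ Y.refl d i, fun h => ?_⟩
        have := Y.sep (Y.rel_mono hd h)
        subst this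
        exact ⟨fun _ => rfl, fun _ _ => rfl⟩
      · push Not at hd
        exact ⟨fun h => (hlab J d hd i j).1 (h.2 d le_rfl), fun h => ⟨fun h' => absurd h' (by omega),
          fun d' h' => (hlab J d' (by omega) i j).2 (Y.rel_mono h' h)⟩⟩
    · refine (hwt i).congr fun J => ?_
      change _ = ((cuW (T J) i : ℚ) : ℝ)
      simp only [cuW, T]
      rw [cu_getD_ofFn, ltQ_iff.2 (by exact_mod_cast (hwq i J).1)]
      rfl
  have hγt : ∀ d < D, Tendsto (fun J => cuGam (T J) d) atTop (𝓝 (γ d)) := by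
    intro d hd
    refine ((tendsto_nat_ceil_mul_div_atTop (hγ d).1.le).comp
      (tendsto_natCast_atTop_atTop.comp (tendsto_add_atTop_nat 1))).congr fun J => ?_
    simp only [cuGam, cuG, T, Function.comp]
    rw [cu_getD_range _ hd]
    have h4 : ⌈γ d * (J + 1 : ℕ)⌉₊ ≤ J + 1 :=
      Nat.ceil_le.2 (mul_le_of_le_one_left (by positivity) (hγ d).2)
    have h5 : 0 < ⌈γ d * (J + 1 : ℕ)⌉₊ := Nat.ceil_pos.2 (mul_pos (hγ d).1 (by positivity))
    congr 2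
    omega
  obtain ⟨M, hM⟩ := exists_nat_ge (6 * (a : ℝ) / (1 - b))
  rw [div_le_iff₀ (by linarith)] at hM
  obtain ⟨N, hN⟩ := cu_complete a p q hconv (fun J => cuGam_adm (T J)) hγ hγt
    (fun J => ⟨(hbq J).1, (hbq J).2.trans hb1⟩) hb0 hb1 hbt (cuFn fl n) ht2 M
  have h4 : ∀ᶠ J in atTop, (2 : ℝ) ^ (∏ d ∈ range D, cuGam (T J) d) < t :=
    (Filter.Tendsto.rpow tendsto_const_nhds (tendsto_finsetProd _ fun d hd =>
      hγt d (Finset.mem_range.1 hd)) (Or.inl two_ne_zero)).eventually_lt_const ht1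
  obtain ⟨J, ⟨h5, h6⟩, h7⟩ := (hN.and h4).exists
  have hb0' := (hbq J).1
  have hb1' := (hbq J).2.trans hb1
  refine ⟨T J, (p, q, n, bq J, fl), (a, M, N, t), ?_⟩
  simp only [cuCheck, Bool.and_eq_true, leN_iff, leQ_iff, ltQ_iff]
  have ht0' : 0 ≤ t := by exact_mod_cast ht0.le
  refine ⟨h1, h2, h3, by exact_mod_cast hb0', by exact_mod_cast hb1', hD, hn1, ht0',
    (cu_two_iff (T J) ht0').2 h7.le, ?_, ?_, (cuMain_iff (T J) p q n _ fl a M N t hb0' hb1').2 h6⟩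
  · rw [← Rat.cast_le (K := ℝ)]
    push_cast
    have := mul_le_mul_of_nonneg_left (hbq J).2.le (Nat.cast_nonneg (α := ℝ) M)
    linarith
  · rw [← Rat.cast_lt (K := ℝ), cuEdgeQ_cast (T J) 0 p q n _ fl hb0' hb1']
    exact_mod_cast h5

theorem re_upReal : REPred UpReal := by
  refine (re_exists (c := fun (c : ℚ)
    (x : CuT × (ℕ × ℕ × ℕ × ℚ × List ℕ) × (ℕ × ℕ × ℕ × ℚ)) => cuCheck c x.1 x.2.1 x.2.2)
    cuCheck_prim).of_eq fun c => ⟨fun ⟨x, hx⟩ => cu_check_sound c _ _ _ hx, fun h => ?_⟩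
  obtain ⟨T, P, R, h⟩ := cu_check_complete c h
  exact ⟨(T, P, R), h⟩

end Crest.Agent.R153
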