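import Mathlib
import Crest.Agent.R153.SatDefs

/-!
Row 153: interpolation between clause models for the ground energy.
-/

set_option autoImplicit false

namespace Crest.Agent.R153

open Finset Crest.ProbabilityR.RandomSAT

/-- Minimum of an energy function. -/
noncomputable def enMin {n : ℕ} (e : Asg n → ℕ) : ℕ := ⨅ σ, e σ

lemma enMin_le {n : ℕ} (e : Asg n → ℕ) (σ : Asg n) : enMin e ≤ e σ :=
  ciInf_le (OrderBot.bddBelow _) σ

lemma enMin_exists {n : ℕ} (e : Asg n → ℕ) : ∃ σ, e σ = enMin e := by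
  obtain ⟨σ, hσ⟩ := exists_eq_ciInf_of_finite (f := e)
  exact ⟨σ, hσ⟩

lemma le_enMin {n : ℕ} {e : Asg n → ℕ} {a : ℕ} (h : ∀ σ, a ≤ e σ) : a ≤ enMin e :=
  le_ciInf h

/-- Mean ground energy with initial energy `e` and `m` random penalties. -/
noncomputable def enV {n : ℕ} {C : Type} [Fintype C] (p : C → Asg n → ℕ) (m : ℕ)
    (e : Asg n → ℕ) : ℝ :=
  av fun F : Fin m → C => (enMin (fun σ => e σ + ∑ s, p (F s) σ) : ℝ)

lemma enV_succ {n : ℕ} {C : Type} [Fintype C] (p : C → Asg n → ℕ) (m : ℕ) (e : Asg n → ℕ) :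
    enV p (m + 1) e = av fun c => enV p m (fun σ => e σ + p c σ) := by
  unfold enV
  rw [av_fin_cons]
  refine av_congr fun c => av_congr fun G => ?_
  simp only [Fin.sum_univ_succ, Fin.cons_zero, Fin.cons_succ, add_assoc]

lemma enV_interp {n : ℕ} {C₁ C₂ : Type} [Fintype C₁] [Fintype C₂] [Nonempty C₁] [Nonempty C₂]
    (p₁ : C₁ → Asg n → ℕ) (p₂ : C₂ → Asg n → ℕ) (δ : ℝ)
    (h : ∀ e : Asg n → ℕ, (av fun c => (enMin (fun σ => e σ + p₁ c σ) : ℝ))
      ≤ (av fun c => (enMin (fun σ => e σ + p₂ c σ) : ℝ)) + δ) (m : ℕ) :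
    ∀ e, enV p₁ m e ≤ enV p₂ m e + m * δ := by
  induction m with
  | zero => intro e; simp [enV]
  | succ m ih =>
    intro e
    rw [enV_succ, enV_succ]
    have key : ∀ {C : Type} [Fintype C] (p : C → Asg n → ℕ),
        (av fun c => enV p₂ m (fun σ => e σ + p c σ)) = av fun F : Fin m → C₂ =>
          av fun c => (enMin (fun σ => (e σ + ∑ s, p₂ (F s) σ) + p c σ) : ℝ) := by
      intro C _ p
      unfold enV
      rw [av_comm]
      refine av_congr fun F => av_congr fun c => ?_
      congr 2
      funext σ; ring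
    calc (av fun c => enV p₁ m (fun σ => e σ + p₁ c σ))
        ≤ av fun c => enV p₂ m (fun σ => e σ + p₁ c σ) + m * δ := av_mono fun c => ih _
      _ = (av fun c => enV p₂ m (fun σ => e σ + p₁ c σ)) + m * δ := by rw [av_add, av_const]
      _ ≤ (av fun c => enV p₂ m (fun σ => e σ + p₂ c σ)) + δ + m * δ := by
          rw [key p₁, key p₂]
          have := av_mono (α := Fin m → C₂) fun F => h (fun σ => e σ + ∑ s, p₂ (F s) σ)
          rw [av_add, av_const] at this
          linarith
      _ = _ := by push_cast; ring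

open Classical in
/-- Penalty of a clause with replacement. -/
noncomputable def rpen {N : ℕ} (c : RCl N) (σ : Asg N) : ℕ := if RViol σ c then 1 else 0

lemma rviol_eq {N M : ℕ} (F : Fin M → RCl N) (σ : Asg N) : rviol F σ = ∑ s, rpen (F s) σ := by
  classical
  unfold rviol rpen
  rw [Finset.card_filter]

lemma viol_eq {k n T : ℕ} (F : Fin T → Clause k n) (σ : Asg n) :
    viol F σ = ∑ s, pen (F s) σ := by
  classical
  unfold viol pen
  rw [Finset.card_filter]
  refine Finset.sum_congr rfl fun s _ => ?_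
  by_cases h : ClauseSat σ (F s) <;> simp [h]

lemma REn_eq (N M : ℕ) : REn N M = enV rpen M (fun _ : Asg N => 0) := by
  unfold REn enV renergy enMin
  simp only [rviol_eq, zero_add]

lemma PEn_eq (n m : ℕ) : PEn n m = enV (pen (k := 3)) m (fun _ : Asg n => 0) := by
  unfold PEn enV energy enMin
  simp only [viol_eq, zero_add]

/-- A literal false under all minimisers. -/
def enFz {n : ℕ} (e : Asg n → ℕ) (l : Lit n) : Prop := ∀ σ, e σ = enMin e → σ l.1 ≠ l.2

lemma enMin_add_rpen {n : ℕ} (e : Asg n → ℕ) (c : RCl n) :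
    (enMin (fun σ => e σ + rpen c σ) : ℝ) = enMin e + ∏ j, ind (enFz e (c j)) := by
  rw [← ind_forall]
  by_cases h : ∀ j, enFz e (c j)
  · rw [ind_pos h]
    have : enMin (fun σ => e σ + rpen c σ) = enMin e + 1 := by
      apply le_antisymm
      · obtain ⟨σ, hσ⟩ := enMin_exists e
        refine (enMin_le _ σ).trans ?_
        simp only [hσ, rpen]
        split_ifs <;> simp
      · refine le_enMin fun σ => ?_
        by_cases hσ : e σ = enMin e
        · have : RViol σ c := fun j => h j σ hσ
          simp [rpen, this, hσ]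
        · have := enMin_le e σ
          omega
    rw [this]; push_cast; rfl
  · rw [ind_neg h]
    have : enMin (fun σ => e σ + rpen c σ) = enMin e := by
      apply le_antisymm
      · push Not at h
        obtain ⟨j, hj⟩ := h
        unfold enFz at hj
        push Not at hj
        obtain ⟨σ, hσ, hj⟩ := hj
        refine (enMin_le _ σ).trans ?_
        have : ¬ RViol σ c := fun hv => hv j hj
        simp [rpen, this, hσ]
      · exact le_enMin fun σ => (enMin_le e σ).trans (Nat.le_add_right _ _)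
    rw [this]; simp

/-- Embedding of a literal of block `b`. -/
def enEmb {L N : ℕ} (b : Fin L) (l : Lit N) : Lit (L * N) := (finProdFinEquiv (b, l.1), l.2)

/-- Local penalties. -/
noncomputable def lpen {L N : ℕ} (c : Fin L × RCl N) (σ : Asg (L * N)) : ℕ :=
  rpen (fun j => enEmb c.1 (c.2 j)) σ

lemma en_step_loc {L N : ℕ} [NeZero L] [NeZero N] (e : Asg (L * N) → ℕ) :
    (av fun c : RCl (L * N) => (enMin (fun σ => e σ + rpen c σ) : ℝ))
      ≤ (av fun c : Fin L × RCl N => (enMin (fun σ => e σ + lpen c σ) : ℝ)) + 0 := by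
  simp only [lpen, enMin_add_rpen, add_zero]
  rw [av_add, av_add, av_const, av_const, av_prod]
  have h1 : ∀ {n : ℕ} (g : Lit n → ℝ), (av fun c : RCl n => ∏ j, g (c j)) = av g ^ 3 := by
    intro n g
    rw [av_pi_prod (fun _ : Fin 3 => g)]
    simp
  rw [h1 (fun l => ind (enFz e l))]
  have h2 : ∀ b : Fin L, (av fun c : RCl N => ∏ j, ind (enFz e (enEmb b (c j))))
      = (av fun l : Lit N => ind (enFz e (enEmb b l))) ^ 3 := fun b =>
    h1 (fun l => ind (enFz e (enEmb b l)))
  simp only [h2]
  have h3 : (av fun l => ind (enFz e l))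
      = av fun b : Fin L => av fun l : Lit N => ind (enFz e (enEmb b l)) := by
    let E : Fin L × Lit N ≃ Lit (L * N) :=
      (Equiv.prodAssoc _ _ _).symm.trans (Equiv.prodCongr finProdFinEquiv (Equiv.refl _))
    rw [← av_equiv E, av_prod]
    rfl
  rw [h3]
  have := pow_av_le (f := fun b : Fin L => av fun l : Lit N => ind (enFz e (enEmb b l)))
    (fun b => av_nonneg fun l => ind_nonneg _) 3 (by norm_num)
  linarith

lemma en_sq_sum {α : Type} [Fintype α] [Nonempty α] (f : α → ℝ) (hf : av f = 0) (m : ℕ) :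
    (av fun β : Fin m → α => (∑ s, f (β s)) ^ 2) = m * av fun a => f a ^ 2 := by
  induction m with
  | zero => simp
  | succ m ih =>
    rw [av_fin_cons]
    simp only [Fin.sum_univ_succ, Fin.cons_zero, Fin.cons_succ, add_sq, av_add, av_const,
      av_const_mul, av_mul_const, ih, hf]
    push_cast; ring

lemma REn_succ_bounds (N : ℕ) [NeZero N] (M : ℕ) :
    REn N M ≤ REn N (M + 1) ∧ REn N (M + 1) ≤ REn N M + 1 := by
  rw [REn_eq, REn_eq, enV_succ]
  constructor
  · refine le_av_of_le fun c => av_mono fun F => ?_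
    have : enMin (fun σ => 0 + ∑ s, rpen (F s) σ)
        ≤ enMin (fun σ => 0 + rpen c σ + ∑ s, rpen (F s) σ) :=
      le_enMin fun σ => (enMin_le _ σ).trans (by omega)
    exact_mod_cast this
  · refine av_le_of_le fun c => ?_
    unfold enV
    rw [← av_const (α := Fin M → RCl N) 1, ← av_add]
    refine av_mono fun F => ?_
    obtain ⟨σ, hσ⟩ := enMin_exists (fun σ => 0 + ∑ s, rpen (F s) σ)
    have h1 := enMin_le (fun σ => 0 + rpen c σ + ∑ s, rpen (F s) σ) σ
    have h2 : rpen c σ ≤ 1 := by unfold rpen; split_ifs <;> simp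
    have : enMin (fun σ => 0 + rpen c σ + ∑ s, rpen (F s) σ)
        ≤ enMin (fun σ => 0 + ∑ s, rpen (F s) σ) + 1 := by
      rw [← hσ]; omega
    exact_mod_cast this

lemma REn_le_add_abs (N : ℕ) [NeZero N] (K M : ℕ) : REn N K ≤ REn N M + |(K : ℝ) - M| := by
  rcases le_total K M with h | h
  · have : REn N K ≤ REn N M :=
      monotone_nat_of_le_succ (f := REn N) (fun m => (REn_succ_bounds N m).1) h
    linarith [abs_nonneg ((K : ℝ) - M)]
  · obtain ⟨d, rfl⟩ := Nat.exists_eq_add_of_le h
    have : ∀ d : ℕ, REn N (M + d) ≤ REn N M + d := by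
      intro d
      induction d with
      | zero => simp
      | succ d ih =>
        have := (REn_succ_bounds N (M + d)).2
        rw [← add_assoc]; push_cast; linarith
    have h2 : |((M + d : ℕ) : ℝ) - M| = d := by push_cast; simp
    rw [h2]; exact this d

lemma en_block {L N : ℕ} [NeZero L] [NeZero N] (M : ℕ) (b : Fin L) :
    (av fun F : Fin (L * M) → Fin L × RCl N =>
      (enMin (fun τ : Asg N => ∑ s, if (F s).1 = b then rpen (F s).2 τ else 0) : ℝ))
      ≤ REn N M + √M := by
  rw [← av_equiv (Equiv.arrowProdEquivProdArrow (Fin (L * M)) (fun _ => Fin L)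
    (fun _ => RCl N)).symm, av_prod]
  have h1 : ∀ β : Fin (L * M) → Fin L, (av fun G : Fin (L * M) → RCl N =>
      (enMin (fun τ : Asg N => ∑ s, if β s = b then rpen (G s) τ else 0) : ℝ))
      = REn N (univ.filter fun s => β s = b).card := by
    intro β
    set S := univ.filter fun s => β s = b with hS
    rw [REn_eq]
    unfold enV
    rw [← av_comp_injective (fun t : Fin S.card => (S.equivFin.symm t : Fin (L * M)))
      (Subtype.val_injective.comp S.equivFin.symm.injective)]
    refine av_congr fun G => ?_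
    congr 2
    funext τ
    rw [zero_add, ← Finset.sum_filter, ← hS, ← Finset.sum_coe_sort S,
      ← S.equivFin.symm.sum_comp]
  have h2 : (av fun β : Fin (L * M) → Fin L => av fun G : Fin (L * M) → RCl N =>
      (enMin (fun τ : Asg N => ∑ s, if β s = b then rpen (G s) τ else 0) : ℝ))
      ≤ REn N M + √M := by
    simp only [h1]
    refine (av_mono fun β => REn_le_add_abs N _ M).trans ?_
    rw [av_add, av_const]
    gcongr
    apply Real.le_sqrt_of_sq_le
    refine (sq_av_le _).trans ?_
    have hL : (0 : ℝ) < L := by exact_mod_cast Nat.pos_of_ne_zero (NeZero.ne L)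
    have hav : (av fun a : Fin L => ind (a = b)) = 1 / L := by
      simp [av, ind_eq_ite]
    have h3 := en_sq_sum (fun a : Fin L => ind (a = b) - 1 / L)
      (by rw [av_sub, hav, av_const, sub_self]) (L * M)
    have h4 : ∀ β : Fin (L * M) → Fin L,
        |((univ.filter fun s => β s = b).card : ℝ) - M| ^ 2 = (∑ s, (ind (β s = b) - 1 / L)) ^ 2 := by
      intro β
      rw [sq_abs, Finset.sum_sub_distrib]
      simp only [ind_eq_ite, Finset.sum_boole, Finset.sum_const, Finset.card_univ,
        Fintype.card_fin, nsmul_eq_mul]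
      congr 2
      push_cast; field_simp
    simp only [h4, h3]
    have h5 : (av fun a : Fin L => (ind (a = b) - 1 / L) ^ 2) = 1 / L - (1 / L) ^ 2 := by
      have : ∀ a : Fin L, (ind (a = b) - 1 / (L : ℝ)) ^ 2
          = ind (a = b) * (1 - 2 * (1 / L)) + (1 / L) ^ 2 := by
        intro a
        have := ind_mul_self (a = b)
        linear_combination this
      simp only [this, av_add, av_mul_const, hav, av_const]
      ring
    rw [h5]
    have h6 : ((L * M : ℕ) : ℝ) * (1 / L) = M := by push_cast; field_simp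
    rw [mul_sub, h6]
    have : 0 ≤ ((L * M : ℕ) : ℝ) * (1 / L) ^ 2 := by positivity
    linarith
  exact h2

lemma en_local {L N : ℕ} [NeZero L] [NeZero N] (M : ℕ) :
    enV (lpen (L := L) (N := N)) (L * M) (fun _ => 0) ≤ L * (REn N M + √M) := by
  unfold enV
  have h1 : ∀ F : Fin (L * M) → Fin L × RCl N,
      (enMin (fun σ : Asg (L * N) => 0 + ∑ s, lpen (F s) σ) : ℝ) ≤ ∑ b : Fin L,
        (enMin (fun τ : Asg N => ∑ s, if (F s).1 = b then rpen (F s).2 τ else 0) : ℝ) := by
    intro F
    choose τ hτ using fun b : Fin L =>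
      enMin_exists (fun τ : Asg N => ∑ s, if (F s).1 = b then rpen (F s).2 τ else 0)
    let σ : Asg (L * N) := fun v => τ (finProdFinEquiv.symm v).1 (finProdFinEquiv.symm v).2
    have h2 := enMin_le (fun σ : Asg (L * N) => 0 + ∑ s, lpen (F s) σ) σ
    have h3 : ∀ s, lpen (F s) σ = rpen (F s).2 (τ (F s).1) := by
      intro s
      unfold lpen rpen RViol
      simp only [enEmb, σ, Equiv.symm_apply_apply]
      congr 1
    have h4 : ∑ b : Fin L,
        enMin (fun τ : Asg N => ∑ s, if (F s).1 = b then rpen (F s).2 τ else 0)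
        = ∑ s, rpen (F s).2 (τ (F s).1) := by
      simp only [← hτ]
      rw [Finset.sum_comm]
      refine Finset.sum_congr rfl fun s _ => ?_
      rw [Finset.sum_ite_eq]
      simp
    simp only [h3, zero_add] at h2
    rw [← h4] at h2
    simp only [zero_add]
    exact_mod_cast h2
  refine (av_mono h1).trans ?_
  rw [av_sum]
  refine (Finset.sum_le_sum fun b _ => en_block M b).trans ?_
  simp [mul_add]

/-- A proper clause seen as a clause with replacement. -/
def enToR {n : ℕ} (p : Clause 3 n) : RCl n := fun j => (p.1.1 j, p.2 j)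

lemma enToR_inj {n : ℕ} : Function.Injective (enToR (n := n)) := by
  intro p q h
  have h1 : ∀ j, (p.1.1 j, p.2 j) = (q.1.1 j, q.2 j) := fun j => congrFun h j
  refine Prod.ext (Subtype.ext (funext fun j => (Prod.ext_iff.1 (h1 j)).1))
    (funext fun j => (Prod.ext_iff.1 (h1 j)).2)

lemma pen_eq_rpen {n : ℕ} (p : Clause 3 n) (σ : Asg n) : pen p σ = rpen (enToR p) σ := by
  unfold pen rpen
  have : RViol σ (enToR p) ↔ ¬ ClauseSat σ p := by
    simp [RViol, ClauseSat, enToR]
  by_cases h : ClauseSat σ p <;> simp [this, h]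

lemma en_av_inj {P C : Type} [Fintype P] [Fintype C] [Nonempty P] (φ : P → C)
    (hφ : Function.Injective φ) (g : C → ℝ) (g0 : ∀ c, 0 ≤ g c) (g1 : ∀ c, g c ≤ 1) :
    |av g - av fun p => g (φ p)| ≤ 1 - (Fintype.card P : ℝ) / Fintype.card C := by
  classical
  have hP : (0 : ℝ) < Fintype.card P := by exact_mod_cast Fintype.card_pos
  have hPC : (Fintype.card P : ℝ) ≤ Fintype.card C := by
    exact_mod_cast Fintype.card_le_of_injective φ hφ
  have hC : (0 : ℝ) < Fintype.card C := hP.trans_le hPC
  have key : ∀ g : C → ℝ, (∀ c, 0 ≤ g c) →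
      (Fintype.card P : ℝ) / Fintype.card C * (av fun p => g (φ p)) ≤ av g := by
    intro g g0
    unfold av
    have : ∑ p, g (φ p) ≤ ∑ c, g c := by
      rw [← Finset.sum_image (s := univ) (g := φ) (f := g) (fun a _ b _ h => hφ h)]
      exact Finset.sum_le_sum_of_subset_of_nonneg (subset_univ _) fun c _ _ => g0 c
    rw [div_mul_div_comm, mul_comm (Fintype.card C : ℝ), mul_div_mul_left _ _ hP.ne']
    gcongr
  have : Nonempty C := ⟨φ (Classical.arbitrary P)⟩
  have k1 := key g g0
  have k2 := key (fun c => 1 - g c) (fun c => by linarith [g1 c])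
  rw [av_sub, av_sub, av_const, av_const] at k2
  have x0 : 0 ≤ av fun p => g (φ p) := av_nonneg fun p => g0 _
  have x1 : (av fun p => g (φ p)) ≤ 1 := av_le_of_le fun p => g1 _
  have r1 : (Fintype.card P : ℝ) / Fintype.card C ≤ 1 := (div_le_one hC).2 hPC
  rw [abs_le]
  constructor <;> nlinarith

lemma en_clause_nonempty {n : ℕ} (hn : 3 ≤ n) : Nonempty (Clause 3 n) :=
  ⟨(⟨Fin.castLE hn, Fin.castLE_injective hn⟩, fun _ => true)⟩

lemma en_ratio {n : ℕ} (hn : 3 ≤ n) :
    1 - (Fintype.card (Clause 3 n) : ℝ) / Fintype.card (RCl n) ≤ 3 / n := by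
  have h1 : Fintype.card (Clause 3 n) = n.descFactorial 3 * 8 := by
    rw [Fintype.card_prod, Fintype.card_congr (Equiv.subtypeInjectiveEquivEmbedding _ _),
      Fintype.card_embedding_eq]
    simp
  have h2 : Fintype.card (RCl n) = (n * 2) ^ 3 := by simp
  obtain ⟨k, rfl⟩ := Nat.exists_eq_add_of_le' hn
  rw [h1, h2]
  have h3 : (k + 3).descFactorial 3 = (k + 1) * ((k + 2) * (k + 3)) := by
    simp [Nat.descFactorial_succ]
  rw [h3]
  push_cast
  have hk : (0 : ℝ) ≤ k := Nat.cast_nonneg k
  have : 1 - ((k : ℝ) + 1) * ((k + 2) * (k + 3)) * 8 / ((k + 3) * 2) ^ 3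
      = 3 / (k + 3) - 2 / (k + 3) ^ 2 := by
    field_simp; ring
  rw [this]
  have : 0 ≤ 2 / ((k : ℝ) + 3) ^ 2 := by positivity
  linarith

lemma en_step_proper {n : ℕ} (hn : 3 ≤ n) (e : Asg n → ℕ) :
    |(av fun c : RCl n => (enMin (fun σ => e σ + rpen c σ) : ℝ))
      - (av fun c : Clause 3 n => (enMin (fun σ => e σ + pen c σ) : ℝ))| ≤ 3 / n := by
  have := en_clause_nonempty hn
  have : Nonempty (RCl n) := ⟨enToR (Classical.arbitrary _)⟩
  simp only [pen_eq_rpen, enMin_add_rpen]
  rw [av_add, av_add, av_const, av_const, add_sub_add_left_eq_sub]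
  refine (en_av_inj enToR enToR_inj (fun c => ∏ j, ind (enFz e (c j)))
    (fun c => Finset.prod_nonneg fun j _ => ind_nonneg _)
    (fun c => Finset.prod_le_one (fun j _ => ind_nonneg _) fun j _ => ind_le_one _)).trans
    (en_ratio hn)

end Crest.Agent.R153
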