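import Mathlib
import Crest.Agent.R153.Av

/-!
Row 153: generic tools for `Var.lean` (Efron-Stein inequality, elementary sums).
-/

set_option autoImplicit false

namespace Crest.Agent.R153

open Finset

section
variable {α : Type*} [Fintype α]

lemma var_av_sub_sq [Nonempty α] (f : α → ℝ) (g : ℝ) :
    (av fun a => (f a - g) ^ 2) = (av fun a => f a ^ 2) - 2 * g * av f + g ^ 2 := by
  have : (fun a => (f a - g) ^ 2) = fun a => (f a ^ 2 - (2 * g) * f a) + g ^ 2 := by
    funext a; ring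
  rw [this, av_add, av_sub, av_const_mul, av_const]

lemma var_eq [Nonempty α] (f : α → ℝ) :
    (av fun a => f a ^ 2) - av f ^ 2 = av fun a => (f a - av f) ^ 2 := by
  rw [var_av_sub_sq]; ring

lemma var_le_of_center [Nonempty α] (f : α → ℝ) (g : ℝ) :
    (av fun a => (f a - av f) ^ 2) ≤ av fun a => (f a - g) ^ 2 := by
  rw [var_av_sub_sq, var_av_sub_sq]
  nlinarith [sq_nonneg (av f - g)]

/-- Efron-Stein, resampling form. -/
lemma var_efron_stein_update [Nonempty α] (T : ℕ) (f : (Fin T → α) → ℝ) :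
    (av fun ω => f ω ^ 2) - av f ^ 2 ≤
      ∑ i : Fin T, av fun ω => (f ω - av fun c => f (Function.update ω i c)) ^ 2 := by
  induction T with
  | zero => simp [av_fin_zero]
  | succ T ih =>
    rw [Fin.sum_univ_succ]
    set m : α → ℝ := fun c => av fun G : Fin T → α => f (Fin.cons c G) with hm
    have h1 : av f = av m := av_fin_cons f
    have h2 : (av fun ω => f ω ^ 2) =
        av fun c : α => av fun G : Fin T → α => f (Fin.cons c G) ^ 2 :=
      av_fin_cons fun ω => f ω ^ 2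
    have h3 : (av fun c : α => av fun G : Fin T → α => f (Fin.cons c G) ^ 2) -
        (av fun c => m c ^ 2) ≤
        ∑ i : Fin T, av fun ω => (f ω - av fun c => f (Function.update ω i.succ c)) ^ 2 := by
      rw [← av_sub]
      refine (av_mono fun c => ih fun G => f (Fin.cons c G)).trans (le_of_eq ?_)
      rw [av_sum]
      refine Finset.sum_congr rfl fun i _ => ?_
      rw [av_fin_cons fun ω => (f ω - av fun c => f (Function.update ω i.succ c)) ^ 2]
      simp only [Fin.cons_update]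
    have h4 : (av fun c => m c ^ 2) - av m ^ 2 ≤
        av fun ω => (f ω - av fun c => f (Function.update ω 0 c)) ^ 2 := by
      rw [var_eq, av_fin_cons fun ω => (f ω - av fun c => f (Function.update ω 0 c)) ^ 2]
      refine av_mono fun c => ?_
      simp only [Fin.update_cons_zero]
      have : m c - av m = av fun G : Fin T → α =>
          f (Fin.cons c G) - av fun c' => f (Fin.cons c' G) := by
        rw [av_sub, hm, av_comm]
      rw [this]
      exact sq_av_le _
    rw [h1, h2]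
    linarith

/-- Efron-Stein with arbitrary centring functions that do not read coordinate `i`. -/
lemma var_efron_stein [Nonempty α] (T : ℕ) (f : (Fin (T + 1) → α) → ℝ)
    (g : Fin (T + 1) → (Fin T → α) → ℝ) :
    (av fun ω => f ω ^ 2) - av f ^ 2 ≤
      ∑ i : Fin (T + 1), av fun c : α => av fun G : Fin T → α =>
        (f (Fin.insertNth i c G) - g i G) ^ 2 := by
  refine (var_efron_stein_update (T + 1) f).trans (Finset.sum_le_sum fun i _ => ?_)
  rw [av_fin_insertNth i, av_comm, av_comm (fun (c : α) (G : Fin T → α) =>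
    (f (Fin.insertNth i c G) - g i G) ^ 2)]
  refine av_mono fun G => ?_
  have : ∀ c c' : α, Function.update (Fin.insertNth i c G : Fin (T + 1) → α) i c' =
      Fin.insertNth i c' G := by
    intro c c'
    funext s
    refine Fin.succAboveCases i ?_ (fun s' => ?_) s
    · simp
    · simp
  simp only [this]
  exact var_le_of_center (fun c => f (Fin.insertNth i c G)) (g i G)

end

lemma var_sq_eq_sum (X T : ℕ) (h : X ≤ T) :
    (X : ℝ) ^ 2 = ∑ m ∈ range T, (2 * (m : ℝ) + 1) * ind (m < X) := by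
  have h1 : ∀ X : ℕ, (X : ℝ) ^ 2 = ∑ m ∈ range X, (2 * (m : ℝ) + 1) := by
    intro X
    induction X with
    | zero => simp
    | succ X ih => rw [Finset.sum_range_succ, ← ih]; push_cast; ring
  rw [h1]
  symm
  rw [← Finset.sum_subset (Finset.range_subset_range.2 h)]
  · exact Finset.sum_congr rfl fun m hm => by rw [ind_pos (Finset.mem_range.1 hm), mul_one]
  · intro m _ hm
    rw [ind_neg (fun h => hm (Finset.mem_range.2 h)), mul_zero]

/-- Beyond a linear time the first-moment bound decays geometrically. -/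
lemma var_tail_geom {ρ : ℝ} (h0 : 0 ≤ ρ) (h1 : ρ < 1) :
    ∃ (A : ℕ) (s : ℝ), 0 ≤ s ∧ s < 1 ∧ ∀ n m : ℕ, A * n ≤ m → 4 ^ n * ρ ^ m ≤ s ^ m := by
  obtain ⟨B, hB⟩ := exists_pow_lt_of_lt_one (show (0 : ℝ) < 1 / 4 by norm_num) h1
  have hs1 : √ρ < 1 := by
    rw [Real.sqrt_lt' one_pos]; simpa using h1
  refine ⟨2 * B, √ρ, Real.sqrt_nonneg _, hs1, fun n m hm => ?_⟩
  have hsq : ρ = √ρ ^ 2 := (Real.sq_sqrt h0).symm
  have e1 : ρ ^ m = √ρ ^ m * √ρ ^ m := by
    rw [← mul_pow, Real.mul_self_sqrt h0]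
  have e2 : √ρ ^ m ≤ (ρ ^ B) ^ n := by
    calc √ρ ^ m ≤ √ρ ^ (2 * B * n) :=
          pow_le_pow_of_le_one (Real.sqrt_nonneg _) hs1.le hm
      _ = (ρ ^ B) ^ n := by rw [pow_mul, pow_mul, ← hsq]
  have e3 : (4 : ℝ) ^ n * (ρ ^ B) ^ n ≤ 1 := by
    rw [← mul_pow]
    exact pow_le_one₀ (by positivity) (by linarith)
  have hp : 0 ≤ √ρ ^ m := by positivity
  calc (4 : ℝ) ^ n * ρ ^ m = (4 ^ n * √ρ ^ m) * √ρ ^ m := by rw [e1]; ring
    _ ≤ (4 ^ n * (ρ ^ B) ^ n) * √ρ ^ m := by gcongr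
    _ ≤ 1 * √ρ ^ m := by gcongr
    _ = _ := one_mul _

lemma var_summable_poly_geom {s : ℝ} (h0 : 0 ≤ s) (h1 : s < 1) (d : ℕ) :
    Summable fun m : ℕ => ((m : ℝ) + 2) ^ d * s ^ m := by
  have : ∀ m : ℕ, ((m : ℝ) + 2) ^ d * s ^ m =
      ∑ i ∈ range (d + 1), (2 ^ (d - i) * (d.choose i : ℝ)) * ((m : ℝ) ^ i * s ^ m) := by
    intro m
    rw [add_pow, Finset.sum_mul]
    exact Finset.sum_congr rfl fun i _ => by ring
  simp only [this]
  refine summable_sum fun i _ => Summable.mul_left _ ?_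
  exact summable_pow_mul_geometric_of_norm_lt_one i (by rwa [Real.norm_eq_abs, abs_of_nonneg h0])

lemma var_exists_poly_geom {s : ℝ} (h0 : 0 ≤ s) (h1 : s < 1) (d : ℕ) :
    ∃ K : ℝ, 0 ≤ K ∧ ∀ T : ℕ, ∑ m ∈ range T, ((m : ℝ) + 2) ^ d * s ^ m ≤ K := by
  have hs := var_summable_poly_geom h0 h1 d
  refine ⟨∑' m : ℕ, ((m : ℝ) + 2) ^ d * s ^ m, tsum_nonneg fun m => by positivity, fun T => ?_⟩
  exact hs.sum_le_tsum _ fun m _ => by positivity

lemma var_sum_inv_sq (T : ℕ) : ∑ m ∈ range T, 1 / ((m : ℝ) + 1) ^ 2 ≤ 2 := by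
  have : ∀ T : ℕ, ∑ m ∈ range T, 1 / ((m : ℝ) + 1) ^ 2 ≤ 2 - 2 / ((T : ℝ) + 1) := by
    intro T
    induction T with
    | zero => simp
    | succ T ih =>
      rw [Finset.sum_range_succ]
      have hT : (0 : ℝ) ≤ T := Nat.cast_nonneg T
      have : 1 / ((T : ℝ) + 1) ^ 2 ≤ 2 / ((T : ℝ) + 1) - 2 / (((T + 1 : ℕ) : ℝ) + 1) := by
        push_cast
        rw [div_sub_div _ _ (by positivity) (by positivity), div_le_div_iff₀ (by positivity)
          (by positivity)]
        nlinarith [mul_nonneg hT hT, mul_nonneg hT (mul_nonneg hT hT)]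
      linarith
  have h := this T
  have : (0 : ℝ) ≤ 2 / ((T : ℝ) + 1) := by positivity
  linarith

lemma var_sum_inv_sqrt (J : ℕ) : ∑ j ∈ range J, 1 / √((j : ℝ) + 1) ≤ 2 * √(J : ℝ) := by
  induction J with
  | zero => simp
  | succ J ih =>
    rw [Finset.sum_range_succ]
    have hJ : (0 : ℝ) ≤ J := Nat.cast_nonneg J
    have ha : 0 < √((J : ℝ) + 1) := Real.sqrt_pos.2 (by linarith)
    have hb : 0 ≤ √(J : ℝ) := Real.sqrt_nonneg _
    have ha2 : √((J : ℝ) + 1) ^ 2 = J + 1 := Real.sq_sqrt (by linarith)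
    have hb2 : √(J : ℝ) ^ 2 = J := Real.sq_sqrt hJ
    have : 1 / √((J : ℝ) + 1) ≤ 2 * √((J : ℝ) + 1) - 2 * √(J : ℝ) := by
      rw [div_le_iff₀ ha]
      nlinarith [sq_nonneg (√((J : ℝ) + 1) - √(J : ℝ))]
    push_cast
    linarith

end Crest.Agent.R153
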