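import Mathlib
import Crest.Agent.R153.Cav
import Crest.Agent.R153.VarAux

/-!
Row 153: second moment of the insertion cost, the variance bound and the deletion estimate.
-/

set_option autoImplicit false

namespace Crest.Agent.R153

open Finset Crest.ProbabilityR.RandomSAT

section aux
variable {k n T : ℕ}

lemma var_hit_mono_budget {j j' : ℕ} (h : j' ≤ j) (e : Asg n → ℕ) (F : Fin T → Clause k n) :
    hit j' e F ≤ hit j e F := by
  by_contra hlt
  push Not at hlt
  obtain ⟨h1, σ, hσ⟩ := lt_hit_iff.1 hlt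
  exact lt_irrefl _ (lt_hit_iff.2 ⟨h1, σ, le_trans hσ h⟩)

lemma var_violUpTo_eq_sum (F : Fin T → Clause k n) (m : ℕ) (σ : Asg n) :
    violUpTo F m σ = ∑ s : Fin T, if (s : ℕ) < m then pen (F s) σ else 0 := by
  classical
  unfold violUpTo
  rw [Finset.card_filter]
  refine Finset.sum_congr rfl fun s _ => ?_
  unfold pen
  by_cases h1 : (s : ℕ) < m <;> by_cases h2 : ClauseSat σ (F s) <;> simp [h1, h2]

lemma var_viol_insert_le (i : Fin (T + 1)) (c : Clause k n) (G : Fin T → Clause k n) {m : ℕ}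
    (hm : m ≤ i) (σ : Asg n) :
    violUpTo (Fin.insertNth i c G : Fin (T + 1) → Clause k n) m σ = violUpTo G m σ := by
  rw [var_violUpTo_eq_sum, var_violUpTo_eq_sum, Fin.sum_univ_succAbove _ i,
    if_neg (by omega), zero_add]
  refine Finset.sum_congr rfl fun s _ => ?_
  rw [Fin.insertNth_apply_succAbove]
  have : ((i.succAbove s : Fin (T + 1)) : ℕ) < m ↔ (s : ℕ) < m := by
    unfold Fin.succAbove
    split_ifs with h
    · simp
    · rw [Fin.lt_def] at h
      simp only [Fin.val_castSucc, Fin.val_succ] at h ⊢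
      omega
  simp only [this]

lemma var_viol_insert_gt (i : Fin (T + 1)) (c : Clause k n) (G : Fin T → Clause k n) {m : ℕ}
    (hm : (i : ℕ) ≤ m) (σ : Asg n) :
    violUpTo (Fin.insertNth i c G : Fin (T + 1) → Clause k n) (m + 1) σ =
      pen c σ + violUpTo G m σ := by
  rw [var_violUpTo_eq_sum, var_violUpTo_eq_sum, Fin.sum_univ_succAbove _ i,
    if_pos (by omega), Fin.insertNth_apply_same]
  congr 1
  refine Finset.sum_congr rfl fun s _ => ?_
  rw [Fin.insertNth_apply_succAbove]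
  have : ((i.succAbove s : Fin (T + 1)) : ℕ) < m + 1 ↔ (s : ℕ) < m := by
    unfold Fin.succAbove
    split_ifs with h
    · rw [Fin.lt_def] at h
      simp only [Fin.val_castSucc] at h ⊢
      omega
    · simp
  simp only [this]

lemma var_hit_insert_le (j : ℕ) (i : Fin (T + 1)) (c : Clause k n) (G : Fin T → Clause k n) :
    hit j (fun _ => 0) (Fin.insertNth i c G : Fin (T + 1) → Clause k n) ≤
      hit j (fun _ => 0) G + 1 := by
  by_contra hlt
  push Not at hlt
  obtain ⟨h1, σ, hσ⟩ := lt_hit_iff.1 hlt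
  refine lt_irrefl _ (lt_hit_iff.2 ⟨(by omega : hit j (fun _ => 0) G < T), σ, ?_⟩)
  unfold Alive at hσ ⊢
  by_cases hi : (i : ℕ) ≤ hit j (fun _ => 0) G
  · rw [var_viol_insert_gt i c G hi] at hσ; omega
  · rw [var_viol_insert_le i c G (by omega)] at hσ
    have := violUpTo_mono G (Nat.le_succ (hit j (fun _ => 0) G)) σ
    simp only [Nat.succ_eq_add_one] at this
    omega

lemma var_hit_pen_le (j : ℕ) (i : Fin (T + 1)) (c : Clause k n) (G : Fin T → Clause k n) :
    hit j (pen c) G ≤ hit j (fun _ => 0) (Fin.insertNth i c G : Fin (T + 1) → Clause k n) := by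
  by_contra hlt
  push Not at hlt
  obtain ⟨h1, σ, hσ⟩ := lt_hit_iff.1 hlt
  set m := hit j (fun _ => 0) (Fin.insertNth i c G : Fin (T + 1) → Clause k n) with hm
  refine lt_irrefl m (lt_hit_iff.2 ⟨by omega, σ, ?_⟩)
  unfold Alive at hσ ⊢
  beta_reduce
  by_cases hi : m ≤ (i : ℕ)
  · rw [var_viol_insert_le i c G hi]; omega
  · obtain ⟨m', hm'⟩ : ∃ m', m = m' + 1 := ⟨m - 1, by omega⟩
    rw [hm'] at hσ ⊢
    rw [var_viol_insert_gt i c G (by omega)]
    have := violUpTo_mono G (Nat.le_succ m') σ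
    simp only [Nat.succ_eq_add_one] at this
    omega

lemma var_hit_insert_eq (j : ℕ) (i : Fin (T + 1)) (c : Clause k n) (G : Fin T → Clause k n)
    (h : ¬ ∃ σ, Alive j (fun _ => 0) G i σ) :
    hit j (fun _ => 0) (Fin.insertNth i c G : Fin (T + 1) → Clause k n) =
      hit j (fun _ => 0) G := by
  have key : ∀ m, m < hit j (fun _ => 0) (Fin.insertNth i c G : Fin (T + 1) → Clause k n) ↔
      m < hit j (fun _ => 0) G := by
    intro m
    rw [lt_hit_iff, lt_hit_iff]
    have hi := i.2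
    constructor
    · rintro ⟨h1, σ, hσ⟩
      by_cases hm : m ≤ (i : ℕ)
      · have h2 : Alive j (fun _ => 0) G m σ := by
          unfold Alive at hσ ⊢
          rwa [var_viol_insert_le i c G hm] at hσ
        have : m ≠ i := fun hmi => h ⟨σ, hmi ▸ h2⟩
        exact ⟨by omega, σ, h2⟩
      · exfalso
        obtain ⟨m', rfl⟩ : ∃ m', m = m' + 1 := ⟨m - 1, by omega⟩
        refine h ⟨σ, ?_⟩
        unfold Alive at hσ ⊢
        rw [var_viol_insert_gt i c G (by omega)] at hσ
        have := violUpTo_mono G (by omega : (i : ℕ) ≤ m') σ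
        omega
    · rintro ⟨h1, σ, hσ⟩
      have hm : m ≤ (i : ℕ) := by
        by_contra hm
        exact h ⟨σ, hσ.anti (by omega)⟩
      refine ⟨by omega, σ, ?_⟩
      unfold Alive at hσ ⊢
      rwa [var_viol_insert_le i c G hm]
  exact le_antisymm (le_of_not_gt fun h1 => lt_irrefl _ ((key _).1 h1))
    (le_of_not_gt fun h1 => lt_irrefl _ ((key _).2 h1))

lemma var_cost_nonneg (j : ℕ) (c : Clause k n) (G : Fin T → Clause k n) :
    hit j (pen c) G ≤ hit j (fun _ => 0) G :=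
  hit_anti j G fun _ => Nat.zero_le _

lemma var_le_hit_of_alive {j i : ℕ} {e : Asg n → ℕ} {G : Fin T → Clause k n} (hi : i ≤ T)
    (h : ∃ σ, Alive j e G i σ) : i ≤ hit j e G := by
  obtain ⟨σ, hσ⟩ := h
  by_contra hlt
  push Not at hlt
  exact lt_irrefl _ (lt_hit_iff.2 ⟨by omega, σ, hσ.anti hlt.le⟩)

/-- Probability that all literals of a uniform clause lie in a given set. -/
lemma var_clause_prob (hk : 1 ≤ k) (hn : k ≤ n) (X : Finset (Lit n)) :
    (av fun c : Clause k n => ind (∀ i, (c.1.1 i, c.2 i) ∈ X)) ≤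
      (k : ℝ) ^ k * ((X.card : ℝ) / n) ^ k := by
  classical
  have hn0 : (0 : ℝ) < n := by exact_mod_cast (by omega : 0 < n)
  have hk0 : (0 : ℝ) < k := by exact_mod_cast (by omega : 0 < k)
  have h1 : ((univ.filter fun c : Clause k n => ∀ i, (c.1.1 i, c.2 i) ∈ X).card : ℝ) ≤
      (X.card : ℝ) ^ k := by
    have : (univ.filter fun c : Clause k n => ∀ i, (c.1.1 i, c.2 i) ∈ X).card ≤
        (Fintype.piFinset fun _ : Fin k => X).card := by
      refine Finset.card_le_card_of_injOn (fun c i => (c.1.1 i, c.2 i)) ?_ ?_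
      · intro c hc
        simp only [Finset.coe_filter, Finset.mem_univ, true_and, Set.mem_ofPred_eq] at hc
        simpa [Fintype.mem_piFinset] using hc
      · intro c _ c' _ h
        have h' : ∀ i, (c.1.1 i, c.2 i) = (c'.1.1 i, c'.2 i) := fun i => congrFun h i
        refine Prod.ext (Subtype.ext (funext fun i => (Prod.mk.inj (h' i)).1))
          (funext fun i => (Prod.mk.inj (h' i)).2)
    rw [Fintype.card_piFinset] at this
    simp only [Finset.prod_const, Finset.card_univ, Fintype.card_fin] at this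
    exact_mod_cast this
  have h2 : ((n : ℝ) / k) ^ k ≤ Fintype.card (Clause k n) := by
    have e1 : Fintype.card {v : Fin k → Fin n // Function.Injective v} = n.descFactorial k := by
      rw [← Fintype.card_congr (Equiv.subtypeInjectiveEquivEmbedding (Fin k) (Fin n)).symm,
        Fintype.card_embedding_eq, Fintype.card_fin, Fintype.card_fin]
    have e2 : n.descFactorial k ≤ Fintype.card (Clause k n) := by
      rw [Fintype.card_prod, e1]
      exact Nat.le_mul_of_pos_right _ Fintype.card_pos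
    have e3 : (n + 1 - k) ^ k ≤ n.descFactorial k := Nat.pow_sub_le_descFactorial n k
    have e4 : (n : ℝ) / k ≤ ((n + 1 - k : ℕ) : ℝ) := by
      rw [div_le_iff₀ hk0, Nat.cast_sub (by omega)]
      push_cast
      have a1 : (1 : ℝ) ≤ k := by exact_mod_cast hk
      have a2 : (k : ℝ) ≤ n := by exact_mod_cast hn
      nlinarith
    calc ((n : ℝ) / k) ^ k ≤ ((n + 1 - k : ℕ) : ℝ) ^ k := by gcongr
      _ ≤ _ := by exact_mod_cast e3.trans e2
  unfold av
  simp only [ind_eq_ite, Finset.sum_boole]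
  have h3 : (0 : ℝ) < ((n : ℝ) / k) ^ k := by positivity
  calc _ ≤ (X.card : ℝ) ^ k / ((n : ℝ) / k) ^ k := by gcongr
    _ = _ := by rw [div_pow, div_pow]; field_simp

end aux

lemma var_cost_tail (k : ℕ) (hk : 3 ≤ k) : ∃ C : ℝ, 0 ≤ C ∧ ∀ n T j m : ℕ, k ≤ n → j ≤ n →
    (av fun c : Clause k n => av fun G : Fin T → Clause k n =>
      ind (m < hit j (fun _ => 0) G - hit j (pen c) G)) ≤
      C * (1 / ((m : ℝ) + 1) ^ 4 + 1 / (n : ℝ) ^ 3) := by
  have hmom : Mom k (1 * (k - 1) * (k - 1)) :=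
    mom_step k _ (by omega) (Nat.mul_pos one_pos (by omega))
      (mom_step k 1 (by omega) le_rfl (mom_zero k (by omega)))
  obtain ⟨C, hC, hM⟩ := hmom k (by omega)
  refine ⟨(k : ℝ) ^ k * C ^ k * 2 ^ (k - 1), by positivity, fun n T j m hn hj => ?_⟩
  have := clause_nonempty hn
  have hn1 : (1 : ℝ) ≤ n := by exact_mod_cast (by omega : 1 ≤ n)
  have hk0 : (0 : ℝ) < k := by exact_mod_cast (by omega : 0 < k)
  set t : ℝ := (m : ℝ) + 1 with ht
  have ht1 : 1 ≤ t := by rw [ht]; linarith [(Nat.cast_nonneg m : (0 : ℝ) ≤ m)]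
  set z : ℝ := t ^ (-(1 / (k : ℝ))) with hz
  have hz0 : 0 < z := Real.rpow_pos_of_pos (by linarith) _
  have hzk : z ^ k = 1 / t := by
    rw [hz, ← Real.rpow_natCast, ← Real.rpow_mul (by linarith)]
    have : -(1 / (k : ℝ)) * k = -1 := by field_simp
    rw [this, Real.rpow_neg_one, one_div]
  have hM' := hM n T j 0 (m + 1) ∅ (fun _ => 0) z hn hj (by simp) (fun _ _ _ => rfl)
    (by omega) hz0 (by rw [hzk]; push_cast; rw [← ht]; field_simp; rfl)
  rw [av_comm]
  have h1 : ∀ G : Fin T → Clause k n,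
      (av fun c : Clause k n => ind (m < hit j (fun _ => 0) G - hit j (pen c) G)) ≤
        (k : ℝ) ^ k * (((Frz j (fun _ => 0) G (m + 1)).card : ℝ) / n) ^ k := by
    intro G
    refine le_trans (av_mono fun c => ind_mono fun h i => ?_) (var_clause_prob (by omega) hn _)
    refine mem_Frz_of_cost (a := pen c) (fun σ => ?_) (by omega) ?_ ?_
    · unfold pen; split_ifs <;> simp
    · simp only [zero_add]
      have : (fun σ => pen c σ) = pen c := rfl
      rw [this]; omega
    · intro σ hσ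
      unfold pen
      rw [if_pos ⟨i, hσ⟩]
  refine (av_mono h1).trans ?_
  rw [av_const_mul]
  have h2 : (z ^ (1 * (k - 1) * (k - 1)) + (((0 : ℕ) : ℝ) + 1) / n) ^ k ≤
      2 ^ (k - 1) * (1 / t ^ 4 + 1 / (n : ℝ) ^ 3) := by
    refine (add_pow_le (by positivity) (by positivity) k).trans ?_
    gcongr
    · rw [← pow_mul, mul_comm, pow_mul, hzk, ← one_div_pow]
      refine pow_le_pow_of_le_one (by positivity) (by rw [div_le_one (by linarith)]; exact ht1) ?_
      have : 2 ≤ k - 1 := by omega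
      nlinarith
    · rw [Nat.cast_zero, zero_add, ← one_div_pow]
      exact pow_le_pow_of_le_one (by positivity) (by rw [div_le_one (by linarith)]; exact hn1) hk
  calc (k : ℝ) ^ k * _ ≤ (k : ℝ) ^ k * (C * (z ^ (1 * (k - 1) * (k - 1)) +
        (((0 : ℕ) : ℝ) + 1) / n)) ^ k := by gcongr
    _ = (k : ℝ) ^ k * C ^ k * (z ^ (1 * (k - 1) * (k - 1)) + (((0 : ℕ) : ℝ) + 1) / n) ^ k := by
        rw [mul_pow]; ring
    _ ≤ (k : ℝ) ^ k * C ^ k * (2 ^ (k - 1) * (1 / t ^ 4 + 1 / (n : ℝ) ^ 3)) := by gcongr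
    _ = _ := by ring

lemma var_rho_lt (k : ℕ) : (0 : ℝ) ≤ 1 - 1 / 2 ^ (k + 1) ∧ (1 - 1 / 2 ^ (k + 1) : ℝ) < 1 := by
  constructor
  · have : (1 : ℝ) / 2 ^ (k + 1) ≤ 1 := by
      rw [div_le_one (by positivity)]; exact one_le_pow₀ (by norm_num)
    linarith
  · have : (0 : ℝ) < 1 / 2 ^ (k + 1) := by positivity
    linarith

theorem cost_sq (k : ℕ) (hk : 3 ≤ k) : ∃ C : ℝ, ∀ n T j : ℕ, k ≤ n → j ≤ n →
    (av fun c : Clause k n => av fun G : Fin T → Clause k n =>
      ((hit j (fun _ => 0) G : ℝ) - hit j (pen c) G) ^ 2) ≤ C := by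
  obtain ⟨C, hC, hT⟩ := var_cost_tail k hk
  obtain ⟨A, s, hs0, hs1, hA⟩ := var_tail_geom (var_rho_lt k).1 (var_rho_lt k).2
  obtain ⟨K, hK0, hK⟩ := var_exists_poly_geom hs0 hs1 1
  refine ⟨C * 4 + C * A ^ 2 + 2 * K, fun n T j hn hj => ?_⟩
  have := clause_nonempty hn
  have hn1 : (1 : ℝ) ≤ n := by exact_mod_cast (by omega : 1 ≤ n)
  have h1 : ∀ (c : Clause k n) (G : Fin T → Clause k n),
      ((hit j (fun _ => 0) G : ℝ) - hit j (pen c) G) ^ 2 =
        ∑ m ∈ range T, (2 * (m : ℝ) + 1) * ind (m < hit j (fun _ => 0) G - hit j (pen c) G) := by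
    intro c G
    rw [← var_sq_eq_sum _ T ((Nat.sub_le _ _).trans (hit_le _ _ _)),
      Nat.cast_sub (var_cost_nonneg j c G)]
  simp only [h1, av_sum, av_const_mul]
  have h2 : ∀ m ∈ range T, (2 * (m : ℝ) + 1) * (av fun c : Clause k n =>
      av fun G : Fin T → Clause k n => ind (m < hit j (fun _ => 0) G - hit j (pen c) G)) ≤
      C * 2 * (1 / ((m : ℝ) + 1) ^ 2) + C / (n : ℝ) ^ 3 * ((2 * (m : ℝ) + 1) * ind (m < A * n)) +
        2 * (((m : ℝ) + 2) ^ 1 * s ^ m) := by
    intro m _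
    have hm : (0 : ℝ) ≤ m := Nat.cast_nonneg m
    by_cases hmA : m < A * n
    · rw [ind_pos hmA]
      have a1 := hT n T j m hn hj
      have a2 : (2 * (m : ℝ) + 1) * (1 / ((m : ℝ) + 1) ^ 4) ≤ 2 * (1 / ((m : ℝ) + 1) ^ 2) := by
        rw [mul_one_div, mul_one_div, div_le_div_iff₀ (by positivity) (by positivity)]
        have : (1 : ℝ) ≤ (m : ℝ) + 1 := by linarith
        have b1 : ((m : ℝ) + 1) ^ 3 ≤ ((m : ℝ) + 1) ^ 4 := pow_le_pow_right₀ this (by norm_num)
        nlinarith [pow_pos (by linarith : (0 : ℝ) < (m : ℝ) + 1) 2]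
      have a3 : 0 ≤ 2 * (((m : ℝ) + 2) ^ 1 * s ^ m) := by positivity
      calc _ ≤ (2 * (m : ℝ) + 1) * (C * (1 / ((m : ℝ) + 1) ^ 4 + 1 / (n : ℝ) ^ 3)) := by gcongr
        _ = C * ((2 * (m : ℝ) + 1) * (1 / ((m : ℝ) + 1) ^ 4)) +
            C / (n : ℝ) ^ 3 * ((2 * (m : ℝ) + 1) * 1) := by ring
        _ ≤ C * (2 * (1 / ((m : ℝ) + 1) ^ 2)) + C / (n : ℝ) ^ 3 * ((2 * (m : ℝ) + 1) * 1) := by
            gcongr
        _ ≤ _ := by linarith
    · rw [ind_neg hmA]
      have a1 : (av fun c : Clause k n => av fun G : Fin T → Clause k n =>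
          ind (m < hit j (fun _ => 0) G - hit j (pen c) G)) ≤ s ^ m := by
        refine av_le_of_le fun c => ?_
        refine le_trans (av_mono fun G => ind_mono fun h => ?_)
          ((hit_tail hn hj (fun _ => 0) T m).trans (hA n m (by omega)))
        omega
      have a2 : 0 ≤ C * 2 * (1 / ((m : ℝ) + 1) ^ 2) := by positivity
      have a3 : 0 ≤ s ^ m := by positivity
      calc _ ≤ (2 * (m : ℝ) + 1) * s ^ m := by gcongr
        _ ≤ 2 * (((m : ℝ) + 2) ^ 1 * s ^ m) := by nlinarith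
        _ ≤ _ := by linarith
  refine (Finset.sum_le_sum h2).trans ?_
  rw [Finset.sum_add_distrib, Finset.sum_add_distrib, ← Finset.mul_sum, ← Finset.mul_sum,
    ← Finset.mul_sum]
  have b1 := var_sum_inv_sq T
  have b2 := hK T
  have b3 : ∑ m ∈ range T, (2 * (m : ℝ) + 1) * ind (m < A * n) ≤ ((A : ℝ) * n) ^ 2 := by
    have := var_sq_eq_sum (A * n) (T + A * n) (by omega)
    push_cast at this
    rw [this]
    refine Finset.sum_le_sum_of_subset_of_nonneg (Finset.range_subset_range.2 (by omega)) ?_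
    intro m _ _
    exact mul_nonneg (by positivity) (ind_nonneg _)
  have b4 : C / (n : ℝ) ^ 3 * ((A : ℝ) * n) ^ 2 ≤ C * A ^ 2 := by
    rw [div_mul_eq_mul_div, div_le_iff₀ (by positivity)]
    have : (n : ℝ) ^ 2 ≤ (n : ℝ) ^ 3 := pow_le_pow_right₀ hn1 (by norm_num)
    calc C * ((A : ℝ) * n) ^ 2 = C * A ^ 2 * (n : ℝ) ^ 2 := by ring
      _ ≤ _ := by gcongr
  have b5 : C / (n : ℝ) ^ 3 * ∑ m ∈ range T, (2 * (m : ℝ) + 1) * ind (m < A * n) ≤
      C / (n : ℝ) ^ 3 * ((A : ℝ) * n) ^ 2 := by gcongr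
  nlinarith

/-- The sum lemma. -/
lemma var_sum_lemma (k : ℕ) (hk : 3 ≤ k) : ∃ C : ℝ, 0 < C ∧ ∀ n T j j' : ℕ, k ≤ n → j ≤ n →
    j' ≤ j → ∑ i : Fin (T + 1), (av fun c : Clause k n => av fun G : Fin T → Clause k n =>
      ind (∃ σ, Alive j (fun _ => 0) G i σ) *
        (1 + ((hit j' (fun _ => 0) G : ℝ) - hit j' (pen c) G)) ^ 2) ≤ C * n := by
  obtain ⟨C, hC⟩ := cost_sq k hk
  obtain ⟨A, s, hs0, hs1, hA⟩ := var_tail_geom (var_rho_lt k).1 (var_rho_lt k).2
  obtain ⟨K, hK0, hK⟩ := var_exists_poly_geom hs0 hs1 3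
  have hC0 : 0 ≤ C := le_trans (av_nonneg fun _ => av_nonneg fun _ => sq_nonneg _)
    (hC k 0 0 le_rfl (Nat.zero_le _))
  refine ⟨((A : ℝ) + 1) * (2 + 2 * C) + K, by positivity, fun n T j j' hn hj hj' => ?_⟩
  have := clause_nonempty hn
  have hn1 : (1 : ℝ) ≤ n := by exact_mod_cast (by omega : 1 ≤ n)
  rw [← av_sum]
  simp only [← av_sum]
  have h1 : ∀ (c : Clause k n) (G : Fin T → Clause k n),
      ∑ i : Fin (T + 1), ind (∃ σ, Alive j (fun _ => 0) G i σ) *
        (1 + ((hit j' (fun _ => 0) G : ℝ) - hit j' (pen c) G)) ^ 2 ≤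
      ((A : ℝ) * n + 1) * (2 + 2 * ((hit j' (fun _ => 0) G : ℝ) - hit j' (pen c) G) ^ 2) +
        ∑ m ∈ range T, ((m : ℝ) + 2) ^ 3 * ind (A * n ≤ m) * ind (m < hit j (fun _ => 0) G) := by
    intro c G
    set H := hit j (fun _ => 0) G with hH
    set x : ℝ := (hit j' (fun _ => 0) G : ℝ) - hit j' (pen c) G with hx
    have hx0 : 0 ≤ x := by
      rw [hx, sub_nonneg]; exact_mod_cast var_cost_nonneg j' c G
    have hxH : x ≤ H := by
      have : (hit j' (fun _ => 0) G : ℝ) ≤ H := by exact_mod_cast var_hit_mono_budget hj' _ G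
      have h0 : (0 : ℝ) ≤ hit j' (pen c) G := Nat.cast_nonneg _
      linarith
    have hHT : H ≤ T := hit_le _ _ _
    have a1 : ∑ i : Fin (T + 1), ind (∃ σ, Alive j (fun _ => 0) G i σ) ≤ (H : ℝ) + 1 := by
      calc ∑ i : Fin (T + 1), ind (∃ σ, Alive j (fun _ => 0) G i σ)
          ≤ ∑ i : Fin (T + 1), ind ((i : ℕ) < H + 1) := by
            refine Finset.sum_le_sum fun i _ => ind_mono fun h => ?_
            have := var_le_hit_of_alive (Nat.lt_succ_iff.1 i.2) h
            omega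
        _ = ∑ i ∈ range (T + 1), ind (i < H + 1) :=
            Fin.sum_univ_eq_sum_range (fun i => ind (i < H + 1)) (T + 1)
        _ = ∑ i ∈ range (H + 1), ind (i < H + 1) := by
            symm
            refine Finset.sum_subset (Finset.range_subset_range.2 (by omega)) fun i _ hi => ?_
            exact ind_neg fun h => hi (Finset.mem_range.2 h)
        _ ≤ ∑ i ∈ range (H + 1), (1 : ℝ) := Finset.sum_le_sum fun i _ => ind_le_one _
        _ = _ := by simp
    rw [← Finset.sum_mul]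
    have a2 : 0 ≤ ∑ m ∈ range T, ((m : ℝ) + 2) ^ 3 * ind (A * n ≤ m) * ind (m < H) :=
      Finset.sum_nonneg fun m _ =>
        mul_nonneg (mul_nonneg (by positivity) (ind_nonneg _)) (ind_nonneg _)
    have a3 : (∑ i : Fin (T + 1), ind (∃ σ, Alive j (fun _ => 0) G i σ)) * (1 + x) ^ 2 ≤
        ((H : ℝ) + 1) * (1 + x) ^ 2 := by gcongr
    by_cases hHA : H ≤ A * n
    · have b1 : (H : ℝ) ≤ (A : ℝ) * n := by exact_mod_cast hHA
      have b2 : (1 + x) ^ 2 ≤ 2 + 2 * x ^ 2 := by nlinarith [sq_nonneg (1 - x)]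
      have b3 : ((H : ℝ) + 1) * (1 + x) ^ 2 ≤ ((A : ℝ) * n + 1) * (2 + 2 * x ^ 2) := by gcongr
      linarith
    · obtain ⟨m, hm⟩ : ∃ m, H = m + 1 := ⟨H - 1, by omega⟩
      have b1 : ((m : ℝ) + 2) ^ 3 * ind (A * n ≤ m) * ind (m < H) ≤
          ∑ m ∈ range T, ((m : ℝ) + 2) ^ 3 * ind (A * n ≤ m) * ind (m < H) :=
        Finset.single_le_sum (f := fun m : ℕ => ((m : ℝ) + 2) ^ 3 * ind (A * n ≤ m) * ind (m < H))
          (fun m _ => mul_nonneg (mul_nonneg (by positivity) (ind_nonneg _)) (ind_nonneg _))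
          (Finset.mem_range.2 (by omega))
      rw [ind_pos (by omega : A * n ≤ m), ind_pos (by omega : m < H), mul_one, mul_one] at b1
      have b2 : (H : ℝ) = m + 1 := by rw [hm]; push_cast; ring
      have b3 : ((H : ℝ) + 1) * (1 + x) ^ 2 ≤ ((m : ℝ) + 2) ^ 3 := by
        calc ((H : ℝ) + 1) * (1 + x) ^ 2 ≤ ((H : ℝ) + 1) * (1 + H) ^ 2 := by gcongr
          _ = _ := by rw [b2]; ring
      have b4 : 0 ≤ ((A : ℝ) * n + 1) * (2 + 2 * x ^ 2) := by positivity
      linarith
  refine (av_mono fun c => av_mono fun G => h1 c G).trans ?_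
  simp only [av_add, av_const_mul, av_const, av_sum]
  have h2 := hC n T j' hn (by omega)
  have h3 : ∑ m ∈ range T, ((m : ℝ) + 2) ^ 3 * ind (A * n ≤ m) *
      (av fun G : Fin T → Clause k n => ind (m < hit j (fun _ => 0) G)) ≤ K := by
    refine le_trans (Finset.sum_le_sum fun m _ => ?_) (hK T)
    by_cases hm : A * n ≤ m
    · rw [ind_pos hm, mul_one]
      have := (hit_tail hn hj (fun _ => 0) T m).trans (hA n m hm)
      gcongr
    · rw [ind_neg hm, mul_zero, zero_mul]; positivity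
  have h4 : ((A : ℝ) * n + 1) * (2 + 2 * av fun c : Clause k n => av fun G : Fin T → Clause k n =>
      ((hit j' (fun _ => 0) G : ℝ) - hit j' (pen c) G) ^ 2) ≤ ((A : ℝ) * n + n) * (2 + 2 * C) := by
    have : 0 ≤ av fun c : Clause k n => av fun G : Fin T → Clause k n =>
        ((hit j' (fun _ => 0) G : ℝ) - hit j' (pen c) G) ^ 2 :=
      av_nonneg fun _ => av_nonneg fun _ => sq_nonneg _
    gcongr
  nlinarith

lemma var_alive_zero_iff {k n T m : ℕ} (hm : m ≤ T) (F : Fin T → Clause k n) :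
    (∃ σ, Alive 0 (fun _ => 0) F m σ) ↔ Satisfiable fun s : Fin m => F (Fin.castLE hm s) := by
  classical
  unfold Satisfiable Alive violUpTo
  refine exists_congr fun σ => ?_
  simp only [zero_add, nonpos_iff_eq_zero, Finset.card_eq_zero, Finset.filter_eq_empty_iff,
    Finset.mem_univ, true_imp_iff, not_and, not_not]
  constructor
  · intro h s
    exact h s.2
  · intro h s hs
    exact h ⟨s, hs⟩

lemma var_av_alive {k n T m : ℕ} (hn : k ≤ n) (hm : m ≤ T) :
    (av fun F : Fin T → Clause k n => ind (∃ σ, Alive 0 (fun _ => 0) F m σ)) = satProb k n m := by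
  have := clause_nonempty hn
  simp only [var_alive_zero_iff hm]
  rw [av_comp_injective (Fin.castLE hm) (Fin.castLE_injective hm)
    fun G : Fin m → Clause k n => ind (Satisfiable G)]
  unfold satProb
  rw [uniformProb_eq_av]
  rfl

lemma var_av_lt_hit {k n T m : ℕ} (hn : k ≤ n) (hm : m < T) :
    (av fun F : Fin T → Clause k n => ind (m < hit 0 (fun _ => 0) F)) = satProb k n m := by
  rw [← var_av_alive hn hm.le]
  exact av_congr fun F => ind_congr (by rw [lt_hit_iff]; simp [hm])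

lemma var_satProb_nonneg (k n m : ℕ) : 0 ≤ satProb k n m := by
  unfold satProb
  rw [uniformProb_eq_av]
  exact av_nonneg fun _ => ind_nonneg _

lemma var_satProb_le {k n : ℕ} (hn : k ≤ n) (m : ℕ) :
    satProb k n m ≤ 4 ^ n * (1 - 1 / 2 ^ (k + 1) : ℝ) ^ m := by
  rw [← var_av_lt_hit hn (Nat.lt_succ_self m)]
  exact hit_tail hn (Nat.zero_le _) _ _ _

theorem variance_bound (k : ℕ) (hk : 3 ≤ k) :
    ∃ C : ℝ, ∀ n : ℕ, k ≤ n →
      Summable (fun m : ℕ => satProb k n m) ∧
      Summable (fun m : ℕ => (2 * (m : ℝ) + 1) * satProb k n m) ∧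
      (∑' m : ℕ, (2 * (m : ℝ) + 1) * satProb k n m) - (∑' m : ℕ, satProb k n m) ^ 2 ≤ C * n := by
  obtain ⟨C, -, hC⟩ := var_sum_lemma k hk
  refine ⟨C, fun n hn => ?_⟩
  have := clause_nonempty hn
  obtain ⟨hρ0, hρ1⟩ := var_rho_lt k
  have hs2 : Summable (fun m : ℕ => (2 * (m : ℝ) + 1) * satProb k n m) := by
    refine Summable.of_nonneg_of_le
      (fun m => mul_nonneg (by positivity) (var_satProb_nonneg k n m)) (fun m => ?_)
      ((var_summable_poly_geom hρ0 hρ1 1).mul_left (2 * 4 ^ n))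
    have h1 := var_satProb_le hn m
    have h2 : 0 ≤ 4 ^ n * (1 - 1 / 2 ^ (k + 1) : ℝ) ^ m := by positivity
    calc _ ≤ (2 * (m : ℝ) + 1) * (4 ^ n * (1 - 1 / 2 ^ (k + 1) : ℝ) ^ m) := by gcongr
      _ ≤ (2 * ((m : ℝ) + 2)) * (4 ^ n * (1 - 1 / 2 ^ (k + 1) : ℝ) ^ m) := by
          gcongr; linarith
      _ = _ := by ring
  have hs1 : Summable (fun m : ℕ => satProb k n m) := by
    refine Summable.of_nonneg_of_le (fun m => var_satProb_nonneg k n m) (fun m => ?_) hs2
    have := var_satProb_nonneg k n m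
    have hm : (0 : ℝ) ≤ m := Nat.cast_nonneg m
    nlinarith
  refine ⟨hs1, hs2, ?_⟩
  have key : ∀ T : ℕ, ∑ m ∈ range (T + 1), (2 * (m : ℝ) + 1) * satProb k n m -
      (∑ m ∈ range (T + 1), satProb k n m) ^ 2 ≤ C * n := by
    intro T
    have h1 := var_efron_stein T
      (fun F : Fin (T + 1) → Clause k n => (hit 0 (fun _ => 0) F : ℝ))
      (fun _ G => (hit 0 (fun _ => 0) G : ℝ))
    have h2 : (av fun F : Fin (T + 1) → Clause k n => (hit 0 (fun _ => 0) F : ℝ) ^ 2) =
        ∑ m ∈ range (T + 1), (2 * (m : ℝ) + 1) * satProb k n m := by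
      rw [av_congr fun F => var_sq_eq_sum _ (T + 1) (hit_le 0 (fun _ => 0) F), av_sum]
      refine Finset.sum_congr rfl fun m hm => ?_
      rw [av_const_mul, var_av_lt_hit hn (Finset.mem_range.1 hm)]
    have h3 : (av fun F : Fin (T + 1) → Clause k n => (hit 0 (fun _ => 0) F : ℝ)) =
        ∑ m ∈ range (T + 1), satProb k n m := by
      rw [av_congr fun F => hit_eq_sum 0 (fun _ => 0) F, av_sum]
      exact Finset.sum_congr rfl fun m hm => var_av_alive hn (Finset.mem_range.1 hm).le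
    rw [h2, h3] at h1
    refine h1.trans (le_trans (Finset.sum_le_sum fun i _ => av_mono fun c => av_mono fun G => ?_)
      (hC n T 0 0 hn (Nat.zero_le _) le_rfl))
    by_cases h : ∃ σ, Alive 0 (fun _ => 0) G i σ
    · rw [ind_pos h, one_mul]
      have a1 : (hit 0 (fun _ => 0) (Fin.insertNth i c G : Fin (T + 1) → Clause k n) : ℝ) ≤
          hit 0 (fun _ => 0) G + 1 := by exact_mod_cast var_hit_insert_le 0 i c G
      have a2 : (hit 0 (pen c) G : ℝ) ≤
          hit 0 (fun _ => 0) (Fin.insertNth i c G : Fin (T + 1) → Clause k n) := by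
        exact_mod_cast var_hit_pen_le 0 i c G
      have a3 : (hit 0 (pen c) G : ℝ) ≤ hit 0 (fun _ => 0) G := by
        exact_mod_cast var_cost_nonneg 0 c G
      exact sq_le_sq' (by linarith) (by linarith)
    · rw [ind_neg h, zero_mul, var_hit_insert_eq 0 i c G h]; simp
  have t1 := (hs2.hasSum.tendsto_sum_nat).comp (Filter.tendsto_add_atTop_nat 1)
  have t2 := (hs1.hasSum.tendsto_sum_nat).comp (Filter.tendsto_add_atTop_nat 1)
  exact le_of_tendsto' (t1.sub (t2.pow 2)) key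

theorem satProb_anti (k n : ℕ) (hn : k ≤ n) {m m' : ℕ} (h : m ≤ m') :
    satProb k n m' ≤ satProb k n m := by
  rw [← var_av_alive hn h, ← var_av_alive hn (le_refl m')]
  exact av_mono fun F => ind_mono fun ⟨σ, hσ⟩ => ⟨σ, hσ.anti h⟩

lemma var_level_gap {k n T : ℕ} (j : ℕ) (F : Fin (T + 1) → Clause k n) :
    ((j : ℝ) + 1) * ((hit (j + 1) (fun _ => 0) F : ℝ) - hit j (fun _ => 0) F) ^ 2 ≤
      ∑ i : Fin (T + 1), ind (∃ σ, Alive (j + 1) (fun _ => 0) (Fin.removeNth i F) i σ) *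
        (1 + ((hit j (fun _ => 0) (Fin.removeNth i F) : ℝ) -
          hit j (pen (F i)) (Fin.removeNth i F))) ^ 2 := by
  classical
  have hnn : ∀ i : Fin (T + 1), 0 ≤
      ind (∃ σ, Alive (j + 1) (fun _ => 0) (Fin.removeNth i F) i σ) *
        (1 + ((hit j (fun _ => 0) (Fin.removeNth i F) : ℝ) -
          hit j (pen (F i)) (Fin.removeNth i F))) ^ 2 :=
    fun i => mul_nonneg (ind_nonneg _) (sq_nonneg _)
  have hmono := var_hit_mono_budget (Nat.le_succ j) (fun _ => 0) F
  simp only [Nat.succ_eq_add_one] at hmono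
  rcases hmono.eq_or_lt with heq | hlt
  · rw [heq, sub_self]
    simpa using Finset.sum_nonneg fun i _ => hnn i
  obtain ⟨m, hm⟩ : ∃ m, hit (j + 1) (fun _ => 0) F = m + 1 :=
    ⟨hit (j + 1) (fun _ => 0) F - 1, by omega⟩
  obtain ⟨hmT, σ, hσ⟩ := (lt_hit_iff (j := j + 1) (e := fun _ => 0) (F := F) (m := m)).1 (by omega)
  have hσ' : ¬ Alive j (fun _ => 0) F m σ := fun h =>
    absurd (lt_hit_iff.2 ⟨hmT, σ, h⟩) (by omega)
  have hv : violUpTo F m σ = j + 1 := by
    unfold Alive at hσ hσ'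
    beta_reduce at hσ hσ'
    omega
  set S : Finset (Fin (T + 1)) :=
    univ.filter fun s : Fin (T + 1) => (s : ℕ) < m ∧ ¬ ClauseSat σ (F s) with hS
  have hcard : S.card = j + 1 := hv
  have hterm : ∀ i ∈ S, ((hit (j + 1) (fun _ => 0) F : ℝ) - hit j (fun _ => 0) F) ^ 2 ≤
      ind (∃ σ, Alive (j + 1) (fun _ => 0) (Fin.removeNth i F) i σ) *
        (1 + ((hit j (fun _ => 0) (Fin.removeNth i F) : ℝ) -
          hit j (pen (F i)) (Fin.removeNth i F))) ^ 2 := by
    intro i hi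
    obtain ⟨hi1, hi2⟩ := (Finset.mem_filter.1 hi).2
    obtain ⟨m', rfl⟩ : ∃ m', m = m' + 1 := ⟨m - 1, by omega⟩
    have hF : (Fin.insertNth i (F i) (Fin.removeNth i F) : Fin (T + 1) → Clause k n) = F :=
      Fin.insertNth_self_removeNth i F
    have e1 := var_viol_insert_gt i (F i) (Fin.removeNth i F) (by omega : (i : ℕ) ≤ m') σ
    rw [hF, hv] at e1
    have e2 : pen (F i) σ = 1 := by unfold pen; rw [if_neg hi2]
    have e3 : Alive j (fun _ => 0) (Fin.removeNth i F) m' σ := by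
      unfold Alive; beta_reduce; omega
    have e4 : m' < hit j (fun _ => 0) (Fin.removeNth i F) := lt_hit_iff.2 ⟨by omega, σ, e3⟩
    have e5 := var_hit_pen_le j i (F i) (Fin.removeNth i F)
    rw [hF] at e5
    rw [ind_pos ⟨σ, le_trans (e3.anti (by omega)) (Nat.le_succ j)⟩, one_mul]
    have r1 : (hit j (fun _ => 0) F : ℝ) ≤ hit (j + 1) (fun _ => 0) F := by exact_mod_cast hmono
    have r2 : (hit (j + 1) (fun _ => 0) F : ℝ) ≤ hit j (fun _ => 0) (Fin.removeNth i F) + 1 := by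
      exact_mod_cast (by omega : hit (j + 1) (fun _ => 0) F ≤
        hit j (fun _ => 0) (Fin.removeNth i F) + 1)
    have r3 : (hit j (pen (F i)) (Fin.removeNth i F) : ℝ) ≤ hit j (fun _ => 0) F := by
      exact_mod_cast e5
    exact pow_le_pow_left₀ (by linarith) (by linarith) 2
  calc _ = ∑ _i ∈ S, ((hit (j + 1) (fun _ => 0) F : ℝ) - hit j (fun _ => 0) F) ^ 2 := by
        rw [Finset.sum_const, hcard, nsmul_eq_mul]; push_cast; ring
    _ ≤ _ := (Finset.sum_le_sum hterm).trans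
        (Finset.sum_le_sum_of_subset_of_nonneg (Finset.subset_univ S) fun i _ _ => hnn i)

/-- The deletion estimate. -/
theorem del : ∃ C : ℝ, 0 < C ∧ ∀ n J m u : ℕ, 3 ≤ n → J ≤ n → 1 ≤ u → u ≤ m →
    (av fun F : Fin m → Clause 3 n => ind (energy F ≤ J)) - C * √((n : ℝ) * J) / u ≤
      satProb 3 n (m - u) := by
  obtain ⟨C, hC0, hC⟩ := var_sum_lemma 3 le_rfl
  refine ⟨2 * √C, by positivity, fun n J m u hn hJ hu hum => ?_⟩
  have := clause_nonempty hn
  have hu0 : (0 : ℝ) < u := by exact_mod_cast hu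
  have hgap : ∀ j ∈ range J, (av fun F : Fin (m + 1) → Clause 3 n =>
      (hit (j + 1) (fun _ => 0) F : ℝ) - hit j (fun _ => 0) F) ≤
      √(C * n) * (1 / √((j : ℝ) + 1)) := by
    intro j hj
    have hj' := Finset.mem_range.1 hj
    have h1 : ((j : ℝ) + 1) * (av fun F : Fin (m + 1) → Clause 3 n =>
        ((hit (j + 1) (fun _ => 0) F : ℝ) - hit j (fun _ => 0) F) ^ 2) ≤ C * n := by
      rw [← av_const_mul]
      refine (av_mono fun F => var_level_gap j F).trans ?_
      rw [av_sum]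
      refine le_trans (le_of_eq (Finset.sum_congr rfl fun i _ => ?_))
        (hC n m (j + 1) j hn (by omega) (Nat.le_succ j))
      rw [av_fin_insertNth i]
      simp only [Fin.removeNth_insertNth, Fin.insertNth_apply_same]
    have h2 := sq_av_le fun F : Fin (m + 1) → Clause 3 n =>
      (hit (j + 1) (fun _ => 0) F : ℝ) - hit j (fun _ => 0) F
    have hj0 : (0 : ℝ) < (j : ℝ) + 1 := by positivity
    rw [mul_one_div, ← Real.sqrt_div (by positivity)]
    refine Real.le_sqrt_of_sq_le (h2.trans ?_)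
    rw [le_div_iff₀ hj0]; linarith
  have hdiff : (av fun F : Fin (m + 1) → Clause 3 n =>
      (hit J (fun _ => 0) F : ℝ) - hit 0 (fun _ => 0) F) ≤ 2 * √C * √((n : ℝ) * J) := by
    have e : ∀ F : Fin (m + 1) → Clause 3 n, (hit J (fun _ => 0) F : ℝ) - hit 0 (fun _ => 0) F =
        ∑ j ∈ range J, ((hit (j + 1) (fun _ => 0) F : ℝ) - hit j (fun _ => 0) F) := fun F =>
      (Finset.sum_range_sub (fun j => (hit j (fun _ => 0) F : ℝ)) J).symm
    rw [av_congr e, av_sum]
    refine (Finset.sum_le_sum hgap).trans ?_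
    rw [← Finset.mul_sum]
    calc _ ≤ √(C * n) * (2 * √(J : ℝ)) := by
          gcongr; exact var_sum_inv_sqrt J
      _ = _ := by
          rw [Real.sqrt_mul hC0.le, Real.sqrt_mul (Nat.cast_nonneg n)]; ring
  have hE : (av fun F : Fin m → Clause 3 n => ind (energy F ≤ J)) ≤
      av fun F : Fin (m + 1) → Clause 3 n => ind (m < hit J (fun _ => 0) F) := by
    rw [← av_comp_injective (Fin.castLE (Nat.le_succ m)) (Fin.castLE_injective _)
      fun G : Fin m → Clause 3 n => ind (energy G ≤ J)]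
    refine av_mono fun F => ind_mono fun h => ?_
    classical
    obtain ⟨σ, hσ⟩ := Nat.sInf_mem (Set.range_nonempty fun σ : Asg n =>
      viol (fun t => F (Fin.castLE (Nat.le_succ m) t)) σ)
    refine lt_hit_iff.2 ⟨Nat.lt_succ_self m, σ, ?_⟩
    have h1 : viol (fun t => F (Fin.castLE (Nat.le_succ m) t)) σ ≤ J := le_trans (le_of_eq hσ) h
    unfold Alive
    rw [zero_add]
    refine le_trans ?_ h1
    unfold violUpTo viol
    refine Finset.card_le_card_of_surjOn (Fin.castLE (Nat.le_succ m)) ?_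
    intro s hs
    simp only [Finset.coe_filter, Finset.mem_univ, true_and, Set.mem_ofPred_eq] at hs
    refine ⟨⟨s, hs.1⟩, ?_, rfl⟩
    simp only [Finset.coe_filter, Finset.mem_univ, true_and, Set.mem_ofPred_eq]
    exact hs.2
  have hM : (av fun F : Fin (m + 1) → Clause 3 n => ind (m < hit J (fun _ => 0) F)) ≤
      (av fun F : Fin (m + 1) → Clause 3 n => ind (m - u < hit 0 (fun _ => 0) F)) +
      (av fun F : Fin (m + 1) → Clause 3 n =>
        (hit J (fun _ => 0) F : ℝ) - hit 0 (fun _ => 0) F) / u := by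
    rw [← av_div_const, ← av_add]
    refine av_mono fun F => ?_
    have a0 : (hit 0 (fun _ => 0) F : ℝ) ≤ hit J (fun _ => 0) F := by
      exact_mod_cast var_hit_mono_budget (Nat.zero_le J) _ F
    have a1 : 0 ≤ ((hit J (fun _ => 0) F : ℝ) - hit 0 (fun _ => 0) F) / u :=
      div_nonneg (by linarith) hu0.le
    by_cases h1 : m < hit J (fun _ => 0) F
    · by_cases h2 : m - u < hit 0 (fun _ => 0) F
      · rw [ind_pos h1, ind_pos h2]; linarith
      · rw [ind_pos h1, ind_neg h2, zero_add, le_div_iff₀ hu0]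
        have : u + hit 0 (fun _ => 0) F ≤ hit J (fun _ => 0) F := by omega
        have : (u : ℝ) + hit 0 (fun _ => 0) F ≤ hit J (fun _ => 0) F := by exact_mod_cast this
        linarith
    · rw [ind_neg h1]
      exact add_nonneg (ind_nonneg _) a1
  rw [var_av_lt_hit hn (by omega)] at hM
  have : (av fun F : Fin (m + 1) → Clause 3 n =>
      (hit J (fun _ => 0) F : ℝ) - hit 0 (fun _ => 0) F) / u ≤ 2 * √C * √((n : ℝ) * J) / u := by
    gcongr
  linarith

end Crest.Agent.R153
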