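import Mathlib
import Crest.Agent.R153.Var
import Crest.Agent.R153.EnergyAux

/-!
Row 153: ground energies, subadditivity, and lower certificates.
-/

set_option autoImplicit false

namespace Crest.Agent.R153

open Finset Crest.ProbabilityR.RandomSAT

theorem threshold_nonneg {α : ℝ} (hα : IsSharpThreshold (satProb 3) α) : 0 ≤ α := by
  by_contra h
  have h1 := (hα 0 le_rfl).2 (not_le.1 h)
  have h2 : ∀ n : ℕ, satProb 3 n ⌊(0 : ℝ) * n⌋₊ = 1 := by
    intro n
    rw [zero_mul, Nat.floor_zero, satProb, uniformProb_eq_av, av_fin_zero]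
    exact ind_pos ⟨fun _ => true, fun j => j.elim0⟩
  simp only [h2] at h1
  have := tendsto_nhds_unique h1 tendsto_const_nhds
  norm_num at this

theorem REn_mono (N : ℕ) (hN : 1 ≤ N) {M M' : ℕ} (h : M ≤ M') : REn N M ≤ REn N M' := by
  have : NeZero N := ⟨by omega⟩
  exact monotone_nat_of_le_succ (f := REn N) (fun m => (REn_succ_bounds N m).1) h

theorem REn_subadd (N M L : ℕ) (hN : 1 ≤ N) (hL : 1 ≤ L) :
    REn (L * N) (L * M) ≤ L * (REn N M + √M) := by
  have : NeZero N := ⟨by omega⟩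
  have : NeZero L := ⟨by omega⟩
  have h1 := enV_interp (rpen (N := L * N)) (lpen (L := L) (N := N)) 0 en_step_loc (L * M)
    (fun _ => 0)
  rw [REn_eq]
  have h2 := en_local (L := L) (N := N) M
  linarith

theorem abs_REn_sub_PEn (n m : ℕ) (hn : 3 ≤ n) : |REn n m - PEn n m| ≤ 3 * m / n := by
  have := en_clause_nonempty hn
  have : Nonempty (RCl n) := ⟨enToR (Classical.arbitrary _)⟩
  have h1 := enV_interp (rpen (N := n)) (pen (k := 3) (n := n)) (3 / n)
    (fun e => by have := (abs_le.1 (en_step_proper hn e)).2; linarith) m (fun _ => 0)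
  have h2 := enV_interp (pen (k := 3) (n := n)) (rpen (N := n)) (3 / n)
    (fun e => by have := (abs_le.1 (en_step_proper hn e)).1; linarith) m (fun _ => 0)
  rw [REn_eq, PEn_eq, abs_le]
  have h3 : (3 * m / n : ℝ) = m * (3 / n) := by ring
  rw [h3]
  constructor <;> linarith

/-- Small mean ground energy at density `c` forces the threshold to be nearly `c` or more. -/
theorem soft_hard : ∃ C₀ : ℕ, ∀ α : ℝ, IsSharpThreshold (satProb 3) α →
    ∀ c η ε : ℝ, 0 < c → 0 < η → η ≤ 1 → 0 < ε → C₀ * ε ≤ η ^ 2 →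
      (∃ᶠ n : ℕ in Filter.atTop, PEn n ⌊c * n⌋₊ ≤ ε * n) → c - η ≤ α := by
  obtain ⟨C, hC, hdel⟩ := del
  refine ⟨⌈128 * C ^ 2⌉₊ + 2, fun α hα c η ε hc hη hη1 hε hC0 hfr => ?_⟩
  by_contra hlt
  push Not at hlt
  have hα0 := threshold_nonneg hα
  have hC1 : 128 * C ^ 2 * ε ≤ η ^ 2 := by
    have := Nat.le_ceil (128 * C ^ 2)
    push_cast at hC0
    nlinarith
  have hC2 : 2 * ε ≤ 1 := by
    have : (0 : ℝ) ≤ ⌈128 * C ^ 2⌉₊ := Nat.cast_nonneg _
    push_cast at hC0
    nlinarith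
  set a : ℝ := c - 3 / 4 * η with ha
  have h0 := (hα a (by linarith)).2 (by linarith)
  have h1 : ∀ᶠ n : ℕ in Filter.atTop, satProb 3 n ⌊a * n⌋₊ < 1 / 4 :=
    h0.eventually (gt_mem_nhds (by norm_num))
  have h2 : ∀ᶠ n : ℕ in Filter.atTop, 8 / η ≤ (n : ℝ) :=
    tendsto_natCast_atTop_atTop.eventually_ge_atTop _
  obtain ⟨n, hn1, ⟨hn2, hn3⟩, hn4⟩ :=
    (hfr.and_eventually ((h1.and h2).and (Filter.eventually_ge_atTop 3))).exists
  have hn : (3 : ℝ) ≤ n := by exact_mod_cast hn4
  have hηn : 8 ≤ η * n := by rw [div_le_iff₀ hη] at hn3; linarith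
  set m := ⌊c * n⌋₊ with hm
  set J := ⌊2 * ε * n⌋₊ with hJ
  set u := ⌈η * n / 2⌉₊ with hu
  have hm1 : c * n < m + 1 := Nat.lt_floor_add_one _
  have hJ1 : (J : ℝ) ≤ 2 * ε * n := Nat.floor_le (by positivity)
  have hJ2 : 2 * ε * n < J + 1 := Nat.lt_floor_add_one _
  have hu1 : η * n / 2 ≤ u := Nat.le_ceil _
  have hu2 : (u : ℝ) < η * n / 2 + 1 := Nat.ceil_lt_add_one (by positivity)
  have ha0 : 0 ≤ a * n := by
    have : 0 ≤ a := by linarith
    positivity
  have hfl : (⌊a * n⌋₊ : ℝ) ≤ a * n := Nat.floor_le ha0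
  have hle : ⌊a * n⌋₊ + u ≤ m := by
    have : (⌊a * n⌋₊ : ℝ) + u ≤ m := by
      have : a * n = c * n - 3 / 4 * (η * n) := by rw [ha]; ring
      linarith
    exact_mod_cast this
  have hJn : J ≤ n := by
    have : (J : ℝ) ≤ n := by nlinarith
    exact_mod_cast this
  have hu0 : 1 ≤ u := by
    have : (1 : ℝ) ≤ u := by linarith
    exact_mod_cast this
  have h3 := hdel n J m u hn4 hJn hu0 (by omega)
  have h4 := satProb_anti 3 n hn4 (show ⌊a * n⌋₊ ≤ m - u by omega)
  have := en_clause_nonempty hn4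
  have h5 : 1 / 2 ≤ av fun F : Fin m → Clause 3 n => ind (energy F ≤ J) := by
    have hεn : 0 < 2 * ε * n := by positivity
    have h6 := av_ind_le_div (f := fun F : Fin m → Clause 3 n => (energy F : ℝ))
      (fun F => Nat.cast_nonneg _) hεn
    have h7 : PEn n m / (2 * ε * n) ≤ 1 / 2 := by
      rw [div_le_iff₀ hεn]; linarith
    have h8 : (av fun F : Fin m → Clause 3 n => 1 - ind (2 * ε * n ≤ (energy F : ℝ)))
        ≤ av fun F : Fin m → Clause 3 n => ind (energy F ≤ J) := by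
      refine av_mono fun F => ?_
      rw [← ind_not]
      refine ind_mono fun h => ?_
      exact Nat.le_floor (not_le.1 h).le
    rw [av_sub, av_const] at h8
    have h9 : av (fun F : Fin m → Clause 3 n => (energy F : ℝ)) = PEn n m := rfl
    rw [h9] at h6
    linarith
  have h6 : C * √((n : ℝ) * J) / u ≤ 1 / 4 := by
    have hupos : (0 : ℝ) < u := by linarith
    rw [div_le_iff₀ hupos]
    have h7 : √((n : ℝ) * J) ≤ η * n / (8 * C) := by
      apply Real.sqrt_le_iff.2 ⟨by positivity, ?_⟩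
      rw [div_pow, le_div_iff₀ (by positivity)]
      have h8 : (n : ℝ) * J ≤ n * (2 * ε * n) := by gcongr
      calc (n : ℝ) * J * (8 * C) ^ 2 ≤ n * (2 * ε * n) * (8 * C) ^ 2 := by gcongr
        _ = (128 * C ^ 2 * ε) * n ^ 2 := by ring
        _ ≤ η ^ 2 * n ^ 2 := by gcongr
        _ = (η * n) ^ 2 := by ring
    have h8 : C * √((n : ℝ) * J) ≤ C * (η * n / (8 * C)) := by gcongr
    have h9 : C * (η * n / (8 * C)) = η * n / 8 := by field_simp
    linarith
  linarith

lemma PEn_le (n m : ℕ) (hn : 3 ≤ n) : PEn n m ≤ m * (1 - satProb 3 n m) := by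
  have := en_clause_nonempty hn
  rw [satProb, uniformProb_eq_av, ← av_const (α := Fin m → Clause 3 n) 1, ← av_sub,
    ← av_const_mul]
  refine av_mono fun F => ?_
  by_cases h : Satisfiable F
  · rw [ind_pos (p := F ∈ {F : Fin m → Clause 3 n | Satisfiable F}) h]
    obtain ⟨σ, hσ⟩ := h
    have h1 : energy F ≤ viol F σ := enMin_le (viol F) σ
    have h2 : viol F σ = 0 := by simp [viol, hσ]
    have h3 : energy F = 0 := by omega
    simp [h3]
  · rw [ind_neg (p := F ∈ {F : Fin m → Clause 3 n | Satisfiable F}) h]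
    have h1 : energy F ≤ viol F (fun _ => true) := enMin_le (viol F) _
    have h2 : viol F (fun _ => true) ≤ m := by
      classical
      unfold viol
      exact (Finset.card_filter_le _ _).trans (by simp)
    have h3 : (energy F : ℝ) ≤ m := by exact_mod_cast h1.trans h2
    simpa using h3

theorem low_cert {α : ℝ} (hα : IsSharpThreshold (satProb 3) α) : ∃ C₀ : ℕ,
    (∀ c : ℚ, LowReal C₀ c → (c : ℝ) ≤ α) ∧ ∀ c : ℚ, (c : ℝ) < α → LowReal C₀ c := by
  obtain ⟨C₀, hC₀⟩ := soft_hard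
  have hα0 := threshold_nonneg hα
  refine ⟨2 * C₀, fun c hc => ?_, fun c hc => ?_⟩
  · rcases hc with hc | ⟨N, M, η, z, hN, hη, hη1, hz, hMz, hC, hc⟩
    · have : (c : ℝ) ≤ 0 := by exact_mod_cast hc
      linarith
    have hη' : (0 : ℝ) < η := by exact_mod_cast hη
    have hη1' : (η : ℝ) ≤ 1 := by exact_mod_cast hη1
    have hz' : (0 : ℝ) < z := by exact_mod_cast hz
    have hMz' : (M : ℝ) ≤ (z : ℝ) ^ 2 := by exact_mod_cast hMz
    have hc' : (c : ℝ) ≤ (M : ℝ) / N - η := by
      have : (c : ℝ) ≤ (((M : ℚ) / N - η : ℚ) : ℝ) := Rat.cast_le.2 hc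
      push_cast at this
      exact this
    have hN' : (0 : ℝ) < N := by exact_mod_cast hN
    rcases Nat.eq_zero_or_pos M with hM | hM
    · subst hM
      simp at hc'
      linarith
    have hM' : (0 : ℝ) < M := by exact_mod_cast hM
    have hR : 0 ≤ REn N M := av_nonneg fun F => Nat.cast_nonneg _
    have hsq : √(M : ℝ) ≤ z := Real.sqrt_le_iff.2 ⟨hz'.le, hMz'⟩
    refine hc'.trans (hC₀ α hα ((M : ℝ) / N) η (2 * (REn N M + z) / N) (by positivity) hη' hη1'
      (by positivity) ?_ ?_)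
    · rw [← mul_div_assoc, div_le_iff₀ hN']
      push_cast at hC
      linarith
    · rw [Filter.frequently_atTop]
      intro n0
      obtain ⟨L0, hL0⟩ := exists_nat_ge (3 * (M : ℝ) / N / z)
      set L := max (max n0 3) L0 with hL
      have hL3 : 3 ≤ L := le_max_of_le_left (le_max_right _ _)
      have hLn : L ≤ L * N := Nat.le_mul_of_pos_right _ hN
      have hLL : (L0 : ℝ) ≤ L := by exact_mod_cast le_max_right _ _
      have hL' : (0 : ℝ) < L := by exact_mod_cast (by omega : 0 < L)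
      refine ⟨L * N, le_trans (le_max_of_le_left (le_max_left _ _)) hLn, ?_⟩
      have hfl : ⌊(M : ℝ) / N * ((L * N : ℕ) : ℝ)⌋₊ = L * M := by
        have : (M : ℝ) / N * ((L * N : ℕ) : ℝ) = ((L * M : ℕ) : ℝ) := by
          push_cast; field_simp
        rw [this, Nat.floor_natCast]
      rw [hfl]
      have h1 := (abs_le.1 (abs_REn_sub_PEn (L * N) (L * M) (by omega))).1
      have h2 := REn_subadd N M L hN (by omega)
      have h3 : (3 * ((L * M : ℕ) : ℝ) / ((L * N : ℕ) : ℝ)) = 3 * M / N := by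
        push_cast; field_simp
      have h4 : 2 * (REn N M + z) / N * ((L * N : ℕ) : ℝ) = 2 * (L * (REn N M + z)) := by
        push_cast; field_simp
      rw [h3] at h1
      rw [h4]
      have h5 : 3 * (M : ℝ) / N ≤ L * z := by
        have := hL0.trans hLL
        rwa [div_le_iff₀ hz'] at this
      have h6 : (L : ℝ) * (REn N M + √M) ≤ L * (REn N M + z) := by gcongr
      have h7 : 0 ≤ (L : ℝ) * REn N M := by positivity
      nlinarith
  · by_cases hc0 : c ≤ 0
    · exact Or.inl hc0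
    right
    push Not at hc0
    obtain ⟨c', hc1, hc2⟩ := exists_rat_btwn hc
    have hcc : c < c' := by exact_mod_cast hc1
    have hc'0 : 0 < c' := hc0.trans hcc
    have hc'0' : (0 : ℝ) < c' := by exact_mod_cast hc'0
    set η : ℚ := min 1 (c' - c) with hη
    have hη0 : 0 < η := lt_min one_pos (by linarith)
    have hη0' : (0 : ℝ) < η := by exact_mod_cast hη0
    have t1 := (hα c' hc'0'.le).1 hc2
    have t2 : Filter.Tendsto (fun n : ℕ => (3 * (c' : ℝ) + 1) / (n : ℝ)) Filter.atTop (nhds 0) :=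
      tendsto_const_div_atTop_nhds_zero_nat _
    have t3 : Filter.Tendsto (fun n : ℕ => √((c' : ℝ) / (n : ℝ))) Filter.atTop (nhds 0) := by
      have := (tendsto_const_div_atTop_nhds_zero_nat (c' : ℝ)).sqrt
      simpa using this
    have t4 : Filter.Tendsto (fun n : ℕ => ((2 * C₀ : ℕ) : ℝ) *
        ((c' : ℝ) * (1 - satProb 3 n ⌊(c' : ℝ) * n⌋₊) + (3 * (c' : ℝ) + 1) / (n : ℝ)
          + √((c' : ℝ) / (n : ℝ)))) Filter.atTop (nhds 0) := by
      have := ((((t1.const_sub 1).const_mul (c' : ℝ)).add t2).add t3).const_mul ((2 * C₀ : ℕ) : ℝ)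
      simpa using this
    obtain ⟨n0, hn0⟩ := Filter.eventually_atTop.1
      (t4.eventually (gt_mem_nhds (show (0 : ℝ) < (η : ℝ) ^ 2 by positivity)))
    set t := max n0 3 with ht
    set N := c'.den * t with hN
    set M := c'.num.toNat * t with hM
    have htN : t ≤ N := Nat.le_mul_of_pos_left _ c'.den_pos
    have hN3 : 3 ≤ N := (le_max_right _ _).trans htN
    have hNq : (0 : ℚ) < N := by exact_mod_cast (by omega : 0 < N)
    have hN' : (0 : ℝ) < N := by exact_mod_cast (by omega : 0 < N)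
    have hMN : (M : ℚ) = c' * N := by
      have h1 : ((c'.num.toNat : ℕ) : ℚ) = c'.num := by
        have : ((c'.num.toNat : ℕ) : ℤ) = c'.num := Int.toNat_of_nonneg (Rat.num_nonneg.2 hc'0.le)
        exact_mod_cast this
      rw [hM, hN]
      push_cast
      rw [h1, ← mul_assoc, Rat.mul_den_eq_num]
    have hMN' : (M : ℝ) = c' * N := by exact_mod_cast hMN
    have h1 := hn0 N ((le_max_left _ _).trans htN)
    rw [← hMN', Nat.floor_natCast] at h1
    refine ⟨N, M, η, (Nat.sqrt M : ℚ) + 1, by omega, hη0, min_le_left _ _, by positivity, ?_, ?_, ?_⟩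
    · exact_mod_cast (Nat.lt_succ_sqrt' M).le
    · have h2 := (abs_le.1 (abs_REn_sub_PEn N M hN3)).2
      have h3 := PEn_le N M hN3
      have h4 : ((Nat.sqrt M : ℕ) : ℝ) ≤ √(M : ℝ) := Real.nat_sqrt_le_real_sqrt
      have h5 : √(M : ℝ) = √((c' : ℝ) / N) * N := by
        rw [← Real.sqrt_sq hN'.le, ← Real.sqrt_mul (by positivity), Real.sqrt_sq hN'.le, hMN']
        congr 1
        field_simp
      have h6 : 3 * (M : ℝ) / N = 3 * c' := by rw [hMN']; field_simp
      have h7 : REn N M + (((Nat.sqrt M : ℚ) + 1 : ℚ) : ℝ) ≤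
          ((c' : ℝ) * (1 - satProb 3 N M) + (3 * (c' : ℝ) + 1) / (N : ℝ)
          + √((c' : ℝ) / (N : ℝ))) * N := by
        have h8 : ((c' : ℝ) * (1 - satProb 3 N M) + (3 * (c' : ℝ) + 1) / (N : ℝ)
          + √((c' : ℝ) / (N : ℝ))) * N = M * (1 - satProb 3 N M) + (3 * c' + 1) + √(M : ℝ) := by
          rw [h5, hMN']
          field_simp
        rw [h8]
        push_cast
        linarith
      calc ((2 * C₀ : ℕ) : ℝ) * (REn N M + (((Nat.sqrt M : ℚ) + 1 : ℚ) : ℝ))
          ≤ ((2 * C₀ : ℕ) : ℝ) * (((c' : ℝ) * (1 - satProb 3 N M) + (3 * (c' : ℝ) + 1) / (N : ℝ)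
            + √((c' : ℝ) / (N : ℝ))) * N) := by gcongr
        _ ≤ (η : ℝ) ^ 2 * N := by
          rw [← mul_assoc]
          exact mul_le_mul_of_nonneg_right h1.le hN'.le
    · rw [hMN, mul_div_assoc, div_self hNq.ne', mul_one]
      have := min_le_right 1 (c' - c)
      linarith

end Crest.Agent.R153
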