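import Mathlib
import Crest.Agent.R153.EnergyAux

/-!
Row 153: slot model versus clause models.
-/

set_option autoImplicit false

namespace Crest.Agent.R153

open Finset Crest.ProbabilityR.RandomSAT

/-- Penalty of a slot. -/
noncomputable def spen (p : ℕ) {q N : ℕ} (c : Slot q N) (σ : Asg N) : ℕ :=
  if (c.1 : ℕ) < p then rpen c.2 σ else 0

/-- Ground energy of a family of slots. -/
noncomputable def sEn (p : ℕ) {q N M : ℕ} (F : Fin M → Slot q N) : ℕ :=
  enMin fun σ => ∑ s, spen p (F s) σ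

lemma link_rpen_le {N : ℕ} (c : RCl N) (σ : Asg N) : rpen c σ ≤ 1 := by
  unfold rpen; split_ifs <;> simp

lemma link_spen_le (p : ℕ) {q N : ℕ} (c : Slot q N) (σ : Asg N) : spen p c σ ≤ 1 := by
  unfold spen; split_ifs
  · exact link_rpen_le _ _
  · simp

lemma link_slotW (p : ℕ) {q N : ℕ} (b : ℝ) (c : Slot q N) (σ : Asg N) :
    slotW p b c σ = (1 - b) ^ spen p c σ := by
  unfold slotW spen rpen
  rw [← ind_forall]
  by_cases h1 : (c.1 : ℕ) < p
  · by_cases h2 : RViol σ c.2
    · rw [ind_pos h1, ind_pos (p := ∀ j, σ (c.2 j).1 ≠ (c.2 j).2) h2]; simp [h1, h2]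
    · rw [ind_neg (p := ∀ j, σ (c.2 j).1 ≠ (c.2 j).2) h2]; simp [h1, h2]
  · rw [ind_neg h1]; simp [h1]

lemma link_split (p q N M : ℕ) [NeZero N] (g : ℕ → ℝ) :
    (av fun F : Fin M → Slot q N => g (sEn p F)) = av fun β : Fin M → Fin (q + 1) =>
      av fun G : Fin (univ.filter fun s => (β s : ℕ) < p).card → RCl N => g (renergy G) := by
  rw [← av_equiv (Equiv.arrowProdEquivProdArrow (Fin M) (fun _ => Fin (q + 1))
    (fun _ => RCl N)).symm, av_prod]
  refine av_congr fun β => ?_
  set S := univ.filter fun s => (β s : ℕ) < p with hS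
  rw [← av_comp_injective (fun t : Fin S.card => (S.equivFin.symm t : Fin M))
    (Subtype.val_injective.comp S.equivFin.symm.injective)]
  refine av_congr fun G => ?_
  congr 1
  unfold sEn renergy enMin
  congr 1
  funext τ
  rw [rviol_eq]
  show (∑ s, if (β s : ℕ) < p then rpen (G s) τ else 0) = _
  rw [← Finset.sum_filter, ← hS, ← Finset.sum_coe_sort S, ← S.equivFin.symm.sum_comp]

lemma link_RS_anti (N : ℕ) [NeZero N] :
    Antitone fun K : ℕ => av fun G : Fin K → RCl N => ind (renergy G = 0) := by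
  refine antitone_nat_of_succ_le fun K => ?_
  rw [av_fin_cons]
  refine av_le_of_le fun c => av_mono fun G => ind_mono fun h => ?_
  have : renergy G ≤ renergy (Fin.cons c G : Fin (K + 1) → RCl N) := by
    refine le_enMin fun σ => (enMin_le (rviol G) σ).trans ?_
    rw [rviol_eq, rviol_eq, Fin.sum_univ_succ]
    simp
  omega

lemma link_key {P C : Type} [Fintype P] [Fintype C] [Nonempty P] (φ : P → C)
    (hφ : Function.Injective φ) (g : C → ℝ) (g0 : ∀ c, 0 ≤ g c) :
    (Fintype.card P : ℝ) / Fintype.card C * (av fun p => g (φ p)) ≤ av g := by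
  classical
  have hP : (0 : ℝ) < Fintype.card P := by exact_mod_cast Fintype.card_pos
  unfold av
  have : ∑ p, g (φ p) ≤ ∑ c, g c := by
    rw [← Finset.sum_image (s := univ) (g := φ) (f := g) (fun a _ b _ h => hφ h)]
    exact Finset.sum_le_sum_of_subset_of_nonneg (subset_univ _) fun c _ _ => g0 c
  rw [div_mul_div_comm, mul_comm (Fintype.card C : ℝ), mul_div_mul_left _ _ hP.ne']
  gcongr

lemma link_sat_nonneg (k n m : ℕ) : 0 ≤ satProb k n m := by
  rw [satProb, uniformProb_eq_av]; exact av_nonneg fun _ => ind_nonneg _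

lemma link_RS_ge {N : ℕ} (hN : 6 ≤ N) (K : ℕ) :
    Real.exp (-(6 * K / N)) * satProb 3 N K ≤ av fun G : Fin K → RCl N => ind (renergy G = 0) := by
  have hN3 : 3 ≤ N := by omega
  have := en_clause_nonempty hN3
  have hN' : (6 : ℝ) ≤ N := by exact_mod_cast hN
  have h1 := link_key (fun (F : Fin K → Clause 3 N) s => enToR (F s))
    (fun F F' h => funext fun s => enToR_inj (congrFun h s))
    (fun G => ind (renergy G = 0)) (fun G => ind_nonneg _)
  refine le_trans (mul_le_mul ?_ ?_ (link_sat_nonneg _ _ _) (by positivity)) h1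
  · rw [Fintype.card_fun, Fintype.card_fun (α := Fin K), Fintype.card_fin]
    push_cast
    rw [← div_pow]
    have h2 := en_ratio hN3
    have h3 : Real.exp (-(6 / N)) ≤ 1 - 3 / N := by
      have h4 := Real.add_one_le_exp (6 / N : ℝ)
      have h5 : (3 / N : ℝ) ≤ 1 / 2 := by rw [div_le_iff₀ (by linarith)]; linarith
      have h6 : (0 : ℝ) ≤ 3 / N := by positivity
      have h7 : (6 / N : ℝ) = 2 * (3 / N) := by ring
      rw [Real.exp_neg, inv_le_iff_one_le_mul₀ (Real.exp_pos _)]
      rw [h7] at h4 ⊢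
      nlinarith
    have h8 : Real.exp (-(6 * K / N)) = Real.exp (-(6 / N)) ^ K := by
      rw [← Real.exp_nat_mul]; congr 1; ring
    rw [h8]
    exact pow_le_pow_left₀ (Real.exp_pos _).le (by linarith) K
  · rw [satProb, uniformProb_eq_av]
    refine av_mono fun F => ind_mono ?_
    rintro ⟨σ, hσ⟩
    have h2 : renergy (fun s => enToR (F s)) ≤ rviol (fun s => enToR (F s)) σ := enMin_le _ σ
    have h3 : rviol (fun s => enToR (F s)) σ = 0 := by
      rw [rviol_eq]
      refine Finset.sum_eq_zero fun s _ => ?_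
      rw [← pen_eq_rpen]
      simp [pen, hσ s]
    omega

lemma link_av_coin (p q : ℕ) (hp : p ≤ q + 1) :
    (av fun u : Fin (q + 1) => ind ((u : ℕ) < p)) = p / (q + 1) := by
  unfold av
  simp only [ind_eq_ite, Finset.sum_boole, Fintype.card_fin]
  rw [Fin.card_filter_val_lt, min_eq_right hp]
  push_cast; rfl

lemma link_card_eq {p q M : ℕ} (β : Fin M → Fin (q + 1)) :
    ((univ.filter fun s => (β s : ℕ) < p).card : ℝ) = ∑ s, ind ((β s : ℕ) < p) := by
  simp only [ind_eq_ite, Finset.sum_boole]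

lemma link_av_card (p q M : ℕ) (hp : p ≤ q + 1) :
    (av fun β : Fin M → Fin (q + 1) => ((univ.filter fun s => (β s : ℕ) < p).card : ℝ))
      = M * (p / (q + 1)) := by
  simp only [link_card_eq]
  induction M with
  | zero => simp
  | succ M ih =>
    rw [av_fin_cons]
    simp only [Fin.sum_univ_succ, Fin.cons_zero, Fin.cons_succ, av_add, av_const, ih,
      link_av_coin p q hp]
    push_cast; ring

lemma link_av_dev (p q M : ℕ) (hp : p ≤ q + 1) :
    (av fun β : Fin M → Fin (q + 1) =>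
      |((univ.filter fun s => (β s : ℕ) < p).card : ℝ) - M * (p / (q + 1))|) ≤ √M := by
  apply Real.le_sqrt_of_sq_le
  refine (sq_av_le _).trans ?_
  have h3 := en_sq_sum (fun u : Fin (q + 1) => ind ((u : ℕ) < p) - p / (q + 1))
    (by rw [av_sub, link_av_coin p q hp, av_const, sub_self]) M
  have h4 : ∀ β : Fin M → Fin (q + 1),
      |((univ.filter fun s => (β s : ℕ) < p).card : ℝ) - M * (p / (q + 1))| ^ 2
        = (∑ s, (ind ((β s : ℕ) < p) - p / (q + 1))) ^ 2 := by
    intro β
    rw [sq_abs, Finset.sum_sub_distrib, link_card_eq]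
    simp
  simp only [h4, h3]
  have h0 : (0 : ℝ) ≤ p / (q + 1) := by positivity
  have h1 : (p : ℝ) / (q + 1) ≤ 1 := by
    rw [div_le_one (by positivity)]; exact_mod_cast hp
  have h5 : (av fun u : Fin (q + 1) => (ind ((u : ℕ) < p) - (p : ℝ) / (q + 1)) ^ 2) ≤ 1 := by
    refine av_le_of_le fun u => ?_
    have := ind_nonneg ((u : ℕ) < p)
    have := ind_le_one ((u : ℕ) < p)
    nlinarith
  exact mul_le_of_le_one_right (Nat.cast_nonneg _) h5

lemma link_enV_bounds {n : ℕ} {C : Type} [Fintype C] [Nonempty C] (p : C → Asg n → ℕ) (m : ℕ)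
    (e a : Asg n → ℕ) (ha : ∀ σ, a σ ≤ 1) :
    enV p m e ≤ enV p m (fun σ => e σ + a σ) ∧ enV p m (fun σ => e σ + a σ) ≤ enV p m e + 1 := by
  unfold enV
  constructor
  · refine av_mono fun F => ?_
    have : enMin (fun σ => e σ + ∑ s, p (F s) σ) ≤ enMin (fun σ => e σ + a σ + ∑ s, p (F s) σ) :=
      le_enMin fun σ => (enMin_le _ σ).trans (by omega)
    exact_mod_cast this
  · rw [← av_const (α := Fin m → C) 1, ← av_add]
    refine av_mono fun F => ?_
    obtain ⟨σ, hσ⟩ := enMin_exists (fun σ => e σ + ∑ s, p (F s) σ)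
    have h1 := enMin_le (fun σ => e σ + a σ + ∑ s, p (F s) σ) σ
    have h2 := ha σ
    have : enMin (fun σ => e σ + a σ + ∑ s, p (F s) σ)
        ≤ enMin (fun σ => e σ + ∑ s, p (F s) σ) + 1 := by
      rw [← hσ]; omega
    exact_mod_cast this

lemma link_mgf {n : ℕ} {C : Type} [Fintype C] [Nonempty C] (p : C → Asg n → ℕ)
    (hp : ∀ c σ, p c σ ≤ 1) {s : ℝ} (hs0 : 0 ≤ s) (hs1 : s ≤ 1) (m : ℕ) :
    ∀ e : Asg n → ℕ,
      (av fun F : Fin m → C => Real.exp (-(s * enMin (fun σ => e σ + ∑ t, p (F t) σ))))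
        ≤ Real.exp (-(s * enV p m e) + s ^ 2 * m) := by
  induction m with
  | zero => intro e; simp [enV]
  | succ m ih =>
    intro e
    rw [av_fin_cons, enV_succ]
    set g : C → ℝ := fun c => enV p m (fun σ => e σ + p c σ) with hg
    have hb := fun c => link_enV_bounds p m e (p c) (hp c)
    have h1 : enV p m e ≤ av g := le_av_of_le fun c => (hb c).1
    have h2 : av g ≤ enV p m e + 1 := av_le_of_le fun c => (hb c).2
    have h3 : ∀ c, (av fun G : Fin m → C => Real.exp (-(s * enMin (fun σ => e σ +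
        ∑ t, p ((Fin.cons c G : Fin (m + 1) → C) t) σ))))
        ≤ Real.exp (-(s * av g) + s ^ 2 * m) * (1 + s ^ 2 + -s * (g c - av g)) := by
      intro c
      have h4 := ih (fun σ => e σ + p c σ)
      simp only [Fin.sum_univ_succ, Fin.cons_zero, Fin.cons_succ, ← add_assoc]
      refine h4.trans ?_
      have h5 : -(s * enV p m fun σ => e σ + p c σ) + s ^ 2 * m
          = (-(s * av g) + s ^ 2 * m) + -s * (g c - av g) := by simp only [hg]; ring
      rw [h5, Real.exp_add]
      refine mul_le_mul_of_nonneg_left ?_ (Real.exp_pos _).le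
      have h6 : |g c - av g| ≤ 1 := by
        have := (hb c).1
        have := (hb c).2
        rw [abs_le]; constructor <;> simp only [hg] at * <;> linarith
      have h7 : |-s * (g c - av g)| ≤ s := by
        rw [abs_mul, abs_neg, abs_of_nonneg hs0]
        exact mul_le_of_le_one_right hs0 h6
      have h8 := (abs_le.1 (Real.abs_exp_sub_one_sub_id_le (h7.trans hs1))).2
      have h9 : (-s * (g c - av g)) ^ 2 ≤ s ^ 2 := by
        rw [← sq_abs]; exact pow_le_pow_left₀ (abs_nonneg _) h7 2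
      linarith
    refine (av_mono h3).trans ?_
    rw [av_const_mul, av_add, av_const, av_const_mul, av_sub, av_const, sub_self, mul_zero,
      add_zero]
    have h4 : -(s * av g) + s ^ 2 * ((m + 1 : ℕ) : ℝ) = (-(s * av g) + s ^ 2 * m) + s ^ 2 := by
      push_cast; ring
    rw [h4, Real.exp_add (_ + _)]
    refine mul_le_mul_of_nonneg_left ?_ (Real.exp_pos _).le
    linarith [Real.add_one_le_exp (s ^ 2)]

lemma link_psi_lower (p q : ℕ) {b m : ℝ} (hb1 : b < 1) (hm : 0 ≤ m) (N M : ℕ) :
    (av fun F : Fin M → Slot q N => ind (sEn p F = 0)) ≤ (2 : ℝ) ^ (m * N) * Psi p q b m N M := by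
  unfold Psi
  rw [← av_const_mul]
  refine av_mono fun F => ?_
  have hw : ∀ σ : Asg N, 0 ≤ ∏ s, slotW p b (F s) σ := fun σ =>
    Finset.prod_nonneg fun s _ => by rw [link_slotW]; exact pow_nonneg (by linarith) _
  have hav : 0 ≤ av fun σ : Asg N => ∏ s, slotW p b (F s) σ := av_nonneg hw
  by_cases h : sEn p F = 0
  · rw [ind_pos h]
    obtain ⟨σ, hσ⟩ := enMin_exists fun σ => ∑ s, spen p (F s) σ
    have h1 : ∏ s, slotW p b (F s) σ = 1 := by
      simp only [link_slotW, Finset.prod_pow_eq_pow_sum]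
      rw [hσ]
      unfold sEn at h
      rw [h, pow_zero]
    have h2 : 1 ≤ (2 : ℝ) ^ N * av fun σ : Asg N => ∏ s, slotW p b (F s) σ := by
      unfold av
      have h3 : (Fintype.card (Asg N) : ℝ) = 2 ^ N := by simp
      rw [h3, mul_div_cancel₀ _ (by positivity), ← h1]
      exact Finset.single_le_sum (f := fun σ => ∏ s, slotW p b (F s) σ) (fun σ _ => hw σ)
        (mem_univ σ)
    have h4 := Real.one_le_rpow h2 hm
    rw [Real.mul_rpow (by positivity) hav, ← Real.rpow_natCast, ← Real.rpow_mul (by norm_num),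
      mul_comm (N : ℝ)] at h4
    exact h4
  · rw [ind_neg h]; positivity

lemma link_psi_upper (p q : ℕ) {β m : ℝ} (hβ : 0 ≤ β) (hm : 0 ≤ m) (hmβ : m * β ≤ 1) (N M : ℕ)
    [NeZero N] :
    Psi p q (1 - Real.exp (-β)) m N M ≤
      Real.exp (-(m * β * av fun F : Fin M → Slot q N => (sEn p F : ℝ)) + (m * β) ^ 2 * M) := by
  have h1 := link_mgf (spen p (q := q) (N := N)) (link_spen_le p) (mul_nonneg hm hβ) hmβ M
    (fun _ => 0)
  simp only [enV, zero_add] at h1
  refine le_trans (av_mono fun F => ?_) h1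
  have h2 : (av fun σ : Asg N => ∏ s, slotW p (1 - Real.exp (-β)) (F s) σ)
      ≤ Real.exp (-β) ^ sEn p F := by
    refine av_le_of_le fun σ => ?_
    simp only [link_slotW, Finset.prod_pow_eq_pow_sum, sub_sub_cancel]
    exact pow_le_pow_of_le_one (Real.exp_pos _).le (Real.exp_le_one_iff.2 (by linarith))
      (enMin_le (fun σ => ∑ s, spen p (F s) σ) σ)
  refine (Real.rpow_le_rpow (av_nonneg fun σ => Finset.prod_nonneg fun s _ => ?_) h2 hm).trans
    (le_of_eq ?_)
  · rw [link_slotW, sub_sub_cancel]; positivity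
  · rw [← Real.exp_nat_mul, ← Real.exp_mul]
    congr 1
    unfold sEn
    ring

end Crest.Agent.R153
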