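import Mathlib
import Crest.Agent.R153.Energy
import Crest.Agent.R153.ASS
import Crest.Agent.R153.LinkAux

/-!
Row 153: soundness and completeness of the upper certificates.
-/

set_option autoImplicit false

namespace Crest.Agent.R153

open Finset Crest.ProbabilityR.RandomSAT

theorem up_sound {α : ℝ} (hα : IsSharpThreshold (satProb 3) α) (c : ℚ) (h : UpReal c) :
    α ≤ c := by
  obtain ⟨a, p, q, ha, hp, hc, b, D, Ξ, _, _, X, f, γ, hb0, hb1, hD, hγ, hρ⟩ := h
  by_contra hlt
  push Not at hlt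
  obtain ⟨c', hc1, hc2⟩ := exists_between hlt
  set c0 : ℝ := a * (p / (q + 1)) with hc0
  have hc0c : c0 ≤ c := by
    have : (((a * p : ℚ) / (q + 1) : ℚ) : ℝ) ≤ c := Rat.cast_le.2 hc
    push_cast at this
    rw [hc0, ← mul_div_assoc]; exact this
  have hc00 : 0 ≤ c0 := by positivity
  have hc'0 : 0 < c' := by linarith
  set m : ℝ := ∏ d ∈ range D, γ d with hm
  have hm0 : 0 < m := Finset.prod_pos fun d _ => (hγ d).1
  have hr0 : 0 ≤ rho a p q b γ X f := by
    unfold rho
    refine mul_nonneg (Real.exp_pos _).le (tsum_nonneg fun K => ?_)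
    have hb : 0 < 1 - b := by linarith
    have h1 : 0 < edgeE p q b γ X f := hb.trans_le (edgeE_mem p q hb0 hb1 hγ X f).1
    have h2 : 0 ≤ siteS p q b γ X f K :=
      (pow_pos hb K).le.trans (siteS_mem p q hb0 hb1 hγ X f K).1
    positivity
  set ρ : ℝ := (2 : ℝ) ^ m * rho a p q b γ X f with hρdef
  have hρ0 : 0 ≤ ρ := by positivity
  set κ : ℝ := Real.exp (-(6 * c')) * (1 - c0 / c') with hκ
  have hκ1 : 0 < 1 - c0 / c' := by
    have : c0 / c' < 1 := by rw [div_lt_one hc'0]; linarith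
    linarith
  have hκ0 : 0 < κ := by positivity
  have t1 : Filter.Tendsto (fun N : ℕ => 15 * (a : ℝ) ^ 2 * ((N : ℝ) ^ 2 * ρ ^ N)) Filter.atTop
      (nhds 0) := by
    have := (tendsto_pow_const_mul_const_pow_of_lt_one 2 hρ0 hρ).const_mul (15 * (a : ℝ) ^ 2)
    simpa using this
  have t2 := (hα c' hc'0.le).1 hc2
  obtain ⟨N, ⟨hN1, hN2⟩, hN6⟩ := (((t1.eventually (gt_mem_nhds (half_pos hκ0))).and
    (t2.eventually (lt_mem_nhds (show (1 / 2 : ℝ) < 1 by norm_num)))).and
      (Filter.eventually_ge_atTop 6)).exists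
  have : NeZero N := ⟨by omega⟩
  have hN' : (0 : ℝ) < N := by exact_mod_cast (by omega : 0 < N)
  set K := ⌊c' * N⌋₊ with hK
  have h1 := link_psi_lower p q hb1 hm0.le N (a * N)
  have h2 := psi_le_rho p q a ha hb0 hb1 hD hγ X f N (by omega)
  have h3 : (2 : ℝ) ^ (m * N) * Psi p q b m N (a * N) ≤ 15 * (a : ℝ) ^ 2 * ((N : ℝ) ^ 2 * ρ ^ N) := by
    refine (mul_le_mul_of_nonneg_left h2 (by positivity)).trans (le_of_eq ?_)
    rw [hρdef, mul_pow ((2 : ℝ) ^ m), Real.rpow_mul_natCast (by norm_num)]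
    ring
  rw [link_split p q N (a * N) (fun x => ind (x = 0))] at h1
  have h4 : Real.exp (-(6 * c')) * (1 / 2) ≤ av fun G : Fin K → RCl N => ind (renergy G = 0) := by
    refine le_trans (mul_le_mul ?_ hN2.le (by norm_num) (Real.exp_pos _).le) (link_RS_ge hN6 K)
    rw [Real.exp_le_exp, neg_le_neg_iff, div_le_iff₀ hN']
    have : (K : ℝ) ≤ c' * N := Nat.floor_le (by positivity)
    linarith
  have h5 : ∀ β : Fin (a * N) → Fin (q + 1),
      Real.exp (-(6 * c')) * (1 / 2) *
        (1 - ind (c' * N ≤ ((univ.filter fun s => (β s : ℕ) < p).card : ℝ)))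
      ≤ av fun G : Fin (univ.filter fun s => (β s : ℕ) < p).card → RCl N => ind (renergy G = 0) := by
    intro β
    by_cases hβ : c' * N ≤ ((univ.filter fun s => (β s : ℕ) < p).card : ℝ)
    · rw [ind_pos hβ, sub_self, mul_zero]
      exact av_nonneg fun _ => ind_nonneg _
    · rw [ind_neg hβ, sub_zero, mul_one]
      exact h4.trans (link_RS_anti N (Nat.le_floor (not_le.1 hβ).le))
  have h6 := av_mono h5
  rw [av_const_mul, av_sub, av_const] at h6
  have h7 := av_ind_le_div (f := fun β : Fin (a * N) → Fin (q + 1) =>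
    ((univ.filter fun s => (β s : ℕ) < p).card : ℝ)) (fun _ => Nat.cast_nonneg _)
    (mul_pos hc'0 hN')
  rw [link_av_card p q _ hp] at h7
  have h8 : ((a * N : ℕ) : ℝ) * (p / (q + 1)) / (c' * N) = c0 / c' := by
    rw [hc0]; push_cast; field_simp
  rw [h8] at h7
  have h9 : κ / 2 ≤ Real.exp (-(6 * c')) * (1 / 2) * (1 - av fun β : Fin (a * N) → Fin (q + 1) =>
      ind (c' * N ≤ ((univ.filter fun s => (β s : ℕ) < p).card : ℝ))) := by
    have : κ / 2 = Real.exp (-(6 * c')) * (1 / 2) * (1 - c0 / c') := by rw [hκ]; ring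
    rw [this]
    gcongr
  linarith

theorem up_complete {α : ℝ} (hα : IsSharpThreshold (satProb 3) α) (c : ℚ) (h : α < c) :
    UpReal c := by
  by_contra hno
  have hα0 := threshold_nonneg hα
  have hc0' : (0 : ℝ) < c := by linarith
  have hc0 : 0 < c := by exact_mod_cast hc0'
  set a : ℕ := ⌈c⌉₊ with ha
  have ha1 : 1 ≤ a := Nat.ceil_pos.2 hc0
  have hca : c ≤ a := Nat.le_ceil c
  set p : ℕ := c.num.toNat with hp
  have hpq : (p : ℚ) = c * c.den := by
    have : ((c.num.toNat : ℕ) : ℤ) = c.num := Int.toNat_of_nonneg (Rat.num_nonneg.2 hc0.le)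
    rw [Rat.mul_den_eq_num]
    exact_mod_cast this
  obtain ⟨q, hq⟩ : ∃ q, q + 1 = a * c.den :=
    ⟨a * c.den - 1, Nat.sub_add_cancel (Nat.mul_pos ha1 c.den_pos)⟩
  have hq' : (q : ℚ) + 1 = a * c.den := by exact_mod_cast hq
  have hden : (0 : ℚ) < c.den := by exact_mod_cast c.den_pos
  have haq : (0 : ℚ) < a := by exact_mod_cast ha1
  have hple : p ≤ q + 1 := by
    have : (p : ℚ) ≤ q + 1 := by rw [hpq, hq']; gcongr
    exact_mod_cast this
  have hceq : (a * p : ℚ) / (q + 1) = c := by rw [hpq, hq']; field_simp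
  have hceq' : (a : ℝ) * (p / (q + 1)) = c := by
    have : (((a * p : ℚ) / (q + 1) : ℚ) : ℝ) = c := by rw [hceq]
    push_cast at this
    rw [← mul_div_assoc]; exact this
  have ha' : (1 : ℝ) ≤ a := by exact_mod_cast ha1
  obtain ⟨C₀, hC₀⟩ := soft_hard
  set η : ℝ := min 1 ((c - α) / 2) with hη
  have hη0 : 0 < η := lt_min one_pos (by linarith)
  set ε : ℝ := η ^ 2 / (C₀ + 1) with hε
  have hε0 : 0 < ε := by positivity
  have hev : ∀ᶠ n : ℕ in Filter.atTop, ¬ PEn n ⌊(c : ℝ) * n⌋₊ ≤ ε * n := by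
    rw [← Filter.not_frequently]
    intro hfr
    have h1 := hC₀ α hα c η ε hc0' hη0 (min_le_left _ _) hε0 (by
      rw [hε, ← mul_div_assoc, div_le_iff₀ (by positivity)]
      nlinarith [sq_nonneg η]) hfr
    have := min_le_right 1 ((c - α) / 2)
    linarith
  set β : ℝ := 6 / ε with hβ
  have hβ0 : 0 < β := by positivity
  set m : ℝ := min (1 / 2) (min (1 / (β ^ 2 * a)) (1 / β)) with hm
  have hm0 : 0 < m := lt_min (by norm_num) (lt_min (by positivity) (by positivity))
  have hm1 : m < 1 := (min_le_left _ _).trans_lt (by norm_num)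
  have hm2 : m * (β ^ 2 * a) ≤ 1 := by
    rw [← le_div_iff₀ (by positivity)]
    exact (min_le_right _ _).trans (min_le_left _ _)
  have hm3 : m * β ≤ 1 := by
    rw [← le_div_iff₀ hβ0]
    exact (min_le_right _ _).trans (min_le_right _ _)
  have hb0 : 0 < 1 - Real.exp (-β) := by
    have : Real.exp (-β) < 1 := Real.exp_lt_one_iff.2 (by linarith)
    linarith
  have hb1 : 1 - Real.exp (-β) < 1 := by linarith [Real.exp_pos (-β)]
  have hlow := low_bound a p q ha1 (1 - Real.exp (-β)) m hb0 hb1 hm0 hm1 (by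
    intro D Ξ i1 i2 X f γ hD hγ hprod
    by_contra hlt
    push Not at hlt
    exact hno ⟨a, p, q, ha1, hple, hceq.le, _, D, Ξ, i1, i2, X, f, γ, hb0, hb1, hD, hγ,
      by rw [hprod]; exact hlt⟩) (m / 2) (half_pos hm0)
  have t2 : Filter.Tendsto (fun n : ℕ => (3 * (c : ℝ) + 1) / (n : ℝ)) Filter.atTop (nhds 0) :=
    tendsto_const_div_atTop_nhds_zero_nat _
  have t3 : Filter.Tendsto (fun n : ℕ => √((a : ℝ) / (n : ℝ))) Filter.atTop (nhds 0) := by
    have := (tendsto_const_div_atTop_nhds_zero_nat (a : ℝ)).sqrt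
    simpa using this
  have t4 := (t2.add t3).eventually (gt_mem_nhds (show (0 : ℝ) + 0 < ε / 2 by linarith))
  obtain ⟨N, ⟨⟨hN1, hN2⟩, hN3⟩, hN4⟩ :=
    (((hev.and hlow).and t4).and (Filter.eventually_ge_atTop 3)).exists
  have : NeZero N := ⟨by omega⟩
  have hN' : (0 : ℝ) < N := by exact_mod_cast (by omega : 0 < N)
  push Not at hN1
  set K := ⌊(c : ℝ) * N⌋₊ with hK
  have hK1 : (K : ℝ) ≤ c * N := Nat.floor_le (by positivity)
  have hK2 : (c : ℝ) * N < K + 1 := Nat.lt_floor_add_one _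
  have h1 := (abs_le.1 (abs_REn_sub_PEn N K hN4)).1
  have h2 : 3 * (K : ℝ) / N ≤ 3 * c := by rw [div_le_iff₀ hN']; linarith
  have h3 : ε / 2 * N ≤ av fun F : Fin (a * N) → Slot q N => (sEn p F : ℝ) := by
    rw [link_split p q N (a * N) (fun x => (x : ℝ))]
    have h4 : ∀ βc : Fin (a * N) → Fin (q + 1), REn N K - 1 -
        |((univ.filter fun s => (βc s : ℕ) < p).card : ℝ) - ((a * N : ℕ) : ℝ) * (p / (q + 1))|
        ≤ REn N (univ.filter fun s => (βc s : ℕ) < p).card := by
      intro βc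
      have h5 := REn_le_add_abs N K (univ.filter fun s => (βc s : ℕ) < p).card
      have h6 : ((a * N : ℕ) : ℝ) * (p / (q + 1)) = c * N := by
        rw [← hceq']; push_cast; ring
      rw [h6]
      have h7 := abs_sub_le (K : ℝ) (c * N) ((univ.filter fun s => (βc s : ℕ) < p).card : ℝ)
      have h8 : |(K : ℝ) - c * N| ≤ 1 := by rw [abs_le]; constructor <;> linarith
      rw [abs_sub_comm ((c : ℝ) * N)] at h7
      linarith
    have h5 := av_mono h4
    rw [av_sub, av_const] at h5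
    have h6 := link_av_dev p q (a * N) hple
    have h7 : √((a * N : ℕ) : ℝ) = √((a : ℝ) / N) * N := by
      rw [← Real.sqrt_sq hN'.le, ← Real.sqrt_mul (by positivity), Real.sqrt_sq hN'.le]
      congr 1
      push_cast
      field_simp
    have h8 : ((3 * (c : ℝ) + 1) / N + √((a : ℝ) / N)) * N = 3 * c + 1 + √((a * N : ℕ) : ℝ) := by
      rw [h7]; field_simp
    have h9 := mul_le_mul_of_nonneg_right hN3.le hN'.le
    rw [h8] at h9
    refine le_trans ?_ h5
    linarith
  have h4 := link_psi_upper p q hβ0.le hm0.le hm3 N (a * N)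
  have h5 := hN2.trans (mul_le_mul_of_nonneg_left h4 (by positivity))
  rw [Real.rpow_def_of_pos two_pos, ← Real.exp_add, Real.exp_le_exp] at h5
  have h6 : Real.log 2 ≤ 1 := by
    have := Real.log_le_sub_one_of_pos (show (0 : ℝ) < 2 by norm_num)
    linarith
  have h7 : m * β * (ε / 2 * N) ≤ m * β * av fun F : Fin (a * N) → Slot q N => (sEn p F : ℝ) :=
    mul_le_mul_of_nonneg_left h3 (by positivity)
  have h8 : m * β * (ε / 2 * N) = 3 * (m * N) := by rw [hβ]; field_simp; ring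
  have h9 : (m * β) ^ 2 * ((a * N : ℕ) : ℝ) ≤ m * N := by
    have : (m * β) ^ 2 * ((a * N : ℕ) : ℝ) = (m * (β ^ 2 * a)) * (m * N) := by push_cast; ring
    rw [this]
    exact mul_le_of_le_one_left (by positivity) hm2
  have h10 : 0 < m * N := by positivity
  have h11 : Real.log 2 * (m * N) ≤ m * N := mul_le_of_le_one_left h10.le h6
  linarith

end Crest.Agent.R153
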